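import Vale.Agent.P127S.FinB

/-! Sequences of finite probability spaces, compared up to `o (N)` along an ultrafilter. -/

open Real Finset Filter Topology Vale.Agent.P118O

noncomputable section

namespace Vale.Agent.P127S

/-- a free ultrafilter on `ℕ` -/
abbrev UF : Filter ℕ := (Filter.hyperfilter ℕ : Filter ℕ)

/-- a sequence of finite probability spaces with a reference scale `N` -/
structure Sp (N : ℕ → ℕ) (Ω : ℕ → Type) where
  s : ∀ k, Finset (Ω k)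
  P : ∀ k, Ω k → ℝ
  isP : ∀ k, IsP (s k) (P k)
  big : Tendsto N UF atTop

/-- random variables -/
abbrev RV (Ω α : ℕ → Type) : Type := ∀ k, Ω k → α k

/-- random variables with values in a fixed type -/
abbrev VV (Ω : ℕ → Type) (E : Type) : Type := ∀ k, Ω k → E

variable {N : ℕ → ℕ} {Ω Ω' α β γ : ℕ → Type} {ι E : Type}

/-- `f ≤ g + o (N)` -/
def Le (N : ℕ → ℕ) (f g : ℕ → ℝ) : Prop := ∀ ε : ℝ, 0 < ε → ∀ᶠ k in UF, f k ≤ g k + ε * N k

/-- `l` is comparable with `N` -/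
def Big (N : ℕ → ℕ) (l : ℕ → ℝ) : Prop := ∃ c : ℝ, 0 < c ∧ ∀ᶠ k in UF, c * N k ≤ l k

/-- admissible level -/
def Lv (N j : ℕ → ℕ) : Prop := ∀ k, j k ≤ N k

/-- conditional entropy -/
def H (S : Sp N Ω) (X : RV Ω α) (Y : RV Ω β) : ℕ → ℝ := fun k => ce (S.s k) (S.P k) (X k) (Y k)

/-- joint variable -/
def J (X : RV Ω α) (Y : RV Ω β) : RV Ω fun k => α k × β k := fun k => pj (X k) (Y k)

/-- truncation -/
def cl (M x : ℝ) : ℝ := max (-M) (min M x)

/-- cell of level `j` of the truncated vector -/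
def Q (N j : ℕ → ℕ) (X : VV Ω (ι → ℝ)) : VV Ω (ι → ℤ) :=
  fun k ω i => ⌊(2 : ℝ) ^ j k * cl (2 ^ N k) (X k ω i)⌋

/-- corner of the cell of level `j` -/
def dq (N j : ℕ → ℕ) (X : VV Ω (ι → ℝ)) : VV Ω (ι → ℝ) := fun k ω => cor (j k) (Q N j X k ω)

/-- a real variable as a vector variable -/
def sc (f : VV Ω ℝ) : VV Ω (Unit → ℝ) := fun k ω _ => f k ω

/-- a coordinate -/
def co (X : VV Ω (ι → ℝ)) (i : ι) : VV Ω ℝ := fun k ω => X k ω i

/-- product of a real variable and a vector variable -/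
def sm [SMul ℝ E] (c : VV Ω ℝ) (X : VV Ω E) : VV Ω E := fun k ω => c k ω • X k ω

/-- the constant `1 / 2 ^ b` -/
def tw (Ω : ℕ → Type) (b : ℕ → ℕ) : VV Ω ℝ := fun k _ => 1 / 2 ^ b k

/-- the constant `2 ^ b` -/
def up (Ω : ℕ → Type) (b : ℕ → ℕ) : VV Ω ℝ := fun k _ => 2 ^ b k

/-- `X` is a function of `Y` -/
def DetS (S : Sp N Ω) (X : RV Ω α) (Y : RV Ω β) : Prop := ∀ k, Det (S.s k) (X k) (Y k)

/-- with high probability -/
def whp (S : Sp N Ω) (A : VV Ω Prop) : Prop :=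
  Tendsto (fun k => ms (S.s k) (S.P k) (A k)) UF (𝓝 1)

/-- with positive probability -/
def pos (S : Sp N Ω) (A : VV Ω Prop) : Prop :=
  ∃ c : ℝ, 0 < c ∧ ∀ᶠ k in UF, c ≤ ms (S.s k) (S.P k) (A k)

/-- `‖X‖ ≤ 2 ^ (o (N) - b)` with high probability -/
def Small [Norm E] (S : Sp N Ω) (X : VV Ω E) (b : ℕ → ℕ) : Prop :=
  ∀ c : ℝ, 0 < c → whp S fun k ω => ‖X k ω‖ ≤ (2 : ℝ) ^ (c * N k - b k)

/-- `‖X‖ ≤ 2 ^ o (N)` with high probability -/
def Bdd [Norm E] (S : Sp N Ω) (X : VV Ω E) : Prop := Small S X fun _ => 0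

/-- `X` is known from `Y` up to `o (N)` bits -/
def Kw (S : Sp N Ω) (X : RV Ω α) (Y : RV Ω β) : Prop := Le N (H S X Y) fun _ => 0

/-- the vector `X` is known from `Z` at level `j` -/
def Kn [Fintype ι] (S : Sp N Ω) (Z : RV Ω α) (X : VV Ω (ι → ℝ)) (j : ℕ → ℕ) : Prop :=
  Bdd S X ∧ Kw S (Q N j X) Z

/-- `X` and `T` are nearly independent given `F` -/
def Ind (S : Sp N Ω) (X : RV Ω α) (T : RV Ω β) (F : RV Ω γ) : Prop :=
  Le N (H S X F) (H S X (J F T))

open Classical in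
/-- at most `2 ^ O (N)` values -/
def Tame (S : Sp N Ω) (X : RV Ω α) : Prop :=
  ∃ C : ℝ, ∀ᶠ k in UF, (((S.s k).image (X k)).card : ℝ) ≤ (2 : ℝ) ^ (C * N k)

open Classical in
/-- conditioning on an event -/
def Sp.res (S : Sp N Ω) (A : VV Ω Prop) : Sp N Ω where
  s k := if 0 < ms (S.s k) (S.P k) (A k) then rs (S.s k) (A k) else S.s k
  P k := if 0 < ms (S.s k) (S.P k) (A k) then rp (S.s k) (S.P k) (A k) else S.P k
  isP k := by
    by_cases h : 0 < ms (S.s k) (S.P k) (A k)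
    · rw [if_pos h, if_pos h]; exact rs_isP (S.isP k) h
    · rw [if_neg h, if_neg h]; exact S.isP k
  big := S.big

/-- two conditionally independent copies given `F` -/
def Sp.glue (S : Sp N Ω) (F : RV Ω α) : Sp N fun k => Ω k × Ω k where
  s k := glueS (S.s k) (F k) (S.s k) (F k)
  P k := glueP (S.P k) (S.s k) (S.P k) (F k)
  isP k := glue_prob (S.isP k) (F k)
  big := S.big

/-- pull back of a variable -/
def pl (m : RV Ω' Ω) (X : RV Ω α) : RV Ω' α := fun k ω => X k (m k ω)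

/-- first projection -/
def p1 (Ω : ℕ → Type) : RV (fun k => Ω k × Ω k) Ω := fun _ x => x.1

/-- second projection -/
def p2 (Ω : ℕ → Type) : RV (fun k => Ω k × Ω k) Ω := fun _ x => x.2

/-- `m` is a measure preserving map from `S'` to `S` -/
def Ext (S : Sp N Ω) (S' : Sp N Ω') (m : RV Ω' Ω) : Prop :=
  (∀ k, ∀ ω ∈ S'.s k, m k ω ∈ S.s k) ∧
    ∀ k, SameLaw (S'.s k) (S'.P k) (m k) (S.s k) (S.P k) fun ω => ω

/-- equality on the support -/
def EqS (S : Sp N Ω) (X Y : RV Ω α) : Prop := ∀ k, ∀ ω ∈ S.s k, X k ω = Y k ω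

end Vale.Agent.P127S
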