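import Vale.Agent.P127S.AsyA0

/-! Extensions. -/

open Real Finset Filter Topology Vale.Agent.P118O

noncomputable section

namespace Vale.Agent.P127S

variable {N : ℕ → ℕ} {Ω Ω' α β γ δ : ℕ → Type} {ι E : Type} {S : Sp N Ω} {f g f' g' h : ℕ → ℝ}
  {X : RV Ω α} {Y : RV Ω β} {Z : RV Ω γ} {W : RV Ω δ}

/-! ### extensions -/

variable {S' : Sp N Ω'} {m : RV Ω' Ω}

theorem ext1 (F : RV Ω α) : Ext S (S.glue F) (p1 Ω) := by
  exact ⟨fun k _ hω => (glue_mem.1 hω).1, fun k => glue_law1 (S.isP k) (F k)⟩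

theorem ext2 (F : RV Ω α) : Ext S (S.glue F) (p2 Ω) := by
  exact ⟨fun k _ hω => (glue_mem.1 hω).2.1, fun k => glue_law2 (S.isP k) (F k)⟩

theorem glue_eq (h1 : DetS S X Y) : EqS (S.glue Y) (pl (p1 Ω) X) (pl (p2 Ω) X) := by
  exact fun k _ hω => h1 k _ (glue_mem.1 hω).1 _ (glue_mem.1 hω).2.1 (glue_mem.1 hω).2.2

theorem glue_H2 (h1 : DetS S Y Z) (X : RV Ω α) :
    H (S.glue Y) (pl (p2 Ω) X) (pl (p1 Ω) Z) = H S X Y := by
  exact funext fun k => glue_ce (S.isP k) (Y k) (Z k) (X k) (h1 k)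

theorem glue_H1 (h1 : DetS S Y Z) (X : RV Ω α) :
    H (S.glue Y) (pl (p1 Ω) X) (pl (p2 Ω) Z) = H S X Y := by
  exact funext fun k => glue_ce' (S.isP k) (Y k) (Z k) (X k) (h1 k)

theorem Ext.comp {Ω'' : ℕ → Type} {S'' : Sp N Ω''} {m' : RV Ω'' Ω'} (h1 : Ext S S' m)
    (h2 : Ext S' S'' m') : Ext S S'' (pl m' m) := by
  exact ⟨fun k ω hω => h1.1 k _ (h2.1 k ω hω),
    fun k φ => (h2.2 k fun ω => φ (m k ω)).trans (h1.2 k φ)⟩

theorem Ext.ent (e : Ext S S' m) (X : RV Ω α) (Y : RV Ω β) :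
    H S' (pl m X) (pl m Y) = H S X Y := by
  exact funext fun k => ce_law (e.2 k) (X k) (Y k)

theorem Ext.mass (e : Ext S S' m) (A : VV Ω Prop) (k : ℕ) :
    ms (S'.s k) (S'.P k) (pl m A k) = ms (S.s k) (S.P k) (A k) := by
  classical
  have h1 := e.2 k fun ω => if A k ω then 1 else 0
  simp only [mul_ite, mul_one, mul_zero, ← Finset.sum_filter] at h1
  unfold ms
  refine Eq.trans (Finset.sum_congr (Finset.ext fun ω => ?_) fun _ _ => rfl)
    (h1.trans (Finset.sum_congr (Finset.ext fun ω => ?_) fun _ _ => rfl))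
  · simp only [mem_filter, pl]
  · simp only [mem_filter]

theorem DetS.pull (e : Ext S S' m) (h1 : DetS S X Y) : DetS S' (pl m X) (pl m Y) := by
  exact fun k a ha b hb => h1 k _ (e.1 k a ha) _ (e.1 k b hb)

theorem EqS.pull (e : Ext S S' m) {X' : RV Ω α} (h1 : EqS S X X') :
    EqS S' (pl m X) (pl m X') := by
  exact fun k a ha => h1 k _ (e.1 k a ha)

theorem Kw.pull (e : Ext S S' m) (h1 : Kw S X Y) : Kw S' (pl m X) (pl m Y) := by
  unfold Kw
  rw [e.ent]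
  exact h1

theorem Ind.pull (e : Ext S S' m) (h1 : Ind S X Y Z) : Ind S' (pl m X) (pl m Y) (pl m Z) := by
  change Le N (H S' (pl m X) (pl m Z)) (H S' (pl m X) (pl m (J Z Y)))
  rw [e.ent, e.ent]
  exact h1

theorem whp.pull (e : Ext S S' m) {A : VV Ω Prop} (h1 : whp S A) : whp S' (pl m A) := by
  exact Tendsto.congr (fun k => (e.mass A k).symm) h1

theorem Small.pull [Norm E] (e : Ext S S' m) {V : VV Ω E} {b : ℕ → ℕ} (h1 : Small S V b) :
    Small S' (pl m V) b := by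
  intro c hc
  have h2 := whp.pull (A := fun k ω => ‖V k ω‖ ≤ (2 : ℝ) ^ (c * N k - b k)) e (h1 c hc)
  exact h2

theorem Kn.pull [Fintype ι] (e : Ext S S' m) {V : VV Ω (ι → ℝ)} {j : ℕ → ℕ} (h1 : Kn S X V j) :
    Kn S' (pl m X) (pl m V) j := by
  have h2 := Kw.pull (X := Q N j V) (Y := X) e h1.2
  have h3 := Small.pull (V := V) (b := fun _ => 0) e h1.1
  exact ⟨h3, h2⟩

end Vale.Agent.P127S
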