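import Vale.Agent.P127S.Asy

/-! Rules for `Le`, `H`, `Kw`, `Ind`, events and extensions. -/

open Real Finset Filter Topology Vale.Agent.P118O

noncomputable section

namespace Vale.Agent.P127S

variable {N : ℕ → ℕ} {Ω Ω' α β γ δ : ℕ → Type} {ι E : Type} {S : Sp N Ω} {f g f' g' h : ℕ → ℝ}

theorem Le.refl (f : ℕ → ℝ) : Le N f f := by
  exact fun ε hε => Eventually.of_forall fun k => le_add_of_nonneg_right (by positivity)

theorem Le.of_ev (e : ∀ᶠ k in UF, f k ≤ g k) : Le N f g := by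
  exact fun ε hε => e.mono fun k hk => hk.trans (le_add_of_nonneg_right (by positivity))

theorem Le.of_le (e : ∀ k, f k ≤ g k) : Le N f g := by
  exact Le.of_ev (Eventually.of_forall e)

theorem Le.trans (h1 : Le N f g) (h2 : Le N g h) : Le N f h := by
  intro ε hε
  filter_upwards [h1 (ε / 2) (half_pos hε), h2 (ε / 2) (half_pos hε)] with k a b
  linarith

theorem Le.add (h1 : Le N f g) (h2 : Le N f' g') :
    Le N (fun k => f k + f' k) (fun k => g k + g' k) := by
  intro ε hε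
  filter_upwards [h1 (ε / 2) (half_pos hε), h2 (ε / 2) (half_pos hε)] with k a b
  linarith

theorem Le.mul (h1 : Le N f g) {c : ℝ} (hc : 0 ≤ c) :
    Le N (fun k => c * f k) (fun k => c * g k) := by
  intro ε hε
  filter_upwards [h1 (ε / (c + 1)) (by positivity)] with k a
  have b := mul_le_mul_of_nonneg_left a hc
  have d : c * (ε / (c + 1)) ≤ ε := by
    rw [← mul_div_assoc, div_le_iff₀ (by positivity)]
    linarith
  have d' := mul_le_mul_of_nonneg_right d (Nat.cast_nonneg (N k))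
  linarith

/-- linear arithmetic: use as `(h1.add h2).lin fun k => by linarith [..]` -/
theorem Le.lin (h1 : Le N f g) (e : ∀ k, f' k - g' k ≤ f k - g k) : Le N f' g' := by
  exact fun ε hε => (h1 ε hε).mono fun k a => by linarith [e k]

/-- the same with an additive constant -/
theorem Le.linc (hN : Tendsto N UF atTop) (h1 : Le N f g) (C : ℝ)
    (e : ∀ k, f' k - g' k ≤ f k - g k + C) : Le N f' g' := by
  intro ε hε
  filter_upwards [h1 (ε / 2) (half_pos hε), (tendsto_natCast_atTop_atTop.comp hN).eventually_ge_atTop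
    (C / (ε / 2))] with k a b
  have d : C ≤ N k * (ε / 2) := (div_le_iff₀ (half_pos hε)).1 b
  linarith [e k]

theorem Le.of_forall (e : ∀ c : ℝ, 0 < c → Le N f fun k => g k + c * N k) : Le N f g := by
  intro ε hε
  filter_upwards [e (ε / 2) (half_pos hε) (ε / 2) (half_pos hε)] with k a
  linarith

theorem Big.not_le (hN : Tendsto N UF atTop) (hb : Big N f) {c : ℝ} (hc : 0 < c) :
    ¬ Le N (fun k => c * f k) fun _ => 0 := by
  intro h1
  obtain ⟨d, hd, h2⟩ := hb
  obtain ⟨k, ⟨a, b⟩, e⟩ := (((h1 (c * d / 2) (by positivity)).and h2).and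
    (hN.eventually_ge_atTop 1)).exists
  have e1 : (1 : ℝ) ≤ N k := by exact_mod_cast e
  have e2 := mul_le_mul_of_nonneg_left b hc.le
  have e3 : 0 < c * d * N k := by positivity
  linarith

theorem big_or_le (f : ℕ → ℝ) : Big N f ∨ Le N f fun _ => 0 := by
  refine or_iff_not_imp_right.2 fun h1 => ?_
  obtain ⟨ε, h2⟩ := not_forall.1 h1
  obtain ⟨hε, h3⟩ := Classical.not_imp.1 h2
  exact ⟨ε, hε, (Ultrafilter.eventually_not.2 h3).mono fun k a => by linarith [not_le.1 a]⟩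

theorem Big.mono (hb : Big N f) {c : ℝ} (hc : 0 < c) (e : Le N (fun k => c * f k) g) :
    Big N g := by
  obtain ⟨d, hd, h2⟩ := hb
  refine ⟨c * d / 2, by positivity, ?_⟩
  filter_upwards [e (c * d / 2) (by positivity), h2] with k a b
  have e2 := mul_le_mul_of_nonneg_left b hc.le
  linarith

/-- uniformity over all level sequences -/
theorem le_unif {n : ℕ → ℕ} {F G : ℕ → ℕ → ℝ}
    (e : ∀ i : ℕ → ℕ, (∀ k, i k ≤ n k) → Le N (fun k => F k (i k)) fun k => G k (i k))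
    {ε : ℝ} (hε : 0 < ε) : ∀ᶠ k in UF, ∀ i ≤ n k, F k i ≤ G k i + ε * N k := by
  by_contra h1
  have h2 : ∀ k, ∃ i, i ≤ n k ∧ ((¬ ∀ i ≤ n k, F k i ≤ G k i + ε * N k) →
      ¬ F k i ≤ G k i + ε * N k) := fun k => by
    by_cases h3 : ∀ i ≤ n k, F k i ≤ G k i + ε * N k
    · exact ⟨0, Nat.zero_le _, fun h4 => absurd h3 h4⟩
    · obtain ⟨i, h4⟩ := not_forall.1 h3
      exact ⟨i, (Classical.not_imp.1 h4).1, fun _ => (Classical.not_imp.1 h4).2⟩
  choose i hi h3 using h2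
  obtain ⟨k, a, b⟩ := ((Ultrafilter.eventually_not.2 h1).and (e i hi ε hε)).exists
  exact h3 k a b

/-- diagonal argument (the ultrafilter contains the cofinite filter) -/
theorem diag {A : ℝ → ℕ → Prop} (e : ∀ ε : ℝ, 0 < ε → ∀ᶠ k in UF, A ε k) :
    ∃ u : ℕ → ℝ, (∀ k, 0 < u k) ∧ Tendsto u UF (𝓝 0) ∧ ∀ᶠ k in UF, A (u k) k := by
  classical
  have hp : ∀ m : ℕ, (0 : ℝ) < 1 / ((m : ℝ) + 1) := fun m => by positivity
  set m : ℕ → ℕ := fun k => Nat.findGreatest (fun m => A (1 / ((m : ℝ) + 1)) k) k with hm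
  have h0 : UF ≤ atTop := by
    rw [← Nat.cofinite_eq_atTop]
    exact hyperfilter_le_cofinite
  have h1 : Tendsto m UF atTop := tendsto_atTop.2 fun M => by
    filter_upwards [e _ (hp M), h0 (eventually_ge_atTop M)] with k a b
    exact Nat.le_findGreatest b a
  refine ⟨fun k => 1 / ((m k : ℝ) + 1), fun k => hp _,
    tendsto_one_div_add_atTop_nhds_zero_nat.comp h1, ?_⟩
  filter_upwards [e _ (hp 0)] with k a
  exact Nat.findGreatest_spec (P := fun m => A (1 / ((m : ℝ) + 1)) k) (Nat.zero_le k) a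

/-! ### entropy -/

variable {X : RV Ω α} {Y : RV Ω β} {Z : RV Ω γ} {W : RV Ω δ}

theorem H_nonneg (X : RV Ω α) (Y : RV Ω β) (k : ℕ) : 0 ≤ H S X Y k := by
  exact ce_nonneg (S.isP k) _ _

theorem AsyA0_left (X : RV Ω α) (Y : RV Ω β) (Z : RV Ω γ) (k : ℕ) :
    H S X (J Y Z) k ≤ H S X Y k :=
  ce_mono (S.isP k) (fun _ _ _ _ e => (Prod.mk.inj e).1) fun _ _ _ _ e => (Prod.mk.inj e).1

theorem AsyA0_right (X : RV Ω α) (Y : RV Ω β) (Z : RV Ω γ) (k : ℕ) :
    H S X (J Y Z) k ≤ H S X Z k :=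
  ce_mono (S.isP k) (fun _ _ _ _ e => (Prod.mk.inj e).1) fun _ _ _ _ e => (Prod.mk.inj e).2

theorem AsyA0_swap (X : RV Ω α) (Y : RV Ω β) (Z : RV Ω γ) (k : ℕ) :
    H S X (J Y Z) k = H S X (J Z Y) k :=
  le_antisymm
    (ce_mono (S.isP k) (fun _ _ _ _ e => (Prod.mk.inj e).1) fun _ _ _ _ e =>
      Prod.ext (Prod.mk.inj e).2 (Prod.mk.inj e).1)
    (ce_mono (S.isP k) (fun _ _ _ _ e => (Prod.mk.inj e).1) fun _ _ _ _ e =>
      Prod.ext (Prod.mk.inj e).2 (Prod.mk.inj e).1)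

theorem H_chain (X : RV Ω α) (Y : RV Ω β) (Z : RV Ω γ) (k : ℕ) :
    H S (J X Y) Z k = H S X Z k + H S Y (J Z X) k := by
  rw [AsyA0_swap Y Z X]
  exact ce_chain (X k) (Y k) (Z k)

theorem H_le_add (X : RV Ω α) (Y : RV Ω β) (Z : RV Ω γ) (k : ℕ) :
    H S X Z k ≤ H S Y Z k + H S X (J Z Y) k := by
  rw [AsyA0_swap X Z Y]
  exact ce_le_add (S.isP k) (X k) (Y k) (Z k)

theorem H_symm (X : RV Ω α) (Y : RV Ω β) (Z : RV Ω γ) (k : ℕ) :
    H S X Z k - H S X (J Z Y) k = H S Y Z k - H S Y (J Z X) k := by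
  rw [AsyA0_swap X Z Y, AsyA0_swap Y Z X]
  exact ce_cond (S.isP k) (X k) (Y k) (Z k)

theorem H_mono (h1 : DetS S X (J Z W)) (h2 : DetS S Y W) (k : ℕ) : H S X W k ≤ H S Z Y k := by
  exact ce_mono (S.isP k) (h1 k) (h2 k)

theorem H_congr {X' : RV Ω α} {Y' : RV Ω β} (h1 : EqS S X X') (h2 : EqS S Y Y') :
    H S X Y = H S X' Y' := by
  exact funext fun k => ce_congr (h1 k) (h2 k)

theorem DetS.refl (X : RV Ω α) : DetS S X X := by
  exact fun _ _ _ _ _ e => e

theorem DetS.trans (h1 : DetS S X Y) (h2 : DetS S Y Z) : DetS S X Z := by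
  exact fun k a ha b hb e => h1 k a ha b hb (h2 k a ha b hb e)

theorem DetS.pair (h1 : DetS S X Z) (h2 : DetS S Y Z) : DetS S (J X Y) Z := by
  exact fun k a ha b hb e => Prod.ext (h1 k a ha b hb e) (h2 k a ha b hb e)

theorem DetS.left (h1 : DetS S X Y) : DetS S X (J Y Z) := by
  exact fun k a ha b hb e => h1 k a ha b hb (Prod.mk.inj e).1

theorem DetS.right (h1 : DetS S X Z) : DetS S X (J Y Z) := by
  exact fun k a ha b hb e => h1 k a ha b hb (Prod.mk.inj e).2

theorem DetS.map (h1 : DetS S X Y) (φ : ∀ k, α k → γ k) :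
    DetS S (fun k ω => φ k (X k ω)) Y := by
  exact fun k a ha b hb e => congrArg (φ k) (h1 k a ha b hb e)

theorem DetS.map2 (h1 : DetS S X Z) (h2 : DetS S Y Z) (φ : ∀ k, α k → β k → δ k) :
    DetS S (fun k ω => φ k (X k ω) (Y k ω)) Z := by
  exact fun k a ha b hb e => congrArg₂ (φ k) (h1 k a ha b hb e) (h2 k a ha b hb e)

theorem DetS.const (c : ∀ k, α k) : DetS S (fun k _ => c k) Y := by
  exact fun _ _ _ _ _ _ => rfl

theorem DetS.kw (h1 : DetS S X Y) : Kw S X Y := by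
  exact Le.of_le fun k => (ce_det (S.isP k) (h1 k)).le

theorem Kw.refl (X : RV Ω α) : Kw S X X := by
  exact (DetS.refl X).kw

/-- the basic approximate monotonicity -/
theorem H_kw (h1 : Kw S X (J Z W)) (h2 : Kw S Y W) : Le N (H S X W) (H S Z Y) := by
  exact (Le.add h1 h2).lin fun k => by
    linarith [H_le_add (S := S) X Z W k, AsyA0_swap (S := S) X Z W k, H_le_add (S := S) Z Y W k,
      AsyA0_right (S := S) Z W Y k]

theorem Kw.trans (h1 : Kw S X Y) (h2 : Kw S Y Z) : Kw S X Z := by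
  exact (Le.add h1 h2).lin fun k => by
    linarith [H_le_add (S := S) X Y Z k, AsyA0_right (S := S) X Z Y k]

theorem Kw.pair (h1 : Kw S X Z) (h2 : Kw S Y Z) : Kw S (J X Y) Z := by
  exact (Le.add h1 h2).lin fun k => by
    linarith [H_chain (S := S) X Y Z k, AsyA0_left (S := S) Y Z X k]

theorem Kw.left (h1 : Kw S X Y) : Kw S X (J Y Z) := by
  exact Le.trans (Le.of_le (AsyA0_left X Y Z)) h1

theorem Kw.right (h1 : Kw S X Z) : Kw S X (J Y Z) := by
  exact Le.trans (Le.of_le (AsyA0_right X Y Z)) h1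

theorem Kw.prop (A : VV Ω Prop) (Y : RV Ω β) : Kw S A Y := by
  exact (Le.refl fun _ => 0).linc S.big 1 fun k => by
    have h1 : H S A Y k ≤ 1 := ce_prop (S.isP k) (A k) (Y k)
    linarith

theorem Ind.symm (h1 : Ind S X Y Z) : Ind S Y X Z := by
  exact Le.lin h1 fun k => (H_symm X Y Z k).ge

/-- a variable known from `X` and `Z` -/
theorem Ind.mono (h1 : Ind S X Y Z) (h2 : Kw S W (J Z X)) : Ind S W Y Z := by
  exact Ind.symm (Le.trans h1.symm (H_kw (Kw.refl Y).left ((Kw.refl Z).left.pair h2)))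

/-- conditioning on a variable known from `X` and `Z` -/
theorem Ind.cond (h1 : Ind S X Y Z) (h2 : Kw S W (J Z X)) : Ind S X Y (J Z W) := by
  exact Ind.symm (Le.trans (Le.of_le (AsyA0_left Y Z W)) (Le.trans h1.symm
    (H_kw (Kw.refl Y).left (((Kw.refl Z).left.pair h2).pair (Kw.refl X).right))))

/-- equivalent conditioning -/
theorem Ind.congr (h1 : Ind S X Y Z) (h2 : Kw S W Z) (h3 : Kw S Z W) : Ind S X Y W := by
  exact Le.trans (H_kw (Kw.refl X).left h3) (Le.trans h1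
    (H_kw (Kw.refl X).left (h2.left.pair (Kw.refl Y).right)))

theorem Ind.chain (h1 : Ind S X Y Z) (h2 : Ind S X W (J Z Y)) : Ind S X (J Y W) Z := by
  exact Le.trans h1 (Le.trans h2 (Le.of_le (H_mono (DetS.refl X).left
    ((DetS.refl Z).left.left.pair ((DetS.refl Y).right.left.pair (DetS.refl W).right)))))

/-- what is known from `(Z, Y)` and independent of `Y` given `Z` is known from `Z` -/
theorem Ind.kw (h1 : Ind S X Y Z) (h2 : Kw S X (J Z Y)) : Kw S X Z := by
  exact Le.trans h1 h2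

end Vale.Agent.P127S
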