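import Vale.Agent.P127S.AsyB0

/-! Small variables. -/

open Real Finset Filter Topology Vale.Agent.P118O

noncomputable section

namespace Vale.Agent.P127S

variable {N : ℕ → ℕ} {Ω Ω' α β γ δ : ℕ → Type} {ι E : Type} {S : Sp N Ω} {f g : ℕ → ℝ}
  {A B : VV Ω Prop} {X : RV Ω α} {Y : RV Ω β} {Z : RV Ω γ}

theorem asyB_ev (S : Sp N Ω) {c : ℝ} (hc : 0 < c) (C : ℝ) : ∀ᶠ k in UF, C ≤ c * N k :=
  ((tendsto_natCast_atTop_atTop.comp S.big).const_mul_atTop hc).eventually_ge_atTop C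

theorem asyB_mul (S : Sp N Ω) {c : ℝ} (hc : 0 < c) (C : ℝ) :
    ∀ᶠ k in UF, ∀ y : ℝ, C * (2 : ℝ) ^ (c / 2 * N k - y) ≤ (2 : ℝ) ^ (c * N k - y) := by
  have h1 := ((tendsto_rpow_atTop_of_base_gt_one 2 one_lt_two).comp
    ((tendsto_natCast_atTop_atTop.comp S.big).const_mul_atTop (half_pos hc))).eventually_ge_atTop C
  filter_upwards [h1] with k hk y
  have e : (2 : ℝ) ^ (c * N k - y) = (2 : ℝ) ^ (c / 2 * N k) * (2 : ℝ) ^ (c / 2 * N k - y) := by
    rw [← Real.rpow_add two_pos]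
    congr 1
    ring
  rw [e]
  exact mul_le_mul_of_nonneg_right hk (by positivity)

theorem asyB_div (x : ℝ) (b : ℕ) : (2 : ℝ) ^ (x - b) = (2 : ℝ) ^ x / 2 ^ b := by
  rw [Real.rpow_sub two_pos, Real.rpow_natCast]

/-! ### small variables -/

section small

variable [NormedAddCommGroup E] {U V : VV Ω E} {b b' : ℕ → ℕ}

theorem Small.res (h1 : pos S A) (h2 : Small S U b) : Small (S.res A) U b :=
  fun c hc => whp.res h1 (h2 c hc)

theorem asyB_whp (e : whp S fun k ω => ‖U k ω‖ ≤ 8 / 2 ^ b k) : Small S U b := by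
  intro c hc
  refine e.mono ?_
  filter_upwards [asyB_ev S hc 3] with k hk ω _ h
  refine h.trans ?_
  rw [asyB_div]
  gcongr
  calc (8 : ℝ) = (2 : ℝ) ^ (3 : ℝ) := by norm_num
    _ ≤ _ := Real.rpow_le_rpow_of_exponent_le one_le_two hk

theorem Small.of_le (e : ∀ᶠ k in UF, ∀ ω ∈ S.s k, ‖U k ω‖ ≤ 8 / 2 ^ b k) : Small S U b :=
  asyB_whp (whp.of_all e)

theorem Small.of_whp (e : whp S fun k ω => ‖U k ω‖ ≤ 8 / 2 ^ b k) : Small S U b :=
  asyB_whp e

theorem Small.mono (h1 : Small S U b) (e : Le N (fun k => b' k) fun k => b k) :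
    Small S U b' := by
  intro c hc
  refine (h1 (c / 2) (half_pos hc)).mono ?_
  filter_upwards [e (c / 2) (half_pos hc)] with k hk ω _ h
  exact h.trans (Real.rpow_le_rpow_of_exponent_le one_le_two (by linarith))

theorem Small.bdd (h1 : Small S U b) : Bdd S U :=
  h1.mono (Le.of_le fun k => by simp)

theorem Small.congr (h1 : Small S U b) (e : whp S fun k ω => U k ω = V k ω) : Small S V b :=
  fun c hc => ((h1 c hc).and e).mono (Eventually.of_forall fun _ _ _ h => h.2 ▸ h.1)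

theorem Small.add (h1 : Small S U b) (h2 : Small S V b) : Small S (U + V) b := by
  intro c hc
  refine ((h1 _ (half_pos hc)).and (h2 _ (half_pos hc))).mono ?_
  filter_upwards [asyB_mul S hc 2] with k hk ω _ h
  have h3 : ‖(U + V) k ω‖ ≤ ‖U k ω‖ + ‖V k ω‖ := norm_add_le _ _
  linarith [hk (b k), h.1, h.2]

theorem Small.sub (h1 : Small S U b) (h2 : Small S V b) : Small S (U - V) b := by
  intro c hc
  refine ((h1 _ (half_pos hc)).and (h2 _ (half_pos hc))).mono ?_
  filter_upwards [asyB_mul S hc 2] with k hk ω _ h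
  have h3 : ‖(U - V) k ω‖ ≤ ‖U k ω‖ + ‖V k ω‖ := norm_sub_le _ _
  linarith [hk (b k), h.1, h.2]

theorem Small.neg (h1 : Small S U b) : Small S (-U) b :=
  fun c hc => (h1 c hc).mono (Eventually.of_forall fun _ _ _ h => (norm_neg _).trans_le h)

/-- comparison of norms, possibly between different spaces -/
theorem Small.dom {E' : Type} [NormedAddCommGroup E'] {U' : VV Ω E'} (h1 : Small S U b) (C : ℝ)
    (e : ∀ k, ∀ ω ∈ S.s k, ‖U' k ω‖ ≤ C * ‖U k ω‖) : Small S U' b := by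
  intro c hc
  refine (h1 _ (half_pos hc)).mono ?_
  filter_upwards [asyB_mul S hc |C|] with k hk ω hω h
  refine (e k ω hω).trans (le_trans ?_ (hk (b k)))
  exact mul_le_mul (le_abs_self C) h (norm_nonneg _) (abs_nonneg C)

theorem Small.dom2 {E' E'' : Type} [NormedAddCommGroup E'] [NormedAddCommGroup E'']
    {U' : VV Ω E'} {U'' : VV Ω E''} (h1 : Small S U b) (h2 : Small S U' b') (C : ℝ)
    (e : ∀ k, ∀ ω ∈ S.s k, ‖U'' k ω‖ ≤ C * (‖U k ω‖ * ‖U' k ω‖)) :
    Small S U'' fun k => b k + b' k := by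
  intro c hc
  refine ((h1 _ (half_pos (half_pos hc))).and (h2 _ (half_pos (half_pos hc)))).mono ?_
  filter_upwards [asyB_mul S hc |C|] with k hk ω hω h
  refine (e k ω hω).trans (le_trans ?_ (hk _))
  refine mul_le_mul (le_abs_self C) ?_ (by positivity) (abs_nonneg C)
  refine (mul_le_mul h.1 h.2 (norm_nonneg _) (by positivity)).trans (le_of_eq ?_)
  rw [← Real.rpow_add two_pos]
  congr 1
  push_cast
  ring

theorem Small.smul [NormedSpace ℝ E] {c : VV Ω ℝ} (h1 : Small S c b) (h2 : Small S U b') :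
    Small S (sm c U) fun k => b k + b' k :=
  h1.dom2 h2 1 fun k ω _ => by rw [one_mul]; exact (norm_smul _ _).le

theorem small_tw (S : Sp N Ω) (b : ℕ → ℕ) : Small S (tw Ω b) b := by
  refine Small.of_le (Eventually.of_forall fun k ω _ => ?_)
  have : ‖tw Ω b k ω‖ = 1 / 2 ^ b k :=
    Real.norm_of_nonneg (r := 1 / 2 ^ b k) (by positivity)
  rw [this]
  gcongr
  norm_num

theorem Small.zoom [NormedSpace ℝ E] (h1 : Small S U fun k => b k + b' k) :
    Small S (sm (up Ω b) U) b' := by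
  intro c hc
  refine (h1 c hc).mono (Eventually.of_forall fun k ω _ h => ?_)
  have e1 : ‖sm (up Ω b) U k ω‖ = 2 ^ b k * ‖U k ω‖ := by
    change ‖(2 : ℝ) ^ b k • U k ω‖ = _
    rw [norm_smul, Real.norm_of_nonneg (by positivity)]
  rw [e1]
  refine (mul_le_mul_of_nonneg_left h (by positivity)).trans (le_of_eq ?_)
  rw [← Real.rpow_natCast, ← Real.rpow_add two_pos]
  congr 1
  push_cast
  ring

theorem Small.pi [Fintype ι] {W : VV Ω (ι → E)} (h1 : ∀ i, Small S (fun k ω => W k ω i) b) :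
    Small S W b :=
  fun c hc => (whp.all fun i => h1 i c hc).mono (Eventually.of_forall fun _ _ _ h =>
    (pi_norm_le_iff_of_nonneg (by positivity)).2 h)

theorem Small.coord [Fintype ι] {W : VV Ω (ι → E)} (h1 : Small S W b) (i : ι) :
    Small S (fun k ω => W k ω i) b :=
  fun c hc => (h1 c hc).mono (Eventually.of_forall fun k ω _ h =>
    (norm_le_pi_norm (W k ω) i).trans h)

theorem small_sc {c : VV Ω ℝ} : Small S (sc c) b ↔ Small S c b := by
  have e : ∀ k ω, ‖sc c k ω‖ = ‖c k ω‖ := fun k ω => pi_norm_const (c k ω)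
  simp only [Small, e]

/-- either small, or not small on an event of positive probability -/
theorem small_or (S : Sp N Ω) (U : VV Ω E) (b : ℕ → ℕ) : Small S U b ∨
    ∃ c : ℝ, 0 < c ∧ pos S fun k ω => (2 : ℝ) ^ (c * N k - b k) < ‖U k ω‖ := by
  by_contra h
  rw [not_or] at h
  refine h.1 fun c hc => ?_
  rcases pos_or_whp S (fun k ω => (2 : ℝ) ^ (c * N k - b k) < ‖U k ω‖) with h1 | h1
  · exact absurd ⟨c, hc, h1⟩ h.2
  · exact h1.mono (Eventually.of_forall fun _ _ _ h => not_lt.1 h)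

end small

end Vale.Agent.P127S
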