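import Vale.Agent.P127S.AsyA

/-! Events, restriction to events, small variables. -/

open Real Finset Filter Topology Vale.Agent.P118O

noncomputable section

namespace Vale.Agent.P127S

variable {N : ℕ → ℕ} {Ω Ω' α β γ δ : ℕ → Type} {ι E : Type} {S : Sp N Ω} {f g : ℕ → ℝ}
  {A B : VV Ω Prop} {X : RV Ω α} {Y : RV Ω β} {Z : RV Ω γ}

section fin

variable {Θ a b : Type} {s : Finset Θ} {p : Θ → ℝ}

theorem asyb0_le_one (h : IsP s p) (D : Θ → Prop) : ms s p D ≤ 1 := by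
  linarith [ms_not h D, ms_ge_zero h fun ω => ¬ D ω]

theorem asyb0_and (h : IsP s p) (D D' : Θ → Prop) :
    ms s p D + ms s p D' - 1 ≤ ms s p (fun ω => D ω ∧ D' ω) := by
  have h1 := ms_or h (fun ω => ¬ D ω) (fun ω => ¬ D' ω)
  have h2 := ms_imp h (E := fun ω => ¬ (D ω ∧ D' ω)) (E' := fun ω => ¬ D ω ∨ ¬ D' ω)
    fun _ _ e => not_and_or.1 e
  rw [ms_not h] at h2
  rw [ms_not h D, ms_not h D'] at h1
  linarith

theorem asyb0_all (h : IsP s p) {D : Θ → Prop} (e : ∀ ω ∈ s, D ω) : ms s p D = 1 := by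
  rw [ms, ← h.2]
  exact sum_congr (Finset.ext fun ω => by
    simp only [mem_filter]; exact and_iff_left_of_imp (e ω)) fun _ _ => rfl

/-- values of large conditional mass are few -/
theorem asyb0_cnt (h : IsP s p) (U : Θ → a) (V : Θ → b) {D : Θ → Prop} {x : ℝ}
    (hD : ∀ ω ∈ s, D ω → 0 < ms s p (fun ω' => V ω' = V ω) ∧
      (2 : ℝ) ^ (-x) * ms s p (fun ω' => V ω' = V ω) ≤
        ms s p (fun ω' => U ω' = U ω ∧ V ω' = V ω)) (ω : Θ) :
    (cnt s U V D ω : ℝ) ≤ (2 : ℝ) ^ x := by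
  obtain ⟨T, hT, e⟩ : ∃ T : Finset a, (∀ u ∈ T, ∃ ω0 ∈ s, V ω0 = V ω ∧ D ω0 ∧ U ω0 = u) ∧
      cnt s U V D ω = T.card :=
    ⟨_, fun u hu => by simpa only [mem_image, mem_filter, and_assoc] using hu, rfl⟩
  rw [e]
  rcases T.eq_empty_or_nonempty with rfl | ⟨u, hu⟩
  · rw [card_empty, Nat.cast_zero]; positivity
  obtain ⟨ω0, h1, h2, h3, -⟩ := hT u hu
  have hm := (hD ω0 h1 h3).1
  rw [h2] at hm
  have h4 := (card_nsmul_le_sum T _ ((2 : ℝ) ^ (-x) * ms s p (fun ω' => V ω' = V ω))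
    fun v hv => ?_).trans (FinB_fib h T U (fun ω' => V ω' = V ω) _ fun _ _ _ e => e)
  · rw [nsmul_eq_mul, ← mul_assoc, mul_le_iff_le_one_left hm, Real.rpow_neg zero_le_two,
      ← div_eq_mul_inv, div_le_one (by positivity)] at h4
    exact h4
  · obtain ⟨ω1, a1, a2, a3, rfl⟩ := hT v hv
    exact a2 ▸ (hD ω1 a1 a3).2

/-- comparison of masses atom by atom -/
theorem asyb0_trim (h : IsP s p) (V : Θ → b) (D F : Θ → Prop) (G : b → Prop) {t : ℝ} (ht : 0 ≤ t)
    (hG : ∀ y, G y → ms s p (fun ω => V ω = y ∧ D ω) ≤ t * ms s p (fun ω => V ω = y ∧ F ω)) :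
    ms s p (fun ω => D ω ∧ G (V ω)) ≤ t * ms s p F := by
  classical
  have h1 := FinB_fib h ((s.image V).filter G) V F F fun _ _ _ e => e
  refine le_trans ?_ (mul_le_mul_of_nonneg_left h1 ht)
  rw [mul_sum]
  refine le_trans ?_ (sum_le_sum fun y hy => hG y (mem_filter.1 hy).2)
  simp only [ms, sum_filter (s := s)]
  rw [sum_comm]
  refine sum_le_sum fun ω hω => ?_
  have h0 := h.1 ω hω
  by_cases h2 : D ω
  · simp only [h2, and_true, true_and, sum_ite_eq, mem_filter, mem_image_of_mem V hω]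
    exact le_rfl
  · simp only [h2, and_false, false_and, if_false, sum_const_zero]
    exact le_rfl

/-- on a large part of an event where conditional masses are small the entropy is large -/
theorem asyb0_low (h : IsP s p) (U : Θ → a) (V : Θ → b) {D : Θ → Prop} {x d : ℝ} (hd : 0 < d)
    (hD : ∀ ω ∈ s, D ω → ms s p (fun ω' => U ω' = U ω ∧ V ω' = V ω) ≤
      (2 : ℝ) ^ (-x) * ms s p (fun ω' => V ω' = V ω)) :
    ∃ D' : Θ → Prop, 2 * d ≤ ms s p D →
      d ≤ ms s p D' ∧ x + Real.logb 2 d ≤ ce (rs s D') (rp s p D') U V := by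
  set G : b → Prop := fun y => ms s p (fun ω => V ω = y ∧ D ω) ≤
    d * ms s p (fun ω => V ω = y ∧ True) with hG
  refine ⟨fun ω => D ω ∧ ¬ G (V ω), fun h1 => ?_⟩
  have h2 := asyb0_trim h V D (fun _ => True) G hd.le fun _ e => e
  rw [asyb0_all h fun _ _ => trivial] at h2
  have h3 := ms_or h (fun ω => D ω ∧ G (V ω)) fun ω => D ω ∧ ¬ G (V ω)
  have h4 := ms_imp h (E := D) (E' := fun ω => (D ω ∧ G (V ω)) ∨ (D ω ∧ ¬ G (V ω)))
    fun ω _ e => (em (G (V ω))).imp (fun u => ⟨e, u⟩) fun u => ⟨e, u⟩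
  have h5 : d ≤ ms s p fun ω => D ω ∧ ¬ G (V ω) := by linarith
  refine ⟨h5, ce_ge_sup (rs_isP h (hd.trans_le h5)) U V fun ω hω => ?_⟩
  obtain ⟨hω, e1, e2⟩ := mem_rs.1 hω
  rw [fin0_ms_rs, fin0_ms_rs, ← mul_div_assoc]
  refine div_le_div_of_nonneg_right ?_ (ms_ge_zero h _)
  have h6 := ms_imp h (E := fun ω' => (D ω' ∧ ¬ G (V ω')) ∧ U ω' = U ω ∧ V ω' = V ω)
    (E' := fun ω' => U ω' = U ω ∧ V ω' = V ω) fun _ _ e => e.2
  have h7 := ms_imp h (E := fun ω' => V ω' = V ω ∧ D ω')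
    (E' := fun ω' => (D ω' ∧ ¬ G (V ω')) ∧ V ω' = V ω) fun _ _ e => ⟨⟨e.2, e.1 ▸ e2⟩, e.1⟩
  have h8 : d * ms s p (fun ω' => V ω' = V ω) ≤ ms s p (fun ω' => V ω' = V ω ∧ D ω') := by
    have := (not_le.1 e2).le
    simpa only [and_true] using this
  refine h6.trans ((hD ω hω e1).trans ?_)
  rw [neg_add, Real.rpow_add two_pos, Real.rpow_neg zero_le_two (Real.logb 2 d),
    Real.rpow_logb two_pos (by norm_num) hd, mul_assoc]
  refine mul_le_mul_of_nonneg_left ?_ (by positivity)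
  rw [le_inv_mul_iff₀ hd]
  exact h8.trans h7

end fin

theorem asyb0_whp : whp S A ↔ ∀ ε : ℝ, 0 < ε → ∀ᶠ k in UF, 1 - ε ≤ ms (S.s k) (S.P k) (A k) :=
  ⟨fun h ε hε => ((tendsto_order.1 h).1 (1 - ε) (by linarith)).mono fun _ e => e.le,
    fun h => tendsto_order.2 ⟨fun c hc => (h ((1 - c) / 2) (by linarith)).mono fun _ e => by
      linarith, fun _ hc => Eventually.of_forall fun k => (asyb0_le_one (S.isP k) _).trans_lt hc⟩⟩

theorem asyb0_ev (h1 : pos S A) : ∀ᶠ k in UF, 0 < ms (S.s k) (S.P k) (A k) := by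
  obtain ⟨c, hc, h⟩ := h1
  exact h.mono fun _ e => hc.trans_le e

theorem asyb0_res {k : ℕ} (h : 0 < ms (S.s k) (S.P k) (A k)) :
    (S.res A).s k = rs (S.s k) (A k) ∧ (S.res A).P k = rp (S.s k) (S.P k) (A k) :=
  ⟨if_pos h, if_pos h⟩

theorem asyb0_mul (A : VV Ω Prop) (X : RV Ω α) (Y : RV Ω β) (k : ℕ) :
    ms (S.s k) (S.P k) (A k) * ce (rs (S.s k) (A k)) (rp (S.s k) (S.P k) (A k)) (X k) (Y k) =
      ms (S.s k) (S.P k) (A k) * H (S.res A) X Y k := by
  rcases (ms_ge_zero (S.isP k) (A k)).eq_or_lt with e | e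
  · rw [← e, zero_mul, zero_mul]
  · rw [H, (asyb0_res e).1, (asyb0_res e).2]

theorem asyb0_split (S : Sp N Ω) (A : VV Ω Prop) (X : RV Ω α) (Y : RV Ω β) (k : ℕ) :
    ms (S.s k) (S.P k) (A k) * H (S.res A) X Y k + (1 - ms (S.s k) (S.P k) (A k)) *
        H (S.res fun k ω => ¬ A k ω) X Y k ≤ H S X Y k ∧
      H S X Y k ≤ 1 + (ms (S.s k) (S.P k) (A k) * H (S.res A) X Y k +
        (1 - ms (S.s k) (S.P k) (A k)) * H (S.res fun k ω => ¬ A k ω) X Y k) := by
  have h1 := ce_split (S.isP k) (X k) (Y k) (A k)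
  rw [asyb0_mul A, asyb0_mul (fun k ω => ¬ A k ω), ms_not (S.isP k)] at h1
  rw [← h1]
  exact ⟨ce_mono (S.isP k) (fun _ _ _ _ e => (Prod.mk.inj e).1) fun _ _ _ _ e => (Prod.mk.inj e).2,
    (ce_le_add (S.isP k) (X k) (A k) (Y k)).trans
      (add_le_add (ce_prop (S.isP k) (A k) (Y k)) le_rfl)⟩

theorem asyb0_cancel (h1 : pos S A) (h2 : Le N (fun k => ms (S.s k) (S.P k) (A k) * f k)
    fun k => ms (S.s k) (S.P k) (A k) * g k) : Le N f g := by
  obtain ⟨c, hc, h⟩ := h1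
  intro ε hε
  filter_upwards [h, h2 (c * ε) (mul_pos hc hε)] with k a b
  have e : 0 ≤ ε * N k := by positivity
  refine le_of_mul_le_mul_left ?_ (hc.trans_le a)
  nlinarith [mul_le_mul_of_nonneg_right a e]

theorem asyb0_wt (S : Sp N Ω) (A : VV Ω Prop) (h2 : Le N f g) :
    Le N (fun k => (1 - ms (S.s k) (S.P k) (A k)) * f k)
      fun k => (1 - ms (S.s k) (S.P k) (A k)) * g k := by
  intro ε hε
  filter_upwards [h2 ε hε] with k a
  have e : 0 ≤ ε * N k := by positivity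
  have e1 := mul_le_mul_of_nonneg_left a (sub_nonneg.2 (asyb0_le_one (S.isP k) (A k)))
  nlinarith [mul_nonneg (ms_ge_zero (S.isP k) (A k)) e]

theorem asyb0_small (h1 : whp S A) {C : ℝ} (h2 : ∀ᶠ k in UF, f k ≤ C * N k) :
    Le N (fun k => (1 - ms (S.s k) (S.P k) (A k)) * f k) fun _ => 0 := by
  intro ε hε
  have hC : 0 < |C| + 1 := by positivity
  filter_upwards [h2, asyb0_whp.1 h1 _ (div_pos hε hC)] with k a b
  have e0 : (0 : ℝ) ≤ N k := Nat.cast_nonneg _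
  have e1 : f k ≤ (|C| + 1) * N k :=
    a.trans (mul_le_mul_of_nonneg_right (by linarith [le_abs_self C]) e0)
  have e2 := mul_le_mul_of_nonneg_left e1 (sub_nonneg.2 (asyb0_le_one (S.isP k) (A k)))
  have e3 := mul_le_mul_of_nonneg_right (show 1 - ms (S.s k) (S.P k) (A k) ≤ ε / (|C| + 1) by
    linarith) (mul_nonneg hC.le e0)
  rw [← mul_assoc (ε / (|C| + 1)), div_mul_cancel₀ _ hC.ne'] at e3
  linarith

theorem asyb0_nn (S : Sp N Ω) (A : VV Ω Prop) (T : Sp N Ω) (X : RV Ω α) (Y : RV Ω β) (k : ℕ) :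
    0 ≤ (1 - ms (S.s k) (S.P k) (A k)) * H T X Y k :=
  mul_nonneg (sub_nonneg.2 (asyb0_le_one (S.isP k) (A k))) (H_nonneg X Y k)

theorem asyb0_tame (T : ∀ k, Finset (α k)) (C : ℝ) (h : ∀ᶠ k in UF,
    (∀ ω ∈ S.s k, X k ω ∈ T k) ∧ ((T k).card : ℝ) ≤ (2 : ℝ) ^ (C * N k)) : Tame S X := by
  refine ⟨C, h.mono fun k e => le_trans (Nat.cast_le.2 (card_le_card fun x hx => ?_)) e.2⟩
  simp only [mem_image] at hx
  obtain ⟨ω, hω, rfl⟩ := hx
  exact e.1 ω hω

theorem asyb0_big (S : Sp N Ω) (C : ℝ) {c : ℝ} (hc : 0 < c) : ∀ᶠ k in UF, C < c * N k :=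
  ((tendsto_natCast_atTop_atTop.comp S.big).const_mul_atTop hc).eventually_gt_atTop C

theorem whp.of_all (e : ∀ᶠ k in UF, ∀ ω ∈ S.s k, A k ω) : whp S A := by
  exact asyb0_whp.2 fun ε hε => e.mono fun k a => by
    rw [asyb0_all (S.isP k) a]; linarith

theorem whp.and (h1 : whp S A) (h2 : whp S B) : whp S fun k ω => A k ω ∧ B k ω := by
  refine asyb0_whp.2 fun ε hε => ?_
  filter_upwards [asyb0_whp.1 h1 _ (half_pos hε), asyb0_whp.1 h2 _ (half_pos hε)] with k a b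
  linarith [asyb0_and (S.isP k) (A k) (B k)]

theorem whp.mono (h1 : whp S A) (e : ∀ᶠ k in UF, ∀ ω ∈ S.s k, A k ω → B k ω) : whp S B := by
  refine asyb0_whp.2 fun ε hε => ?_
  filter_upwards [asyb0_whp.1 h1 _ hε, e] with k a b
  exact a.trans (ms_imp (S.isP k) b)

theorem whp.all {κ : Type} [Finite κ] {C : κ → VV Ω Prop} (h1 : ∀ i, whp S (C i)) :
    whp S fun k ω => ∀ i, C i k ω := by
  classical
  have := Fintype.ofFinite κ
  have h2 : ∀ T : Finset κ, whp S fun k ω => ∀ i ∈ T, C i k ω := fun T => by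
    induction T using Finset.induction_on with
    | empty => exact whp.of_all (Eventually.of_forall fun _ _ _ _ e => absurd e (notMem_empty _))
    | insert i T _ ih =>
      exact ((h1 i).and ih).mono (Eventually.of_forall fun _ _ _ e => forall_mem_insert _ _ _ |>.2 e)
  exact (h2 univ).mono (Eventually.of_forall fun _ _ _ e i => e i (mem_univ i))

theorem whp.toPos (h1 : whp S A) : pos S A := by
  exact ⟨1 / 2, one_half_pos, (asyb0_whp.1 h1 _ one_half_pos).mono fun _ e => by linarith⟩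

theorem whp_weight (S : Sp N Ω) : whp S fun k ω => 0 < S.P k ω := by
  refine asyb0_whp.2 fun ε hε => Eventually.of_forall fun k => ?_
  have h1 : ms (S.s k) (S.P k) (fun ω => ¬ 0 < S.P k ω) ≤ 0 := not_lt.1 fun e => by
    obtain ⟨ω, -, a, b⟩ := exists_of_ms (S.isP k) e
    exact a b
  rw [ms_not (S.isP k)] at h1
  linarith

theorem pos_or_whp (S : Sp N Ω) (A : VV Ω Prop) : pos S A ∨ whp S fun k ω => ¬ A k ω := by
  refine or_iff_not_imp_left.2 fun h1 => asyb0_whp.2 fun ε hε => ?_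
  have h2 : ¬ ∀ᶠ k in UF, ε ≤ ms (S.s k) (S.P k) (A k) := fun e => h1 ⟨ε, hε, e⟩
  refine (Ultrafilter.eventually_not.2 h2).mono fun k e => ?_
  rw [ms_not (S.isP k)]
  linarith [not_le.1 e]

theorem pos.and (h1 : pos S A) (h2 : whp S B) : pos S fun k ω => A k ω ∧ B k ω := by
  obtain ⟨c, hc, h⟩ := h1
  refine ⟨c / 2, half_pos hc, ?_⟩
  filter_upwards [h, asyb0_whp.1 h2 _ (half_pos hc)] with k a b
  linarith [asyb0_and (S.isP k) (A k) (B k)]

theorem pos.mono (h1 : pos S A) (e : ∀ᶠ k in UF, ∀ ω ∈ S.s k, A k ω → B k ω) : pos S B := by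
  obtain ⟨c, hc, h⟩ := h1
  refine ⟨c, hc, ?_⟩
  filter_upwards [h, e] with k a b
  exact a.trans (ms_imp (S.isP k) b)

/-- a variable with finitely many values takes one of them with positive probability -/
theorem pos_fin {κ : Type} [Finite κ] (S : Sp N Ω) (V : VV Ω κ) :
    ∃ i, pos S fun k ω => V k ω = i := by
  by_contra h1
  have h2 : ∀ i, whp S fun k ω => ¬ V k ω = i := fun i =>
    (pos_or_whp S _).resolve_left fun e => h1 ⟨i, e⟩
  obtain ⟨k, e⟩ := (asyb0_ev (whp.all h2).toPos).exists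
  obtain ⟨ω, -, a, -⟩ := exists_of_ms (S.isP k) e
  exact a _ rfl

theorem res_mem {k : ℕ} {ω : Ω k} (h : ω ∈ (S.res A).s k) : ω ∈ S.s k := by
  by_cases e : 0 < ms (S.s k) (S.P k) (A k)
  · rw [(asyb0_res e).1] at h
    exact (mem_rs.1 h).1
  · exact (if_neg e : (S.res A).s k = S.s k) ▸ h

theorem res_ev (h1 : pos S A) : ∀ᶠ k in UF, (S.res A).s k = rs (S.s k) (A k) ∧
    (S.res A).P k = rp (S.s k) (S.P k) (A k) := by
  exact (asyb0_ev h1).mono fun _ e => asyb0_res e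

theorem res_whp_self (h1 : pos S A) : whp (S.res A) A := by
  exact whp.of_all ((res_ev h1).mono fun k e ω hω => (mem_rs.1 (e.1 ▸ hω)).2)

theorem whp.res (h1 : pos S A) (h2 : whp S B) : whp (S.res A) B := by
  refine asyb0_whp.2 fun ε hε => ?_
  obtain ⟨c, hc, h⟩ := h1
  filter_upwards [h, asyb0_whp.1 h2 _ (mul_pos hε hc)] with k a b
  have e := hc.trans_le a
  rw [(asyb0_res e).1, (asyb0_res e).2, fin0_ms_rs, le_div_iff₀ e]
  nlinarith [asyb0_and (S.isP k) (A k) (B k), mul_le_mul_of_nonneg_left a hε.le]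

/-- a positive event of a positive event -/
theorem pos.of_res (h1 : pos S A) (h2 : pos (S.res A) B) : pos S fun k ω => A k ω ∧ B k ω := by
  obtain ⟨c, hc, h⟩ := h1
  obtain ⟨d, hd, h'⟩ := h2
  refine ⟨c * d, mul_pos hc hd, ?_⟩
  filter_upwards [h, h'] with k a b
  have e := hc.trans_le a
  rw [(asyb0_res e).1, (asyb0_res e).2] at b
  rw [← ms_rs (S.isP k)]
  exact mul_le_mul a b hd.le e.le

theorem res_res (h1 : pos S A) (h2 : pos (S.res A) B) (X : RV Ω α) (Y : RV Ω β) :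
    ∀ᶠ k in UF, H ((S.res A).res B) X Y k = H (S.res fun k ω => A k ω ∧ B k ω) X Y k := by
  filter_upwards [asyb0_ev h1, res_ev h2, res_ev (h1.of_res h2)] with k a b c
  rw [H, H, b.1, b.2, c.1, c.2, (asyb0_res a).1, (asyb0_res a).2]
  congr 1
  · ext ω
    simp only [mem_rs, and_assoc]
  · funext ω
    rw [rp, rp, rp, fin0_ms_rs, div_div_div_cancel_right₀ a.ne']

theorem DetS.res (h2 : DetS S X Y) (A : VV Ω Prop) : DetS (S.res A) X Y := by
  exact fun k ω hω ω' hω' => h2 k ω (res_mem hω) ω' (res_mem hω')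

theorem EqS.res {X' : RV Ω α} (h2 : EqS S X X') (A : VV Ω Prop) : EqS (S.res A) X X' := by
  exact fun k ω hω => h2 k ω (res_mem hω)

theorem Kw.res (h1 : pos S A) (h2 : Kw S X Y) : Kw (S.res A) X Y := by
  exact asyb0_cancel h1 (Le.lin h2 fun k => by
    linarith [(asyb0_split S A X Y k).1, asyb0_nn S A (S.res fun k ω => ¬ A k ω) X Y k])

/-- `I (X; Y | Z, A) ≤ I (X; Y | Z) + 1`, `ce_split` -/
theorem Ind.res (h1 : pos S A) (h2 : Ind S X Y Z) : Ind (S.res A) X Y Z := by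
  refine asyb0_cancel h1 (Le.linc S.big h2 1 fun k => ?_)
  have e := mul_le_mul_of_nonneg_left (H_mono (S := S.res fun k ω => ¬ A k ω) (X := X) (Z := X)
    (Y := Z) (W := J Z Y) (DetS.refl X).left (DetS.refl Z).left k)
    (sub_nonneg.2 (asyb0_le_one (S.isP k) (A k)))
  linarith [(asyb0_split S A X Z k).1, (asyb0_split S A X (J Z Y) k).2]

theorem Tame.pair (h1 : Tame S X) (h2 : Tame S Y) : Tame S (J X Y) := by
  classical
  obtain ⟨C, hC⟩ := h1
  obtain ⟨D, hD⟩ := h2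
  refine asyb0_tame (fun k => (S.s k).image (X k) ×ˢ (S.s k).image (Y k)) (C + D) ?_
  filter_upwards [hC, hD] with k a b
  refine ⟨fun ω hω => mem_product.2 ⟨mem_image_of_mem _ hω, mem_image_of_mem _ hω⟩, ?_⟩
  rw [card_product, Nat.cast_mul, add_mul, Real.rpow_add two_pos]
  exact mul_le_mul a b (Nat.cast_nonneg _) (by positivity)

theorem tame_Q [Fintype ι] {j : ℕ → ℕ} (hj : Lv N j) (V : VV Ω (ι → ℝ)) :
    Tame S (Q N j V) := by
  classical
  refine asyb0_tame (fun k => Fintype.piFinset fun _ =>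
    Icc ⌊(0 : ℝ) - 2 ^ (2 * (N k : ℝ))⌋ ⌊(0 : ℝ) + 2 ^ (2 * (N k : ℝ))⌋) (4 * Fintype.card ι) ?_
  filter_upwards [S.big.eventually_ge_atTop 1] with k a
  have a' : (1 : ℝ) ≤ N k := by exact_mod_cast a
  refine ⟨fun ω _ => Fintype.mem_piFinset.2 fun i => ?_, ?_⟩
  · have e0 : (0 : ℝ) < 2 ^ N k := by positivity
    have e1 : |cl (2 ^ N k) (V k ω i)| ≤ 2 ^ N k :=
      abs_le.2 ⟨le_max_left _ _, max_le (by linarith) (min_le_left _ _)⟩
    have e2 : |(2 : ℝ) ^ j k * cl (2 ^ N k) (V k ω i)| ≤ 2 ^ (2 * (N k : ℝ)) := by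
      rw [abs_mul, abs_of_pos (by positivity), two_mul, Real.rpow_add two_pos, Real.rpow_natCast]
      exact mul_le_mul (pow_le_pow_right₀ one_le_two (hj k)) e1 (abs_nonneg _) e0.le
    exact Finset.mem_Icc.2 ⟨Int.floor_mono (by linarith [(abs_le.1 e2).1]),
      Int.floor_mono (by linarith [(abs_le.1 e2).2])⟩
  · rw [Fintype.card_piFinset, prod_const, card_univ, Nat.cast_pow]
    refine (pow_le_pow_left₀ (Nat.cast_nonneg _) (Fin_icc 0 (by positivity)) _).trans ?_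
    rw [← Real.rpow_mul_natCast zero_le_two]
    refine Real.rpow_le_rpow_of_exponent_le one_le_two ?_
    nlinarith [(Nat.cast_nonneg (Fintype.card ι) : (0 : ℝ) ≤ _)]

theorem Tame.H_le (h1 : Tame S X) : ∃ C : ℝ, ∀ (A : VV Ω Prop) {β : ℕ → Type} (Y : RV Ω β),
    ∀ᶠ k in UF, H (S.res A) X Y k ≤ C * N k := by
  obtain ⟨C, hC⟩ := h1
  refine ⟨C, fun A _ Y => hC.mono fun k e => ?_⟩
  refine (ce_cnt ((S.res A).isP k) (X k) (Y k) (fun _ => C * N k) fun ω _ =>
    le_trans (Fin_cnt _ fun ω' hω' _ _ => ?_) e).trans_eq (Fin_ex ((S.res A).isP k) _)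
  simp only [mem_image]
  exact ⟨ω', res_mem hω', rfl⟩

/-- restriction to an event of high probability -/
theorem res_whp (h1 : whp S A) (h2 : Tame S X) (Y : RV Ω β) :
    Le N (H (S.res A) X Y) (H S X Y) ∧ Le N (H S X Y) (H (S.res A) X Y) := by
  obtain ⟨C, hC⟩ := h2.H_le
  exact ⟨(asyb0_small h1 (hC A Y)).lin fun k => by
      linarith [(asyb0_split S A X Y k).1, asyb0_nn S A (S.res fun k ω => ¬ A k ω) X Y k],
    (asyb0_small h1 (hC (fun k ω => ¬ A k ω) Y)).linc S.big 1 fun k => by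
      linarith [(asyb0_split S A X Y k).2, asyb0_nn S A (S.res A) X Y k]⟩

/-- An upper bound which is matched by lower bounds on all events passes to events
(`pos_or_whp` for the complement, `ce_split`). -/
theorem res_le (h1 : pos S A) (hf : ∃ C : ℝ, ∀ k, |f k| ≤ C * N k) (h2 : Le N (H S X Y) f)
    (h3 : ∀ B, pos S B → Le N f (H (S.res B) X Y)) : Le N (H (S.res A) X Y) f := by
  have h4 : Le N (fun k => (1 - ms (S.s k) (S.P k) (A k)) * f k)
      fun k => (1 - ms (S.s k) (S.P k) (A k)) * H (S.res fun k ω => ¬ A k ω) X Y k := by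
    rcases pos_or_whp S (fun k ω => ¬ A k ω) with e | e
    · exact asyb0_wt S A (h3 _ e)
    · obtain ⟨C, hC⟩ := hf
      exact (asyb0_small (e.mono (Eventually.of_forall fun _ _ _ => not_not.1))
        (Eventually.of_forall fun k => (le_abs_self _).trans (hC k))).trans
          (Le.of_le fun k => asyb0_nn S A _ X Y k)
  exact asyb0_cancel h1 ((h2.add h4).lin fun k => by linarith [(asyb0_split S A X Y k).1])

/-- a lower bound which is matched by upper bounds on all events passes to events -/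
theorem res_ge (h1 : pos S A) (ht : Tame S X) (h2 : Le N f (H S X Y))
    (h3 : ∀ B, pos S B → Le N (H (S.res B) X Y) f) : Le N f (H (S.res A) X Y) := by
  have h4 : Le N (fun k => (1 - ms (S.s k) (S.P k) (A k)) * H (S.res fun k ω => ¬ A k ω) X Y k)
      fun k => (1 - ms (S.s k) (S.P k) (A k)) * f k := by
    rcases pos_or_whp S (fun k ω => ¬ A k ω) with e | e
    · exact asyb0_wt S A (h3 _ e)
    · obtain ⟨C, hC⟩ := ht.H_le
      exact (asyb0_small (e.mono (Eventually.of_forall fun _ _ _ => not_not.1)) (hC _ Y)).trans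
        ((Le.of_le fun k => asyb0_nn S A _ X Y k).trans (asyb0_wt S A (h3 A h1)))
  exact asyb0_cancel h1 ((h2.add h4).linc S.big 1 fun k => by
    linarith [(asyb0_split S A X Y k).2])

/-- Robust lower bounds give pointwise small masses: on the event `B` where the mass is larger,
`cgibbs` with the kernel `mass (x | y) / 2 ^ (..)` or the count of such values bounds the
entropy by `f - c N`. -/
theorem pt_low (h3 : ∀ B, pos S B → Le N f (H (S.res B) X Y)) {c : ℝ} (hc : 0 < c) :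
    whp S fun k ω => ms (S.s k) (S.P k) (fun ω' => X k ω' = X k ω ∧ Y k ω' = Y k ω) ≤
      (2 : ℝ) ^ (c * N k - f k) * ms (S.s k) (S.P k) (fun ω' => Y k ω' = Y k ω) := by
  refine ((pos_or_whp S fun k ω => (2 : ℝ) ^ (c * N k - f k) *
    ms (S.s k) (S.P k) (fun ω' => Y k ω' = Y k ω) <
      ms (S.s k) (S.P k) (fun ω' => X k ω' = X k ω ∧ Y k ω' = Y k ω)).resolve_left fun e => ?_).mono
    (Eventually.of_forall fun _ _ _ => not_lt.1)
  obtain ⟨k, ⟨a, b⟩, d⟩ := (((h3 _ e _ (half_pos hc)).and (asyb0_ev e)).and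
    (asyb0_big S 0 hc)).exists
  rw [H, (asyb0_res b).1, (asyb0_res b).2] at a
  have h4 := (ce_cnt (rs_isP (S.isP k) b) (X k) (Y k) (fun _ => f k - c * N k) fun ω _ =>
    le_trans (Nat.cast_le.2 (FinB_cnt fun u hu e1 _ => ⟨u, (mem_rs.1 hu).1, e1, (mem_rs.1 hu).2, rfl⟩))
      (asyb0_cnt (S.isP k) (X k) (Y k) (fun u _ e1 => ⟨?_, by rw [neg_sub]; exact e1.le⟩) ω)).trans_eq
    (Fin_ex (rs_isP (S.isP k) b) _)
  · linarith
  · exact ((mul_nonneg (by positivity) (ms_ge_zero (S.isP k) _)).trans_lt e1).trans_le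
      (ms_imp (S.isP k) fun _ _ e2 => e2.2)

/-- Robust upper bounds give few values on an event of high probability: take the event where the
conditional mass is at least `2 ^ (-f - c N)`; on its complement `B` the entropy is at least
`f + c N - logb (1 / mass B)` (`ce_eq_ex`, Jensen or `gibbs`). -/
theorem pt_cnt (h3 : ∀ B, pos S B → Le N (H (S.res B) X Y) f) {c : ℝ} (hc : 0 < c) :
    ∃ B, whp S B ∧ ∀ k, ∀ ω ∈ S.s k,
      (cnt (S.s k) (X k) (Y k) (B k) ω : ℝ) ≤ (2 : ℝ) ^ (f k + c * N k) := by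
  refine ⟨fun k ω => 0 < S.P k ω ∧ ¬ ms (S.s k) (S.P k) (fun ω' => X k ω' = X k ω ∧ Y k ω' = Y k ω) <
    (2 : ℝ) ^ (-(f k + c * N k)) * ms (S.s k) (S.P k) (fun ω' => Y k ω' = Y k ω),
    (whp_weight S).and ((pos_or_whp S _).resolve_left fun e => ?_), fun k ω _ =>
      asyb0_cnt (S.isP k) (X k) (Y k)
        (fun u hu e => ⟨e.1.trans_le (le_pr (S.isP k) (Y k) hu), not_lt.1 e.2⟩) ω⟩
  obtain ⟨d, hd, h⟩ := e
  choose D hD using fun k => asyb0_low (S.isP k) (X k) (Y k) (x := f k + c * N k)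
    (D := fun ω => ms (S.s k) (S.P k) (fun ω' => X k ω' = X k ω ∧ Y k ω' = Y k ω) <
      (2 : ℝ) ^ (-(f k + c * N k)) * ms (S.s k) (S.P k) (fun ω' => Y k ω' = Y k ω))
    (half_pos hd) fun _ _ e => e.le
  have h4 := h.mono fun k e => hD k (by linarith)
  have h5 : pos S D := ⟨d / 2, half_pos hd, h4.mono fun _ e => e.1⟩
  obtain ⟨k, ⟨a, b⟩, u, v⟩ := (((h3 _ h5 _ (half_pos hc)).and (res_ev h5)).and
    (h4.and (asyb0_big S (-Real.logb 2 (d / 2)) (half_pos hc)))).exists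
  rw [H, b.1, b.2] at a
  linarith [u.2]

/-- after removing the atoms of `Y` on which `A` has conditional mass below `1 / 2` -/
theorem whp.half (h1 : whp S A) (Y : RV Ω β) :
    whp S fun k ω => A k ω ∧ ms (S.s k) (S.P k) (fun ω' => Y k ω' = Y k ω) ≤
      2 * ms (S.s k) (S.P k) (fun ω' => A k ω' ∧ Y k ω' = Y k ω) := by
  refine h1.and (asyb0_whp.2 fun ε hε => ?_)
  filter_upwards [asyb0_whp.1 h1 _ (half_pos hε)] with k a
  have h := S.isP k
  have h2 := asyb0_trim h (Y k) (fun _ => True) (fun ω => ¬ A k ω) (fun y =>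
    ¬ ms (S.s k) (S.P k) (fun ω' => Y k ω' = y) ≤
      2 * ms (S.s k) (S.P k) (fun ω' => A k ω' ∧ Y k ω' = y)) zero_le_two fun y e => by
    have e1 := ms_or h (fun ω' => A k ω' ∧ Y k ω' = y) fun ω' => Y k ω' = y ∧ ¬ A k ω'
    have e2 := ms_imp h (E := fun ω' => Y k ω' = y)
      (E' := fun ω' => (A k ω' ∧ Y k ω' = y) ∨ (Y k ω' = y ∧ ¬ A k ω'))
      fun ω _ u => (em (A k ω)).imp (fun v => ⟨v, u⟩) fun v => ⟨u, v⟩
    simp only [and_true]
    linarith [not_le.1 e]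
  simp only [true_and] at h2
  rw [ms_not h, ms_not h] at h2
  linarith

end Vale.Agent.P127S
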