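import Vale.Agent.P127S.AsyC0

/-! Products, quotients, maximal entropy. -/

open Real Finset Filter Topology Vale.Agent.P118O

noncomputable section

namespace Vale.Agent.P127S

variable {N : ℕ → ℕ} {Ω α β γ : ℕ → Type} {ι κ : Type} [Fintype ι] [Fintype κ] {S : Sp N Ω}
  {A : VV Ω Prop} {Z : RV Ω α} {Z' : RV Ω β} {X Y : VV Ω (ι → ℝ)} {j j' j0 e : ℕ → ℕ}

theorem asyc_gen (hj : Lv N j) {V F : VV Ω (κ → ℝ)} (h1 : Kn S Z X j')
    (hF : DetS S F (J Z (Q N j' X))) (hV : Bdd S V) (h : Small S (V - F) j) : Kn S Z V j :=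
  (kn_near hj hF hV h).mono ((Kw.refl Z).pair h1.kw)

theorem asyc_lev {E : Type} [NormedAddCommGroup E] {U : VV Ω E} {b b' : ℕ → ℕ} (h : Small S U b)
    (hl : ∀ k, b' k ≤ b k) : Small S U b' :=
  h.mono (Le.of_le fun k => Nat.cast_le.2 (hl k))

theorem asyc_mv (M : κ → ι → ℝ) (v : ι → ℝ) :
    ‖fun i => ∑ i', M i i' * v i'‖ ≤ Fintype.card ι * (‖M‖ * ‖v‖) := by
  refine (pi_norm_le_iff_of_nonneg (by positivity)).2 fun i => (norm_sum_le _ _).trans ?_
  refine (Finset.sum_le_card_nsmul _ _ (‖M‖ * ‖v‖) fun i' _ => ?_).trans (by simp)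
  rw [norm_mul]
  exact mul_le_mul ((norm_le_pi_norm (M i) i').trans (norm_le_pi_norm M i)) (norm_le_pi_norm v i')
    (norm_nonneg _) (norm_nonneg _)

theorem asyc_step (hl : ∀ k, j0 k ≤ j k) (k : ℕ) :
    H S (Q N j X) Z k ≤ H S (Q N j0 X) Z k + Fintype.card ι * ((j k : ℝ) - j0 k) := by
  have a1 := H_le_add (S := S) (Q N j X) (Q N j0 X) Z k
  have a2 := H_mono (S := S) (X := Q N j X) (W := J Z (Q N j0 X)) (Z := Q N j X) (Y := Q N j0 X)
    (DetS.refl _).left (DetS.refl _).right k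
  linarith [H_Q (S := S) hl X k]

theorem asyc_pow {a b : ℝ} (ha : 0 ≤ a) (hb : 0 ≤ b) (n : ℕ) :
    |a - b| * a ^ n ≤ |a ^ (n + 1) - b ^ (n + 1)| := by
  rcases le_total b a with h | h
  · have h1 := mul_le_mul_of_nonneg_left (pow_le_pow_left₀ hb h n) hb
    rw [abs_of_nonneg (sub_nonneg.2 h)]
    refine le_trans ?_ (le_abs_self _)
    rw [pow_succ, pow_succ]
    nlinarith
  · have h1 := mul_le_mul_of_nonneg_left (pow_le_pow_left₀ ha h n) hb
    rw [abs_sub_comm, abs_of_nonneg (sub_nonneg.2 h), abs_sub_comm]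
    refine le_trans ?_ (le_abs_self _)
    rw [pow_succ, pow_succ]
    nlinarith

theorem asyc_bdd_pow {u : VV Ω ℝ} (hu : Bdd S u) (m : ℕ) : Bdd S fun k ω => u k ω ^ m := by
  induction m with
  | zero => exact Small.of_le (Eventually.of_forall fun k ω _ => by norm_num)
  | succ m ih =>
    exact asyc_lev (Small.dom2 (U'' := fun k ω => u k ω ^ (m + 1)) ih hu 1 fun k ω _ => by
      rw [pow_succ, norm_mul, one_mul]) fun _ => le_rfl

/-- a linear image with coefficients of size `2 ^ (-e)` read off from `Z` -/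
theorem Kn.lin (hj : Lv N j) {M : VV Ω (κ → ι → ℝ)} (hM : DetS S M Z) (hs : Small S M e)
    (h1 : Kn S Z X j') (hl : ∀ k, j k ≤ j' k + e k) :
    Kn S Z (fun k ω i => ∑ i', M k ω i i' * X k ω i') j := by
  refine asyc_gen hj h1 (F := fun k ω i => ∑ i', M k ω i i' * dq N j' X k ω i')
    (DetS.map2 hM.left (det_dq j' X).right fun _ (a : κ → ι → ℝ) (b : ι → ℝ) i =>
      ∑ i', a i i' * b i') ?_ ?_
  · exact asyc_lev (Small.dom2 hs.bdd h1.bdd (Fintype.card ι) fun k ω _ => asyc_mv _ _)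
      fun _ => le_rfl
  · refine asyc_lev (Small.dom2 hs (small_dq h1.bdd j') (Fintype.card ι) fun k ω _ => ?_)
      fun k => (hl k).trans (add_comm _ _).le
    refine le_of_eq_of_le (congrArg norm ?_) (asyc_mv (M k ω) ((X - dq N j' X) k ω))
    funext i
    simp [mul_sub, Finset.sum_sub_distrib]

theorem Kn.smul (hj : Lv N j) {c : VV Ω ℝ} (hc : DetS S c Z) (hs : Small S c e)
    (h1 : Kn S Z X j') (hl : ∀ k, j k ≤ j' k + e k) : Kn S Z (sm c X) j := by
  refine asyc_gen hj h1 (F := sm c (dq N j' X))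
    (DetS.map2 hc.left (det_dq j' X).right fun _ (a : ℝ) (b : ι → ℝ) => a • b) ?_ ?_
  · exact asyc_lev (hs.bdd.smul h1.bdd) fun _ => le_rfl
  · have e1 : sm c X - sm c (dq N j' X) = sm c (X - dq N j' X) := by
      funext k ω
      simp [sm, smul_sub]
    rw [e1]
    exact asyc_lev (hs.smul (small_dq h1.bdd j')) fun k => (hl k).trans (add_comm _ _).le

/-- a known small vector times a real variable -/
theorem Kn.smul' (hj : Lv N j) {c : VV Ω ℝ} (hX : DetS S X Z) (hs : Small S X e)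
    (h1 : Kn S Z (sc c) j') (hl : ∀ k, j k ≤ j' k + e k) : Kn S Z (sm c X) j := by
  refine asyc_gen hj h1 (F := sm (co (dq N j' (sc c)) ()) X)
    (DetS.map2 hX.left (det_dq j' (sc c)).right fun _ (a : ι → ℝ) (b : Unit → ℝ) => b () • a) ?_ ?_
  · exact asyc_lev ((small_sc.1 h1.bdd).smul hs.bdd) fun _ => le_rfl
  · have e1 : sm c X - sm (co (dq N j' (sc c)) ()) X =
        sm (fun k ω => (sc c - dq N j' (sc c)) k ω ()) X := by
      funext k ω
      simp [sm, sub_smul, sc, co]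
    rw [e1]
    exact asyc_lev (((small_dq h1.bdd j').coord ()).smul hs) hl

/-- zooming in -/
theorem Kn.zoom (hj : Lv N j) (hX : Bdd S (sm (up Ω e) X)) (h1 : Kn S Z X j')
    (hl : ∀ k, j k + e k ≤ j' k) (hj' : Lv N j') : Kn S Z (sm (up Ω e) X) j := by
  refine asyc_gen hj h1 (F := sm (up Ω e) (dq N j' X))
    (DetS.map (det_dq j' X).right fun k (b : ι → ℝ) => (2 : ℝ) ^ e k • b) hX ?_
  have e1 : sm (up Ω e) X - sm (up Ω e) (dq N j' X) = sm (up Ω e) (X - dq N j' X) := by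
    funext k ω
    simp [sm, smul_sub]
  rw [e1]
  exact Small.zoom (asyc_lev (small_dq h1.bdd j') fun k => (add_comm _ _).le.trans (hl k))

/-- division by a coefficient which is not too small -/
theorem Kn.div (hj : Lv N j') {c : VV Ω ℝ} (hc : DetS S c Z)
    (hs : ∀ ε : ℝ, 0 < ε → whp S fun k ω => (2 : ℝ) ^ (-(ε * N k) - e k) ≤ |c k ω|)
    (hX : Bdd S X) (h1 : Kn S Z (sm c X) j') (hl : ∀ k, j k + e k ≤ j' k) : Kn S Z X j := by
  refine asyc_gen (fun k => (Nat.le_add_right _ _).trans ((hl k).trans (hj k))) h1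
    (F := sm (fun k ω => (c k ω)⁻¹) (dq N j' (sm c X)))
    (DetS.map2 hc.left (det_dq j' (sm c X)).right fun _ (a : ℝ) (b : ι → ℝ) => a⁻¹ • b) hX ?_
  intro c0 hc0
  refine ((hs (c0 / 2) (by linarith)).and (small_dq h1.bdd j' (c0 / 2) (by linarith))).mono
    (Eventually.of_forall fun k ω _ h => ?_)
  obtain ⟨h2, h3⟩ := h
  have hp : (0 : ℝ) < 2 ^ (-(c0 / 2 * N k) - e k) := Real.rpow_pos_of_pos two_pos _
  have hc1 : 0 < |c k ω| := hp.trans_le h2
  have e1 : (X - sm (fun k ω => (c k ω)⁻¹) (dq N j' (sm c X))) k ω =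
      (c k ω)⁻¹ • (sm c X - dq N j' (sm c X)) k ω := by
    simp [sm, smul_sub, smul_smul, inv_mul_cancel₀ (abs_pos.1 hc1)]
  rw [e1, norm_smul, norm_inv, Real.norm_eq_abs, inv_mul_le_iff₀ hc1]
  refine h3.trans (le_trans ?_ (mul_le_mul_of_nonneg_right h2 (Real.rpow_pos_of_pos two_pos _).le))
  rw [← Real.rpow_add two_pos]
  refine Real.rpow_le_rpow_of_exponent_le one_le_two ?_
  have : (j k : ℝ) + e k ≤ j' k := by exact_mod_cast hl k
  linarith

theorem Kn.H_le (h1 : Kn S Z X j0) (hl : ∀ k, j0 k ≤ j k) :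
    Le N (H S (Q N j X) Z) fun k => Fintype.card ι * ((j k : ℝ) - j0 k) := by
  exact Le.lin h1.kw fun k => by linarith [asyc_step (S := S) (Z := Z) (X := X) hl k]

/-- vectors supported in `I` -/
theorem Kn.H_le_supp (h1 : Kn S Z X j0) (hl : ∀ k, j0 k ≤ j k) (I : Finset ι)
    (hI : ∀ k ω, ∀ i ∉ I, X k ω i = 0) :
    Le N (H S (Q N j X) Z) fun k => I.card * ((j k : ℝ) - j0 k) := by
  let X' : VV Ω (I → ℝ) := fun k ω i => X k ω i
  have d1 : DetS S (Q N j0 X') (Q N j0 X) := fun k ω _ ω' _ h => funext fun i => congrFun h i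
  have d2 : DetS S (Q N j X) (Q N j X') := fun k ω _ ω' _ h => funext fun i => by
    by_cases hi : i ∈ I
    · exact congrFun h ⟨i, hi⟩
    · simp only [Q, hI k ω i hi, hI k ω' i hi]
  have hb : Bdd S X' := Small.dom h1.bdd 1 fun k ω _ => by
    rw [one_mul]
    exact (pi_norm_le_iff_of_nonneg (norm_nonneg _)).2 fun i => norm_le_pi_norm (X k ω) i
  have h2 : Kn S Z X' j0 := ⟨hb, d1.kw.trans h1.kw⟩
  refine (h2.H_le hl).lin fun k => ?_
  rw [Fintype.card_coe]
  linarith [H_mono (S := S) (W := Z) (Y := Z) d2.left (DetS.refl _) k]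

/-- maximal entropy passes to events (`res_ge`) -/
theorem res_full (h0 : pos S A) (hj : Lv N j) (h1 : Kn S Z X j0) (hl : ∀ k, j0 k ≤ j k)
    (h2 : Le N (fun k => Fintype.card ι * ((j k : ℝ) - j0 k)) (H S (Q N j X) Z)) :
    Le N (fun k => Fintype.card ι * ((j k : ℝ) - j0 k)) (H (S.res A) (Q N j X) Z) := by
  exact res_ge h0 (tame_Q hj X) h2 fun B hB => (h1.res hB).H_le hl

/-- maximal entropy passes to lower levels -/
theorem full_lev (hl : ∀ k, j' k ≤ j k) {f : ℕ → ℝ} (h2 : Le N f (H S (Q N j X) Z)) :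
    Le N (fun k => f k - Fintype.card ι * ((j k : ℝ) - j' k)) (H S (Q N j' X) Z) := by
  exact h2.lin fun k => by linarith [asyc_step (S := S) (Z := Z) (X := X) hl k]

/-- A uniform variable is not small: on the event `|u| ≤ 2 ^ (-c N)` the entropy would drop
(`res_full`). -/
theorem unif_not_small {u : VV Ω ℝ} (hj : Lv N j) (hb : Big N fun k => j k) (hu : Bdd S u)
    (h : Le N (fun k => j k) (H S (Q N j (sc u)) Z)) {c : ℝ} (hc : 0 < c) :
    whp S fun k ω => (2 : ℝ) ^ (-(c * N k)) ≤ |u k ω| := by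
  rcases pos_or_whp S (fun k ω => |u k ω| < (2 : ℝ) ^ (-(c * N k))) with h0 | h0
  swap
  · exact h0.mono (Eventually.of_forall fun k ω _ h => not_lt.1 h)
  exfalso
  have hu' : Bdd S (sc u) := small_sc.2 hu
  have h1 := res_full h0 hj (Kn.zero hu' Z) (fun k => Nat.zero_le _)
    (h.lin fun k => by simp)
  let b : ℕ → ℕ := fun k => min (j k) ⌊c * N k⌋₊
  have hs : Small (S.res fun k ω => |u k ω| < (2 : ℝ) ^ (-(c * N k))) (sc u) b := by
    refine small_sc.2 (Small.of_whp ((res_whp_self h0).mono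
      (Eventually.of_forall fun k ω _ h => ?_)))
    have a1 : (b k : ℝ) ≤ c * N k :=
      (Nat.cast_le.2 (min_le_right _ _)).trans (Nat.floor_le (by positivity))
    have a2 : (2 : ℝ) ^ (-(c * N k)) ≤ 1 / 2 ^ b k := by
      rw [one_div, ← Real.rpow_natCast, ← Real.rpow_neg two_pos.le]
      exact Real.rpow_le_rpow_of_exponent_le one_le_two (by linarith)
    have a3 : (1 : ℝ) / 2 ^ b k ≤ 8 / 2 ^ b k :=
      div_le_div_of_nonneg_right (by norm_num) (by positivity)
    exact h.le.trans (a2.trans a3)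
  have h2 := (Kn.of_small (fun k => (min_le_left _ _).trans (hj k)) hs Z).H_le (j := j)
    fun k => min_le_left _ _
  have hb' : Big N fun k => b k := by
    obtain ⟨c1, hc1, h3⟩ := hb
    refine ⟨min c1 (c / 2), lt_min hc1 (by linarith), ?_⟩
    have h4 : ∀ᶠ k in UF, 2 / c ≤ (N k : ℝ) :=
      (tendsto_natCast_atTop_atTop.comp S.big).eventually_ge_atTop _
    filter_upwards [h3, h4] with k a1 a2
    have a0 : (0 : ℝ) ≤ N k := Nat.cast_nonneg _
    rw [div_le_iff₀ hc] at a2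
    simp only [b, Nat.cast_min]
    refine le_min ((mul_le_mul_of_nonneg_right (min_le_left _ _) a0).trans a1)
      ((mul_le_mul_of_nonneg_right (min_le_right _ _) a0).trans ?_)
    have := Nat.lt_floor_add_one (c * N k)
    linarith
  exact hb'.not_le S.big one_pos ((h1.trans h2).lin fun k => by simp [b])

/-- Powers of a uniform variable are uniform: `u` is known at level `j` from `u ^ m` and its sign,
since `|u - u'| * |u| ^ (m - 1) ≤ |u ^ m - u' ^ m|` for equal signs. If `j` is not `Big` there is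
nothing to prove. -/
theorem unif_pow {u : VV Ω ℝ} (hj : Lv N j) (hu : Bdd S u)
    (h : Le N (fun k => j k) (H S (Q N j (sc u)) Z)) {m : ℕ} (hm : 1 ≤ m) :
    Le N (fun k => j k) (H S (Q N j (sc fun k ω => u k ω ^ m)) Z) := by
  rcases big_or_le (N := N) (fun k => (j k : ℝ)) with hb | hb
  swap
  · exact hb.lin fun k => by
      linarith [H_nonneg (S := S) (Q N j (sc fun k ω => u k ω ^ m)) Z k]
  obtain ⟨n, rfl⟩ : ∃ n, m = n + 1 := ⟨m - 1, by omega⟩
  set v : VV Ω ℝ := fun k ω => u k ω ^ (n + 1) with hv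
  have hv' : Bdd S (sc v) := small_sc.2 (asyc_bdd_pow hu (n + 1))
  let A : VV Ω Prop := fun k ω => 0 ≤ u k ω
  let φ : Prop → (Unit → ℝ) → Unit → ℝ := fun a d _ =>
    open Classical in if a then |d ()| ^ (((n + 1 : ℕ) : ℝ)⁻¹) else -|d ()| ^ (((n + 1 : ℕ) : ℝ)⁻¹)
  have hF : DetS S (fun k ω => φ (A k ω) (dq N j (sc v) k ω)) (J A (Q N j (sc v))) :=
    DetS.map2 (DetS.refl A).left (det_dq j (sc v)).right fun _ => φ
  have hs : Small S (sc u - fun k ω => φ (A k ω) (dq N j (sc v) k ω)) j := by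
    intro c hc
    have hc' : 0 < c / (n + 1) := by positivity
    refine ((unif_not_small hj hb hu h hc').and ((small_dq hv' j).coord () _ hc')).mono
      (Eventually.of_forall fun k ω _ h => ?_)
    obtain ⟨h2, h3⟩ := h
    set d := dq N j (sc v) k ω () with hd
    set b := |d| ^ (((n + 1 : ℕ) : ℝ)⁻¹) with hb
    have hb0 : 0 ≤ b := Real.rpow_nonneg (abs_nonneg _) _
    have hb1 : b ^ (n + 1) = |d| := Real.rpow_inv_natCast_pow (abs_nonneg _) (Nat.succ_ne_zero n)
    have h4 : |u k ω ^ (n + 1) - d| ≤ (2 : ℝ) ^ (c / (n + 1) * N k - j k) := h3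
    have h5 := asyc_pow (abs_nonneg (u k ω)) hb0 n
    rw [hb1, ← abs_pow (u k ω) (n + 1)] at h5
    have h6 := h5.trans ((abs_abs_sub_abs_le_abs_sub _ _).trans h4)
    have hp : (0 : ℝ) < 2 ^ (-(c / (n + 1) * N k)) := Real.rpow_pos_of_pos two_pos _
    have h7 := (mul_le_mul_of_nonneg_left (pow_le_pow_left₀ hp.le h2 n) (abs_nonneg _)).trans h6
    rw [← le_div_iff₀ (pow_pos hp n), ← Real.rpow_natCast, ← Real.rpow_mul two_pos.le,
      ← Real.rpow_sub two_pos] at h7
    have e1 : c / (n + 1) * N k - j k - -(c / (n + 1) * N k) * n = c * N k - j k := by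
      field_simp
      ring
    rw [e1] at h7
    refine (pi_norm_le_iff_of_nonneg (Real.rpow_pos_of_pos two_pos _).le).2 fun i => ?_
    refine le_of_eq_of_le ?_ h7
    by_cases h0 : 0 ≤ u k ω
    · have e2 : φ (A k ω) (dq N j (sc v) k ω) i = b := if_pos h0
      rw [abs_of_nonneg h0, ← e2]
      rfl
    · have e2 : φ (A k ω) (dq N j (sc v) k ω) i = -b := if_neg h0
      rw [abs_of_neg (not_le.1 h0), ← abs_neg, neg_sub, sub_neg_eq_add, add_comm, ← sub_neg_eq_add,
        ← e2]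
      rfl
  have h1 := (kn_near hj hF (small_sc.2 hu) hs).mono
    ((Kw.prop A (J (Q N j (sc v)) Z)).pair (Kw.refl _).left)
  exact h.trans (H_kw h1.kw (Kw.refl Z))

end Vale.Agent.P127S
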