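import Vale.Agent.P127S.AsyB

/-! Closure properties of `Kn`. -/

open Real Finset Filter Topology Vale.Agent.P118O

noncomputable section

namespace Vale.Agent.P127S

variable {N : ℕ → ℕ} {Ω α β γ : ℕ → Type} {ι κ : Type} [Fintype ι] [Fintype κ] {S : Sp N Ω}
  {A : VV Ω Prop} {Z : RV Ω α} {Z' : RV Ω β} {X Y : VV Ω (ι → ℝ)} {j j' j0 e : ℕ → ℕ}

theorem asyC0_cl {M x : ℝ} (h : |x| ≤ M) : cl M x = x := by
  unfold cl
  rw [min_eq_right (abs_le.1 h).2, max_eq_right (abs_le.1 h).1]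

theorem asyC0_tr {v : ι → ℝ} {M : ℝ} (h : ‖v‖ ≤ M) : (fun i => cl M (v i)) = v :=
  funext fun i => asyC0_cl ((norm_le_pi_norm v i).trans h)

omit [Fintype ι] in
theorem asyC0_Q (j : ℕ → ℕ) (X : VV Ω (ι → ℝ)) (k : ℕ) :
    Q N j X k = qv (j k) fun ω i => cl (2 ^ N k) (X k ω i) := rfl

theorem asyC0_le {k : ℕ} {ω : Ω k} (h : ‖X k ω‖ ≤ 2 ^ N k) :
    Q N j X k ω = qz (j k) (X k ω) := by
  change qz (j k) (fun i => cl (2 ^ N k) (X k ω i)) = _
  rw [asyC0_tr h]

theorem asyC0_bd (hX : Bdd S X) : whp S fun k ω => ‖X k ω‖ ≤ 2 ^ N k :=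
  (hX 1 one_pos).mono (Eventually.of_forall fun k ω _ h => by simpa using h)

open Classical in
theorem asyC0_cnt {Ω α β : Type} (s : Finset Ω) (X : Ω → α) (Y : Ω → β) (E : Ω → Prop) (ω : Ω) :
    (cnt s X Y E ω : ℝ) ≤ (s.image X).card := by
  unfold cnt
  exact_mod_cast card_le_card (image_subset_image (filter_subset _ _))

theorem Q_eq (hX : Bdd S X) (j : ℕ → ℕ) :
    whp S fun k ω => Q N j X k ω = qz (j k) (X k ω) :=
  (asyC0_bd hX).mono (Eventually.of_forall fun _ _ _ h => asyC0_le h)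

theorem Q_of_le {k : ℕ} {ω : Ω k} (h : ‖X k ω‖ ≤ 2 ^ N k) : Q N j X k ω = qz (j k) (X k ω) :=
  asyC0_le h

theorem Q_congr (h : EqS S X Y) (j : ℕ → ℕ) : EqS S (Q N j X) (Q N j Y) := by
  intro k ω hω
  funext i
  simp only [Q, h k ω hω]

theorem det_Q (h : ∀ k, j k ≤ j' k) (X : VV Ω (ι → ℝ)) : DetS S (Q N j X) (Q N j' X) :=
  fun k => det_qv (h k) fun ω i => cl (2 ^ N k) (X k ω i)

theorem det_Q_self (j : ℕ → ℕ) (X : VV Ω (ι → ℝ)) : DetS S (Q N j X) X := by
  intro k ω _ ω' _ e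
  funext i
  simp only [Q, e]

theorem det_dq (j : ℕ → ℕ) (X : VV Ω (ι → ℝ)) : DetS S (dq N j X) (Q N j X) :=
  fun k _ _ _ _ e => congrArg (cor (j k)) e

theorem det_Q_co (j : ℕ → ℕ) (X : VV Ω (ι → ℝ)) (i : ι) :
    DetS S (Q N j (sc (co X i))) (Q N j X) :=
  fun _ _ _ _ _ e => funext fun _ => congrFun e i

theorem small_dq (hX : Bdd S X) (j : ℕ → ℕ) : Small S (X - dq N j X) j := by
  refine Small.of_whp ((Q_eq hX j).mono (Eventually.of_forall fun k ω _ h => ?_))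
  have e : (X - dq N j X) k ω = X k ω - dz (j k) (X k ω) := by
    change X k ω - cor (j k) (Q N j X k ω) = _
    rw [h]
    rfl
  rw [e]
  refine (dz_close _ _).trans ?_
  gcongr
  norm_num

theorem bdd_dq (hX : Bdd S X) (j : ℕ → ℕ) : Bdd S (dq N j X) :=
  (Small.sub hX (small_dq hX j).bdd).congr (whp.of_all (Eventually.of_forall fun k ω _ => by
    simp))

theorem H_Q (h : ∀ k, j k ≤ j' k) (X : VV Ω (ι → ℝ)) (k : ℕ) :
    H S (Q N j' X) (Q N j X) k ≤ Fintype.card ι * ((j' k : ℝ) - j k) :=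
  ce_qv (S.isP k) (h k) fun ω i => cl (2 ^ N k) (X k ω i)

/-- The basic rule: `ce_event` with the event `‖X - F‖ ≤ 2 ^ (c N - j)` and no truncation,
`cnt_near`, `tame_Q`. -/
theorem kn_near (hj : Lv N j) {F : VV Ω (ι → ℝ)} (hF : DetS S F Z) (hX : Bdd S X)
    (h : Small S (X - F) j) : Kn S Z X j := by
  classical
  refine ⟨hX, fun ε hε => ?_⟩
  obtain ⟨C, hC⟩ := tame_Q (S := S) hj X
  have hd : (0 : ℝ) ≤ Fintype.card ι := Nat.cast_nonneg _
  obtain ⟨c, hc, hcd⟩ : ∃ c : ℝ, 0 < c ∧ Fintype.card ι * c ≤ ε / 3 := by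
    refine ⟨ε / 3 / (Fintype.card ι + 1), by positivity, ?_⟩
    rw [mul_div_assoc', div_le_iff₀ (by positivity)]
    nlinarith
  have hE := (h c hc).and (asyC0_bd hX)
  have h1 : Tendsto (fun k => (1 - ms (S.s k) (S.P k) fun ω =>
      ‖(X - F) k ω‖ ≤ (2 : ℝ) ^ (c * N k - j k) ∧ ‖X k ω‖ ≤ 2 ^ N k) * |C|) UF
      (𝓝 ((1 - 1) * |C|)) := (tendsto_const_nhds.sub hE).mul_const _
  rw [sub_self, zero_mul] at h1
  filter_upwards [hC, h1.eventually_le_const (by positivity : 0 < ε / 3),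
    asyB_ev S (by positivity : 0 < ε / 3) (1 + 2 * Fintype.card ι)] with k hk1 hk2 hk3
  have hP := S.isP k
  have hN : (0 : ℝ) ≤ N k := Nat.cast_nonneg _
  have h2 := ce_event hP (Q N j X k) (Z k) (fun ω =>
      ‖(X - F) k ω‖ ≤ (2 : ℝ) ^ (c * N k - j k) ∧ ‖X k ω‖ ≤ 2 ^ N k)
    (x := Fintype.card ι * (c * N k + 2)) (y := |C| * N k)
    (fun ω hω => cnt_near (j k) (fun ω i => cl (2 ^ N k) (X k ω i)) (F k) (Z k) _ (hF k)
      (by positivity) (fun ω _ hE => by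
        rw [asyC0_tr hE.2, ← asyB_div]
        exact hE.1) hω)
    (fun ω _ => (asyC0_cnt _ _ _ _ _).trans (hk1.trans (Real.rpow_le_rpow_of_exponent_le one_le_two
      (mul_le_mul_of_nonneg_right (le_abs_self C) hN))))
  rw [ms_not hP] at h2
  have h3 := ms_ge_zero hP (fun ω => ¬ (‖(X - F) k ω‖ ≤ (2 : ℝ) ^ (c * N k - j k) ∧
    ‖X k ω‖ ≤ 2 ^ N k))
  rw [ms_not hP] at h3
  set m := ms (S.s k) (S.P k) fun ω =>
    ‖(X - F) k ω‖ ≤ (2 : ℝ) ^ (c * N k - j k) ∧ ‖X k ω‖ ≤ 2 ^ N k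
  have h4 : m * (Fintype.card ι * (c * N k + 2)) ≤ 1 * (Fintype.card ι * (c * N k + 2)) := by
    gcongr
    linarith
  have h5 : (1 - m) * |C| * N k ≤ ε / 3 * N k := by gcongr
  have h6 : Fintype.card ι * c * N k ≤ ε / 3 * N k := by gcongr
  change ce (S.s k) (S.P k) (Q N j X k) (Z k) ≤ 0 + ε * N k
  linarith

theorem Kn.bdd (h : Kn S Z X j) : Bdd S X := h.1

theorem Kn.kw (h : Kn S Z X j) : Kw S (Q N j X) Z := h.2

theorem Kn.self (hX : Bdd S X) (j : ℕ → ℕ) : Kn S (Q N j X) X j :=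
  ⟨hX, Kw.refl _⟩

theorem Kn.of_det (hX : Bdd S X) (h : DetS S X Z) (j : ℕ → ℕ) : Kn S Z X j :=
  ⟨hX, ((det_Q_self j X).trans h).kw⟩

theorem Kn.of_small (hj : Lv N j) (h : Small S X j) (Z : RV Ω α) : Kn S Z X j :=
  kn_near hj (F := 0) (fun _ _ _ _ _ _ => rfl) h.bdd (by rwa [sub_zero])

theorem Kn.zero (hX : Bdd S X) (Z : RV Ω α) : Kn S Z X fun _ => 0 :=
  Kn.of_small (fun _ => Nat.zero_le _) hX Z

theorem Kn.lev (h : Kn S Z X j) (e : ∀ k, j' k ≤ j k) : Kn S Z X j' :=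
  ⟨h.1, (det_Q e X).kw.trans h.2⟩

/-- levels matter only up to `o (N)` -/
theorem Kn.lev' (h : Kn S Z X j) (e : Le N (fun k => j' k) fun k => j k) : Kn S Z X j' := by
  refine ⟨h.1, (det_Q (j' := fun k => max (j k) (j' k)) (fun k => le_max_right _ _) X).kw.trans
    (Kw.trans ?_ h.2)⟩
  intro ε hε
  have hd : (0 : ℝ) ≤ Fintype.card ι := Nat.cast_nonneg _
  obtain ⟨c, hc, hcd⟩ : ∃ c : ℝ, 0 < c ∧ Fintype.card ι * c ≤ ε := by
    refine ⟨ε / (Fintype.card ι + 1), by positivity, ?_⟩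
    rw [mul_div_assoc', div_le_iff₀ (by positivity)]
    nlinarith
  filter_upwards [e c hc] with k hk
  have hN : (0 : ℝ) ≤ N k := Nat.cast_nonneg _
  have h1 := H_Q (S := S) (j := j) (j' := fun k => max (j k) (j' k))
    (fun k => le_max_left _ _) X k
  have h2 : ((max (j k) (j' k) : ℕ) : ℝ) - j k ≤ c * N k := by
    have : 0 ≤ c * N k := by positivity
    rw [Nat.cast_max, sub_le_iff_le_add, max_le_iff]
    constructor <;> linarith
  have h3 : Fintype.card ι * (((max (j k) (j' k) : ℕ) : ℝ) - j k) ≤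
      Fintype.card ι * (c * N k) := by gcongr
  have h4 : Fintype.card ι * c * N k ≤ ε * N k := by gcongr
  linarith

theorem Kn.mono (h : Kn S Z X j) (e : Kw S Z Z') : Kn S Z' X j :=
  ⟨h.1, h.2.trans e⟩

theorem Kn.res (h1 : pos S A) (h : Kn S Z X j) : Kn (S.res A) Z X j :=
  ⟨Small.res h1 h.1, Kw.res h1 h.2⟩

theorem Kn.near (hj : Lv N j) (h : Kn S Z X j) (e : Small S (Y - X) j) : Kn S Z Y j := by
  have hY : Bdd S Y := (Small.add e.bdd h.1).congr
    (whp.of_all (Eventually.of_forall fun k ω _ => by simp))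
  have h1 : Small S (Y - dq N j X) j := (e.add (small_dq h.1 j)).congr
    (whp.of_all (Eventually.of_forall fun k ω _ => by simp))
  exact (kn_near hj (det_dq j X) hY h1).mono h.2

theorem Kn.congr (hj : Lv N j) (h : Kn S Z X j) (e : whp S fun k ω => X k ω = Y k ω) :
    Kn S Z Y j :=
  h.near hj (Small.of_whp (e.mono (Eventually.of_forall fun k ω _ h => by
    have : (Y - X) k ω = 0 := sub_eq_zero.2 h.symm
    rw [this, norm_zero]
    positivity)))

theorem Kn.eqs (h : Kn S Z X j) (e : EqS S X Y) : Kn S Z Y j := by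
  refine ⟨Small.congr h.1 (whp.of_all (Eventually.of_forall e)), ?_⟩
  have h2 := h.2
  unfold Kw at h2 ⊢
  rwa [← H_congr (Q_congr e j) (fun _ _ _ => rfl : EqS S Z Z)]

theorem Kn.add (hj : Lv N j) (h1 : Kn S Z X j) (h2 : Kn S Z Y j) : Kn S Z (X + Y) j := by
  have h3 : Small S (X + Y - (dq N j X + dq N j Y)) j :=
    ((small_dq h1.1 j).add (small_dq h2.1 j)).congr
      (whp.of_all (Eventually.of_forall fun k ω _ => by
        simp only [Pi.add_apply, Pi.sub_apply]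
        abel))
  have h4 : DetS S (dq N j X + dq N j Y) (J (Q N j X) (Q N j Y)) :=
    DetS.map2 (det_dq j X).left (det_dq j Y).right fun _ a b => a + b
  exact (kn_near hj h4 (Small.add h1.1 h2.1) h3).mono (h1.2.pair h2.2)

theorem Kn.sub (hj : Lv N j) (h1 : Kn S Z X j) (h2 : Kn S Z Y j) : Kn S Z (X - Y) j := by
  have h3 : Small S (X - Y - (dq N j X - dq N j Y)) j :=
    ((small_dq h1.1 j).sub (small_dq h2.1 j)).congr
      (whp.of_all (Eventually.of_forall fun k ω _ => by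
        simp only [Pi.sub_apply]
        abel))
  have h4 : DetS S (dq N j X - dq N j Y) (J (Q N j X) (Q N j Y)) :=
    DetS.map2 (det_dq j X).left (det_dq j Y).right fun _ a b => a - b
  exact (kn_near hj h4 (Small.sub h1.1 h2.1) h3).mono (h1.2.pair h2.2)

theorem Kn.neg (hj : Lv N j) (h1 : Kn S Z X j) : Kn S Z (-X) j := by
  have h3 : Small S (-X - -dq N j X) j :=
    (small_dq h1.1 j).neg.congr
      (whp.of_all (Eventually.of_forall fun k ω _ => by
        simp only [Pi.sub_apply, Pi.neg_apply]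
        abel))
  have h4 : DetS S (-dq N j X) (Q N j X) := DetS.map (det_dq j X) fun _ a => -a
  exact (kn_near hj h4 (Small.neg h1.1) h3).mono h1.2

theorem Kn.coord (h1 : Kn S Z X j) (i : ι) : Kn S Z (sc (co X i)) j :=
  ⟨small_sc.2 (Small.coord h1.1 i), (det_Q_co j X i).kw.trans h1.2⟩

theorem Kn.pi (h1 : ∀ i, Kn S Z (sc (co X i)) j) : Kn S Z X j := by
  classical
  refine ⟨Small.pi fun i => small_sc.1 (h1 i).1, ?_⟩
  have key : ∀ t : Finset ι,
      Kw S (fun k ω i => if i ∈ t then Q N j X k ω i else 0 : VV Ω (ι → ℤ)) Z := by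
    intro t
    induction t using Finset.induction_on with
    | empty => exact DetS.kw fun _ _ _ _ _ _ => by simp
    | insert a t _ ih =>
      refine Kw.trans (DetS.kw ?_) ((h1 a).2.pair ih)
      intro k ω _ ω' _ e
      have e1 : Q N j X k ω a = Q N j X k ω' a := congrFun (congrArg Prod.fst e) ()
      have e2 := congrArg Prod.snd e
      funext i
      by_cases hi : i = a
      · simp [hi, e1]
      · have e3 : (if i ∈ t then Q N j X k ω i else 0) = if i ∈ t then Q N j X k ω' i else 0 :=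
          congrFun e2 i
        simpa [hi] using e3
  simpa using key univ

end Vale.Agent.P127S
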