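import Vale.Agent.P127S.AsyC

/-! Sticky configurations of lines, extremal states. -/

open Real Finset Filter Topology Vale.Agent.P118O

noncomputable section

namespace Vale.Agent.P127S

abbrev V3 : Type := Fin 3 → ℝ

abbrev M3 : Type := Fin 3 → Fin 3 → ℝ

variable {N : ℕ → ℕ} {Ω Ω' α β γ δ : ℕ → Type}

/-- matrix times vector -/
def MV (M : VV Ω M3) (X : VV Ω V3) : VV Ω V3 := fun k ω i => ∑ j, M k ω i j * X k ω j

/-- the component transverse to the range of `P` -/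
def ph (P : VV Ω M3) (X : VV Ω V3) : VV Ω V3 := X - MV P X

/-- the coordinates in `I` -/
def msk (I : Finset (Fin 3)) (X : VV Ω V3) : VV Ω V3 := fun k ω i => if i ∈ I then X k ω i else 0

/-- an index where the sup norm is attained -/
def amax (v : V3) : Fin 3 := Classical.choose (Finite.exists_max fun i => |v i|)

/-- projection along `v` -/
def PV (v Y : VV Ω V3) : VV Ω V3 :=
  fun k ω => Y k ω - (Y k ω (amax (v k ω)) / v k ω (amax (v k ω))) • v k ω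

/-- a random line `t ↦ a + t θ` with a random time and side information `C` -/
structure Ln (Ω : ℕ → Type) where
  n : ℕ → ℕ
  κ : ℕ → Type
  C : RV Ω κ
  a : VV Ω V3
  θ : VV Ω V3
  t : VV Ω ℝ

/-- the point on the line -/
def Ln.x (L : Ln Ω) : VV Ω V3 := L.a + sm L.t L.θ

/-- the tube of level `j` -/
def Ln.p (L : Ln Ω) (N j : ℕ → ℕ) : RV Ω fun _ => (Fin 3 → ℤ) × (Fin 3 → ℤ) :=
  J (Q N j L.a) (Q N j L.θ)

/-- pull back -/
def Ln.pull (L : Ln Ω) (m : RV Ω' Ω) : Ln Ω' :=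
  ⟨L.n, L.κ, pl m L.C, pl m L.a, pl m L.θ, pl m L.t⟩

/-- another time on the same line -/
def Ln.wt (L : Ln Ω) (t : VV Ω ℝ) : Ln Ω := ⟨L.n, L.κ, L.C, L.a, L.θ, t⟩

/-- forget the levels above `j` -/
def Ln.cut (L : Ln Ω) (N j : ℕ → ℕ) : Ln Ω := ⟨j, L.κ, L.C, dq N j L.a, dq N j L.θ, L.t⟩

/-- the window of levels between `j1` and `j2`, rescaled -/
def Ln.win (L : Ln Ω) (N j1 j2 : ℕ → ℕ) : Ln Ω :=
  ⟨fun k => j2 k - j1 k, _, J L.C (L.p N j1), sm (up Ω j1) (dq N j2 L.a - dq N j1 L.a),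
    sm (up Ω j1) (dq N j2 L.θ - dq N j1 L.θ), L.t⟩

/-- sticky configuration with side information `D` -/
structure Cfg (S : Sp N Ω) (L : Ln Ω) (D : RV Ω δ) : Prop where
  lv : Lv N L.n
  big : Big N fun k => L.n k
  bd : ∀ k, ∀ ω ∈ S.s k, ‖L.a k ω‖ ≤ 1 ∧ ‖L.θ k ω‖ ≤ 1 ∧ 0 ≤ L.t k ω ∧ L.t k ω < 1
  lat : DetS S (J L.a L.θ) (L.p N L.n)
  dC : DetS S L.C D
  dt : DetS S L.t D
  c1 : ∀ i : ℕ → ℕ, (∀ k, i k ≤ L.n k) → Le N (H S (L.p N i) L.C) fun k => 3 * i k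
  c2 : Le N (fun k => 3 * L.n k) (H S (Q N L.n L.θ) D)
  c3 : Le N (fun k => L.n k) (H S (Q N L.n (sc L.t)) (J (L.p N L.n) L.C))

/-- all configurations have slices of dimension at least `3 - σ` -/
def LB (σ : ℝ) : Prop := ∀ (N : ℕ → ℕ) (Ω δ : ℕ → Type) (S : Sp N Ω) (L : Ln Ω) (D : RV Ω δ),
  Cfg S L D → Le N (fun k => (3 - σ) * L.n k) (H S (Q N L.n L.x) D)

/-- a bounded projection onto a graph over the coordinates in `I`, read off from `D` -/
structure Pj (S : Sp N Ω) (D : RV Ω δ) (P : VV Ω M3) (I : Finset (Fin 3)) : Prop where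
  det : DetS S P D
  bdd : Bdd S P
  col : ∀ k ω i, ∀ j ∉ I, P k ω i j = 0
  one : ∀ k ω, ∀ i ∈ I, ∀ j ∈ I, P k ω i j = if i = j then 1 else 0

/-- a bounded map from the coordinates in `I` to the other ones, read off from `D` -/
structure Mat (S : Sp N Ω) (D : RV Ω δ) (R : VV Ω M3) (I : Finset (Fin 3)) : Prop where
  det : DetS S R D
  bdd : Bdd S R
  col : ∀ k ω i, ∀ j ∉ I, R k ω i j = 0
  row : ∀ k ω, ∀ i ∈ I, ∀ j, R k ω i j = 0

/-- the transverse dimension -/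
def qd (σ : ℝ) (I : Finset (Fin 3)) : ℝ := 3 - σ - I.card

/-- extremal state, saturated along the range of `P` -/
structure St (S : Sp N Ω) (L : Ln Ω) (D : RV Ω δ) (P : VV Ω M3) (I : Finset (Fin 3)) (σ : ℝ) :
    Prop where
  cfg : Cfg S L D
  pj : Pj S D P I
  lb : LB σ
  hσ : 0 < σ
  sat : Le N (H S (Q N L.n (ph P L.x)) D) fun k => qd σ I * L.n k

/-- there is an extremal state saturated in `r` directions -/
def Has (σ : ℝ) (r : ℕ) : Prop := ∃ (N : ℕ → ℕ) (Ω δ : ℕ → Type) (S : Sp N Ω) (L : Ln Ω)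
  (D : RV Ω δ) (P : VV Ω M3) (I : Finset (Fin 3)), St S L D P I σ ∧ I.card = r

/-- larger side information which keeps the directions free above the level `j` -/
structure Cw (S : Sp N Ω) (L : Ln Ω) (D : RV Ω δ) (D' : RV Ω γ) (j : ℕ → ℕ) : Prop where
  det : DetS S D D'
  le : ∀ k, j k ≤ L.n k
  c2 : Le N (fun k => 3 * ((L.n k : ℝ) - j k)) (H S (Q N L.n L.θ) (J D' (L.p N j)))

/-- `W` is known from `U` at all levels up to `n` -/
def KnAll (S : Sp N Ω) (n : ℕ → ℕ) (D : RV Ω δ) (U W : VV Ω V3) : Prop :=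
  ∀ i : ℕ → ℕ, (∀ k, i k ≤ n k) → Kn S (J D (Q N i U)) W i

/-- two extremal states on the same line at nearby times -/
structure PairSt (S : Sp N Ω) (L : Ln Ω) (t2 : VV Ω ℝ) (D1 : RV Ω δ) (D2 : RV Ω γ)
    (P1 P2 : VV Ω M3) (I : Finset (Fin 3)) (σ : ℝ) (b : ℕ → ℕ) : Prop where
  st1 : St S L D1 P1 I σ
  st2 : St S (L.wt t2) D2 P2 I σ
  joint : Le N (fun k => 3 * L.n k) (H S (Q N L.n L.θ) (J D1 D2))
  hb : ∀ k, b k ≤ L.n k
  close : ∀ k, ∀ ω ∈ S.s k, |t2 k ω - L.t k ω| ≤ 1 / 2 ^ b k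
  unif : Le N (fun k => (L.n k : ℝ) - b k) (H S (Q N L.n (sc t2)) (J (L.p N L.n) D1))

/-- the rescaled time difference -/
def dT (L : Ln Ω) (t2 : VV Ω ℝ) (b : ℕ → ℕ) : VV Ω ℝ := fun k ω => 2 ^ b k * (t2 k ω - L.t k ω)

/-- state with a first order relation -/
structure St2 (S : Sp N Ω) (L : Ln Ω) (D : RV Ω δ) (P : VV Ω M3) (I : Finset (Fin 3)) (σ : ℝ)
    (B : VV Ω M3) : Prop where
  st : St S L D P I σ
  mat : Mat S D B I
  rel : KnAll S L.n D (ph P L.x) (ph P L.θ - MV B L.x)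

/-- state with a first and a second order relation -/
structure St3 (S : Sp N Ω) (L : Ln Ω) (D : RV Ω δ) (P : VV Ω M3) (I : Finset (Fin 3)) (σ : ℝ)
    (B B2 : VV Ω M3) : Prop where
  st2 : St2 S L D P I σ B
  mat : Mat S D B2 I
  rel : KnAll S L.n D (ph P L.x) (MV B L.θ + MV B2 L.x)

end Vale.Agent.P127S
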