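import Vale.Agent.P127S.Ess

/-! Saturation of a sum of nearly independent increments. -/

open Real Finset Vale.Agent.P118O

noncomputable section

namespace Vale.Agent.P127S

/-- the saturation property of the window `L` with offset `M` -/
def SatP (ε ν : ℝ) (M L : ℕ) : Prop :=
  ∀ {Ω α β ι : Type} [Fintype ι] (s : Finset Ω) (p : Ω → ℝ) (Cn : Ω → β)
    (u : Ω → Fin (4 ^ L) → α) (A : β → Fin (4 ^ L) → Finset α) (Q : β → Fin (4 ^ L) → α → ℝ)
    (ξ : β → Fin (4 ^ L) → α → ι → ℝ) (m : β → ι → ℝ) (S : Ω → ι → ℝ) (j : ℕ),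
    IsP s p → Fintype.card ι ≤ 2 →
    (∀ ω ∈ s, ∀ r, u ω r ∈ A (Cn ω) r) →
    (∀ ω ∈ s, ∀ r, (∀ a ∈ A (Cn ω) r, 0 < Q (Cn ω) r a) ∧ ∑ a ∈ A (Cn ω) r, Q (Cn ω) r a = 1) →
    (∀ ω ∈ s, ∀ r, ∀ a ∈ A (Cn ω) r, ‖ξ (Cn ω) r a‖ ≤ 4 / 2 ^ (j + L + M)) →
    (∀ ω ∈ s, ‖S ω - m (Cn ω) - ∑ r, ξ (Cn ω) r (u ω r)‖ ≤ 8 / 2 ^ (j + L + M)) →
    ex s p (fun ω => ∑ r, -Real.logb 2 (Q (Cn ω) r (u ω r))) - ce s p u Cn ≤ 1 →
    (∀ r, ms s p (fun ω => ¬ Spr (A (Cn ω) r) (Q (Cn ω) r) (ξ (Cn ω) r) (ν / 2 ^ (j + L + M))) ≤ ε) →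
    Fintype.card ι * (1 - 4 * ε) * L ≤ ce s p (qv (j + L) S) (qv j S)

open Classical in
theorem satL_mass {α ι κ : Type} [Fintype ι] [Fintype κ] {ν : ℝ} (hν : 0 < ν) {M L j : ℕ}
    (h1 : 0 ≤ Real.logb 2 (3 / ν) + M) (h4 : Real.exp (-4 ^ M / 64) ≤ 1 / 4 ^ L)
    (hι : Fintype.card ι ≤ 2) (A : κ → Finset α) (Q : κ → α → ℝ) (hQ : ∀ r, IsP (A r) (Q r))
    (ξ : κ → α → ι → ℝ) (hξ : ∀ r, ∀ a ∈ A r, ‖ξ r a‖ ≤ 4 / 2 ^ (j + L + M)) (act : Finset κ)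
    (hact : ∀ r ∈ act, Spr (A r) (Q r) (ξ r) (ν / 2 ^ (j + L + M)))
    (hc : (4 : ℝ) ^ L / 2 ≤ act.card) (m : ι → ℝ) (z : ι → ℤ) (T : Finset (κ → α))
    (hT : ∀ u ∈ T, u ∈ Fintype.piFinset A ∧ qz (j + L) (m + ∑ r, ξ r (u r)) = z) :
    ∑ u ∈ T, ∏ r, Q r (u r) ≤
      Real.exp (-((Fintype.card ι * (L - M - Real.logb 2 (3 / ν)) - 4) * Real.log 2)) := by
  rcases T.eq_empty_or_nonempty with rfl | ⟨u0, hu0⟩
  · rw [Finset.sum_empty]
    exact (Real.exp_pos _).le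
  have hK : (0 : ℝ) < act.card := lt_of_lt_of_le (by positivity) hc
  have hne : act.Nonempty := Finset.card_pos.1 (by exact_mod_cast hK)
  have h5 := esseen hι A Q hQ ξ (R := 1 / 2 ^ (j + L)) (by positivity) (by positivity)
    (by positivity) hξ act hact hne (∑ r, ξ r (u0 r))
  refine le_trans (le_trans (Finset.sum_le_sum_of_subset_of_nonneg (fun u hu => ?_)
    fun u hu _ => Finset.prod_nonneg fun r _ =>
      (hQ r).1 _ (Fintype.mem_piFinset.1 (Finset.mem_filter.1 hu).1 r)) h5) ?_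
  · refine Finset.mem_filter.2 ⟨(hT u hu).1, ?_⟩
    have h6 := qz_close ((hT u hu).2.trans (hT u0 hu0).2.symm)
    rwa [add_sub_add_left_eq_sub] at h6
  have hl : Real.log 2 ≠ 0 := (Real.log_pos one_lt_two).ne'
  have e1 : Real.exp (Real.log 2 * (Real.logb 2 (3 / ν) + M)) = 3 / ν * 2 ^ M := by
    rw [mul_add, Real.exp_add, Real.logb, mul_div_cancel₀ _ hl, Real.exp_log (by positivity),
      mul_comm (Real.log 2), Real.exp_nat_mul, Real.exp_log two_pos]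
  have e2 : 1 ≤ 3 / ν * 2 ^ M := by
    rw [← e1]
    exact Real.one_le_exp (mul_nonneg (Real.log_pos one_lt_two).le h1)
  have e3 : Real.exp (-((Fintype.card ι * (L - M - Real.logb 2 (3 / ν)) - 4) * Real.log 2)) =
      16 * (3 / ν * 2 ^ M / 2 ^ L) ^ Fintype.card ι := by
    have e4 : (2 : ℝ) ^ L = Real.exp (L * Real.log 2) := by
      rw [Real.exp_nat_mul, Real.exp_log two_pos]
    have e5 : (16 : ℝ) = Real.exp ((4 : ℕ) * Real.log 2) := by
      rw [Real.exp_nat_mul, Real.exp_log two_pos]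
      norm_num
    rw [← e1, e4, e5, ← Real.exp_sub, ← Real.exp_nat_mul, ← Real.exp_add]
    congr 1
    push_cast
    ring
  have e6 : (4 : ℝ) ^ L = (2 ^ L) ^ 2 := by
    rw [← pow_mul, mul_comm, pow_mul]
    norm_num
  have e7 : 2 / 3 * (2 : ℝ) ^ L ≤ √act.card := by
    refine Real.le_sqrt_of_sq_le ?_
    rw [mul_pow, ← e6]
    have : (0 : ℝ) < 4 ^ L := by positivity
    linarith
  have e8 : 2 * (1 / 2 ^ (j + L)) / (ν / 2 ^ (j + L + M) * √act.card) ≤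
      3 / ν * 2 ^ M / 2 ^ L := by
    refine (div_le_div_of_nonneg_left (by positivity) (by positivity)
      (mul_le_mul_of_nonneg_left e7 (by positivity))).trans (le_of_eq ?_)
    rw [pow_add 2 (j + L) M]
    field_simp
  have e9 : -(1 / 2 ^ (j + L) / (4 / 2 ^ (j + L + M)) : ℝ) ^ 2 / 4 = -4 ^ M / 64 := by
    have e10 : (4 : ℝ) ^ M = (2 ^ M) ^ 2 := by
      rw [← pow_mul, mul_comm, pow_mul]
      norm_num
    rw [pow_add 2 (j + L) M, e10]
    field_simp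
    norm_num
  have e11 : 1 / (4 : ℝ) ^ L ≤ (3 / ν * 2 ^ M / 2 ^ L) ^ Fintype.card ι := by
    have e12 : (1 : ℝ) / 2 ^ L ≤ 1 := by
      rw [div_le_one (by positivity)]
      exact one_le_pow₀ one_le_two
    calc 1 / (4 : ℝ) ^ L = (1 / 2 ^ L) ^ 2 := by rw [e6, div_pow, one_pow]
      _ ≤ (1 / 2 ^ L) ^ Fintype.card ι := pow_le_pow_of_le_one (by positivity) e12 hι
      _ ≤ _ := pow_le_pow_left₀ (by positivity) (div_le_div_of_nonneg_right e2 (by positivity)) _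
  have e13 := pow_le_pow_left₀ (by positivity) e8 (Fintype.card ι)
  have e14 : (0 : ℝ) ≤ (3 / ν * 2 ^ M / 2 ^ L) ^ Fintype.card ι := by positivity
  rw [e9, e3]
  linarith

open Classical in
theorem satL_low {Ω α β ι κ : Type} [Fintype ι] [Fintype κ] {ε ν : ℝ} (hν : 0 < ν) {M L j : ℕ}
    (h1 : 0 ≤ Real.logb 2 (3 / ν) + M) (h4 : Real.exp (-4 ^ M / 64) ≤ 1 / 4 ^ L)
    (hκ : Fintype.card κ = 4 ^ L) {s : Finset Ω} {p : Ω → ℝ} (Cn : Ω → β)
    (u : Ω → κ → α) (A : β → κ → Finset α) (Q : β → κ → α → ℝ)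
    (ξ : β → κ → α → ι → ℝ) (m : β → ι → ℝ) (h : IsP s p) (hι : Fintype.card ι ≤ 2)
    (hu : ∀ ω ∈ s, ∀ r, u ω r ∈ A (Cn ω) r)
    (hQ : ∀ ω ∈ s, ∀ r, (∀ a ∈ A (Cn ω) r, 0 < Q (Cn ω) r a) ∧
      ∑ a ∈ A (Cn ω) r, Q (Cn ω) r a = 1)
    (hξ : ∀ ω ∈ s, ∀ r, ∀ a ∈ A (Cn ω) r, ‖ξ (Cn ω) r a‖ ≤ 4 / 2 ^ (j + L + M))
    (hKL : ex s p (fun ω => -Real.logb 2 (∏ r, Q (Cn ω) r (u ω r))) - ce s p u Cn ≤ 1)
    (hS : ∀ r, ms s p (fun ω =>
      ¬ Spr (A (Cn ω) r) (Q (Cn ω) r) (ξ (Cn ω) r) (ν / 2 ^ (j + L + M))) ≤ ε)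
    (hx : 0 ≤ Fintype.card ι * (L - M - Real.logb 2 (3 / ν)) - 4) :
    (1 - 2 * ε) * (Fintype.card ι * (L - M - Real.logb 2 (3 / ν)) - 4) - 1 ≤
      ce s p (qv (j + L) fun ω => m (Cn ω) + ∑ r, ξ (Cn ω) r (u ω r)) Cn := by
  obtain ⟨x, hxe⟩ : ∃ x : ℝ, x = Fintype.card ι * (L - M - Real.logb 2 (3 / ν)) - 4 := ⟨_, rfl⟩
  obtain ⟨N, hN⟩ : ∃ N : β → ℝ, N = fun c => ∑ r,
    if ¬ Spr (A c r) (Q c r) (ξ c r) (ν / 2 ^ (j + L + M)) then (1 : ℝ) else 0 := ⟨_, rfl⟩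
  have hP : ∀ ω ∈ s, ∀ r, IsP (A (Cn ω) r) (Q (Cn ω) r) := fun ω hω r =>
    ⟨fun a ha => ((hQ ω hω r).1 a ha).le, (hQ ω hω r).2⟩
  have hl : 0 < Real.log 2 := Real.log_pos one_lt_two
  have hK : (0 : ℝ) < 4 ^ L := by positivity
  have a1 : ex s p (fun ω => N (Cn ω)) ≤ 4 ^ L * ε := by
    have a2 : ex s p (fun ω => N (Cn ω)) = ∑ r, ms s p (fun ω =>
        ¬ Spr (A (Cn ω) r) (Q (Cn ω) r) (ξ (Cn ω) r) (ν / 2 ^ (j + L + M))) := by
      simp only [ex, ms, hN, Finset.mul_sum, Finset.sum_filter]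
      rw [Finset.sum_comm]
      refine Finset.sum_congr rfl fun r _ => Finset.sum_congr rfl fun ω _ => ?_
      split_ifs <;> simp
    rw [a2]
    refine (Finset.sum_le_sum fun r _ => hS r).trans (le_of_eq ?_)
    rw [Finset.sum_const, Finset.card_univ, hκ, nsmul_eq_mul]
    push_cast
    rfl
  have a3 : ms s p (fun ω => 4 ^ L / 2 ≤ N (Cn ω)) ≤ 2 * ε := by
    have a4 := markov h (f := fun ω => N (Cn ω)) (c := 4 ^ L / 2) (fun ω _ _ => by
      rw [hN]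
      exact Finset.sum_nonneg fun r _ => by split_ifs <;> norm_num)
    refine le_of_mul_le_mul_right ((a4.trans a1).trans (le_of_eq ?_)) (half_pos hK)
    ring
  have a5 := push h u Cn (fun c w => qz (j + L) (m c + ∑ r, ξ c r (w r)))
    (fun c w => ∏ r, Q c r (w r)) (fun c => if 4 ^ L / 2 ≤ N c then 0 else x * Real.log 2)
    (fun c => Fintype.piFinset (A c)) (fun ω hω => Fintype.mem_piFinset.2 (hu ω hω))
    (fun ω hω w hw => Finset.prod_pos fun r _ =>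
      (hQ ω hω r).1 _ (Fintype.mem_piFinset.1 hw r)) (fun ω hω z => by
      beta_reduce
      split_ifs with hg
      · rw [neg_zero, Real.exp_zero]
        refine (Finset.sum_le_sum_of_subset_of_nonneg (@Finset.filter_subset _ _ (_) _)
          fun w hw _ => Finset.prod_nonneg fun r _ =>
            (hP ω hω r).1 _ (Fintype.mem_piFinset.1 hw r)).trans (le_of_eq ?_)
        rw [← Finset.prod_univ_sum]
        exact Finset.prod_eq_one fun r _ => (hP ω hω r).2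
      · rw [hxe]
        refine satL_mass hν h1 h4 hι _ _ (hP ω hω) _ (hξ ω hω)
          (Finset.univ.filter fun r =>
            Spr (A (Cn ω) r) (Q (Cn ω) r) (ξ (Cn ω) r) (ν / 2 ^ (j + L + M)))
          (fun r hr => (Finset.mem_filter.1 hr).2) ?_ (m (Cn ω)) z _
          fun w hw => (@Finset.mem_filter _ _ (_) _ _).1 hw
        have a6 := Finset.card_filter_add_card_filter_not (s := Finset.univ) fun r =>
          Spr (A (Cn ω) r) (Q (Cn ω) r) (ξ (Cn ω) r) (ν / 2 ^ (j + L + M))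
        rw [Finset.card_univ, hκ] at a6
        have a7 := congrArg (fun n : ℕ => (n : ℝ)) a6
        simp only [hN, Finset.sum_boole] at hg
        push_cast at a7
        linarith [not_le.1 hg])
  have a8 : ∑ ω ∈ s, p ω * (if 4 ^ L / 2 ≤ N (Cn ω) then 0 else x * Real.log 2) =
      ms s p (fun ω => ¬ 4 ^ L / 2 ≤ N (Cn ω)) * (x * Real.log 2) := by
    simp only [ms, Finset.sum_filter, Finset.sum_mul]
    refine Finset.sum_congr rfl fun ω _ => ?_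
    split_ifs <;> simp
  have a9 : ∑ ω ∈ s, p ω * (-Real.log (∏ r, Q (Cn ω) r (u ω r))) =
      ex s p (fun ω => -Real.logb 2 (∏ r, Q (Cn ω) r (u ω r))) * Real.log 2 := by
    simp only [ex, Finset.sum_mul]
    refine Finset.sum_congr rfl fun ω _ => ?_
    rw [Real.logb]
    field_simp
  have a10 : cent s p u Cn = ce s p u Cn * Real.log 2 := by
    rw [ce, div_mul_cancel₀ _ hl.ne']
  beta_reduce at a5
  rw [a8, a9, a10, ms_not h] at a5
  rw [← hxe] at hx ⊢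
  rw [ce, le_div_iff₀ hl]
  refine le_trans ?_ a5
  have a11 := mul_le_mul_of_nonneg_right a3 (mul_nonneg hx hl.le)
  have a12 := mul_le_mul_of_nonneg_right hKL hl.le
  linarith

open Classical in
theorem satL_up {Ω α β ι κ : Type} [Fintype ι] [Fintype κ] {ε : ℝ} {M L j : ℕ}
    (hM : 4 ≤ M) (h2 : 4 ≤ (2 * M - 5) * ε)
    (hκ : Fintype.card κ = 4 ^ L) {s : Finset Ω} {p : Ω → ℝ} (Cn : Ω → β)
    (u : Ω → κ → α) (A : β → κ → Finset α) (Q : β → κ → α → ℝ)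
    (ξ : β → κ → α → ι → ℝ) (m : β → ι → ℝ) (S : Ω → ι → ℝ) (h : IsP s p)
    (hι : Fintype.card ι ≤ 2) (hu : ∀ ω ∈ s, ∀ r, u ω r ∈ A (Cn ω) r)
    (hQ : ∀ ω ∈ s, ∀ r, (∀ a ∈ A (Cn ω) r, 0 < Q (Cn ω) r a) ∧
      ∑ a ∈ A (Cn ω) r, Q (Cn ω) r a = 1)
    (hξ : ∀ ω ∈ s, ∀ r, ∀ a ∈ A (Cn ω) r, ‖ξ (Cn ω) r a‖ ≤ 4 / 2 ^ (j + L + M))
    (hS : ∀ ω ∈ s, ‖S ω - m (Cn ω) - ∑ r, ξ (Cn ω) r (u ω r)‖ ≤ 8 / 2 ^ (j + L + M))
    (hKL : ex s p (fun ω => -Real.logb 2 (∏ r, Q (Cn ω) r (u ω r))) - ce s p u Cn ≤ 1) :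
    ce s p (qv j S) Cn ≤ 1 + Fintype.card ι * 3 + ε / 2 * (Fintype.card ι * (L + 2)) := by
  have hP : ∀ ω ∈ s, ∀ r, IsP (A (Cn ω) r) (Q (Cn ω) r) := fun ω hω r =>
    ⟨fun a ha => ((hQ ω hω r).1 a ha).le, (hQ ω hω r).2⟩
  have hM' : (4 : ℝ) ≤ M := by exact_mod_cast hM
  have hd : (Fintype.card ι : ℝ) ≤ 2 := by exact_mod_cast hι
  have hM2 : (16 : ℝ) ≤ 2 ^ M := by
    calc (16 : ℝ) = 2 ^ 4 := by norm_num
      _ ≤ 2 ^ M := pow_le_pow_right₀ one_le_two hM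
  have hL1 : (1 : ℝ) ≤ 2 ^ L := one_le_pow₀ one_le_two
  have e6 : (4 : ℝ) ^ L = (2 ^ L) ^ 2 := by
    rw [← pow_mul, mul_comm, pow_mul]
    norm_num
  obtain ⟨B, hB⟩ : ∃ B : β → (κ → α) → Prop, B = fun c w =>
    1 / 2 ^ j < ‖∑ r, ξ c r (w r) - ∑ r, ∑ a ∈ A c r, Q c r a • ξ c r a‖ := ⟨_, rfl⟩
  have b1 := kl_event h u Cn (fun c w => ∏ r, Q c r (w r)) (fun c => Fintype.piFinset (A c))
    (fun ω hω => Fintype.mem_piFinset.2 (hu ω hω))
    (fun ω hω w hw => Finset.prod_pos fun r _ => (hQ ω hω r).1 _ (Fintype.mem_piFinset.1 hw r))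
    (fun ω hω => by
      rw [← Finset.prod_univ_sum]
      exact (Finset.prod_eq_one fun r _ => (hP ω hω r).2).le) B (x := 2 * M - 5) (by linarith)
    (fun ω hω => by
      have b2 := cheb (A (Cn ω)) (Q (Cn ω)) (hP ω hω) (ξ (Cn ω)) (R := 1 / 2 ^ j)
        (by positivity) (hξ ω hω)
      refine le_trans (le_trans (Finset.sum_le_sum_of_subset_of_nonneg (fun w hw => ?_)
        fun w hw _ => Finset.prod_nonneg fun r _ =>
          (hP ω hω r).1 _ (Fintype.mem_piFinset.1 (Finset.mem_filter.1 hw).1 r)) b2) ?_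
      · have b3 := Finset.mem_filter.1 hw
        rw [hB] at b3
        exact Finset.mem_filter.2 b3
      have b4 : (2 : ℝ) ^ (-(2 * (M : ℝ) - 5)) = 32 / (2 ^ M) ^ 2 := by
        have b5 : -(2 * (M : ℝ) - 5) = ((5 : ℕ) : ℝ) - ((M * 2 : ℕ) : ℝ) := by
          push_cast
          ring
        rw [b5, Real.rpow_sub two_pos, Real.rpow_natCast, Real.rpow_natCast, pow_mul]
        norm_num
      have b6 : (Fintype.card ι : ℝ) * Fintype.card κ * (4 / 2 ^ (j + L + M)) ^ 2 /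
          (1 / 2 ^ j) ^ 2 = Fintype.card ι * (16 / (2 ^ M) ^ 2) := by
        rw [hκ, pow_add, pow_add]
        push_cast
        rw [e6]
        field_simp
        norm_num
      rw [b4, b6]
      refine (mul_le_mul_of_nonneg_right hd (by positivity)).trans (le_of_eq ?_)
      ring)
  have b7 : ms s p (fun ω => B (Cn ω) (u ω)) ≤ ε / 2 := by
    refine le_of_mul_le_mul_right (b1.trans ?_) (show (0 : ℝ) < 2 * M - 5 by linarith)
    linarith
  have b8 : (8 : ℝ) / 2 ^ (j + L + M) ≤ 1 / 2 ^ j := by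
    rw [pow_add, pow_add, div_le_div_iff₀ (by positivity) (by positivity), one_mul, mul_assoc,
      mul_comm]
    exact mul_le_mul_of_nonneg_left (by nlinarith) (by positivity)
  have b9 := ce_event h (qv j S) Cn (fun ω => ¬ B (Cn ω) (u ω))
    (x := Fintype.card ι * (1 + 2)) (y := Fintype.card ι * (L + 2))
    (fun ω hω => cnt_near j S
      (fun ω => m (Cn ω) + ∑ r, ∑ a ∈ A (Cn ω) r, Q (Cn ω) r a • ξ (Cn ω) r a) Cn _
      (fun ω _ ω' _ e => by simp only [e]) zero_le_one (fun ω hω hE => by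
        rw [hB] at hE
        have c1 := not_lt.1 hE
        have c2 := norm_add_le (S ω - m (Cn ω) - ∑ r, ξ (Cn ω) r (u ω r))
          (∑ r, ξ (Cn ω) r (u ω r) - ∑ r, ∑ a ∈ A (Cn ω) r, Q (Cn ω) r a • ξ (Cn ω) r a)
        rw [sub_add_sub_cancel, sub_sub] at c2
        have c3 := hS ω hω
        have c4 : (2 : ℝ) ^ (1 : ℝ) / 2 ^ j = 1 / 2 ^ j + 1 / 2 ^ j := by
          rw [Real.rpow_one]
          ring
        rw [c4]
        linarith) hω)
    (fun ω hω => cnt_near j S (fun ω => m (Cn ω)) Cn _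
      (fun ω _ ω' _ e => by simp only [e]) (Nat.cast_nonneg L) (fun ω hω _ => by
        have c1 : ‖∑ r, ξ (Cn ω) r (u ω r)‖ ≤ 4 ^ L * (4 / 2 ^ (j + L + M)) := by
          refine (norm_sum_le _ _).trans
            ((Finset.sum_le_sum fun r _ => hξ ω hω r _ (hu ω hω r)).trans (le_of_eq ?_))
          rw [Finset.sum_const, Finset.card_univ, hκ, nsmul_eq_mul]
          push_cast
          rfl
        have c2 := norm_add_le (S ω - m (Cn ω) - ∑ r, ξ (Cn ω) r (u ω r))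
          (∑ r, ξ (Cn ω) r (u ω r))
        rw [sub_add_cancel] at c2
        have c3 := hS ω hω
        have c4 : (8 : ℝ) / 2 ^ (j + L + M) + 4 ^ L * (4 / 2 ^ (j + L + M)) ≤ 2 ^ L / 2 ^ j := by
          have c5 : (8 : ℝ) / 2 ^ (j + L + M) + 4 ^ L * (4 / 2 ^ (j + L + M)) =
              (8 + 4 * (2 ^ L) ^ 2) / (2 ^ L * 2 ^ M) / 2 ^ j := by
            rw [pow_add, pow_add, e6]
            field_simp
          rw [c5]
          refine div_le_div_of_nonneg_right ?_ (by positivity)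
          rw [div_le_iff₀ (by positivity)]
          have c6 : (1 : ℝ) ≤ (2 ^ L) ^ 2 := one_le_pow₀ hL1
          nlinarith
        rw [Real.rpow_natCast]
        linarith) hω)
  simp only [not_not] at b9
  have b10 : ms s p (fun ω => ¬ B (Cn ω) (u ω)) ≤ 1 := by
    rw [ms_not h]
    linarith [ms_ge_zero h fun ω => B (Cn ω) (u ω)]
  have b11 := mul_le_mul_of_nonneg_right b10
    (show (0 : ℝ) ≤ Fintype.card ι * (1 + 2) by positivity)
  have b12 := mul_le_mul_of_nonneg_right b7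
    (show (0 : ℝ) ≤ Fintype.card ι * (L + 2) by positivity)
  linarith

theorem satL_core {ε ν : ℝ} (hε : 0 < ε) (hε1 : ε ≤ 1 / 4) (hν : 0 < ν) {M L : ℕ}
    (hM : 4 ≤ M) (h1 : |Real.logb 2 (3 / ν)| ≤ M) (h2 : 4 ≤ (2 * M - 5) * ε)
    (h3 : M + |Real.logb 2 (3 / ν)| + 12 ≤ ε * L) (h4 : Real.exp (-4 ^ M / 64) ≤ 1 / 4 ^ L) :
    SatP ε ν M L := by
  intro Ω α β ι _ s p Cn u A Q ξ m S j h hι hu hQ hξ hS hKL hSp
  rcases Nat.eq_zero_or_pos (Fintype.card ι) with h0 | h0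
  · rw [h0, Nat.cast_zero, zero_mul, zero_mul]
    exact ce_nonneg h _ _
  have hd : (1 : ℝ) ≤ Fintype.card ι := by exact_mod_cast h0
  have hM' : (4 : ℝ) ≤ M := by exact_mod_cast hM
  have hL0 : (0 : ℝ) ≤ L := Nat.cast_nonneg L
  have hlg := abs_le.1 (le_refl |Real.logb 2 (3 / ν)|)
  have hab := abs_nonneg (Real.logb 2 (3 / ν))
  have hεL : ε * L ≤ L / 4 := by nlinarith
  have hKL' : ex s p (fun ω => -Real.logb 2 (∏ r, Q (Cn ω) r (u ω r))) - ce s p u Cn ≤ 1 := by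
    refine le_trans (le_of_eq ?_) hKL
    congr 1
    refine Finset.sum_congr rfl fun ω hω => ?_
    beta_reduce
    rw [Real.logb_prod _ _ fun r _ => ((hQ ω hω r).1 _ (hu ω hω r)).ne', Finset.sum_neg_distrib]
  have hκ : Fintype.card (Fin (4 ^ L)) = 4 ^ L := Fintype.card_fin _
  have hx : 0 ≤ Fintype.card ι * (L - M - Real.logb 2 (3 / ν)) - 4 := by
    have := mul_le_mul_of_nonneg_right hd (show 0 ≤ L - M - Real.logb 2 (3 / ν) by linarith)
    linarith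
  have k1 := satL_low hν (by linarith) h4 hκ Cn u A Q ξ m h hι hu hQ hξ hKL' hSp hx
  have k2 := satL_up hM h2 hκ Cn u A Q ξ m S h hι hu hQ hξ hS hKL'
  have k3 := ce_le_add h (qv (j + L) fun ω => m (Cn ω) + ∑ r, ξ (Cn ω) r (u ω r))
    (qv (j + L) S) Cn
  have k4 := ce_near h (j + L) (fun ω => m (Cn ω) + ∑ r, ξ (Cn ω) r (u ω r))
    (fun ω i => (qv (j + L) S ω i : ℝ) / 2 ^ (j + L)) (pj (qv (j + L) S) Cn)
    (fun ω _ ω' _ e => by simp only [show qv (j + L) S ω = qv (j + L) S ω' from congrArg Prod.fst e])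
    zero_le_one (fun ω hω => by
      have c1 : ‖S ω - fun i => (qv (j + L) S ω i : ℝ) / 2 ^ (j + L)‖ ≤ 1 / 2 ^ (j + L) := by
        refine qz_close (funext fun i => ?_)
        simp only [qv, qz]
        rw [mul_div_cancel₀ _ (by positivity), Int.floor_intCast]
      have c2 := norm_sub_le (S ω - fun i => (qv (j + L) S ω i : ℝ) / 2 ^ (j + L))
        (S ω - m (Cn ω) - ∑ r, ξ (Cn ω) r (u ω r))
      rw [sub_sub (S ω) (m (Cn ω)), sub_sub_sub_cancel_left, ← sub_sub] at c2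
      have c3 := hS ω hω
      have c4 : (8 : ℝ) / 2 ^ (j + L + M) ≤ 1 / 2 ^ (j + L) := by
        rw [pow_add 2 (j + L), div_le_div_iff₀ (by positivity) (by positivity), one_mul, mul_comm]
        refine mul_le_mul_of_nonneg_left ?_ (by positivity)
        calc (8 : ℝ) ≤ 2 ^ 4 := by norm_num
          _ ≤ 2 ^ M := pow_le_pow_right₀ one_le_two hM
      have c5 : (2 : ℝ) ^ (1 : ℝ) / 2 ^ (j + L) = 1 / 2 ^ (j + L) + 1 / 2 ^ (j + L) := by
        rw [Real.rpow_one]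
        ring
      rw [c5]
      linarith)
  have k5 := ce_le_add h (qv (j + L) S) (qv j S) Cn
  have k6 : ce s p (qv (j + L) S) (pj (qv j S) Cn) ≤ ce s p (qv (j + L) S) (qv j S) :=
    ce_mono h (fun ω _ ω' _ e => congrArg Prod.fst e) fun ω _ ω' _ e => congrArg Prod.fst e
  obtain ⟨d, hde⟩ : ∃ d : ℝ, d = Fintype.card ι := ⟨_, rfl⟩
  obtain ⟨g, hg⟩ : ∃ g : ℝ, g = Real.logb 2 (3 / ν) := ⟨_, rfl⟩
  rw [← hde] at k1 k2 k4 hd ⊢
  rw [← hg] at k1 hlg hab h1 h3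
  have k7 : d * (M + |g| + 12) ≤ d * (ε * L) := mul_le_mul_of_nonneg_left h3 (by linarith)
  have k8 : d * g ≤ d * |g| := mul_le_mul_of_nonneg_left hlg.2 (by linarith)
  have k9 : 0 ≤ ε * (d * (M + g)) := mul_nonneg hε.le (mul_nonneg (by linarith) (by linarith))
  have k10 : ε * (d * 2) ≤ ε * (d * L) :=
    mul_le_mul_of_nonneg_left (mul_le_mul_of_nonneg_left (by linarith) (by linarith)) hε.le
  linarith

/-- Good conditioning values: at least half of the steps are spread (probability `≥ 1 - 2 ε` by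
Markov). `push` with `f c u = qz (j + L) (m c + ∑ ξ)`, the product kernel and `esseen`
(`R = 1 / 2 ^ (j + L)`, `ρ = 4 / 2 ^ (j + L + M)`) gives `ce f Cn ≥ (1 - 2 ε) x - 1` with
`x = d (L - M - logb (3 / ν)) - C` as soon as `exp (-4 ^ M / 64) ≤ 4 ^ (-L)`; `ce_near` compares
`f` with `qv (j + L) S`. `kl_event` and `cheb` (radius `1 / 2 ^ j`, mass `≤ 32 / 4 ^ M`) and
`ce_event` give `ce (qv j S) Cn ≤ 1 + 3 d + (2 / (2 M - 5)) d (L + 5)`. Finally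
`ce (S[j+L]) (S[j]) ≥ ce (S[j+L]) Cn - ce (S[j]) Cn`. Take `L = 4 ^ M / 100` with `M` large. -/
theorem satL {ε ν : ℝ} (hε : 0 < ε) (hε1 : ε ≤ 1 / 4) (hν : 0 < ν) (L0 : ℕ) :
    ∃ M L : ℕ, L0 ≤ L ∧ SatP ε ν M L := by
  obtain ⟨N, hN⟩ := exists_nat_ge (L0 + |Real.logb 2 (3 / ν)| + 16 + 3 / ε)
  have hab := abs_nonneg (Real.logb 2 (3 / ν))
  have h0 : (0 : ℝ) ≤ L0 := Nat.cast_nonneg _
  have h1 : 0 < 3 / ε := by positivity
  have h2 : 3 ≤ N * ε := by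
    rw [← div_le_iff₀ hε]
    linarith
  have h3 : (N : ℝ) ≤ 2 ^ N := by exact_mod_cast Nat.lt_two_pow_self.le
  have h4 : (4 : ℝ) ^ N = (2 ^ N) ^ 2 := by
    rw [← pow_mul, mul_comm, pow_mul]
    norm_num
  have h5 : (N : ℝ) ^ 2 ≤ 4 ^ N := by
    rw [h4]
    exact pow_le_pow_left₀ (Nat.cast_nonneg N) h3 2
  refine ⟨N + 4, 4 ^ N, ?_, satL_core hε hε1 hν (by omega) ?_ ?_ ?_ ?_⟩
  · have h6 : (L0 : ℝ) ≤ ((4 ^ N : ℕ) : ℝ) := by
      push_cast
      nlinarith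
    exact_mod_cast h6
  · push_cast
    linarith
  · push_cast
    nlinarith
  · push_cast
    have h7 := mul_le_mul_of_nonneg_left h5 hε.le
    have h8 := mul_le_mul_of_nonneg_left h2 (Nat.cast_nonneg (α := ℝ) N)
    nlinarith
  · have h9 : (1 : ℝ) / 4 ^ 4 ^ N = Real.exp (-(((4 ^ N : ℕ) : ℝ) * Real.log 4)) := by
      rw [Real.exp_neg, Real.exp_nat_mul, Real.exp_log (by norm_num), one_div]
    rw [h9]
    refine Real.exp_le_exp.2 ?_
    have h10 : Real.log 4 ≤ 4 - 1 := Real.log_le_sub_one_of_pos (by norm_num)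
    have h11 : (0 : ℝ) < 4 ^ N := by positivity
    push_cast
    rw [pow_add]
    nlinarith

end Vale.Agent.P127S
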