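import Vale.Agent.P127S.ChainA
import Vale.Agent.P127S.SatL

/-! Telescoping and saturation along a chain. -/

open Real Finset Vale.Agent.P118O

noncomputable section

namespace Vale.Agent.P127S

variable {Ω α β γ δ τ κ ι υ ϖ : Type}

open Classical in
theorem Chain_sub {s : Finset Ω} {p : Ω → ℝ} (h : IsP s p) (V : κ → Ω → υ) (Z : Ω → β)
    (I : Finset κ) :
    ce s p (fun ω r => if r ∈ I then some (V r ω) else none) Z ≤ ∑ r ∈ I, ce s p (V r) Z := by
  induction I using Finset.induction_on with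
  | empty =>
    rw [sum_empty, ce_det h]
    intro ω _ ω' _ _
    simp
  | insert a I ha ih =>
    rw [sum_insert ha]
    have h1 : ce s p (fun ω r => if r ∈ insert a I then some (V r ω) else none) Z ≤
        ce s p (pj (V a) (fun ω r => if r ∈ I then some (V r ω) else none)) Z := by
      refine ce_mono h (fun ω _ ω' _ e => ?_) fun _ _ _ _ e => e
      have e1 : V a ω = V a ω' := congrArg (fun z => z.1.1) e
      have e2 : (fun r => if r ∈ I then some (V r ω) else none) =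
          fun r => if r ∈ I then some (V r ω') else none := congrArg (fun z => z.1.2) e
      funext r
      by_cases hr : r = a
      · rw [hr, if_pos (mem_insert_self _ _), if_pos (mem_insert_self _ _), e1]
      · have := congrFun e2 r
        simpa [hr] using this
    rw [ce_chain] at h1
    have h2 : ce s p (fun ω r => if r ∈ I then some (V r ω) else none) (pj (V a) Z) ≤
        ce s p (fun ω r => if r ∈ I then some (V r ω) else none) Z :=
      ce_mono h (fun _ _ _ _ e => congrArg Prod.fst e) fun _ _ _ _ e => congrArg Prod.snd e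
    linarith

theorem Chain_law1 {s : Finset Ω} {p : Ω → ℝ} (h : IsP s p) {Y : Ω → β} {A : Ω → α} {T : Ω → τ}
    {ζ : Ω → γ} {K : ℕ} {sK : Finset (Fin K → Ω × Ω)} {pK : (Fin K → Ω × Ω) → ℝ}
    (hc : StCh s p Y A T ζ K sK pK) (r : Fin K) :
    SameLaw sK pK (fun x => (x r).1) s p (fun ω => ω) :=
  fun f => (hc.law r fun z => f z.1).trans (glue_law1 h _ f)

theorem Chain_law2 {s : Finset Ω} {p : Ω → ℝ} (h : IsP s p) {Y : Ω → β} {A : Ω → α} {T : Ω → τ}
    {ζ : Ω → γ} {K : ℕ} {sK : Finset (Fin K → Ω × Ω)} {pK : (Fin K → Ω × Ω) → ℝ}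
    (hc : StCh s p Y A T ζ K sK pK) (r : Fin K) :
    SameLaw sK pK (fun x => (x r).2) s p (fun ω => ω) :=
  fun f => (hc.law r fun z => f z.2).trans (glue_law2 h _ f)

theorem Chain_all {s : Finset Ω} {p : Ω → ℝ} (h : IsP s p) {Y : Ω → β} {A : Ω → α} {T : Ω → τ}
    {ζ : Ω → γ} {K : ℕ} {sK : Finset (Fin K → Ω × Ω)} {pK : (Fin K → Ω × Ω) → ℝ}
    (hc : StCh s p Y A T ζ K sK pK) (r0 : Fin K) (V : Ω → υ) (W : Ω → ϖ) (c : Ω → κ) :
    ce sK pK (fun x r => V (x r).1) (chC r0 Y W c) ≤ K * ce s p V W := by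
  classical
  have h1 := Chain_sub hc.isP (fun (r : Fin K) (x : Fin K → Ω × Ω) => V (x r).1)
    (chC r0 Y W c) univ
  have h2 : ce sK pK (fun x r => V (x r).1) (chC r0 Y W c) ≤ _ :=
    le_trans (ce_mono hc.isP (fun x _ x' _ e => ?_) fun _ _ _ _ e => e) h1
  · refine h2.trans (le_of_le_of_eq (sum_le_sum (g := fun _ => ce s p V W) fun r _ => ?_) ?_)
    · rw [← ce_law (Chain_law1 h hc r) V W]
      refine ce_mono hc.isP (fun _ _ _ _ e => congrArg Prod.fst e) fun x _ x' _ e => ?_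
      exact congrArg (fun z => (z.2 r).1) e
    · rw [sum_const, card_univ, Fintype.card_fin, nsmul_eq_mul]
  · funext r
    have := congrFun (congrArg Prod.fst e) r
    simpa [pj] using this

theorem Chain_split {s : Finset Ω} {p : Ω → ℝ} (h : IsP s p) (V : Ω → υ) (W : Ω → ϖ)
    (Z : Ω → β) (Z' : Ω → γ) (hW : Det s W V) (h1 : Det s Z' (pj W Z)) (h2 : Det s (pj W Z) Z') :
    ce s p V Z' = ce s p V Z - ce s p W Z := by
  have e1 : ce s p V Z = ce s p (pj W V) Z :=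
    le_antisymm (ce_mono h (fun _ _ _ _ e => congrArg (fun z => z.1.2) e) fun _ _ _ _ e => e)
      (ce_mono h (fun ω a ω' b e => Prod.ext (hW ω a ω' b (congrArg Prod.fst e))
        (congrArg Prod.fst e)) fun _ _ _ _ e => e)
  have e2 : ce s p V Z' = ce s p V (pj W Z) :=
    le_antisymm (ce_mono h (fun _ _ _ _ e => congrArg Prod.fst e) h2)
      (ce_mono h (fun _ _ _ _ e => congrArg Prod.fst e) h1)
  rw [e1, ce_chain, e2]
  ring

theorem Chain_diff {s : Finset Ω} {p : Ω → ℝ} (h : IsP s p) {Y : Ω → β} {A : Ω → α} {T : Ω → τ}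
    {ζ : Ω → γ} {K : ℕ} {sK : Finset (Fin K → Ω × Ω)} {pK : (Fin K → Ω × Ω) → ℝ}
    (hc : StCh s p Y A T ζ K sK pK) (r0 : Fin K) (V : Ω → υ) (W : Ω → ϖ) (c : Ω → κ)
    (hW : Det s W V) :
    K * ce s p V W - ce sK pK (fun x r => V (x r).1) (chC r0 Y W c) =
      (K * ce s p V (nil Ω) - ce sK pK (fun x r => V (x r).1) (chC r0 Y (nil Ω) c)) -
      (K * ce s p W (nil Ω) - ce sK pK (fun x r => W (x r).1) (chC r0 Y (nil Ω) c)) := by
  rw [Chain_split h V W (nil Ω) W hW (fun _ _ _ _ e => congrArg Prod.fst e)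
      (fun _ _ _ _ e => Prod.ext e rfl),
    Chain_split hc.isP (fun x r => V (x r).1) (fun x r => W (x r).1) (chC r0 Y (nil Ω) c)
      (chC r0 Y W c) ?_ ?_ ?_]
  · ring
  · intro x hx x' hx' e
    funext r
    exact hW _ (glue_mem.1 (hc.mem x hx r)).1 _ (glue_mem.1 (hc.mem x' hx' r)).1 (congrFun e r)
  · intro x _ x' _ e
    refine Prod.ext (congrArg (fun z => z.2.1) e) (funext fun r => Prod.ext ?_ ?_)
    · exact congrArg (fun z => z.1 r) e
    · exact congrArg (fun z => (z.2.2 r).2) e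
  · intro x _ x' _ e
    refine Prod.ext (funext fun r => congrArg (fun z => (z.2 r).1) e)
      (Prod.ext (congrArg (fun z => z.1) e) (funext fun r => Prod.ext rfl ?_))
    exact congrArg (fun z => (z.2 r).2) e

/-- Write each window as a sum of single steps
`e k = K ce (X (k+1)) (X k) - ce (all X (k+1)) (all X k, rest) ≥ 0`; the sum of all `e k` is at most
`K ce T nil - ce (all T) rest`; then `stch_ent` with `u = T`. -/
theorem stch_tele {s : Finset Ω} {p : Ω → ℝ} (h : IsP s p) {Y : Ω → β} {A : Ω → α} {T : Ω → τ}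
    {ζ : Ω → γ} {K : ℕ} {sK : Finset (Fin K → Ω × Ω)} {pK : (Fin K → Ω × Ω) → ℝ}
    (hc : StCh s p Y A T ζ K sK pK) (r0 : Fin K) (h0 : r0.val = 0) (X : ℕ → Ω → υ) (c : Ω → κ)
    (hX : ∀ k, Det s (X k) (X (k + 1))) (hT : ∀ k, Det s (X k) T) (hζ : Det s ζ c) (R n : ℕ) :
    (∀ k, ce sK pK (fun x r => X (k + R) (x r).1) (chC r0 Y (X k) c) ≤
      K * ce s p (X (k + R)) (X k)) ∧
    ∑ k ∈ range n, (K * ce s p (X (k + R)) (X k) -
        ce sK pK (fun x r => X (k + R) (x r).1) (chC r0 Y (X k) c)) ≤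
      R * (K * (ce s p T (nil Ω) - ce s p T (pj Y ζ) + 2 * ce s p c ζ -
        ce s p c (pj T (pj Y ζ)) - ce s p c (stK A T ζ))) := by
  refine ⟨fun k => Chain_all h hc r0 _ _ c, ?_⟩
  have hXR : ∀ k i, Det s (X k) (X (k + i)) := by
    intro k i
    induction i with
    | zero => exact fun _ _ _ _ e => e
    | succ i ih => exact fun ω a ω' b e => ih ω a ω' b (hX (k + i) ω a ω' b e)
  obtain ⟨G, hG⟩ : ∃ G : ℕ → ℝ, ∀ k, G k = K * ce s p (X k) (nil Ω) -
      ce sK pK (fun x r => X k (x r).1) (chC r0 Y (nil Ω) c) := ⟨_, fun _ => rfl⟩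
  have h1 : ∀ k, K * ce s p (X (k + R)) (X k) -
      ce sK pK (fun x r => X (k + R) (x r).1) (chC r0 Y (X k) c) = G (k + R) - G k := by
    intro k
    rw [Chain_diff h hc r0 _ _ c (hXR k R), hG, hG]
  have h2 : ∀ k, 0 ≤ G k := fun k => by
    rw [hG]
    exact sub_nonneg.2 (Chain_all h hc r0 _ _ c)
  have h3 : ∀ k, G k ≤ K * (ce s p T (nil Ω) - ce s p T (pj Y ζ) + 2 * ce s p c ζ -
      ce s p c (pj T (pj Y ζ)) - ce s p c (stK A T ζ)) := by
    intro k
    have a1 := Chain_diff h hc r0 T (X k) c (hT k)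
    have a2 := Chain_all h hc r0 T (X k) c
    have a3 := stch_ent h hc r0 h0 T c (fun _ _ _ _ e => e) hζ
    rw [← hG] at a1
    linarith
  simp only [h1]
  have h4 := Finset.sum_range_add G n R
  have h5 := Finset.sum_range_add G R n
  rw [add_comm R n] at h5
  simp only [add_comm R] at h5
  have h6 : 0 ≤ ∑ i ∈ range R, G i := sum_nonneg fun i _ => h2 i
  have h7 := sum_le_card_nsmul (range R) (fun i => G (n + i)) _ fun i _ => h3 (n + i)
  rw [card_range, nsmul_eq_mul] at h7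
  rw [sum_sub_distrib]
  linarith

theorem Chain_tele {E : Type} [AddCommGroup E] {K : ℕ} (a b : Fin K → E) (r0 rl : Fin K)
    (h0 : r0.val = 0) (hl : rl.val + 1 = K)
    (hab : ∀ r r' : Fin K, r'.val = r.val + 1 → b r = a r') :
    ∑ r, (b r - a r) = b rl - a r0 := by
  obtain ⟨n, rfl⟩ : ∃ n, K = n + 1 := ⟨rl.val, hl.symm⟩
  have e0 : r0 = 0 := Fin.ext h0
  have e1 : rl = Fin.last n := Fin.ext (by simp only [Fin.val_last]; omega)
  rw [sum_sub_distrib, Fin.sum_univ_castSucc b, Fin.sum_univ_succ a, e0, e1,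
    sum_congr rfl fun (i : Fin n) _ => hab i.castSucc i.succ (by simp)]
  abel

theorem Chain_ms {Ω' : Type} {s : Finset Ω} {p : Ω → ℝ} {s' : Finset Ω'} {p' : Ω' → ℝ}
    {W : Ω → γ} {W' : Ω' → γ} (h : SameLaw s p W s' p' W') (E : γ → Prop) :
    ms s p (fun ω => E (W ω)) = ms s' p' (fun ω => E (W' ω)) := by
  classical
  have := h fun b => if E b then 1 else 0
  simpa only [ms, Finset.sum_filter, mul_ite, mul_one, mul_zero] using this

/-- Apply `SatP` on the chain with `S x = Y (x last).2` (same law as `Y`), `Cn = chC r0 Y w c`,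
`m Cn = Y0 + ∑ r, m (w r) (c r) (c' r)`; the increments telescope by `link`. -/
theorem stch_sat {ε ν : ℝ} {M L : ℕ} (hs : SatP ε ν M L) [Fintype ι] (hι : Fintype.card ι ≤ 2)
    {s : Finset Ω} {p : Ω → ℝ} (h : IsP s p) {Y : Ω → ι → ℝ} {A : Ω → α} {T : Ω → τ}
    {ζ : Ω → γ} {sK : Finset (Fin (4 ^ L) → Ω × Ω)} {pK : (Fin (4 ^ L) → Ω × Ω) → ℝ}
    (hc : StCh s p Y A T ζ (4 ^ L) sK pK) (r0 : Fin (4 ^ L)) (h0 : r0.val = 0)
    (u : Ω → υ) (w : Ω → ϖ) (c : Ω → κ) (Au : ϖ → Finset υ) (Q : ϖ → υ → ℝ)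
    (m : ϖ → κ → κ → ι → ℝ) (ξ : ϖ → κ → κ → υ → ι → ℝ) (j : ℕ)
    (hA : ∀ ω ∈ s, u ω ∈ Au (w ω))
    (hQ : ∀ ω ∈ s, (∀ a ∈ Au (w ω), 0 < Q (w ω) a) ∧ ∑ a ∈ Au (w ω), Q (w ω) a = 1)
    (hξ : ∀ ω ∈ s, ∀ ω' ∈ s, stK A T ζ ω = stK A T ζ ω' → ∀ a ∈ Au (w ω),
      ‖ξ (w ω) (c ω) (c ω') a‖ ≤ 4 / 2 ^ (j + L + M))
    (hrel : ∀ ω ∈ s, ∀ ω' ∈ s, stK A T ζ ω = stK A T ζ ω' →
      ‖Y ω' - Y ω - m (w ω) (c ω) (c ω') - ξ (w ω) (c ω) (c ω') (u ω)‖ ≤
        8 / 2 ^ (j + L + M) / 4 ^ L)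
    (hact : ms (glueS s (stK A T ζ) s (stK A T ζ)) (glueP p s p (stK A T ζ))
      (fun x => ¬ Spr (Au (w x.1)) (Q (w x.1)) (ξ (w x.1) (c x.1) (c x.2))
        (ν / 2 ^ (j + L + M))) ≤ ε)
    (hkl : (4 : ℝ) ^ L * ex s p (fun ω => -Real.logb 2 (Q (w ω) (u ω))) -
      ce sK pK (fun x r => u (x r).1) (chC r0 Y w c) ≤ 1) :
    Fintype.card ι * (1 - 4 * ε) * L ≤ ce s p (qv (j + L) Y) (qv j Y) := by
  have hK : 0 < 4 ^ L := by positivity
  obtain ⟨rl, hl⟩ : ∃ rl : Fin (4 ^ L), rl.val + 1 = 4 ^ L :=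
    ⟨⟨4 ^ L - 1, by omega⟩, by simp only; omega⟩
  have hm : ∀ x ∈ sK, ∀ r, (x r).1 ∈ s ∧ (x r).2 ∈ s ∧ stK A T ζ (x r).1 = stK A T ζ (x r).2 :=
    fun x hx r => glue_mem.1 (hc.mem x hx r)
  have key := hs sK pK (chC r0 Y w c) (fun x r => u (x r).1) (fun C r => Au (C.2 r).1)
    (fun C r => Q (C.2 r).1) (fun C r => ξ (C.2 r).1 (C.2 r).2.1 (C.2 r).2.2)
    (fun C => C.1 + ∑ r, m (C.2 r).1 (C.2 r).2.1 (C.2 r).2.2) (fun x => Y (x rl).2) j hc.isP hι
    (fun x hx r => hA _ (hm x hx r).1) (fun x hx r => hQ _ (hm x hx r).1)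
    (fun x hx r => hξ _ (hm x hx r).1 _ (hm x hx r).2.1 (hm x hx r).2.2) ?_ ?_ ?_
  · exact key.trans (le_of_eq
      (ce_law (Chain_law2 h hc rl) (fun ω => qz (j + L) (Y ω)) fun ω => qz j (Y ω)))
  · intro x hx
    have e1 := Chain_tele (fun r => Y (x r).1) (fun r => Y (x r).2) r0 rl h0 hl
      fun r r' e => congrArg Prod.fst (hc.link x hx r r' e)
    have e2 : Y (x rl).2 - (Y (x r0).1 + ∑ r, m (w (x r).1) (c (x r).1) (c (x r).2)) -
        ∑ r, ξ (w (x r).1) (c (x r).1) (c (x r).2) (u (x r).1) =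
        ∑ r, (Y (x r).2 - Y (x r).1 - m (w (x r).1) (c (x r).1) (c (x r).2) -
          ξ (w (x r).1) (c (x r).1) (c (x r).2) (u (x r).1)) := by
      rw [sum_sub_distrib, sum_sub_distrib, e1]
      abel
    change ‖Y (x rl).2 - (Y (x r0).1 + ∑ r, m (w (x r).1) (c (x r).1) (c (x r).2)) -
        ∑ r, ξ (w (x r).1) (c (x r).1) (c (x r).2) (u (x r).1)‖ ≤ _
    rw [e2]
    refine (norm_sum_le _ _).trans ((sum_le_card_nsmul _ _ _ fun r _ =>
      hrel _ (hm x hx r).1 _ (hm x hx r).2.1 (hm x hx r).2.2).trans (le_of_eq ?_))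
    rw [card_univ, Fintype.card_fin, nsmul_eq_mul]
    push_cast
    field_simp
  · refine le_trans (le_of_eq ?_) hkl
    congr 1
    change ∑ x ∈ sK, pK x * ∑ r, -Real.logb 2 (Q (w (x r).1) (u (x r).1)) = _
    simp only [mul_sum]
    rw [sum_comm, sum_congr rfl fun r _ =>
      Chain_law1 h hc r fun ω => -Real.logb 2 (Q (w ω) (u ω)),
      sum_const, card_univ, Fintype.card_fin, nsmul_eq_mul]
    push_cast
    rfl
  · intro r
    exact le_of_eq_of_le (Chain_ms (hc.law r) fun x => ¬ Spr (Au (w x.1)) (Q (w x.1))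
      (ξ (w x.1) (c x.1) (c x.2)) (ν / 2 ^ (j + L + M))) hact

end Vale.Agent.P127S
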