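import Vale.Agent.P127S.FinB

/-! Markov chains of glued pairs. -/

open Real Finset Vale.Agent.P118O

noncomputable section

namespace Vale.Agent.P127S

variable {Ω α β γ δ τ κ ι υ ϖ : Type}

/-- `K` copies of a space, the output of each copy being the input of the next one -/
structure IsChain (s : Finset Ω) (p : Ω → ℝ) (inn out : Ω → β) (K : ℕ)
    (sK : Finset (Fin K → Ω)) (pK : (Fin K → Ω) → ℝ) : Prop where
  isP : IsP sK pK
  mem : ∀ x ∈ sK, ∀ r, x r ∈ s
  law : ∀ r, SameLaw sK pK (fun x => x r) s p (fun ω => ω)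
  link : ∀ x ∈ sK, ∀ r r' : Fin K, r'.val = r.val + 1 → out (x r) = inn (x r')
  entr : ∀ {γ : Type} (V : Ω → γ) (r0 : Fin K), r0.val = 0 →
    K * ce s p V inn ≤ ce sK pK (fun x r => V (x r)) (fun x => inn (x r0))

theorem ChainA_glue_ce {Ω' : Type} {s' : Finset Ω'} {p' : Ω' → ℝ} {s : Finset Ω} {p : Ω → ℝ}
    {S : Ω' → β} {F : Ω → β} (h' : IsP s' p') (h : IsP s p) (hl : SameLaw s' p' S s p F)
    (U : Ω' → α) (V : Ω → γ) (hU : Det s' S U) :
    ce (glueS s' S s F) (glueP p' s p F) (fun x => V x.2) (fun x => U x.1) = ce s p V F := by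
  have h1 := glue_ent h' h hl U V hU
  have h2 : ent (glueS s' S s F) (glueP p' s p F) (fun x => U x.1) = ent s' p' U :=
    SameLaw.ent_eq fun f => glue_fst h' h hl fun ω => f (U ω)
  have h3 : ent (glueS s' S s F) (glueP p' s p F) (fun x => (V x.2, U x.1)) =
      ent (glueS s' S s F) (glueP p' s p F) (fun x => (U x.1, V x.2)) :=
    ent_congr (fun _ _ _ _ e => Prod.ext (Prod.mk.inj e).2 (Prod.mk.inj e).1)
      (fun _ _ _ _ e => Prod.ext (Prod.mk.inj e).2 (Prod.mk.inj e).1)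
  rw [ce, ce, cent, h3, h1, h2, add_sub_cancel_left]

theorem ChainA_move {Ω' : Type} {s : Finset Ω} {p : Ω → ℝ} (h : IsP s p) (e : Ω → Ω')
    (g : Ω' → Ω) (hg : ∀ x, g (e x) = x) :
    ∃ (s' : Finset Ω') (p' : Ω' → ℝ), IsP s' p' ∧ (∀ y ∈ s', ∃ x ∈ s, e x = y) ∧
      SameLaw s' p' (fun y => y) s p e := by
  have hi : Function.Injective e := Function.LeftInverse.injective hg
  have hl : SameLaw (s.map ⟨e, hi⟩) (fun y => p (g y)) (fun y => y) s p e := fun f => by
    rw [Finset.sum_map]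
    exact Finset.sum_congr rfl fun x _ => by simp only [Function.Embedding.coeFn_mk, hg]
  refine ⟨s.map ⟨e, hi⟩, fun y => p (g y), ⟨fun y hy => ?_, ?_⟩, fun y hy => ?_, hl⟩
  · obtain ⟨x, hx, rfl⟩ := Finset.mem_map.1 hy
    simp only [Function.Embedding.coeFn_mk, hg]
    exact h.1 x hx
  · have h1 := hl fun _ => 1
    simp only [mul_one] at h1
    rw [h1, h.2]
  · exact Finset.mem_map.1 hy

theorem ChainA_one {s : Finset Ω} {p : Ω → ℝ} (h : IsP s p) (inn out : Ω → β) :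
    ∃ (sK : Finset (Fin 1 → Ω)) (pK : (Fin 1 → Ω) → ℝ), IsChain s p inn out 1 sK pK := by
  obtain ⟨s', p', h1, h2, h3⟩ := ChainA_move h (fun ω (_ : Fin 1) => ω) (fun y => y 0)
    fun _ => rfl
  refine ⟨s', p', h1, fun y hy r => ?_, fun r f => h3 fun y => f (y r), fun y _ r r' e => ?_,
    fun V r0 _ => ?_⟩
  · obtain ⟨x, hx, rfl⟩ := h2 y hy
    exact hx
  · have := r'.2
    omega
  · have h4 := ce_law h3 (fun y r => V (y r)) (fun y => inn (y r0))
    rw [h4, Nat.cast_one, one_mul]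
    exact ce_mono h (fun _ _ _ _ e => congrFun (Prod.mk.inj e).1 0) fun _ _ _ _ e => e

theorem ChainA_step {s : Finset Ω} {p : Ω → ℝ} (h : IsP s p) {inn out : Ω → β}
    (hl : SameLaw s p inn s p out) {K : ℕ} {sK : Finset (Fin (K + 1) → Ω)}
    {pK : (Fin (K + 1) → Ω) → ℝ} (hc : IsChain s p inn out (K + 1) sK pK) :
    ∃ (sK : Finset (Fin (K + 2) → Ω)) (pK : (Fin (K + 2) → Ω) → ℝ),
      IsChain s p inn out (K + 2) sK pK := by
  classical
  have hl' : SameLaw s p out sK pK (fun x => inn (x 0)) := fun f =>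
    (hl f).symm.trans (hc.law 0 fun ω => f (inn ω)).symm
  have hg := glue_isP h hc.isP hl'
  have hm : ∀ x ∈ glueS s out sK (fun x => inn (x 0)),
      x.1 ∈ s ∧ x.2 ∈ sK ∧ out x.1 = inn (x.2 0) := fun x hx => by
    simpa only [glueS, mem_filter, mem_product, and_assoc] using hx
  obtain ⟨s', p', h1, h2, h3⟩ := ChainA_move hg
    (fun x => (Fin.cons x.1 x.2 : Fin (K + 2) → Ω)) (fun y => (y 0, Fin.tail y))
    fun x => by simp only [Fin.cons_zero, Fin.tail_cons]
  refine ⟨s', p', h1, fun y hy r => ?_, fun r f => ?_, fun y hy r r' e => ?_, fun V r0 e => ?_⟩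
  · obtain ⟨x, hx, rfl⟩ := h2 y hy
    refine Fin.cases ?_ (fun i => ?_) r
    · exact (hm x hx).1
    · exact hc.mem _ (hm x hx).2.1 i
  · refine (h3 fun y => f (y r)).trans ?_
    refine Fin.cases ?_ (fun i => ?_) r
    · exact glue_fst h hc.isP hl' f
    · exact (glue_snd h hc.isP hl' fun x => f (x i)).trans (hc.law i f)
  · obtain ⟨x, hx, rfl⟩ := h2 y hy
    revert e
    refine Fin.cases (fun e => ?_) (fun i' => ?_) r'
    · simp at e
    refine Fin.cases (fun e => ?_) (fun i e => ?_) r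
    · have e1 : i' = 0 := Fin.ext (by simpa using e)
      rw [e1]
      exact (hm x hx).2.2
    · exact hc.link _ (hm x hx).2.1 i i' (by simpa using e)
  · have e1 : r0 = 0 := Fin.ext e
    subst e1
    have h4 := ce_law h3 (fun y r => V (y r)) (fun y => inn (y 0))
    have h5 := ce_chain (s := glueS s out sK (fun x => inn (x 0)))
      (p := glueP p sK pK (fun x => inn (x 0))) (fun x => V x.1) (fun x r => V (x.2 r))
      (fun x => inn x.1)
    have lf : SameLaw (glueS s out sK (fun x => inn (x 0))) (glueP p sK pK (fun x => inn (x 0)))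
        (fun x => x.1) s p (fun ω => ω) := fun f => glue_fst h hc.isP hl' f
    have h6 : ce (glueS s out sK (fun x => inn (x 0))) (glueP p sK pK (fun x => inn (x 0)))
        (fun x => V x.1) (fun x => inn x.1) = ce s p V inn := ce_law lf V inn
    have h7 := ChainA_glue_ce h hc.isP hl' (fun ω => ω) (fun x r => V (x r))
      fun _ _ _ _ e => congrArg out e
    have h8 := ce_mono hg (X := fun x r => V (x.2 r)) (X' := fun x r => V (x.2 r))
      (Y := pj (fun x => V x.1) (fun x => inn x.1)) (Y' := fun x => x.1)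
      (fun _ _ _ _ e => (Prod.mk.inj e).1)
      fun _ _ _ _ e => Prod.ext (congrArg V e) (congrArg inn e)
    have h9 := ce_mono hg (X := pj (fun x => V x.1) (fun x r => V (x.2 r)))
      (X' := fun x r => V ((Fin.cons x.1 x.2 : Fin (K + 2) → Ω) r))
      (Y := fun x => inn x.1) (Y' := fun x => inn x.1)
      (fun _ _ _ _ e => Prod.ext (congrFun (Prod.mk.inj e).1 0)
        (funext fun r => congrFun (Prod.mk.inj e).1 r.succ)) fun _ _ _ _ e => e
    have h10 := hc.entr V 0 rfl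
    refine le_trans ?_ (h9.trans_eq h4.symm)
    push_cast at h10 ⊢
    linarith

/-- Induction on `K`: glue the chain of length `K` (over the output of its last copy) with a new
copy (`glueS`, `glue_isP`, `glue_fst`, `glue_snd`, `glue_ent`) and transport by `Fin.snoc`. -/
theorem chain_ex {s : Finset Ω} {p : Ω → ℝ} (h : IsP s p) (inn out : Ω → β)
    (hl : SameLaw s p inn s p out) (K : ℕ) :
    ∃ (sK : Finset (Fin K → Ω)) (pK : (Fin K → Ω) → ℝ), IsChain s p inn out K sK pK := by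
  rcases K with _ | K
  · exact ⟨{fun r => r.elim0}, fun _ => 1, ⟨fun _ _ => zero_le_one, by simp⟩,
      fun _ _ r => r.elim0, fun r => r.elim0, fun _ _ r => r.elim0, fun _ r => r.elim0⟩
  induction K with
  | zero => exact ChainA_one h inn out
  | succ K ih =>
    obtain ⟨sK, pK, hc⟩ := ih
    exact ChainA_step h hl hc

/-- the label over which one step is glued -/
def stK (A : Ω → α) (T : Ω → τ) (ζ : Ω → γ) : Ω → α × τ × γ := fun ω => (A ω, T ω, ζ ω)

/-- the chain of steps of the system `Y, A, T` with common label `ζ` -/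
def StCh (s : Finset Ω) (p : Ω → ℝ) (Y : Ω → β) (A : Ω → α) (T : Ω → τ) (ζ : Ω → γ) (K : ℕ)
    (sK : Finset (Fin K → Ω × Ω)) (pK : (Fin K → Ω × Ω) → ℝ) : Prop :=
  IsChain (glueS s (stK A T ζ) s (stK A T ζ)) (glueP p s p (stK A T ζ))
    (fun x => (Y x.1, ζ x.1)) (fun x => (Y x.2, ζ x.2)) K sK pK

theorem stch_ex {s : Finset Ω} {p : Ω → ℝ} (h : IsP s p) (Y : Ω → β) (A : Ω → α) (T : Ω → τ)
    (ζ : Ω → γ) (K : ℕ) :
    ∃ (sK : Finset (Fin K → Ω × Ω)) (pK : (Fin K → Ω × Ω) → ℝ), StCh s p Y A T ζ K sK pK := by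
  exact chain_ex (glue_prob h _) _ _ (fun f =>
    (glue_law1 h _ fun ω => f (Y ω, ζ ω)).trans (glue_law2 h _ fun ω => f (Y ω, ζ ω)).symm) K

/-- what is conditioned on in a chain -/
def chC {K : ℕ} (r0 : Fin K) (Y : Ω → β) (w : Ω → ϖ) (c : Ω → κ) :
    (Fin K → Ω × Ω) → β × (Fin K → ϖ × κ × κ) :=
  fun x => (Y (x r0).1, fun r => (w (x r).1, c (x r).1, c (x r).2))

theorem ChainA_sub {s : Finset Ω} {p : Ω → ℝ} (h : IsP s p) (Y : Ω → β) {K : ℕ}
    (W : Fin K → Ω → α) : ce s p (fun x r => W r x) Y ≤ ∑ r, ce s p (W r) Y := by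
  induction K with
  | zero =>
    rw [Fin.sum_univ_zero]
    exact (ce_det h fun _ _ _ _ _ => funext fun r => r.elim0).le
  | succ K ih =>
    have h1 := ih fun r => W r.succ
    have h2 := ce_chain (s := s) (p := p) (W 0) (fun x (r : Fin K) => W r.succ x) Y
    have h3 := ce_mono h (X := fun x r => W r x) (X' := pj (W 0) fun x (r : Fin K) => W r.succ x)
      (Y := Y) (Y' := Y) (fun _ _ _ _ e => funext fun r => by
        have e1 := Prod.mk.inj (Prod.mk.inj e).1
        exact Fin.cases e1.1 (fun i => congrFun e1.2 i) r) fun _ _ _ _ e => e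
    have h4 := ce_mono h (X := fun x (r : Fin K) => W r.succ x)
      (X' := fun x (r : Fin K) => W r.succ x) (Y := Y) (Y' := pj (W 0) Y)
      (fun _ _ _ _ e => (Prod.mk.inj e).1) fun _ _ _ _ e => (Prod.mk.inj e).2
    rw [Fin.sum_univ_succ]
    linarith

theorem ChainA_const {s : Finset Ω} {p : Ω → ℝ} {Y : Ω → β} {A : Ω → α} {T : Ω → τ}
    {ζ : Ω → γ} {K : ℕ} {sK : Finset (Fin K → Ω × Ω)} {pK : (Fin K → Ω × Ω) → ℝ}
    (hc : StCh s p Y A T ζ K sK pK) (r0 : Fin K) (h0 : r0.val = 0) {x : Fin K → Ω × Ω}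
    (hx : x ∈ sK) (r : Fin K) : ζ (x r).1 = ζ (x r0).1 ∧ ζ (x r).2 = ζ (x r0).1 := by
  have h1 : ∀ r, ζ (x r).1 = ζ (x r).2 := fun r =>
    (Prod.mk.inj (Prod.mk.inj (glue_mem.1 (hc.mem x hx r)).2.2).2).2
  have h2 : ∀ n (hn : n < K), ζ (x ⟨n, hn⟩).1 = ζ (x r0).1 := fun n => by
    induction n with
    | zero => exact fun hn => by rw [show (⟨0, hn⟩ : Fin K) = r0 from Fin.ext h0.symm]
    | succ n ih =>
      intro hn
      have h3 := (Prod.mk.inj (hc.link x hx ⟨n, by omega⟩ ⟨n + 1, hn⟩ rfl)).2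
      rw [← h3, ← h1, ih]
  exact ⟨h2 r.1 r.2, (h1 r).symm.trans (h2 r.1 r.2)⟩

theorem ChainA_low {s : Finset Ω} {p : Ω → ℝ} (h : IsP s p) (F : Ω → δ) (Y : Ω → β) {T : Ω → τ}
    (ζ : Ω → γ) {u : Ω → υ} (c : Ω → κ) (hu : Det s u T) :
    ce s p u (pj Y ζ) + ce s p c (pj T (pj Y ζ)) + ce s p c F ≤
      ce (glueS s F s F) (glueP p s p F) (fun x => ((u x.1, c x.1), c x.2))
        (fun x => (Y x.1, ζ x.1)) := by
  have hg := glue_prob h F
  have b1 : ce (glueS s F s F) (glueP p s p F) (fun x => ((u x.1, c x.1), c x.2))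
      (fun x => (Y x.1, ζ x.1)) = _ :=
    ce_chain (fun x : Ω × Ω => (u x.1, c x.1)) (fun x => c x.2) (fun x => (Y x.1, ζ x.1))
  have b2 : ce (glueS s F s F) (glueP p s p F) (fun x => (u x.1, c x.1))
      (fun x => (Y x.1, ζ x.1)) = ce s p (pj u c) (pj Y ζ) :=
    ce_law (glue_law1 h F) (pj u c) (pj Y ζ)
  have b3 := ce_chain (s := s) (p := p) u c (pj Y ζ)
  have b4 := ce_mono h (X := c) (X' := c) (Y := pj u (pj Y ζ)) (Y' := pj T (pj Y ζ))
    (fun _ _ _ _ e => (Prod.mk.inj e).1)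
    fun a ha b hb e => Prod.ext (hu a ha b hb (Prod.mk.inj e).1) (Prod.mk.inj e).2
  have b5 := glue_ce h F (fun ω => ω) c fun _ _ _ _ e => congrArg F e
  have b6 := ce_mono hg (X := fun x => c x.2) (X' := fun x => c x.2)
    (Y := pj (fun x => (u x.1, c x.1)) (fun x => (Y x.1, ζ x.1))) (Y' := fun x => x.1)
    (fun _ _ _ _ e => (Prod.mk.inj e).1) fun a _ b _ e =>
      congrArg (fun ω => ((u ω, c ω), (Y ω, ζ ω))) e
  rw [b1, b2, b3]
  exact add_le_add (add_le_add le_rfl b4) (b5.symm.le.trans b6)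

theorem ChainA_up {s : Finset Ω} {p : Ω → ℝ} (h : IsP s p) {Y : Ω → β} {A : Ω → α} {T : Ω → τ}
    {ζ : Ω → γ} {K : ℕ} {sK : Finset (Fin K → Ω × Ω)} {pK : (Fin K → Ω × Ω) → ℝ}
    (hc : StCh s p Y A T ζ K sK pK) (r0 : Fin K) (h0 : r0.val = 0) (c : Ω → κ) (r : Fin K) :
    ce sK pK (fun x => (c (x r).1, c (x r).2)) (fun x => (Y (x r0).1, ζ (x r0).1)) ≤
      2 * ce s p c ζ := by
  have l1 : SameLaw sK pK (fun x => (x r).1) s p (fun ω => ω) := fun f =>
    (hc.law r fun y => f y.1).trans (glue_law1 h (stK A T ζ) f)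
  have l2 : SameLaw sK pK (fun x => (x r).2) s p (fun ω => ω) := fun f =>
    (hc.law r fun y => f y.2).trans (glue_law2 h (stK A T ζ) f)
  have d1 : ce sK pK (fun x => (c (x r).1, c (x r).2)) (fun x => (Y (x r0).1, ζ (x r0).1)) = _ :=
    ce_chain (fun x : Fin K → Ω × Ω => c (x r).1) (fun x => c (x r).2)
      (fun x => (Y (x r0).1, ζ (x r0).1))
  have d2 : ce sK pK (fun x => c (x r).1) (fun x => ζ (x r).1) = ce s p c ζ := ce_law l1 c ζ
  have d3 : ce sK pK (fun x => c (x r).2) (fun x => ζ (x r).2) = ce s p c ζ := ce_law l2 c ζ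
  have d4 := ce_mono hc.isP (X := fun x => c (x r).1) (X' := fun x => c (x r).1)
    (Y := fun x => ζ (x r).1) (Y' := fun x => (Y (x r0).1, ζ (x r0).1))
    (fun _ _ _ _ e => (Prod.mk.inj e).1) fun a ha b hb e =>
      (ChainA_const hc r0 h0 ha r).1.trans
        ((Prod.mk.inj e).2.trans (ChainA_const hc r0 h0 hb r).1.symm)
  have d5 := ce_mono hc.isP (X := fun x => c (x r).2) (X' := fun x => c (x r).2)
    (Y := fun x => ζ (x r).2)
    (Y' := pj (fun x => c (x r).1) (fun x => (Y (x r0).1, ζ (x r0).1)))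
    (fun _ _ _ _ e => (Prod.mk.inj e).1) fun a ha b hb e =>
      (ChainA_const hc r0 h0 ha r).2.trans
        ((Prod.mk.inj (Prod.mk.inj e).2).2.trans (ChainA_const hc r0 h0 hb r).2.symm)
  rw [d1, two_mul]
  exact add_le_add (d4.trans_eq d2) (d5.trans_eq d3)

/-- `entr` for `V x = (u x.1, c x.1, c x.2)`; the entropy of all `c`'s given the input is at most
`2 K ce c ζ` because `ζ` is the same along the chain; `glue_ce`. -/
theorem stch_ent {s : Finset Ω} {p : Ω → ℝ} (h : IsP s p) {Y : Ω → β} {A : Ω → α} {T : Ω → τ}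
    {ζ : Ω → γ} {K : ℕ} {sK : Finset (Fin K → Ω × Ω)} {pK : (Fin K → Ω × Ω) → ℝ}
    (hc : StCh s p Y A T ζ K sK pK) (r0 : Fin K) (h0 : r0.val = 0) (u : Ω → υ) (c : Ω → κ)
    (hu : Det s u T) (hζ : Det s ζ c) :
    K * (ce s p u (pj Y ζ) + ce s p c (pj T (pj Y ζ)) + ce s p c (stK A T ζ) - 2 * ce s p c ζ) ≤
      ce sK pK (fun x r => u (x r).1) (chC r0 Y (nil Ω) c) := by
  have a0 : (K : ℝ) * ce (glueS s (stK A T ζ) s (stK A T ζ)) (glueP p s p (stK A T ζ))
      (fun x => ((u x.1, c x.1), c x.2)) (fun x => (Y x.1, ζ x.1)) ≤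
      ce sK pK (fun x r => ((u (x r).1, c (x r).1), c (x r).2))
        (fun x => (Y (x r0).1, ζ (x r0).1)) :=
    hc.entr (fun x => ((u x.1, c x.1), c x.2)) r0 h0
  have c1 := ce_le_add hc.isP (fun x r => ((u (x r).1, c (x r).1), c (x r).2))
    (fun x r => (c (x r).1, c (x r).2)) (fun x => (Y (x r0).1, ζ (x r0).1))
  have c2 := ce_mono hc.isP (X := fun x r => ((u (x r).1, c (x r).1), c (x r).2))
    (X' := fun x r => u (x r).1) (Y := chC r0 Y (nil Ω) c)
    (Y' := pj (fun x r => (c (x r).1, c (x r).2)) (fun x => (Y (x r0).1, ζ (x r0).1)))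
    (fun a _ b _ e => funext fun r => by
      have e1 := congrFun (Prod.mk.inj e).1 r
      have e2 := Prod.mk.inj (congrFun (Prod.mk.inj (Prod.mk.inj e).2).1 r)
      exact Prod.ext (Prod.ext e1 e2.1) e2.2)
    fun a _ b _ e => Prod.ext (Prod.mk.inj (Prod.mk.inj e).2).1
      (funext fun r => Prod.ext rfl (congrFun (Prod.mk.inj e).1 r))
  have c3 := ChainA_sub hc.isP (fun x => (Y (x r0).1, ζ (x r0).1))
    fun r x => (c (x r).1, c (x r).2)
  have c5 := Finset.sum_le_card_nsmul univ _ _ fun r _ => ChainA_up h hc r0 h0 c r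
  rw [card_univ, Fintype.card_fin, nsmul_eq_mul] at c5
  have k1 := mul_le_mul_of_nonneg_left (ChainA_low h (stK A T ζ) Y ζ c hu) (Nat.cast_nonneg K)
  have k2 := (k1.trans a0).trans (c1.trans (add_le_add (c3.trans c5) c2))
  rw [mul_sub]
  exact sub_le_iff_le_add'.2 k2

end Vale.Agent.P127S
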