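import Vale.Agent.P127S.FinB
import Vale.Agent.P118O.UnifA

/-! Uniformisation. -/

open Real Finset Vale.Agent.P118O

noncomputable section

namespace Vale.Agent.P127S

theorem Unf_lin {ε : ℝ} (hε : 0 < ε) {a b : ℝ} (hb : 0 ≤ b) :
    ∃ n0 : ℕ, ∀ n ≥ n0, a * n + b ≤ (2 : ℝ) ^ (ε * n) := by
  have hk : 0 < Real.log 2 * ε := mul_pos (log_pos one_lt_two) hε
  obtain ⟨n0, hn0⟩ := exists_nat_ge (2 * (a + b) / (Real.log 2 * ε) ^ 2)
  refine ⟨n0 + 1, fun n hn => ?_⟩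
  have h1 : (n0 : ℝ) + 1 ≤ n := by exact_mod_cast hn
  have h0 : (0 : ℝ) ≤ n0 := Nat.cast_nonneg _
  rw [div_le_iff₀ (by positivity)] at hn0
  rw [rpow_def_of_pos two_pos, ← mul_assoc]
  refine le_trans ?_ (quadratic_le_exp_of_nonneg (by positivity))
  generalize Real.log 2 * ε = k at hk hn0
  have h2 : 2 * (a + b) ≤ n * k ^ 2 := hn0.trans (by gcongr; linarith)
  have h3 : 2 * (a + b) * n ≤ n * k ^ 2 * n := by gcongr
  have h4 : b ≤ b * n := le_mul_of_one_le_right hb (by linarith)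
  have h5 : 0 ≤ k * n := by positivity
  nlinarith

theorem Unf_ms {Ω : Type} {s S0 : Finset Ω} (hS : S0 ⊆ s) (p : Ω → ℝ) (E : Ω → Prop) :
    ms S0 p E = ms s p (fun x => x ∈ S0 ∧ E x) := by
  classical
  unfold ms
  refine sum_congr ?_ fun _ _ => rfl
  ext x
  simp only [mem_filter]
  exact ⟨fun h => ⟨hS h.1, h⟩, fun h => h.2⟩

theorem Unf_cnt {Ω α β : Type} [DecidableEq α] (s : Finset Ω) (X : Ω → α) (Y : Ω → β) (ω : Ω)
    (t : Finset Ω) (ht : ∀ x ∈ t, x ∈ s ∧ Y x = Y ω) :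
    (t.image X).card ≤ cnt s X Y (fun _ => True) ω := by
  classical
  refine card_le_card fun a ha => ?_
  obtain ⟨x, hx, rfl⟩ := mem_image.1 ha
  simp only [mem_image, mem_filter]
  exact ⟨x, ⟨(ht x hx).1, (ht x hx).2, trivial⟩, rfl⟩

theorem Unf_exp {d : ℕ} (hd : d ≤ 2) (j : ℕ) :
    (2 : ℝ) ^ ((d : ℝ) * ((j : ℝ) + 2)) ≤ ((2 ^ (2 * j + 4) : ℕ) : ℝ) := by
  have h1 : (d : ℝ) ≤ 2 := by exact_mod_cast hd
  push_cast
  rw [← rpow_natCast]
  refine rpow_le_rpow_of_exponent_le one_le_two ?_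
  push_cast
  nlinarith [(Nat.cast_nonneg j : (0 : ℝ) ≤ j)]

theorem Unf_num {c : ℝ} (hc : 0 < c) : ∃ m : ℕ, 0 < m ∧ ∃ n0 : ℕ, ∀ n ≥ n0,
    1 / (2 : ℝ) ^ n ≤ c ∧
    ((1 + (2 * ((n / m + 1) * m) + 4 + n + 1) * (2 * m + 4 + 2) ^ (n / m + 1) : ℕ) : ℝ) ≤
      (2 : ℝ) ^ (c * n) := by
  have hc2 : 0 < c / 2 := half_pos hc
  obtain ⟨m0, hm0⟩ := Unf_lin hc2 (a := 2) (b := 6) (by norm_num)
  have hm := hm0 (m0 + 1) (Nat.le_succ _)
  set m := m0 + 1
  have hmp : 0 < m := Nat.succ_pos _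
  obtain ⟨n1, hn1⟩ := Unf_lin hc2 (a := 3 * (2 : ℝ) ^ (c / 2 * m))
    (b := (2 * m + 6) * (2 : ℝ) ^ (c / 2 * m)) (by positivity)
  obtain ⟨n2, hn2⟩ := exists_pow_lt_of_lt_one hc (by norm_num : (1 / 2 : ℝ) < 1)
  refine ⟨m, hmp, max n1 n2, fun n hn => ⟨?_, ?_⟩⟩
  · rw [← one_div_pow]
    exact (pow_le_pow_of_le_one (by norm_num) (by norm_num) (le_of_max_le_right hn)).trans hn2.le
  have h1 : (n / m + 1) * m ≤ n + m := by
    rw [add_mul, one_mul]
    exact Nat.add_le_add_right (Nat.div_mul_le_self n m) m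
  generalize n / m + 1 = N at h1
  have h1' : (N : ℝ) * m ≤ n + m := by exact_mod_cast h1
  have h2 : (2 * (m : ℝ) + 4 + 2) ^ N ≤ (2 : ℝ) ^ (c / 2 * n) * (2 : ℝ) ^ (c / 2 * m) := by
    rw [← rpow_add two_pos]
    refine (pow_le_pow_left₀ (by positivity) (by linarith : _ ≤ (2 : ℝ) ^ (c / 2 * m)) N).trans ?_
    rw [← rpow_mul_natCast two_pos.le]
    exact rpow_le_rpow_of_exponent_le one_le_two (by nlinarith)
  have h3 : (1 : ℝ) ≤ (2 * (m : ℝ) + 4 + 2) ^ N :=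
    one_le_pow₀ (by linarith [(Nat.cast_nonneg m : (0 : ℝ) ≤ m)])
  have h4 := hn1 n (le_of_max_le_left hn)
  have h5 : (2 : ℝ) ^ (c * n) = (2 : ℝ) ^ (c / 2 * n) * (2 : ℝ) ^ (c / 2 * n) := by
    rw [← rpow_add two_pos]
    congr 1
    ring
  push_cast
  rw [h5]
  calc 1 + (2 * ((N : ℝ) * m) + 4 + n + 1) * (2 * m + 4 + 2) ^ N
      ≤ (3 * n + (2 * m + 6)) * (2 * (m : ℝ) + 4 + 2) ^ N := by nlinarith
    _ ≤ (3 * n + (2 * m + 6)) * ((2 : ℝ) ^ (c / 2 * n) * (2 : ℝ) ^ (c / 2 * m)) := by gcongr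
    _ = (2 : ℝ) ^ (c / 2 * n) *
        (3 * (2 : ℝ) ^ (c / 2 * m) * n + (2 * m + 6) * (2 : ℝ) ^ (c / 2 * m)) := by ring
    _ ≤ _ := by gcongr

/-- Uniformisation. Use `unif_abs` with the cells of the levels `i * m`, `N = n / m + 1`,
`B = 2 m`, `Λ = 10 n` or so; the label is `none` outside `S0` and `some (ty x)` on `S0`;
`h k = ty (k / m) + logb 2 (mass of the atom)`, `D = 2 m + 2`. -/
theorem unf {c : ℝ} (hc : 0 < c) : ∃ D : ℝ, 0 ≤ D ∧ ∃ n0 : ℕ, ∀ n ≥ n0,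
    ∀ {Ω ι : Type} [Fintype ι] (s : Finset Ω) (p : Ω → ℝ) (X : Ω → ι → ℝ), IsP s p →
      Fintype.card ι ≤ 2 → (∀ ω ∈ s, ‖X ω‖ ≤ 1) →
      ∃ (b : Ω → Option (ℕ → ℕ)), Det s b X ∧ ce s p b (nil Ω) ≤ c * n ∧
        ms s p (fun ω => b ω = none) ≤ c ∧
        ∀ ω ∈ s, b ω ≠ none → ∃ f : ℕ → ℝ, Reg (atS s b ω) (atP s p b ω) X n D f := by
  classical
  obtain ⟨m, hm, n0, hn0⟩ := Unf_num hc
  refine ⟨2 * m + 6, by positivity, n0, fun n hn Ω ι _ s p X h hι hX => ?_⟩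
  obtain ⟨hn1, hn2⟩ := hn0 n hn
  have hN : ∀ k ≤ n, k / m < n / m + 1 := fun k hk => Nat.lt_succ_of_le (Nat.div_le_div_right hk)
  generalize n / m + 1 = N at hn2 hN
  obtain ⟨ω0, hω0⟩ := ent_nonempty h
  have hch : ∀ i, i < N → ∀ x ∈ s, ((s.filter fun x' => qv (i * m) X x' = qv (i * m) X x).image
      (qv ((i + 1) * m) X)).card ≤ 2 ^ (2 * m + 4) := fun i _ x hx => by
    have h1 := cnt_near (s := s) ((i + 1) * m) X (fun ω => dz (i * m) (X ω)) (qv (i * m) X)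
      (fun _ => True) (fun a _ b _ e => congrArg (cor (i * m)) e) (x := m) (Nat.cast_nonneg m)
      (fun ω _ _ => (dz_close _ _).trans_eq (by
        rw [rpow_natCast, add_mul, one_mul, pow_add]
        field_simp)) hx
    exact (Unf_cnt s _ (qv (i * m) X) x _ fun _ => mem_filter.1).trans
      (Nat.cast_le.1 (h1.trans (Unf_exp hι m)))
  have htop : ((s.image (qv (N * m) X)).card : ℝ) ≤ ((2 ^ (2 * (N * m) + 4) : ℕ) : ℝ) := by
    have h1 := cnt_near (s := s) (N * m) X (fun _ => 0) (nil Ω) (fun _ => True)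
      (fun _ _ _ _ _ => rfl) (x := (N * m : ℕ)) (Nat.cast_nonneg _)
      (fun ω hω _ => by
        rw [rpow_natCast, sub_zero, div_self (by positivity)]
        exact hX ω hω) hω0
    exact (Nat.cast_le.2 (Unf_cnt s _ (nil Ω) ω0 _ fun _ hx => ⟨hx, rfl⟩)).trans
      (h1.trans (Unf_exp hι _))
  obtain ⟨ty, S0, hS, a1, a2, a3, a4⟩ := unif_abs s p h.1 h.2.le N (fun i => qv (i * m) X)
    (fun i _ x hx x' hx' => det_qv (Nat.mul_le_mul_right m (Nat.le_succ i)) X x hx x' hx')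
    (2 * m + 4) (2 * (N * m) + 4 + n) (fun i hi x hx => by
      refine le_trans (card_le_card fun a ha => ?_) (hch i hi x hx)
      simpa only [mem_image, mem_filter] using ha)
  obtain ⟨b, hb⟩ : ∃ b : Ω → Option (ℕ → ℕ), ∀ ω, b ω = if ω ∈ S0 then some (ty ω) else none :=
    ⟨_, fun _ => rfl⟩
  have hb0 : ∀ ω, b ω = none ↔ ω ∉ S0 := fun ω => by
    rw [hb]
    split_ifs with h1 <;> simp [h1]
  have hb1 : ∀ ω ∈ S0, ∀ x, b x = b ω ↔ x ∈ S0 ∧ ty x = ty ω := fun ω hω x => by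
    rw [hb, hb, if_pos hω]
    split_ifs with h1 <;> simp [h1]
  refine ⟨b, fun x hx x' hx' e => ?_, ?_, ?_, fun ω hω hne => ?_⟩
  · have e' : qv (N * m) X x = qv (N * m) X x' := congrArg (qz (N * m)) e
    by_cases h1 : x' ∈ S0
    · exact (hb1 x' h1 x).2 (a3 x' h1 x hx e')
    · rw [(hb0 x').2 h1, (hb0 x).2 fun h2 => h1 (a3 x h2 x' hx' e'.symm).1]
  · refine (ce_cnt h b (nil Ω) (fun _ => c * n) fun ω _ => le_trans ?_ hn2).trans_eq ?_
    · refine Nat.cast_le.2 ((card_le_card (t := insert none (S0.image fun x => some (ty x)))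
        fun a ha => ?_).trans ((card_insert_le _ _).trans ?_))
      · simp only [mem_image, mem_filter] at ha
        obtain ⟨x, -, rfl⟩ := ha
        rw [hb]
        split_ifs with h1
        · exact mem_insert_of_mem (mem_image_of_mem (fun x => some (ty x)) h1)
        · exact mem_insert_self _ _
      · rw [add_comm]
        refine Nat.add_le_add_left (le_trans ?_ a2) 1
        refine le_trans (card_le_card fun a ha => ?_) (card_image_le (f := some))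
        simp only [mem_image] at ha ⊢
        obtain ⟨x, hx, rfl⟩ := ha
        exact ⟨_, ⟨x, hx, rfl⟩, rfl⟩
    · rw [ex, ← sum_mul, h.2, one_mul]
  · refine (ms_imp h fun x _ => (hb0 x).1).trans (a1.trans (le_trans ?_ hn1))
    refine (div_le_div_of_nonneg_right (le_trans (Nat.cast_le.2 (card_le_card fun a ha => ?_))
      htop) (by positivity)).trans_eq ?_
    · simpa only [mem_image] using ha
    · rw [pow_add _ _ n]
      push_cast
      field_simp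
  have hω0 : ω ∈ S0 := not_not.1 fun h1 => hne ((hb0 ω).2 h1)
  have hμ : 0 < ms s p fun x => b x = b ω := by
    refine lt_of_lt_of_le (by positivity) (((a4 ω hω0).2.2 0 N.zero_le).1.trans ?_)
    rw [Unf_ms hS]
    exact ms_imp h fun x _ hx => (hb1 ω hω0 x).2 ⟨hx.1, hx.2.1⟩
  refine ⟨fun k => ty ω (k / m) + logb 2 (ms s p fun x => b x = b ω), fun k hk x hx => ?_⟩
  obtain ⟨hx0, hxt⟩ := (hb1 ω hω0 x).1 (mem_atS.1 hx).2
  obtain ⟨-, c1, c2⟩ := a4 x hx0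
  have c3 := (c1 _ (hN k hk)).2
  have c4 := (c2 (k / m + 1) (hN k hk)).1
  have c5 := (c2 _ (hN k hk).le).2
  rw [Unf_ms hS, hxt] at c4 c5
  rw [hxt] at c3
  have c6 := ms_rs h (fun x => b x = b ω) fun x' => qv k X x' = qv k X x
  have e : ∀ y : ℝ, (2 : ℝ) ^ (-((ty ω (k / m) : ℝ) + logb 2 (ms s p fun x => b x = b ω)) - y) *
      (ms s p fun x => b x = b ω) = 1 / (2 : ℝ) ^ ty ω (k / m) / (2 : ℝ) ^ y := fun y => by
    rw [rpow_sub two_pos, rpow_neg two_pos.le, rpow_add two_pos, rpow_natCast,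
      rpow_logb two_pos (by norm_num) hμ]
    field_simp
  constructor
  · refine le_of_mul_le_mul_right ?_ hμ
    rw [e, mul_comm (ms (atS s b ω) _ _)]
    refine le_trans (le_trans ?_ (c4.trans (ms_imp h fun x' hx' h' => ?_))) c6.ge
    · rw [div_div, div_div, show (2 * m + 6 : ℝ) = ((2 * m + 6 : ℕ) : ℝ) by push_cast; ring,
        rpow_natCast, ← pow_add, ← pow_succ']
      exact one_div_le_one_div_of_le (by positivity) (pow_le_pow_right₀ one_le_two (by omega))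
    · exact ⟨(hb1 ω hω0 x').2 ⟨h'.1, h'.2.1⟩,
        qz_nest (by rw [mul_comm]; exact (Nat.lt_mul_div_succ k hm).le) h'.2.2⟩
  · refine le_of_mul_le_mul_right ?_ hμ
    have e0 := e 0
    rw [sub_zero, rpow_zero, div_one] at e0
    rw [e0, mul_comm]
    refine c6.le.trans (le_trans (ms_imp h fun x' hx' h' => ?_) c5)
    obtain ⟨d1, d2⟩ := (hb1 ω hω0 x').1 h'.1
    exact ⟨d1, d2, qz_nest (Nat.div_mul_le_self k m) h'.2⟩

end Vale.Agent.P127S
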