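import Vale.Agent.P127S.CoreP0
import Vale.Agent.P127S.Unf

/-! Systems of the first kind with a spread coefficient vector do not exist. -/

open Real Finset Vale.Agent.P118O

noncomputable section

namespace Vale.Agent.P127S

theorem coreP_rev {Ω : Type} {s : Finset Ω} {p : Ω → ℝ} (h : IsP s p) {F : Ω → ℝ} {B t : ℝ}
    (ht : 0 ≤ t) (hB : ∀ ω ∈ s, 0 < p ω → F ω ≤ B) :
    ex s p F ≤ t + B * ms s p (fun ω => t ≤ F ω) := by
  classical
  have h1 : t = ∑ ω ∈ s, p ω * t := by rw [← sum_mul, h.2, one_mul]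
  rw [ms, sum_filter, mul_sum]
  nth_rewrite 1 [h1]
  rw [← sum_add_distrib]
  refine sum_le_sum fun ω hω => ?_
  rcases (h.1 ω hω).eq_or_lt with hp | hp
  · simp [← hp]
  split_ifs with hc
  · have := hB ω hω hp
    nlinarith
  · push Not at hc
    nlinarith

theorem coreP_info {Ω α β : Type} {s : Finset Ω} {p : Ω → ℝ} (h : IsP s p) (V : Ω → α)
    (b : Ω → β) : ce s p V (nil Ω) - ce s p V b ≤ ce s p b (nil Ω) := by
  have h1 := ce_cond h V b (nil Ω)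
  rw [Sys_eq h V (Y := pj b (nil Ω)) (Y' := b) (Sys_pj Sys_rfl Sys_triv) Sys_fst] at h1
  have h2 := ce_nonneg h b (pj V (nil Ω))
  linarith

theorem coreP_nil {Ω α β : Type} {s : Finset Ω} {p : Ω → ℝ} (h : IsP s p) (V : Ω → α)
    (b : Ω → β) : ce s p V (pj (nil Ω) b) = ce s p V b :=
  Sys_eq h V (Sys_pj Sys_triv Sys_rfl) Sys_snd

/-- Uniformise `g` (`unf` for `sv1 g` with a small constant) and select an atom (`select`) inside
the event `b ≠ none ∧ σ n / 2 ≤ ce (atom) (qs n g) nil` (mass at least `σ / 6`, as the entropy is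
at most `n + 2` on every atom) with the functionals `dfc`, `Top.at`, `Prx.at` (twice) and
`ce (atom) Y nil - ce (atom) (qs n y0) nil`; then `coreP0` with `σ / 2`. Note `σ ≤ 2` for large
`n`. -/
theorem coreP {σ : ℝ} (hσ : 0 < σ) : ∃ c : ℝ, 0 < c ∧ ∀ ϱ : ℝ, 0 < ϱ →
    ∃ (L2 : ℕ) (τ0 η : ℝ), 0 < τ0 ∧ 0 < η ∧ ∃ n0 : ℕ, ∀ n ≥ n0,
    ∀ {Ω α τ υ : Type} (s : Finset Ω) (p : Ω → ℝ) (Y : Ω → Fin 2 → ℝ) (A : Ω → α) (T : Ω → τ)
      (g : Ω → ℝ) (a : Ω → Fin 2 → ℝ) (u : Ω → υ) (y : υ → Fin 2 → ℝ) (Au : Finset υ)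
      (Q : υ → ℝ) (y0 s0 : Ω → ℝ),
      SysP s p n Y A T g a → dfc s p Y A T g ≤ η * n →
      Top s p ϱ τ0 L2 (pj Y g) T a u y Au Q →
      σ * n ≤ ce s p (qs n g) (nil Ω) → ce s p Y (nil Ω) ≤ n + c * n →
      Prx s p n (c * n) Y y0 → Prx s p n (c * n) a s0 → False := by
  classical
  obtain ⟨c0, hc0, H⟩ := coreP0 (half_pos hσ)
  obtain ⟨c, hc, hc1, hc2⟩ : ∃ c : ℝ, 0 < c ∧ c ≤ c0 / 4 ∧ 576 * c ≤ c0 * σ := by
    refine ⟨min (c0 / 4) (c0 * σ / 576), lt_min (by positivity) (by positivity),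
      min_le_left _ _, ?_⟩
    have := min_le_right (c0 / 4) (c0 * σ / 576)
    linarith
  refine ⟨c, hc, fun ϱ hϱ => ?_⟩
  obtain ⟨c', hc', hca, hcb⟩ : ∃ c' : ℝ, 0 < c' ∧ c' ≤ c ∧ c' ≤ σ / 12 :=
    ⟨min c (σ / 12), lt_min hc (by positivity), min_le_left _ _, min_le_right _ _⟩
  obtain ⟨D, hD, n1, hU⟩ := unf hc'
  obtain ⟨L2, τ1, η1, hτ1, hη1, n2, H⟩ := H D hD ϱ hϱ
  obtain ⟨n3, hn3⟩ := exists_nat_ge (384 / (c0 * σ))
  obtain ⟨n4, hn4⟩ := exists_nat_ge (8 / c0)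
  refine ⟨L2, τ1 * σ / 48, η1 * σ / 48, by positivity, by positivity, n1 + n2 + n3 + n4 + 2,
    fun n hn Ω α τ υ s p Y A T g a u y Au Q y0 s0 hS hd ht hg hY hy ha => ?_⟩
  have h := hS.isP
  have hn0 : (2 : ℝ) ≤ n := by exact_mod_cast (by omega : 2 ≤ n)
  have hn3' : 384 ≤ c0 * σ * n := by
    have h1 : (n3 : ℝ) ≤ n := by exact_mod_cast (by omega : n3 ≤ n)
    have h2 := hn3.trans h1
    rw [div_le_iff₀ (by positivity)] at h2
    linarith
  have hn4' : 8 ≤ c0 * n := by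
    have h1 : (n4 : ℝ) ≤ n := by exact_mod_cast (by omega : n4 ≤ n)
    have h2 := hn4.trans h1
    rw [div_le_iff₀ hc0] at h2
    linarith
  obtain ⟨b, hb, hbe, hbn, hbR⟩ := hU n (by omega) s p (sv1 g) h (by simp) fun ω hω =>
    (pi_norm_le_iff_of_nonneg zero_le_one).2 fun _ => hS.hg ω hω
  have hbg : Det s b g := fun ω hω ω' hω' e => hb ω hω ω' hω' (funext fun _ => e)
  have hcn : 0 ≤ c * n := by positivity
  obtain ⟨φt, hφt0, hφt1, hφt2⟩ := Top.at h ht b (Sys_tr hbg Sys_snd)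
  obtain ⟨φy, hφy0, hφy1, hφy2⟩ := Prx.at h hcn hy b
  obtain ⟨φa, hφa0, hφa1, hφa2⟩ := Prx.at h hcn ha b
  have hc'n : c' * n ≤ c * n := by gcongr
  have hc'σ : c' * n ≤ σ / 12 * n := by gcongr
  have hm : σ / 8 ≤ ms s p (fun ω => ¬ (b ω = none ∨
      ¬ σ / 2 * n ≤ ce (atS s b ω) (atP s p b ω) (qs n g) (nil Ω))) := by
    have a1 := coreP_rev h (F := fun ω => ce (atS s b ω) (atP s p b ω) (qs n g) (nil Ω))
      (B := n + 0 + 2) (t := σ / 2 * n) (by positivity) fun ω hω hp =>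
        ce_qs_bd (at_isP h b hω hp) n g _ le_rfl fun ω' hω' => by
          rw [rpow_zero]
          exact hS.hg ω' (mem_atS.1 hω').1
    rw [ce_at h, coreP_nil h] at a1
    have a2 := coreP_info h (qs n g) b
    have a3 := ms_or h (fun ω => b ω = none)
      (fun ω => ¬ σ / 2 * n ≤ ce (atS s b ω) (atP s p b ω) (qs n g) (nil Ω))
    rw [ms_not h] at a3 ⊢
    have a4 := ms_ge_zero h fun ω => σ / 2 * n ≤ ce (atS s b ω) (atP s p b ω) (qs n g) (nil Ω)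
    generalize ms s p (fun ω => σ / 2 * n ≤ ce (atS s b ω) (atP s p b ω) (qs n g) (nil Ω)) = m
      at a1 a3 a4
    have a7 : 2 * m ≤ n * m := by gcongr
    have a5 : 5 * σ / 24 * n ≤ m * n := by linarith only [a1, a2, a7, hg, hbe, hc'σ]
    have a6 : 5 * σ / 24 ≤ m := le_of_mul_le_mul_right a5 (by linarith)
    linarith
  have hdy : ∀ s' : Finset Ω, s' ⊆ s → ∀ p', IsP s' p' →
      ce s' p' (qs n y0) (nil Ω) ≤ ce s' p' Y (nil Ω) := fun s' hs' p' h' =>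
    ce_mono h' (fun ω hω ω' hω' e => hy.1 n ω (hs' hω) ω' (hs' hω')
      (congrArg (qz n) (Prod.mk.inj e).1)) fun _ _ _ _ e => e
  obtain ⟨ω0, hω0, hp0, hE, hφ⟩ := select h (by positivity) hm (J := 5)
    ![fun ω => dfc (atS s b ω) (atP s p b ω) Y A T g, φt, φy, φa,
      fun ω => ce (atS s b ω) (atP s p b ω) Y (nil Ω) -
        ce (atS s b ω) (atP s p b ω) (qs n y0) (nil Ω)]
    ![η1 * σ / 48 * n, τ1 * σ / 48, 3 * (c * n) + 2, 3 * (c * n) + 2, 3 * (c * n)]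
    (by
      intro i ω hω hp
      have hA := at_isP h b hω hp
      fin_cases i
      · exact dfc_nonneg hA Y A T g
      · exact hφt0 ω hω hp
      · exact hφy0 ω hω hp
      · exact hφa0 ω hω hp
      · exact sub_nonneg.2 (hdy _ (fun _ hx => (mem_atS.1 hx).1) _ hA))
    (by
      intro i
      fin_cases i
      · exact (dfc_at h Y A T g b (Or.inl hbg)).trans hd
      · exact hφt1
      · have := coreP_info h (qs n y0) b
        change ex s p φy ≤ 3 * (c * n) + 2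
        linarith
      · have := coreP_info h (qs n s0) b
        change ex s p φa ≤ 3 * (c * n) + 2
        linarith
      · change ex s p (fun ω => ce (atS s b ω) (atP s p b ω) Y (nil Ω) -
          ce (atS s b ω) (atP s p b ω) (qs n y0) (nil Ω)) ≤ 3 * (c * n)
        rw [Sys_ex_sub, ce_at h, ce_at h, coreP_nil h, coreP_nil h]
        have a1 := coreP_info h (qs n y0) b
        have a2 := Sys_nil h Y b
        have a3 := hy.2.2
        linarith)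
  have e0 : dfc (atS s b ω0) (atP s p b ω0) Y A T g ≤
      ((5 : ℕ) + 1) * (η1 * σ / 48 * n) / (σ / 8) := hφ 0
  have e1 : φt ω0 ≤ ((5 : ℕ) + 1) * (τ1 * σ / 48) / (σ / 8) := hφ 1
  have e2 : φy ω0 ≤ ((5 : ℕ) + 1) * (3 * (c * n) + 2) / (σ / 8) := hφ 2
  have e3 : φa ω0 ≤ ((5 : ℕ) + 1) * (3 * (c * n) + 2) / (σ / 8) := hφ 3
  have e4 : ce (atS s b ω0) (atP s p b ω0) Y (nil Ω) -
      ce (atS s b ω0) (atP s p b ω0) (qs n y0) (nil Ω) ≤
      ((5 : ℕ) + 1) * (3 * (c * n)) / (σ / 8) := hφ 4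
  push_cast at e0 e1 e2 e3 e4
  have hσ8 : 0 < σ / 8 := by positivity
  have k1 : 576 * c * n ≤ c0 * σ * n := by gcongr
  have k2 : c * n ≤ c0 / 4 * n := by gcongr
  have f0 : (5 + 1) * (η1 * σ / 48 * n) / (σ / 8) = η1 * n := by field_simp; ring
  have f1 : (5 + 1) * (τ1 * σ / 48) / (σ / 8) = τ1 := by field_simp; ring
  have f2 : (5 + 1) * (3 * (c * n) + 2) / (σ / 8) ≤ c0 * n / 2 := by
    rw [div_le_iff₀ hσ8]
    linarith only [k1, hn3']
  have f4 : (5 + 1) * (3 * (c * n)) / (σ / 8) ≤ c0 * n / 4 := by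
    rw [div_le_iff₀ hσ8]
    linarith only [k1]
  rw [not_or, not_not] at hE
  obtain ⟨f, hf⟩ := hbR ω0 hω0 hE.1
  have a1 := ce_qs_bd (at_isP h b hω0 hp0) n y0 (nil Ω) hcn
    fun ω' hω' => hy.2.1 ω' (mem_atS.1 hω').1
  exact H n (by omega) (atS s b ω0) (atP s p b ω0) Y A T g a u y Au Q f y0 s0
    (hS.at b hω0 hp0) (by linarith) ((hφt2 ω0 hω0 hp0).mono (by linarith)) hf hE.2
    (by linarith) ((hφy2 ω0 hω0 hp0).mono (by linarith))
    ((hφa2 ω0 hω0 hp0).mono (by linarith))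

end Vale.Agent.P127S
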