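import Vale.Agent.P127S.CoreP0A
import Vale.Agent.P127S.Comb

/-! Regular systems of the first kind. -/

open Real Finset Vale.Agent.P118O

noncomputable section

namespace Vale.Agent.P127S

open Classical in
theorem cp0_good {Ω α τ : Type} {s : Finset Ω} {p : Ω → ℝ} {Y : Ω → Fin 2 → ℝ} {A : Ω → α}
    {T : Ω → τ} {g : Ω → ℝ} {a : Ω → Fin 2 → ℝ} {f : ℕ → ℝ} {σ D η : ℝ} {n N m L M : ℕ}
    (h : SysP s p n Y A T g a) (hd : dfc s p Y A T g ≤ η * n) (hR : Reg s p (sv1 g) n D f)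
    (he : σ * n ≤ ce s p (qs n g) (nil Ω)) (hσ : 0 < σ) (hN : n = N + 3 * L) (hm : 0 < m)
    (hm2 : m ≤ 2 * L) (hD : D ≤ σ * m / 8) (hη : η * (m + 12 * L * 4 ^ L) ≤ σ / 4)
    (hn : (6 * L + M + 2 : ℝ) ≤ σ / 4 * n) :
    σ / 8 * N ≤ (((range N).filter (fun k => L + M ≤ k ∧ σ * m / 4 ≤ f (k + m) - f k ∧
      cpLoss s p g (pj A T) m k ≤ 1 ∧ cpLoss s p g (pj T Y) (2 * L) k ≤ 1 / (3 * 4 ^ L) ∧
      cpLoss s p g (pj A T) (2 * L) k ≤ 1 / (3 * 4 ^ L))).card : ℝ) := by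
  have hP := h.isP
  have a1 := cp0_dens hP h.hg hR (N := N) (by omega) hm hσ hD he
  have d1 := (dfc_GAT hP Y A T g).trans hd
  have d2 := (dfc_GTY hP Y A T g).trans hd
  have b1 := cp0_cnt (cpLoss_nonneg hP g (pj A T) m) (t := 1) (cpLoss_sum hP g (pj A T) m N d1)
  have b2 := cp0_cnt (cpLoss_nonneg hP g (pj T Y) (2 * L)) (t := 1 / (3 * 4 ^ L))
    (cpLoss_sum hP g (pj T Y) (2 * L) N d2)
  have b3 := cp0_cnt (cpLoss_nonneg hP g (pj A T) (2 * L)) (t := 1 / (3 * 4 ^ L))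
    (cpLoss_sum hP g (pj A T) (2 * L) N d1)
  rw [mul_one_div, div_le_iff₀ (by positivity)] at b2 b3
  rw [mul_one] at b1
  push_cast at b2 b3
  have hsub : (range N).filter (fun k => σ * m / 4 ≤ f (k + m) - f k) ⊆
      ((((range N).filter (fun k => L + M ≤ k ∧ σ * m / 4 ≤ f (k + m) - f k ∧
      cpLoss s p g (pj A T) m k ≤ 1 ∧ cpLoss s p g (pj T Y) (2 * L) k ≤ 1 / (3 * 4 ^ L) ∧
      cpLoss s p g (pj A T) (2 * L) k ≤ 1 / (3 * 4 ^ L)) ∪ range (L + M)) ∪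
      (range N).filter (fun k => 1 < cpLoss s p g (pj A T) m k)) ∪
      (range N).filter (fun k => 1 / (3 * 4 ^ L) < cpLoss s p g (pj T Y) (2 * L) k)) ∪
      (range N).filter (fun k => 1 / (3 * 4 ^ L) < cpLoss s p g (pj A T) (2 * L) k) := by
    intro k hk
    obtain ⟨k1, k2⟩ := Finset.mem_filter.1 hk
    simp only [Finset.mem_union, Finset.mem_filter]
    by_cases c4 : 1 / (3 * 4 ^ L) < cpLoss s p g (pj A T) (2 * L) k
    · exact Or.inr ⟨k1, c4⟩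
    by_cases c3 : 1 / (3 * 4 ^ L) < cpLoss s p g (pj T Y) (2 * L) k
    · exact Or.inl (Or.inr ⟨k1, c3⟩)
    by_cases c2 : 1 < cpLoss s p g (pj A T) m k
    · exact Or.inl (Or.inl (Or.inr ⟨k1, c2⟩))
    by_cases c1 : k < L + M
    · exact Or.inl (Or.inl (Or.inl (Or.inr (Finset.mem_range.2 c1))))
    exact Or.inl (Or.inl (Or.inl (Or.inl
      ⟨k1, not_lt.1 c1, k2, not_lt.1 c2, not_lt.1 c3, not_lt.1 c4⟩)))
  have a2 := (Finset.card_le_card hsub).trans ((Finset.card_union_le _ _).trans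
    (Nat.add_le_add_right ((Finset.card_union_le _ _).trans
      (Nat.add_le_add_right ((Finset.card_union_le _ _).trans
        (Nat.add_le_add_right (Finset.card_union_le _ _) _)) _)) _))
  rw [Finset.card_range] at a2
  have a3 := (Nat.cast_le (α := ℝ)).2 a2
  push_cast at a3
  have hn' : (n : ℝ) = N + 3 * L := by rw [hN]; push_cast; ring
  have hm' : (m : ℝ) ≤ 2 * L := by exact_mod_cast hm2
  have hL : (0 : ℝ) ≤ L := Nat.cast_nonneg L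
  have a4 : η * (m + 12 * L * 4 ^ L) * n ≤ σ / 4 * n :=
    mul_le_mul_of_nonneg_right hη (Nat.cast_nonneg n)
  have a5 : σ / 8 * N ≤ σ / 8 * n := mul_le_mul_of_nonneg_left (by linarith) (by positivity)
  linarith

theorem cp0_main {Ω α τ υ : Type} {s : Finset Ω} {p : Ω → ℝ} {Y : Ω → Fin 2 → ℝ} {A : Ω → α}
    {T : Ω → τ} {g : Ω → ℝ} {a : Ω → Fin 2 → ℝ} {u : Ω → υ} {y : υ → Fin 2 → ℝ} {Au : Finset υ}
    {Q : υ → ℝ} {f : ℕ → ℝ} {y0 s0 : Ω → ℝ} {σ D η ε ε0 ϱ : ℝ} {n N m L M : ℕ}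
    (h : SysP s p n Y A T g a) (hd : dfc s p Y A T g ≤ η * n)
    (ht : Top s p ϱ (1 / (3 * 4 ^ L)) (2 * L) (pj Y g) T a u y Au Q) (hR : Reg s p (sv1 g) n D f)
    (he : σ * n ≤ ce s p (qs n g) (nil Ω)) (hY : ce s p Y (nil Ω) ≤ n + ε0 / 100 * n)
    (hy0 : Prx s p n (ε0 / 100 * n) Y y0) (hs0 : Prx s p n (ε0 / 100 * n) a s0)
    (hs : SatP ε (ϱ / 2 ^ m) M L) (hϱ : 0 < ϱ) (hD0 : 0 ≤ D) (hε : 0 < ε) (hεε : ε ≤ ε0 / 100)
    (hσ : 0 < σ) (hN : n = N + 3 * L) (hm : 0 < m)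
    (hD : D ≤ σ * m / 8) (hDε : 2 * D + 2 ≤ ε * (σ * m / 4 - 2))
    (hL : (2 * m + 20 : ℝ) ≤ ε0 / 100 * L) (hm2 : m ≤ 2 * L)
    (hη : η * (m + 12 * L * 4 ^ L) ≤ σ / 4) (hη' : η ≤ ε0 / 100)
    (hn : (6 * L + M + 2 : ℝ) ≤ σ / 4 * n) (hn' : (5 * L + 4 : ℝ) ≤ ε0 / 100 * N) (hLN : 3 * L ≤ N)
    (hcomb : ∀ (a b : ℕ → ℝ) (T : Finset ℕ), (∀ k, |a (k + 1) - a k| ≤ ε0) →
      (∀ i ∈ T, L + M ≤ i ∧ i < N) → σ / 8 * N ≤ T.card →
      (∀ i ∈ T, ∑ k ∈ range (N - i), |a (i + k) - b k| ≤ ε0 * N) →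
      (∀ i ∈ T, ∑ k ∈ range (N - i), a (i + k) ≤ N - i + ε0 * N) →
      (∀ i ∈ T, 2 - ε0 ≤ a (i - (L + M))) → False) : False := by
  classical
  have hP := h.isP
  have hε0 : 0 < ε0 := by linarith
  have hm' : (0 : ℝ) < m := by exact_mod_cast hm
  have hL0 : (0 : ℝ) < L := by
    have : (m : ℝ) ≤ 2 * L := by exact_mod_cast hm2
    linarith
  have hnN : (n : ℝ) = N + 3 * L := by rw [hN]; push_cast; ring
  have hLN' : (3 * L : ℝ) ≤ N := by exact_mod_cast hLN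
  have hN0 : (0 : ℝ) ≤ N := Nat.cast_nonneg N
  have hcn : ε0 / 100 * n ≤ 2 * (ε0 / 100 * N) := by
    have : ε0 / 100 * n ≤ ε0 / 100 * (2 * N) :=
      mul_le_mul_of_nonneg_left (by linarith) (by positivity)
    linarith
  have hup : ∀ i < N, ∑ k ∈ range (N - i), ce s p (qv (i + k + L) Y) (qv (i + k) Y) ≤
      L * (N - i + 5 * (ε0 / 100 * N)) := fun i hi =>
    (cp0_sup hP hy0 L i (N - i) (by omega)).trans
      (mul_le_mul_of_nonneg_left (by linarith) hL0.le)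
  refine hcomb (fun k => ce s p (qv (k + L) Y) (qv k Y) / L)
    (fun k => ce s p (qv (k + L) a) (qv k a) / L) _ ?_ ?_
    (cp0_good h hd hR he hσ hN hm hm2 hD hη hn) ?_ ?_ ?_
  · intro k
    have := window_lip hP Y L k
    rw [Fintype.card_fin] at this
    rw [← sub_div, abs_div, abs_of_pos hL0, div_le_iff₀ hL0]
    push_cast at this
    have h2 : 0 ≤ ε0 * L := by positivity
    linarith
  · intro i hi
    obtain ⟨k1, k2⟩ := Finset.mem_filter.1 hi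
    exact ⟨k2.1, Finset.mem_range.1 k1⟩
  · intro i hi
    obtain ⟨k1, _, k3, k4, _, _⟩ := Finset.mem_filter.1 hi
    have hiN := Finset.mem_range.1 k1
    have hina := cp0_ina hP A T hR hD0 (by omega) hε k3 k4 hDε
    have b1 := stepP h i m L (N - i) (by omega) hina
    have b2 := cp0_inf hP h.ha hs0 L (N - i) (by omega)
    have b3 := hup i hiN
    rw [cp0_abs (N - i) (fun k => ce s p (qv (i + k + L) Y) (qv (i + k) Y))
      (fun k => ce s p (qv (k + L) a) (qv k a)) hL0, div_le_iff₀ hL0]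
    have hc : ((N - i : ℕ) : ℝ) = N - i := by rw [Nat.cast_sub hiN.le]
    rw [hc] at b1 b2
    have hi0 : (0 : ℝ) ≤ i := Nat.cast_nonneg i
    have hiN' : (i : ℝ) ≤ N := by exact_mod_cast hiN.le
    have b4 : ((N : ℝ) - i) * (2 * m + 20 + 2 * L * ε) ≤ N * (3 * (ε0 / 100 * L)) := by
      have : 2 * L * ε ≤ 2 * L * (ε0 / 100) := mul_le_mul_of_nonneg_left hεε (by positivity)
      exact mul_le_mul (by linarith) (by linarith) (by positivity) hN0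
    have b5 : 2 * L * dfc s p Y A T g ≤ 2 * L * (2 * (ε0 / 100 * N)) := by
      refine mul_le_mul_of_nonneg_left (hd.trans (le_trans ?_ hcn)) (by positivity)
      exact mul_le_mul_of_nonneg_right hη' (Nat.cast_nonneg n)
    have b6 : (L : ℝ) * (N - i - 3 * (ε0 / 100 * N)) ≤ L * (N - i - ε0 / 100 * n - 2 * L - 4) :=
      mul_le_mul_of_nonneg_left (by linarith) hL0.le
    have b7 : 0 ≤ ε0 * N * L := by positivity
    linarith
  · intro i hi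
    have hiN := Finset.mem_range.1 (Finset.mem_filter.1 hi).1
    rw [← Finset.sum_div, div_le_iff₀ hL0]
    have b3 := hup i hiN
    have b7 : 0 ≤ ε0 * N * L := by positivity
    linarith
  · intro i hi
    obtain ⟨k1, k2, k3, k4, k5, k6⟩ := Finset.mem_filter.1 hi
    have hiN := Finset.mem_range.1 k1
    have hina := cp0_ina hP A T hR hD0 (by omega) hε k3 k4 hDε
    obtain ⟨j, rfl⟩ : ∃ j, i = j + L + M := ⟨i - (L + M), by omega⟩
    have e : j + L + M - (L + M) = j := by omega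
    rw [e, le_div_iff₀ hL0]
    have := topP hs h ht (by positivity) le_rfl hm2 le_rfl (by omega) hina le_rfl k5 k6
    have b1 : ε * L ≤ ε0 / 100 * L := mul_le_mul_of_nonneg_right hεε hL0.le
    have b7 : 0 ≤ ε0 * L := by positivity
    linarith

/-- Take `δ = σ / 8`, `ε0` from `comb`, `c = ε0 / 100`, `ε = min ε0 1 / 100`, `m` with
`(2 D + 2) / (σ m / 4 - 2) ≤ ε` and `m ≥ 8 D / σ`, `ν = ϱ / 2 ^ m`, `L ≥ (2 m + 20) * 100 / ε0` from
`satL`, `L2 = 2 L`. Profiles `a k = ce Y[k+L] Y[k] / L`, `b k = ce a[k+L] a[k] / L`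
(`window_lip`), length `n' = n - 3 L`, offset `L + M`. `T` is the set of levels `k` with
`f (k + m) - f k ≥ σ m / 4` (positive density by `tele_sum` and `Reg.ce_ge`) where the three losses
(window `m` against `(A, T)`, window `2 L` against `(T, Y)` and `(A, T)`; `tele_info`, `dfc_GAT`,
`dfc_GTY`) are small. `glue_fano` and `Reg.cnt_le` bound `inaP`. `∑ |a - b| = ∑ (a - b) +
2 ∑ max 0 (b - a)`, `tele_sum`, `Prx.ge`, `stepP`, `topP`. -/
theorem coreP0 {σ : ℝ} (hσ : 0 < σ) : ∃ c : ℝ, 0 < c ∧ ∀ D : ℝ, 0 ≤ D → ∀ ϱ : ℝ, 0 < ϱ →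
    ∃ (L2 : ℕ) (τ0 η : ℝ), 0 < τ0 ∧ 0 < η ∧ ∃ n0 : ℕ, ∀ n ≥ n0,
    ∀ {Ω α τ υ : Type} (s : Finset Ω) (p : Ω → ℝ) (Y : Ω → Fin 2 → ℝ) (A : Ω → α) (T : Ω → τ)
      (g : Ω → ℝ) (a : Ω → Fin 2 → ℝ) (u : Ω → υ) (y : υ → Fin 2 → ℝ) (Au : Finset υ)
      (Q : υ → ℝ) (f : ℕ → ℝ) (y0 s0 : Ω → ℝ),
      SysP s p n Y A T g a → dfc s p Y A T g ≤ η * n →
      Top s p ϱ τ0 L2 (pj Y g) T a u y Au Q → Reg s p (sv1 g) n D f →
      σ * n ≤ ce s p (qs n g) (nil Ω) → ce s p Y (nil Ω) ≤ n + c * n →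
      Prx s p n (c * n) Y y0 → Prx s p n (c * n) a s0 → False := by
  obtain ⟨ε0, hε0, hcomb⟩ := comb (δ := σ / 8) (by positivity)
  refine ⟨ε0 / 100, by positivity, fun D hD ϱ hϱ => ?_⟩
  set ε : ℝ := min ε0 1 / 100 with hεd
  have hε : 0 < ε := by positivity
  have hε1 : ε ≤ ε0 / 100 := by
    have := min_le_left ε0 1
    linarith
  have hε2 : ε ≤ 1 / 4 := by
    have := min_le_right ε0 1
    linarith
  obtain ⟨m, hm⟩ := exists_nat_gt (max (8 * D / σ) (((2 * D + 2) / ε + 2) * 4 / σ))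
  have hm1 : 8 * D / σ < m := (le_max_left _ _).trans_lt hm
  have hm2 : ((2 * D + 2) / ε + 2) * 4 / σ < m := (le_max_right _ _).trans_lt hm
  rw [div_lt_iff₀ hσ] at hm1 hm2
  have hm0 : 0 < m := by
    have : (0 : ℝ) < m := lt_of_le_of_lt (le_trans (by positivity) (le_max_left _ _)) hm
    exact_mod_cast this
  have hDε : 2 * D + 2 ≤ ε * (σ * m / 4 - 2) := by
    have : (2 * D + 2) / ε ≤ σ * m / 4 - 2 := by linarith
    rw [div_le_iff₀ hε] at this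
    linarith
  obtain ⟨L0, hL0⟩ := exists_nat_ge ((2 * m + 20 : ℝ) * 100 / ε0)
  obtain ⟨M, L, hL, hs⟩ := satL hε hε2 (ν := ϱ / 2 ^ m) (by positivity) (L0 + m)
  have hL1 : (2 * m + 20 : ℝ) ≤ ε0 / 100 * L := by
    have : (L0 : ℝ) ≤ L := by exact_mod_cast (by omega : L0 ≤ L)
    have h2 := hL0.trans this
    rw [div_le_iff₀ hε0] at h2
    linarith
  obtain ⟨n1, hn1⟩ := hcomb (L + M)
  obtain ⟨n2, hn2⟩ := exists_nat_ge (max ((6 * L + M + 2 : ℝ) * 4 / σ) ((5 * L + 4 : ℝ) * 100 / ε0))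
  have hden : (0 : ℝ) < m + 12 * L * 4 ^ L := by
    have : (0 : ℝ) < m := by exact_mod_cast hm0
    positivity
  refine ⟨2 * L, 1 / (3 * 4 ^ L), min (ε0 / 100) (σ / 4 / (m + 12 * L * 4 ^ L)), by positivity,
    by positivity, n1 + n2 + 6 * L, ?_⟩
  intro n hn Ω α τ υ s p Y A T g a u y Au Q f y0 s0 h hd ht hR he hY hy0 hs0
  obtain ⟨N, rfl⟩ : ∃ N, n = N + 3 * L := ⟨n - 3 * L, by omega⟩
  have hN2 : (n2 : ℝ) ≤ N := by exact_mod_cast (by omega : n2 ≤ N)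
  have b1 : (6 * L + M + 2 : ℝ) * 4 / σ ≤ N := (le_max_left _ _).trans (hn2.trans hN2)
  have b2 : (5 * L + 4 : ℝ) * 100 / ε0 ≤ N := (le_max_right _ _).trans (hn2.trans hN2)
  rw [div_le_iff₀ hσ] at b1
  rw [div_le_iff₀ hε0] at b2
  refine cp0_main h hd ht hR he hY hy0 hs0 hs hϱ hD hε hε1 hσ rfl hm0 (by linarith) hDε hL1
    (by omega) ?_ (min_le_left _ _) ?_ (by linarith) (by omega) (hn1 N (by omega))
  · have := min_le_right (ε0 / 100) (σ / 4 / (m + 12 * L * 4 ^ L))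
    rwa [le_div_iff₀ hden] at this
  · push_cast
    have : 0 ≤ σ * L := by positivity
    linarith

end Vale.Agent.P127S
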