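import Vale.Agent.P127S.TopP

/-! Auxiliary estimates for regular systems of the first kind. -/

open Real Finset Vale.Agent.P118O

noncomputable section

namespace Vale.Agent.P127S

variable {Ω α β γ τ υ ι : Type} {s : Finset Ω} {p : Ω → ℝ}

theorem cp0_nil (h : IsP s p) (X : Ω → α) (U : Ω → β) :
    ce s p X (pj U (nil Ω)) = ce s p X U :=
  le_antisymm
    (ce_mono h (fun _ _ _ _ e => (Prod.ext_iff.1 e).1) (fun _ _ _ _ e => (Prod.ext_iff.1 e).1))
    (ce_mono h (fun _ _ _ _ e => (Prod.ext_iff.1 e).1) (fun _ _ _ _ e => Prod.ext e rfl))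

theorem cp0_low (h : IsP s p) (X : Ω → α) (U : Ω → β) :
    ce s p X (nil Ω) - ce s p U (nil Ω) ≤ ce s p X U := by
  have := ce_le_add h X U (nil Ω)
  rw [cp0_nil h] at this
  linarith

theorem cp0_up (h : IsP s p) {X : Ω → α} {U : Ω → β} (hU : Det s U X) :
    ce s p X U ≤ ce s p X (nil Ω) - ce s p U (nil Ω) := by
  have a1 := ce_chain (s := s) (p := p) U X (nil Ω)
  rw [cp0_nil h] at a1
  have a2 : ce s p (pj U X) (nil Ω) ≤ ce s p X (nil Ω) :=
    ce_mono h (fun ω hω ω' hω' e => Prod.ext (hU ω hω ω' hω' (Prod.ext_iff.1 e).1)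
      (Prod.ext_iff.1 e).1) (fun _ _ _ _ e => e)
  linarith

open Classical in
theorem cp0_cnt {N : ℕ} {φ : ℕ → ℝ} (h0 : ∀ k, 0 ≤ φ k) {S t : ℝ}
    (hS : ∑ k ∈ range N, φ k ≤ S) :
    (((range N).filter (fun k => t < φ k)).card : ℝ) * t ≤ S := by
  have a1 := Finset.card_nsmul_le_sum ((range N).filter (fun k => t < φ k)) φ t
    fun k hk => (Finset.mem_filter.1 hk).2.le
  have a2 := Finset.sum_le_sum_of_subset_of_nonneg
    (Finset.filter_subset (fun k => t < φ k) (range N)) (f := φ) fun k _ _ => h0 k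
  rw [nsmul_eq_mul] at a1
  linarith

/-- the loss in the window of length `R` at level `k` -/
def cpLoss (s : Finset Ω) (p : Ω → ℝ) (g : Ω → ℝ) (Z : Ω → γ) (R k : ℕ) : ℝ :=
  ce s p (qs (k + R) g) (qs k g) - ce s p (qs (k + R) g) (pj (qs k g) Z)

theorem cpLoss_nonneg (h : IsP s p) (g : Ω → ℝ) (Z : Ω → γ) (R k : ℕ) :
    0 ≤ cpLoss s p g Z R k :=
  sub_nonneg.2 (ce_mono h (fun _ _ _ _ e => (Prod.ext_iff.1 e).1)
    (fun _ _ _ _ e => (Prod.ext_iff.1 e).1))

theorem cpLoss_sum (h : IsP s p) (g : Ω → ℝ) (Z : Ω → γ) (R N : ℕ) {e : ℝ}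
    (he : ce s p g (nil Ω) - ce s p g Z ≤ e) :
    ∑ k ∈ range N, cpLoss s p g Z R k ≤ R * e := by
  have a1 := tele_info h (fun k => qs k g) (fun k => det_qs (Nat.le_succ k) g) (nil Ω) Z
    (fun _ _ _ _ _ => rfl) R N
  simp only [cp0_nil h] at a1
  have a2 := info_mono h (X := g) (V := qs (N + R) g) (nil Ω) Z
    (fun ω _ ω' _ e => by
      have : g ω = g ω' := (Prod.ext_iff.1 e).1
      unfold qs
      rw [this]) (fun _ _ _ _ _ => rfl)
  refine le_trans a1 (mul_le_mul_of_nonneg_left (a2.trans he) (Nat.cast_nonneg R))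

theorem cp0_sv (h : IsP s p) (g : Ω → ℝ) (j i : ℕ) :
    ce s p (qv j (sv1 g)) (qv i (sv1 g)) = ce s p (qs j g) (qs i g) := by
  have d1 : ∀ l, Det s (qv l (sv1 g)) (qs l g) := fun l ω _ ω' _ e => funext fun _ => e
  have d2 : ∀ l, Det s (qs l g) (qv l (sv1 g)) := fun l ω _ ω' _ e => congrFun e ()
  exact le_antisymm
    (ce_mono h (fun ω hω ω' hω' e => d1 j ω hω ω' hω' (Prod.ext_iff.1 e).1) (d2 i))
    (ce_mono h (fun ω hω ω' hω' e => d2 j ω hω ω' hω' (Prod.ext_iff.1 e).1) (d1 i))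

theorem cp0_ina (h : IsP s p) (A : Ω → α) (T : Ω → τ) {g : Ω → ℝ} {n k m : ℕ} {D θ ε : ℝ}
    {f : ℕ → ℝ} (hR : Reg s p (sv1 g) n D f) (hD : 0 ≤ D) (hk : k + m ≤ n) (hε : 0 < ε)
    (h1 : θ ≤ f (k + m) - f k) (h2 : cpLoss s p g (pj A T) m k ≤ 1)
    (h3 : 2 * D + 2 ≤ ε * (θ - 2)) : inaP s p A T g k m ≤ ε := by
  classical
  have hc : ∀ ω ∈ s, (cnt s (qv (k + m) (sv1 g)) (qv k (sv1 g)) (fun _ => True) ω : ℝ) ≤
      (2 : ℝ) ^ (f (k + m) - f k + D) := fun ω hω => hR.cnt_le h (Nat.le_add_right k m) hk hω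
  have hB : ∀ ω ∈ s, (cnt s (qv (k + m) (sv1 g)) (qv k (sv1 g))
      (fun ω' => |qv (k + m) (sv1 g) ω' () - qs (k + m) g ω| ≤ 1) ω : ℝ) ≤ (2 : ℝ) ^ (2 : ℝ) := by
    intro ω _
    have a1 : cnt s (qv (k + m) (sv1 g)) (qv k (sv1 g))
        (fun ω' => |qv (k + m) (sv1 g) ω' () - qs (k + m) g ω| ≤ 1) ω ≤
        (Finset.Icc (qs (k + m) g ω - 1) (qs (k + m) g ω + 1)).card := by
      unfold cnt
      refine Finset.card_le_card_of_injOn (fun v => v ()) ?_ ?_
      · intro v hv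
        simp only [Finset.coe_image, Set.mem_image, Finset.mem_coe, Finset.mem_filter] at hv
        obtain ⟨ω', ⟨_, _, e⟩, rfl⟩ := hv
        rw [abs_le] at e
        simp only [Finset.coe_Icc, Set.mem_Icc]
        constructor <;> linarith [e.1, e.2]
      · intro v _ v' _ e
        exact funext fun _ => e
    rw [Int.card_Icc] at a1
    have a2 : (qs (k + m) g ω + 1 + 1 - (qs (k + m) g ω - 1)).toNat = 3 := by
      have : qs (k + m) g ω + 1 + 1 - (qs (k + m) g ω - 1) = 3 := by ring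
      rw [this]
      rfl
    rw [a2] at a1
    have a3 : ((cnt s (qv (k + m) (sv1 g)) (qv k (sv1 g))
        (fun ω' => |qv (k + m) (sv1 g) ω' () - qs (k + m) g ω| ≤ 1) ω : ℕ) : ℝ) ≤ 3 := by
      exact_mod_cast a1
    refine a3.trans ?_
    norm_num
  have he : f (k + m) - f k + D - (2 * D + 1) ≤ ce s p (qv (k + m) (sv1 g)) (stK A T (qs k g)) := by
    have a1 := (hR.ce_ge h (Nat.le_add_right k m) hk).1
    rw [cp0_sv h] at a1
    have a2 : ce s p (qs (k + m) g) (pj (qs k g) (pj A T)) ≤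
        ce s p (qv (k + m) (sv1 g)) (stK A T (qs k g)) := by
      refine ce_mono h (fun ω _ ω' _ e => congrFun (Prod.ext_iff.1 e).1 ()) fun ω _ ω' _ e => ?_
      have e1 := (Prod.ext_iff.1 e).1
      have e2 := Prod.ext_iff.1 (Prod.ext_iff.1 e).2
      exact Prod.ext e2.1 (Prod.ext e2.2 e1)
    unfold cpLoss at h2
    linarith
  have hf := glue_fano h (stK A T (qs k g)) (qv (k + m) (sv1 g)) (qv k (sv1 g))
    (fun ω _ ω' _ e => funext fun _ => (Prod.ext_iff.1 (Prod.ext_iff.1 e).2).2)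
    (fun ω v => |v () - qs (k + m) g ω| ≤ 1) hc hB he
  change inaP s p A T g k m * _ ≤ _ at hf
  have h0 : 0 ≤ inaP s p A T g k m := ms_ge_zero (glue_prob h _) _
  have ht : 0 < θ - 2 := by
    by_contra hn
    have : ε * (θ - 2) ≤ 0 := mul_nonpos_of_nonneg_of_nonpos hε.le (not_lt.1 hn)
    linarith
  have a5 : inaP s p A T g k m * (θ - 2) ≤ inaP s p A T g k m * (f (k + m) - f k + D - 2) :=
    mul_le_mul_of_nonneg_left (by linarith) h0
  exact le_of_mul_le_mul_right (by linarith) ht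

open Classical in
theorem cp0_dens (h : IsP s p) {g : Ω → ℝ} (hg : ∀ ω ∈ s, |g ω| ≤ 1) {n N m : ℕ} {D σ : ℝ}
    {f : ℕ → ℝ} (hR : Reg s p (sv1 g) n D f) (hN : N + m ≤ n) (hm : 0 < m) (hσ : 0 < σ)
    (hD : D ≤ σ * m / 8) (he : σ * n ≤ ce s p (qs n g) (nil Ω)) :
    5 / 8 * σ * n - (n - N) - m - 2 ≤
      (((range N).filter (fun k => σ * m / 4 ≤ f (k + m) - f k)).card : ℝ) := by
  have a1 := (tele_sum h (fun k => qs k g) (fun k => det_qs (Nat.le_succ k) g) (nil Ω) m 0 N).1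
  simp only [cp0_nil h, zero_add] at a1
  have a2 := cp0_low h (qs N g) (qs m g)
  have a3 := cp0_low h (qs n g) (qs N g)
  have a4 := ce_qs h (by omega : N ≤ n) g
  have a5 := ce_qs_bd h m g (nil Ω) (c := 0) le_rfl (by simpa using hg)
  have hm' : (0 : ℝ) < m := by exact_mod_cast hm
  have a6 : ∑ k ∈ range N, ce s p (qs (k + m) g) (qs k g) ≤
      ∑ k ∈ range N, ((if σ * m / 4 ≤ f (k + m) - f k then (m : ℝ) else 0) + 3 / 8 * σ * m) := by
    refine Finset.sum_le_sum fun k hk => ?_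
    have hk' := Finset.mem_range.1 hk
    have b0 : 0 ≤ 3 / 8 * σ * m := by positivity
    split_ifs with hc
    · have := ce_qs h (Nat.le_add_right k m) g
      push_cast at this
      linarith
    · have := (hR.ce_ge h (Nat.le_add_right k m) (by omega)).2
      rw [cp0_sv h] at this
      linarith [not_le.1 hc]
  rw [Finset.sum_add_distrib, ← Finset.sum_filter, Finset.sum_const, Finset.sum_const,
    Finset.card_range, nsmul_eq_mul, nsmul_eq_mul] at a6
  have hNn : (N : ℝ) ≤ n := by exact_mod_cast (by omega : N ≤ n)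
  have a7 : (N : ℝ) * (3 / 8 * σ * m) ≤ n * (3 / 8 * σ * m) := by gcongr
  have a8 : (m : ℝ) * (σ * n - (n - N) - m - 2) ≤ m * ce s p (qs N g) (qs m g) :=
    mul_le_mul_of_nonneg_left (by linarith) hm'.le
  refine le_of_mul_le_mul_right ?_ hm'
  linarith

theorem cp0_sup (h : IsP s p) {Y : Ω → ι → ℝ} {z : Ω → ℝ} {n : ℕ} {c : ℝ}
    (hz : Prx s p n c Y z) (L i N : ℕ) (hi : i ≤ n) :
    ∑ k ∈ range N, ce s p (qv (i + k + L) Y) (qv (i + k) Y) ≤ L * (ce s p Y (nil Ω) - i + c) := by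
  have a1 := (tele_sum h (fun k => qv k Y) (fun k => det_qv (Nat.le_succ k) Y) (nil Ω) L i N).2
  simp only [cp0_nil h] at a1
  have a2 := cp0_up h (det_qv (s := s) (by omega : i ≤ i + N + L) Y)
  have a3 := hz.ge h hi
  have a4 : ce s p (qv (i + N + L) Y) (nil Ω) ≤ ce s p Y (nil Ω) :=
    ce_mono h (fun ω _ ω' _ e => by
      have : Y ω = Y ω' := (Prod.ext_iff.1 e).1
      unfold qv
      rw [this]) (fun _ _ _ _ e => e)
  exact a1.trans (mul_le_mul_of_nonneg_left (by linarith) (Nat.cast_nonneg L))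

theorem cp0_inf (h : IsP s p) {a : Ω → Fin 2 → ℝ} (ha : ∀ ω ∈ s, ‖a ω‖ ≤ 1) {z : Ω → ℝ} {n : ℕ}
    {c : ℝ} (hz : Prx s p n c a z) (L N : ℕ) (hN : N ≤ n) :
    (L : ℝ) * (N - c - 2 * L - 4) ≤ ∑ k ∈ range N, ce s p (qv (k + L) a) (qv k a) := by
  have a1 := (tele_sum h (fun k => qv k a) (fun k => det_qv (Nat.le_succ k) a) (nil Ω) L 0 N).1
  simp only [cp0_nil h, zero_add] at a1
  have a2 := cp0_low h (qv N a) (qv L a)
  have a3 := hz.ge h hN
  have a4 := ce_near h L a (fun _ => 0) (nil Ω) (fun _ _ _ _ _ => rfl) (x := L) (Nat.cast_nonneg L)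
    (fun ω hω => by
      rw [Real.rpow_natCast, div_self (by positivity), sub_zero]
      exact ha ω hω)
  rw [Fintype.card_fin] at a4
  push_cast at a4
  exact le_trans (mul_le_mul_of_nonneg_left (by linarith) (Nat.cast_nonneg L)) a1

theorem cp0_abs (N : ℕ) (u v : ℕ → ℝ) {L : ℝ} (hL : 0 < L) :
    ∑ k ∈ range N, |u k / L - v k / L| =
      (∑ k ∈ range N, u k - ∑ k ∈ range N, v k + 2 * ∑ k ∈ range N, max 0 (v k - u k)) / L := by
  rw [Finset.mul_sum, ← Finset.sum_sub_distrib, ← Finset.sum_add_distrib, Finset.sum_div]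
  refine Finset.sum_congr rfl fun k _ => ?_
  rw [← sub_div, abs_div, abs_of_pos hL]
  congr 1
  rcases le_total (u k) (v k) with hh | hh
  · rw [abs_of_nonpos (by linarith), max_eq_right (by linarith)]
    ring
  · rw [abs_of_nonneg (by linarith), max_eq_left (by linarith)]
    ring

end Vale.Agent.P127S
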