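import Vale.Agent.P127S.CoreQ0

/-! Systems of the second kind with a spread coefficient vector do not exist. -/

open Real Finset Vale.Agent.P118O

noncomputable section

namespace Vale.Agent.P127S

/-- Uniformise `G` (`unf`) and select an atom (`select`, event `b ≠ none`) with the functionals
`dfc`, `Top.at`, `Prx.at` (twice; the information of `qs n g0` about `b` is at most the entropy of
`b`); then `coreQ0`. -/
theorem coreQ {σ : ℝ} (hσ : 0 < σ) : ∃ c : ℝ, 0 < c ∧ ∀ ϱ : ℝ, 0 < ϱ →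
    ∃ (L2 : ℕ) (τ0 η : ℝ), 0 < τ0 ∧ 0 < η ∧ ∃ n0 : ℕ, ∀ n ≥ n0,
    ∀ {Ω α τ υ : Type} (s : Finset Ω) (p : Ω → ℝ) (Y : Ω → Unit → ℝ) (A : Ω → α) (T : Ω → τ)
      (G a : Ω → Fin 2 → ℝ) (u : Ω → υ) (y : υ → Fin 2 → ℝ) (Au : Finset υ)
      (Q : υ → ℝ) (g0 s0 : Ω → ℝ),
      SysQ s p n Y A T G a → dfc s p Y A T G ≤ η * n →
      Top s p ϱ τ0 L2 (pj Y G) T a u y Au Q →
      (∀ ω ∈ s, (cnt s Y (nil Ω) (fun _ => True) ω : ℝ) ≤ (2 : ℝ) ^ ((1 - σ + c) * n)) →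
      Prx s p n (c * n) G g0 → Prx s p n (c * n) a s0 → False := by
  classical
  obtain ⟨c0, hc0, H⟩ := coreQ0 hσ
  refine ⟨c0 / 100, by positivity, fun ϱ hϱ => ?_⟩
  obtain ⟨c', hc', hca, hcb⟩ : ∃ c' : ℝ, 0 < c' ∧ c' ≤ c0 / 100 ∧ c' ≤ 1 / 2 :=
    ⟨min (c0 / 100) (1 / 2), lt_min (by positivity) (by norm_num), min_le_left _ _,
      min_le_right _ _⟩
  obtain ⟨D, hD, n1, hU⟩ := unf hc'
  obtain ⟨L2, τ1, η1, hτ1, hη1, n2, H⟩ := H D hD ϱ hϱ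
  obtain ⟨n3, hn3⟩ := exists_nat_ge (48 / c0)
  refine ⟨L2, τ1 / 10, η1 / 10, by positivity, by positivity, n1 + n2 + n3,
    fun n hn Ω α τ υ s p Y A T G a u y Au Q g0 s0 hS hd ht hY hg ha => ?_⟩
  have h := hS.isP
  have hn0 : (0 : ℝ) ≤ n := Nat.cast_nonneg n
  have hn3' : 48 ≤ c0 * n := by
    have h1 : (n3 : ℝ) ≤ n := by exact_mod_cast (by omega : n3 ≤ n)
    have h2 := hn3.trans h1
    rw [div_le_iff₀ hc0] at h2
    linarith
  obtain ⟨b, hb, hbe, hbn, hbR⟩ := hU n (by omega) s p G h (by simp) hS.hg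
  have hcn : 0 ≤ c0 / 100 * n := by positivity
  obtain ⟨φt, hφt0, hφt1, hφt2⟩ := Top.at h ht b (Sys_tr hb Sys_snd)
  obtain ⟨φg, hφg0, hφg1, hφg2⟩ := Prx.at h hcn hg b
  obtain ⟨φa, hφa0, hφa1, hφa2⟩ := Prx.at h hcn ha b
  have hc'n : c' * n ≤ c0 / 100 * n := by gcongr
  obtain ⟨ω0, hω0, hp0, hE, hφ⟩ := select h (E := fun ω => ¬ b ω = none) (κ := 1 / 2)
    (by norm_num) (by rw [ms_not h]; linarith) (J := 4)
    ![fun ω => dfc (atS s b ω) (atP s p b ω) Y A T G, φt, φg, φa]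
    ![η1 / 10 * n, τ1 / 10, 3 * (c0 / 100 * n) + 2, 3 * (c0 / 100 * n) + 2]
    (by
      intro i ω hω hp
      have hA := at_isP h b hω hp
      fin_cases i
      · exact dfc_nonneg hA Y A T G
      · exact hφt0 ω hω hp
      · exact hφg0 ω hω hp
      · exact hφa0 ω hω hp)
    (by
      intro i
      fin_cases i
      · exact (dfc_at h Y A T G b (Or.inl hb)).trans hd
      · exact hφt1
      · have := coreQ0_info h (qs n g0) b
        change ex s p φg ≤ 3 * (c0 / 100 * n) + 2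
        linarith
      · have := coreQ0_info h (qs n s0) b
        change ex s p φa ≤ 3 * (c0 / 100 * n) + 2
        linarith)
  have e0 : dfc (atS s b ω0) (atP s p b ω0) Y A T G ≤
      ((4 : ℕ) + 1) * (η1 / 10 * n) / (1 / 2) := hφ 0
  have e1 : φt ω0 ≤ ((4 : ℕ) + 1) * (τ1 / 10) / (1 / 2) := hφ 1
  have e2 : φg ω0 ≤ ((4 : ℕ) + 1) * (3 * (c0 / 100 * n) + 2) / (1 / 2) := hφ 2
  have e3 : φa ω0 ≤ ((4 : ℕ) + 1) * (3 * (c0 / 100 * n) + 2) / (1 / 2) := hφ 3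
  push_cast at e0 e1 e2 e3
  obtain ⟨f, hf⟩ := hbR ω0 hω0 hE
  refine H n (by omega) (atS s b ω0) (atP s p b ω0) Y A T G a u y Au Q f g0 s0
    (hS.at b hω0 hp0) (by linarith) ((hφt2 ω0 hω0 hp0).mono (by linarith)) hf
    (fun ω hω => ?_) ((hφg2 ω0 hω0 hp0).mono (by linarith))
    ((hφa2 ω0 hω0 hp0).mono (by linarith))
  refine (coreQ0_cnt s Y (nil Ω) b ω0 ω).trans ((hY ω (mem_atS.1 hω).1).trans ?_)
  exact rpow_le_rpow_of_exponent_le one_le_two (by nlinarith)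

end Vale.Agent.P127S
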