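import Vale.Agent.P127S.Sys

/-! The two local estimates for systems of the second kind. -/

open Real Finset Vale.Agent.P118O

noncomputable section

namespace Vale.Agent.P127S

variable {Ω α τ υ : Type} {s : Finset Ω} {p : Ω → ℝ} {n : ℕ} {Y : Ω → Unit → ℝ} {A : Ω → α}
  {T : Ω → τ} {G : Ω → Fin 2 → ℝ} {a : Ω → Fin 2 → ℝ}

theorem topQ_dot (v w : Fin 2 → ℝ) {b c : ℝ} (hv : ‖v‖ ≤ b) (hw : ‖w‖ ≤ c) :
    |dot2 v w| ≤ 2 * b * c := by
  have hb : 0 ≤ b := (norm_nonneg _).trans hv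
  have h : ∀ i, |v i * w i| ≤ b * c := fun i => by
    rw [abs_mul]
    exact mul_le_mul ((norm_le_pi_norm v i).trans hv) ((norm_le_pi_norm w i).trans hw)
      (abs_nonneg _) hb
  unfold dot2
  have := abs_add_le (v 0 * w 0) (v 1 * w 1)
  linarith [h 0, h 1]

theorem topQ_close {k k' : ℕ} (hk : k ≤ k') {v w : Fin 2 → ℝ} (e : qz k v = qz k w) :
    ‖dz k' v - dz k' w‖ ≤ 1 / 2 ^ k :=
  qz_close (by rw [qz_dz hk, qz_dz hk, e])

theorem topQ_far {k k' : ℕ} (hk : k ≤ k') {v w : Fin 2 → ℝ} {i : Fin 2}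
    (e : ¬ |qz k w i - qz k v i| ≤ 1) : (1 / 2 ^ k : ℝ) ^ 2 ≤ ((dz k' v - dz k' w) i) ^ 2 := by
  rw [← qz_dz hk v, ← qz_dz hk w] at e
  rw [Pi.sub_apply]
  generalize dz k' v = v' at e ⊢
  generalize dz k' w = w' at e ⊢
  unfold qz at e
  have h1 := Int.floor_le ((2 : ℝ) ^ k * v' i)
  have h2 := Int.lt_floor_add_one ((2 : ℝ) ^ k * v' i)
  have h3 := Int.floor_le ((2 : ℝ) ^ k * w' i)
  have h4 := Int.lt_floor_add_one ((2 : ℝ) ^ k * w' i)
  have hp : (0 : ℝ) < 2 ^ k := by positivity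
  have h5 : 1 ≤ |(2 : ℝ) ^ k * (v' i - w' i)| := by
    rw [not_le, lt_abs] at e
    rw [le_abs]
    rcases e with e | e
    · have : ((⌊(2 : ℝ) ^ k * v' i⌋ : ℤ) : ℝ) + 2 ≤ (⌊(2 : ℝ) ^ k * w' i⌋ : ℤ) := by
        exact_mod_cast (by omega : ⌊(2 : ℝ) ^ k * v' i⌋ + 2 ≤ ⌊(2 : ℝ) ^ k * w' i⌋)
      right; linarith
    · have : ((⌊(2 : ℝ) ^ k * w' i⌋ : ℤ) : ℝ) + 2 ≤ (⌊(2 : ℝ) ^ k * v' i⌋ : ℤ) := by
        exact_mod_cast (by omega : ⌊(2 : ℝ) ^ k * w' i⌋ + 2 ≤ ⌊(2 : ℝ) ^ k * v' i⌋)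
      left; linarith
  rw [abs_mul, abs_of_pos hp] at h5
  rw [← sq_abs (v' i - w' i)]
  refine pow_le_pow_left₀ (by positivity) ?_ 2
  rw [div_le_iff₀ hp]
  linarith

theorem topQ_spr {Au : Finset υ} {Q : υ → ℝ} {y : υ → Fin 2 → ℝ} {ϱ v r : ℝ}
    (h : Spr Au Q y ϱ) (d : Fin 2 → ℝ) (i : Fin 2) (hd : r ^ 2 ≤ d i ^ 2)
    (hv : v ^ 2 ≤ ϱ ^ 2 * r ^ 2) : Spr Au Q (fun z (_ : Unit) => dot2 (y z) d) v := by
  intro η
  have h1 := h fun i => η () * d i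
  have e : (fun z => ∑ i : Unit, η i * dot2 (y z) d) = fun z => ∑ i, η () * d i * y z i := by
    funext z
    simp only [Finset.univ_unique, Finset.sum_singleton, Fin.sum_univ_two, dot2]
    have : (default : Unit) = () := rfl
    rw [this]; ring
  rw [e]
  refine le_trans ?_ h1
  have h2 : (η () * d i) ^ 2 ≤ ∑ i, (η () * d i) ^ 2 :=
    Finset.single_le_sum (f := fun i => (η () * d i) ^ 2) (fun _ _ => sq_nonneg _) (mem_univ i)
  have h3 : ∑ i : Unit, η i ^ 2 = η () ^ 2 := by simp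
  rw [h3]
  calc v ^ 2 * η () ^ 2 ≤ ϱ ^ 2 * r ^ 2 * η () ^ 2 := by gcongr
    _ ≤ ϱ ^ 2 * d i ^ 2 * η () ^ 2 := by gcongr
    _ = ϱ ^ 2 * (η () * d i) ^ 2 := by ring
    _ ≤ _ := by gcongr

theorem topQ_cnt {γ : Type} (V : Ω → Fin 2 → ℤ) (ζ : Ω → γ) (ω : Ω) :
    (cnt s V ζ (fun ω' => ∀ i, |V ω' i - V ω i| ≤ 1) ω : ℝ) ≤ (2 : ℝ) ^ (4 : ℝ) := by
  have h1 : cnt s V ζ (fun ω' => ∀ i, |V ω' i - V ω i| ≤ 1) ω ≤
      (Fintype.piFinset fun i => Finset.Icc (V ω i - 1) (V ω i + 1)).card := by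
    unfold cnt
    refine Finset.card_le_card fun z hz => ?_
    simp only [Finset.mem_image, Finset.mem_filter] at hz
    obtain ⟨ω', ⟨-, -, h2⟩, rfl⟩ := hz
    refine Fintype.mem_piFinset.2 fun i => ?_
    have := abs_le.1 (h2 i)
    rw [Finset.mem_Icc]
    omega
  have h2 : (Fintype.piFinset fun i => Finset.Icc (V ω i - 1) (V ω i + 1)).card = 9 := by
    rw [Fintype.card_piFinset, Fin.prod_univ_two, Int.card_Icc, Int.card_Icc]
    have e : ∀ t : ℤ, (t + 1 + 1 - (t - 1)).toNat = 3 := fun t => by omega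
    rw [e, e]
    norm_num
  have h3 : (2 : ℝ) ^ (4 : ℝ) = 16 := by
    rw [show (4 : ℝ) = ((4 : ℕ) : ℝ) by norm_num, rpow_natCast]; norm_num
  rw [h2] at h1
  rw [h3]
  have : (cnt s V ζ (fun ω' => ∀ i, |V ω' i - V ω i| ≤ 1) ω : ℝ) ≤ 9 := by exact_mod_cast h1
  linarith

/-- `stch_ex` with `ζ = qv k G`, `k = j + L + M`; `stch_sat` with `w = nil`, `c = qv (k + 2 L) G`,
`m = 0`, `ξ c c' z = fun _ => dot2 (y z) (cor (k + 2 L) c - cor (k + 2 L) c')`. A step is spread as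
soon as the cells of level `k + L1` are not neighbours (at most `9 ≤ 2 ^ 4` neighbours,
`glue_fano`); `stch_ent` gives the relative entropy. -/
theorem topQ {ε ν ϱ τ0 x D : ℝ} {M L L1 L2 j : ℕ} (hs : SatP ε ν M L) (h : SysQ s p n Y A T G a)
    {u : Ω → υ} {y : υ → Fin 2 → ℝ} {Au : Finset υ} {Q : υ → ℝ}
    (ht : Top s p ϱ τ0 L2 (pj Y G) T a u y Au Q) (hν0 : 0 ≤ ν) (hν : ν ≤ ϱ / 2 ^ L1)
    (hm : L1 ≤ 2 * L) (hL2 : 2 * L ≤ L2) (hn : j + L + M + 2 * L ≤ n)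
    (hc : ∀ ω ∈ s, (cnt s (qv (j + L + M + L1) G) (qv (j + L + M) G) (fun _ => True) ω : ℝ) ≤
      (2 : ℝ) ^ x)
    (he : x - D ≤ ce s p (qv (j + L + M + L1) G) (pj (qv (j + L + M) G) (pj A T)))
    (hx : D + 1 ≤ ε * (x - 4)) (hD : 0 ≤ D) (hε : 0 < ε) (hτ : τ0 ≤ 1 / (3 * 4 ^ L))
    (h1 : ce s p (qv (j + L + M + 2 * L) G) (qv (j + L + M) G) -
      ce s p (qv (j + L + M + 2 * L) G) (pj (qv (j + L + M) G) (pj T Y)) ≤ 1 / (3 * 4 ^ L))
    (h2 : ce s p (qv (j + L + M + 2 * L) G) (qv (j + L + M) G) -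
      ce s p (qv (j + L + M + 2 * L) G) (pj (qv (j + L + M) G) (pj A T)) ≤ 1 / (3 * 4 ^ L)) :
    (1 - 4 * ε) * L ≤ ce s p (qv (j + L) Y) (qv j Y) := by
  obtain ⟨sK, pK, hch⟩ := stch_ex h.isP Y A T (qv (j + L + M) G) (4 ^ L)
  have h4 : (0 : ℝ) < 4 ^ L := by positivity
  have hk : (0 : ℝ) < 2 ^ (j + L + M) := by positivity
  have e2 : (2 : ℝ) ^ (j + L + M + 2 * L) = 2 ^ (j + L + M) * 4 ^ L := by
    rw [pow_add, pow_mul]; norm_num
  have key := stch_sat hs (by simp) h.isP hch ⟨0, by positivity⟩ rfl u (nil Ω)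
    (qv (j + L + M + 2 * L) G) (fun _ => Au) (fun _ => Q) (fun _ _ _ => 0)
    (fun _ c c' z _ => dot2 (y z) (cor (j + L + M + 2 * L) c - cor (j + L + M + 2 * L) c')) j
    ht.mem (fun _ _ => ⟨ht.pos, ht.one⟩) ?_ ?_ ?_ ?_
  · simpa using key
  · intro ω _ ω' _ e z hz
    have e3 : qz (j + L + M) (G ω) = qz (j + L + M) (G ω') := (Prod.mk.inj (Prod.mk.inj e).2).2
    refine (pi_norm_le_iff_of_nonneg (by positivity)).2 fun _ => ?_
    have h5 := topQ_dot (y z) _ (ht.bd z hz) (topQ_close (Nat.le_add_right _ (2 * L)) e3)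
    rw [Real.norm_eq_abs]
    refine h5.trans (le_of_eq ?_)
    ring
  · intro ω hω ω' hω' e
    have e1 : A ω = A ω' := (Prod.mk.inj e).1
    have e0 : T ω = T ω' := (Prod.mk.inj (Prod.mk.inj e).2).1
    have e3 : qz (j + L + M) (G ω) = qz (j + L + M) (G ω') := (Prod.mk.inj (Prod.mk.inj e).2).2
    refine (pi_norm_le_iff_of_nonneg (by positivity)).2 fun i => ?_
    have hd := topQ_close (Nat.le_add_right _ (2 * L)) e3
    have b1 := h.rel ω hω ω' hω' e1 e0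
    have b2 : ‖G ω - G ω' - (dz (j + L + M + 2 * L) (G ω) - dz (j + L + M + 2 * L) (G ω'))‖ ≤
        2 / 2 ^ (j + L + M + 2 * L) := by
      have c1 := dz_close (j + L + M + 2 * L) (G ω)
      have c2 := dz_close (j + L + M + 2 * L) (G ω')
      have c3 : G ω - G ω' - (dz (j + L + M + 2 * L) (G ω) - dz (j + L + M + 2 * L) (G ω')) =
          (G ω - dz (j + L + M + 2 * L) (G ω)) - (G ω' - dz (j + L + M + 2 * L) (G ω')) := by
        abel
      rw [c3]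
      refine (norm_sub_le _ _).trans ?_
      have : (2 : ℝ) / 2 ^ (j + L + M + 2 * L) =
          1 / 2 ^ (j + L + M + 2 * L) + 1 / 2 ^ (j + L + M + 2 * L) := by ring
      linarith
    have b3 := topQ_dot (a ω) _ (h.ha ω hω) b2
    have b4 := topQ_dot _ _ (ht.near ω hω) hd
    have b5 : (1 : ℝ) / 2 ^ n ≤ 1 / 2 ^ (j + L + M + 2 * L) :=
      one_div_le_one_div_of_le (by positivity) (pow_le_pow_right₀ (by norm_num) hn)
    have b6 : (1 : ℝ) / 2 ^ L2 ≤ 1 / 4 ^ L := by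
      refine one_div_le_one_div_of_le h4 ?_
      rw [show (4 : ℝ) = 2 ^ 2 by norm_num, ← pow_mul]
      exact pow_le_pow_right₀ (by norm_num) hL2
    have b7 : 2 * (1 / 2 ^ L2) * (1 / 2 ^ (j + L + M)) ≤
        2 * ((1 : ℝ) / 4 ^ L) * (1 / 2 ^ (j + L + M)) := by gcongr
    have b8 : (Y ω' - Y ω - 0 - fun _ : Unit => dot2 (y (u ω))
        (cor (j + L + M + 2 * L) (qv (j + L + M + 2 * L) G ω) -
          cor (j + L + M + 2 * L) (qv (j + L + M + 2 * L) G ω'))) i =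
        (Y ω' () - Y ω () - dot2 (a ω) (G ω - G ω')) +
        dot2 (a ω) (G ω - G ω' -
          (dz (j + L + M + 2 * L) (G ω) - dz (j + L + M + 2 * L) (G ω'))) +
        dot2 (a ω - y (u ω)) (dz (j + L + M + 2 * L) (G ω) - dz (j + L + M + 2 * L) (G ω')) := by
      have : i = () := rfl
      subst this
      simp only [Pi.sub_apply, Pi.zero_apply, dot2, dz, qv]
      ring
    rw [Real.norm_eq_abs, b8]
    refine (abs_add_three _ _ _).trans ?_
    rw [e2] at b3 b5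
    have b9 : (8 : ℝ) / 2 ^ (j + L + M) / 4 ^ L = 8 * (1 / (2 ^ (j + L + M) * 4 ^ L)) := by
      field_simp
    have b10 : 2 * ((1 : ℝ) / 4 ^ L) * (1 / 2 ^ (j + L + M)) =
        2 * (1 / (2 ^ (j + L + M) * 4 ^ L)) := by field_simp
    have b11 : 2 * 1 * ((2 : ℝ) / (2 ^ (j + L + M) * 4 ^ L)) =
        4 * (1 / (2 ^ (j + L + M) * 4 ^ L)) := by field_simp; norm_num
    have b12 : (0 : ℝ) ≤ 1 / (2 ^ (j + L + M) * 4 ^ L) := by positivity
    linarith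
  · have hf := glue_fano h.isP (stK A T (qv (j + L + M) G)) (qv (j + L + M + L1) G)
      (qv (j + L + M) G) (fun _ _ _ _ e => (Prod.mk.inj (Prod.mk.inj e).2).2)
      (fun ω z => ∀ i, |z i - qv (j + L + M + L1) G ω i| ≤ 1) hc
      (fun ω _ => topQ_cnt _ _ ω) (he.trans (ce_mono h.isP (fun _ _ _ _ e => (Prod.mk.inj e).1)
        fun _ _ _ _ e => by
          simp only [pj, stK, Prod.mk.injEq] at e ⊢
          tauto))
    have hx4 : 0 < x - 4 := by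
      by_contra hx4
      have : ε * (x - 4) ≤ 0 := mul_nonpos_of_nonneg_of_nonpos hε.le (not_lt.1 hx4)
      linarith
    refine le_trans (ms_imp (glue_prob h.isP _) fun z _ hz => ?_)
      (le_of_mul_le_mul_right (hf.trans hx) hx4)
    by_contra hn'
    obtain ⟨i, hi⟩ := not_forall.1 hn'
    refine hz (topQ_spr ht.spr _ i (topQ_far (Nat.add_le_add_left hm _) hi) ?_)
    rw [← mul_pow]
    refine pow_le_pow_left₀ (by positivity) ?_ 2
    have e5 : ϱ * (1 / 2 ^ (j + L + M + L1)) = ϱ / 2 ^ L1 / 2 ^ (j + L + M) := by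
      rw [pow_add (2 : ℝ) (j + L + M) L1]; field_simp
    rw [e5]
    gcongr
  · have h5 := stch_ent h.isP hch ⟨0, by positivity⟩ rfl u (qv (j + L + M + 2 * L) G) ht.det
      (det_qv (Nat.le_add_right _ _) G)
    have h6 : ce s p u (pj Y G) ≤ ce s p u (pj Y (qv (j + L + M) G)) :=
      ce_mono h.isP (fun _ _ _ _ e => (Prod.mk.inj e).1) fun _ _ _ _ e => by
        simp only [pj, qv, Prod.mk.injEq] at e ⊢
        exact ⟨e.1, by rw [e.2]⟩
    have h7 : ce s p (qv (j + L + M + 2 * L) G) (pj (qv (j + L + M) G) (pj T Y)) ≤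
        ce s p (qv (j + L + M + 2 * L) G) (pj T (pj Y (qv (j + L + M) G))) :=
      ce_mono h.isP (fun _ _ _ _ e => (Prod.mk.inj e).1) fun _ _ _ _ e => by
        simp only [pj, Prod.mk.injEq] at e ⊢
        tauto
    have h8 : ce s p (qv (j + L + M + 2 * L) G) (pj (qv (j + L + M) G) (pj A T)) ≤
        ce s p (qv (j + L + M + 2 * L) G) (stK A T (qv (j + L + M) G)) :=
      ce_mono h.isP (fun _ _ _ _ e => (Prod.mk.inj e).1) fun _ _ _ _ e => by
        simp only [pj, stK, Prod.mk.injEq] at e ⊢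
        tauto
    have h9 := ht.kl
    push_cast at h5
    have h10 : (4 : ℝ) ^ L * (3 * (1 / (3 * 4 ^ L))) = 1 := by field_simp
    have h11 : ex s p (fun ω => -Real.logb 2 (Q (u ω))) -
        (ce s p u (pj Y (qv (j + L + M) G)) +
          ce s p (qv (j + L + M + 2 * L) G) (pj T (pj Y (qv (j + L + M) G))) +
          ce s p (qv (j + L + M + 2 * L) G) (stK A T (qv (j + L + M) G)) -
          2 * ce s p (qv (j + L + M + 2 * L) G) (qv (j + L + M) G)) ≤ 3 * (1 / (3 * 4 ^ L)) := by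
      linarith
    have h12 := mul_le_mul_of_nonneg_left h11 h4.le
    rw [h10, mul_sub] at h12
    linarith

end Vale.Agent.P127S
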