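import Vale.Agent.P127S.CoreQ1
import Vale.Agent.P127S.TopQ
import Vale.Agent.P127S.Unf

/-! Systems of the second kind, middle stage. -/

open Real Finset Vale.Agent.P118O

noncomputable section

namespace Vale.Agent.P127S

section

variable {Ω α β γ τ ι υ : Type} {s : Finset Ω} {p : Ω → ℝ}

theorem coreQ0_cnt (s : Finset Ω) (X : Ω → α) (Y : Ω → β) (W : Ω → γ) (ω0 ω : Ω) :
    (cnt (atS s W ω0) X Y (fun _ => True) ω : ℝ) ≤ cnt s X Y (fun _ => True) ω := by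
  have : cnt (atS s W ω0) X Y (fun _ => True) ω ≤ cnt s X Y (fun _ => True) ω := by
    classical
    unfold cnt
    refine card_le_card (image_subset_image fun x hx => ?_)
    simp only [mem_filter] at hx ⊢
    exact ⟨(mem_atS.1 hx.1).1, hx.2⟩
  exact_mod_cast this

theorem coreQ0_ex (h : IsP s p) (S : Finset ℕ) (c : ℕ → ℝ) (F : ℕ → Ω → ℝ) :
    ex s p (fun ω => ∑ k ∈ S, (c k - F k ω)) = ∑ k ∈ S, (c k - ex s p (F k)) := by
  unfold ex
  simp only [mul_sum]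
  rw [sum_comm]
  refine sum_congr rfl fun k _ => ?_
  simp only [mul_sub]
  rw [sum_sub_distrib, ← sum_mul, h.2, one_mul]

theorem coreQ0_l0 (h : IsP s p) (X : Ω → α) (Y : Ω → β) (Z : Ω → γ) :
    ce s p X (pj Y Z) ≤ ce s p X Y :=
  ce_mono h (fun _ _ _ _ e => congrArg Prod.fst e) (fun _ _ _ _ e => congrArg Prod.fst e)

theorem coreQ0_loss (h : IsP s p) (G : Ω → ι → ℝ) (Z : Ω → β) (R n : ℕ) :
    ∑ k ∈ range n, (ce s p (qv (k + R) G) (qv k G) - ce s p (qv (k + R) G) (pj (qv k G) Z)) ≤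
      R * (ce s p G (nil Ω) - ce s p G Z) := by
  have h1 := tele_info h (fun k => qv k G) (fun k => det_qv (Nat.le_succ k) G) (nil Ω) Z
    (fun _ _ _ _ _ => rfl) R n
  simp only [coreQ1_nil h] at h1
  refine h1.trans (mul_le_mul_of_nonneg_left ?_ (Nat.cast_nonneg R))
  exact info_mono h (nil Ω) Z (fun ω _ ω' _ e => by
    have e1 : G ω = G ω' := congrArg Prod.fst e
    simp only [qv, e1]) (fun _ _ _ _ _ => rfl)

theorem coreQ0_shift (w : ℕ → ℝ) (h0 : ∀ k, 0 ≤ w k) {K : ℝ} (hK : ∀ n, ∑ k ∈ range n, w k ≤ K)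
    (c N : ℕ) (S : Finset ℕ) (hS : S ⊆ range N) : ∑ j ∈ S, w (j + c) ≤ K := by
  have h1 := hK (c + N)
  rw [sum_range_add] at h1
  have h2 : 0 ≤ ∑ k ∈ range c, w k := sum_nonneg fun k _ => h0 k
  have h3 : ∑ j ∈ S, w (j + c) ≤ ∑ j ∈ range N, w (j + c) :=
    sum_le_sum_of_subset_of_nonneg hS fun k _ _ => h0 _
  simp only [add_comm c] at h1
  linarith

theorem coreQ0_info (h : IsP s p) (V : Ω → α) (b : Ω → β) :
    ce s p V (nil Ω) - ce s p V b ≤ ce s p b (nil Ω) := by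
  have h1 := ce_cond h V b (nil Ω)
  rw [coreQ1_nil h] at h1
  have h2 := ce_nonneg h b (pj V (nil Ω))
  linarith

/-- `topQ` on most levels -/
theorem coreQ0_top {n : ℕ} {Y : Ω → Unit → ℝ} {A : Ω → α} {T : Ω → τ} {G a : Ω → Fin 2 → ℝ}
    {ε ν ϱ η D θ : ℝ} {M L L1 : ℕ} (hs : SatP ε ν M L) (h : SysQ s p n Y A T G a)
    {u : Ω → υ} {y : υ → Fin 2 → ℝ} {Au : Finset υ} {Q : υ → ℝ}
    (ht : Top s p ϱ (1 / (3 * 4 ^ L)) (2 * L) (pj Y G) T a u y Au Q) (hν0 : 0 ≤ ν)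
    (hν : ν ≤ ϱ / 2 ^ L1) (hL : L1 ≤ L) {f : ℕ → ℝ} (hR : Reg s p G n D f) (hD : 0 ≤ D)
    (hε : 0 < ε) (hθ : 2 * D + 2 ≤ ε * (θ * L1 - 4)) (hd : dfc s p Y A T G ≤ η * n)
    (hη : 12 * L * 4 ^ L * η ≤ ε) (S : Finset ℕ) (hS : S ⊆ range (n - 3 * L - M - L1))
    (hx : ∀ j ∈ S, θ * L1 ≤ f (j + L + M + L1) - f (j + L + M) + D) :
    ∑ j ∈ S, (L - ce s p (qv (j + L) Y) (qv j Y)) ≤ 5 * ε * L * n := by
  have hP := h.isP
  let w1 : ℕ → ℝ := fun k => ce s p (qv (k + 2 * L) G) (qv k G) -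
    ce s p (qv (k + 2 * L) G) (pj (qv k G) (pj T Y))
  let w2 : ℕ → ℝ := fun k => ce s p (qv (k + 2 * L) G) (qv k G) -
    ce s p (qv (k + 2 * L) G) (pj (qv k G) (pj A T))
  have hw1 : ∀ k, 0 ≤ w1 k := fun k => sub_nonneg.2 (coreQ0_l0 hP _ _ _)
  have hw2 : ∀ k, 0 ≤ w2 k := fun k => sub_nonneg.2 (coreQ0_l0 hP _ _ _)
  have hL0 : (0 : ℝ) ≤ L := Nat.cast_nonneg L
  have hs1 : ∑ j ∈ S, w1 (j + (L + M)) ≤ 2 * L * (η * n) := by
    refine coreQ0_shift w1 hw1 (fun m => (coreQ0_loss hP G (pj T Y) (2 * L) m).trans ?_) _ _ S hS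
    have := (dfc_GTY hP Y A T G).trans hd
    push_cast
    gcongr
  have hs2 : ∑ j ∈ S, w2 (j + (L + M)) ≤ 2 * L * (η * n) := by
    refine coreQ0_shift w2 hw2 (fun m => (coreQ0_loss hP G (pj A T) (2 * L) m).trans ?_) _ _ S hS
    have := (dfc_GAT hP Y A T G).trans hd
    push_cast
    gcongr
  have h4 : (1 : ℝ) ≤ 4 ^ L := one_le_pow₀ (by norm_num)
  have h3 : (0 : ℝ) < 3 * 4 ^ L := by positivity
  have hpt : ∀ j ∈ S, (L - ce s p (qv (j + L) Y) (qv j Y)) ≤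
      4 * ε * L + L * (3 * 4 ^ L) * (w1 (j + (L + M)) + w2 (j + (L + M))) := by
    intro j hj
    have hj' := mem_range.1 (hS hj)
    have a1 := hw1 (j + (L + M))
    have a2 := hw2 (j + (L + M))
    have a3 : 0 ≤ 4 * ε * L := by positivity
    by_cases hb : w1 (j + (L + M)) + w2 (j + (L + M)) ≤ 1 / (3 * 4 ^ L)
    · have e : j + (L + M) = j + L + M := (add_assoc _ _ _).symm
      rw [e] at hb a1 a2 ⊢
      have b1 := (Reg.ce_ge hP hR (Nat.le_add_right (j + L + M) L1) (by omega)).1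
      have b2 := info_mono hP (X := qv (j + L + M + 2 * L) G) (V := qv (j + L + M + L1) G)
        (qv (j + L + M) G) (pj (qv (j + L + M) G) (pj A T))
        (fun ω hω ω' hω' e => det_qv (by omega) G ω hω ω' hω' (congrArg Prod.fst e))
        (fun _ _ _ _ e => congrArg Prod.fst e)
      have b3 : (1 : ℝ) / (3 * 4 ^ L) ≤ 1 := by
        rw [div_le_one h3]; linarith
      have b4 := hx j hj
      have b5 := topQ (x := f (j + L + M + L1) - f (j + L + M) + D) (D := 2 * D + 1) (j := j)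
        hs h ht hν0 hν (by omega) le_rfl (by omega)
        (fun ω hω => Reg.cnt_le hP hR (Nat.le_add_right _ L1) (by omega) hω)
        (by simp only [w1, w2] at hb a1 a2; linarith)
        (by
          have : ε * (θ * L1 - 4) ≤ ε * (f (j + L + M + L1) - f (j + L + M) + D - 4) := by gcongr
          linarith)
        (by linarith) hε le_rfl
        (by simp only [w1, w2] at hb a1 a2; linarith)
        (by simp only [w1, w2] at hb a1 a2; linarith)
      have b6 : 0 ≤ L * (3 * 4 ^ L) * (w1 (j + L + M) + w2 (j + L + M)) := by positivity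
      linarith
    · rw [not_le, div_lt_iff₀ h3] at hb
      have b1 := ce_nonneg hP (qv (j + L) Y) (qv j Y)
      have b2 : (L : ℝ) * 1 ≤ L * ((w1 (j + (L + M)) + w2 (j + (L + M))) * (3 * 4 ^ L)) := by
        gcongr
      linarith
  refine (sum_le_sum hpt).trans ?_
  rw [sum_add_distrib, sum_const, ← mul_sum, sum_add_distrib, nsmul_eq_mul]
  have hc : (S.card : ℝ) ≤ n := by
    have := card_le_card hS
    rw [card_range] at this
    exact_mod_cast (by omega : S.card ≤ n)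
  have c1 : (S.card : ℝ) * (4 * ε * L) ≤ n * (4 * ε * L) := by gcongr
  have c2 : (L : ℝ) * (3 * 4 ^ L) * (∑ j ∈ S, w1 (j + (L + M)) + ∑ j ∈ S, w2 (j + (L + M))) ≤
      L * (3 * 4 ^ L) * (2 * L * (η * n) + 2 * L * (η * n)) := by gcongr
  have c3 : (12 * L * 4 ^ L * η) * (L * n) ≤ ε * (L * n) := by gcongr
  nlinarith

end

/-- Middle stage: `G` is regular. Let `x k = f (k + L1) - f k + D`. Choose `L1` large, then
`ν = min 1 ϱ / 2 ^ L1`, `M, L` from `satL`, `L2 = 2 L`, `E = 20 (2 D + 1)`. `topQ` applies at all levels with `θ L1 ≤ x k` except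
those where a loss is large (`tele_info`). Uniformise `a` (`unf`) and
select an atom of the label `b` (read off from `T`) with the functionals `dfc`, `Prx.at` (twice),
`∑ (x k - ce ..)`, and the sum of `L - ce (atom) Y[j+L] Y[j]`, whose mean is at most
`5 ε L n + L I (Y; b)` (`tele_info`). The number of values of `Y` does not increase. -/
theorem coreQ0 {σ : ℝ} (hσ : 0 < σ) : ∃ c : ℝ, 0 < c ∧ ∀ D : ℝ, 0 ≤ D → ∀ ϱ : ℝ, 0 < ϱ →
    ∃ (L2 : ℕ) (τ0 η : ℝ), 0 < τ0 ∧ 0 < η ∧ ∃ n0 : ℕ, ∀ n ≥ n0,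
    ∀ {Ω α τ υ : Type} (s : Finset Ω) (p : Ω → ℝ) (Y : Ω → Unit → ℝ) (A : Ω → α) (T : Ω → τ)
      (G a : Ω → Fin 2 → ℝ) (u : Ω → υ) (y : υ → Fin 2 → ℝ) (Au : Finset υ)
      (Q : υ → ℝ) (f : ℕ → ℝ) (g0 s0 : Ω → ℝ),
      SysQ s p n Y A T G a → dfc s p Y A T G ≤ η * n →
      Top s p ϱ τ0 L2 (pj Y G) T a u y Au Q → Reg s p G n D f →
      (∀ ω ∈ s, (cnt s Y (nil Ω) (fun _ => True) ω : ℝ) ≤ (2 : ℝ) ^ ((1 - σ + c) * n)) →
      Prx s p n (c * n) G g0 → Prx s p n (c * n) a s0 → False := by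
  classical
  obtain ⟨c1, θ, ε, hc1, hθ, hε, hε1, H⟩ := coreQ1 hσ
  refine ⟨c1 / 100, by positivity, fun D hD ϱ hϱ => ?_⟩
  obtain ⟨c', hc', hca, hcb, hcc⟩ : ∃ c' : ℝ, 0 < c' ∧ c' ≤ c1 / 100 ∧ c' ≤ 1 / 2 ∧ c' ≤ ε :=
    ⟨min (c1 / 100) ε, lt_min (by positivity) hε, min_le_left _ _,
      (min_le_right _ _).trans (by linarith), min_le_right _ _⟩
  obtain ⟨D', hD', n1, hU⟩ := unf hc'
  obtain ⟨L0, H⟩ := H D' (12 * (2 * D + 1)) hD' (by positivity)
  obtain ⟨L3, hL3⟩ := exists_nat_ge (((2 * D + 2) / ε + 4) / θ)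
  obtain ⟨L1, hL1a, hL1b, hL1c⟩ : ∃ L1 : ℕ, L0 ≤ L1 ∧ L3 ≤ L1 ∧ 1 ≤ L1 :=
    ⟨L0 + L3 + 1, by omega, by omega, by omega⟩
  have hθL : 2 * D + 2 ≤ ε * (θ * L1 - 4) := by
    have h1 : (L3 : ℝ) ≤ L1 := by exact_mod_cast hL1b
    have h2 : ((2 * D + 2) / ε + 4) / θ ≤ L1 := hL3.trans h1
    rw [div_le_iff₀ hθ] at h2
    have h3 : (2 * D + 2) / ε ≤ θ * L1 - 4 := by linarith
    rw [div_le_iff₀ hε] at h3
    linarith
  have hν : 0 < min 1 ϱ / 2 ^ L1 := div_pos (lt_min one_pos hϱ) (by positivity)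
  obtain ⟨M, L, hL, hs⟩ := satL hε hε1 hν L1
  obtain ⟨η1, hη1, n2, H⟩ := H L1 hL1a (min 1 ϱ / 2 ^ L1) M L hν.le
    (by gcongr; exact min_le_left _ _) hL hs
  have hLp : (1 : ℝ) ≤ L := by exact_mod_cast (by omega : 1 ≤ L)
  have hLL : (L1 : ℝ) ≤ L := by exact_mod_cast hL
  have h4 : (1 : ℝ) ≤ 4 ^ L := one_le_pow₀ (by norm_num)
  obtain ⟨η, hη, hηa, hηb⟩ : ∃ η : ℝ, 0 < η ∧ 12 * η ≤ η1 ∧ 12 * L * 4 ^ L * η ≤ ε := by
    refine ⟨min (η1 / 12) (ε / (12 * L * 4 ^ L)), lt_min (by positivity) (by positivity), ?_, ?_⟩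
    · have := min_le_left (η1 / 12) (ε / (12 * L * 4 ^ L))
      linarith
    · have := min_le_right (η1 / 12) (ε / (12 * L * 4 ^ L))
      rw [le_div_iff₀ (by positivity)] at this
      linarith
  have hηc : L1 * η ≤ 1 := by
    have h1 : L1 * η ≤ L * η := by gcongr
    have h2 : L * η * 1 ≤ L * η * 4 ^ L := by gcongr
    have h3 : 0 ≤ L * η := by positivity
    nlinarith
  obtain ⟨n3, hn3⟩ := exists_nat_ge (48 / c1)
  refine ⟨2 * L, 1 / (3 * 4 ^ L), η, by positivity, hη, n1 + n2 + n3,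
    fun n hn Ω α τ υ s p Y A T G a u y Au Q f g0 s0 hS hd ht hR hY hg ha => ?_⟩
  have h := hS.isP
  have hn0 : (0 : ℝ) ≤ n := Nat.cast_nonneg n
  have hn3' : 48 ≤ c1 * n := by
    have h1 : (n3 : ℝ) ≤ n := by exact_mod_cast (by omega : n3 ≤ n)
    have h2 := hn3.trans h1
    rw [div_le_iff₀ hc1] at h2
    linarith
  obtain ⟨b, hb, hbe, hbn, hbR⟩ := hU n (by omega) s p a h (by simp) hS.ha
  have hbT : Det s b T := fun ω hω ω' hω' e => hb ω hω ω' hω' (hS.det ω hω ω' hω' e)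
  have hcn : 0 ≤ c1 / 100 * n := by positivity
  obtain ⟨φg, hφg0, hφg1, hφg2⟩ := Prx.at h hcn hg b
  obtain ⟨φa, hφa0, hφa1, hφa2⟩ := Prx.at h hcn ha b
  obtain ⟨x, hx⟩ : ∃ x : ℕ → ℝ, ∀ k, x k = f (k + L1) - f k + D := ⟨_, fun _ => rfl⟩
  have hxc : ∀ ω0, ∀ k, k + L1 ≤ n → ∀ ω ∈ atS s b ω0,
      (cnt (atS s b ω0) (qv (k + L1) G) (qv k G) (fun _ => True) ω : ℝ) ≤ (2 : ℝ) ^ x k := by
    intro ω0 k hk ω hω
    rw [hx]
    exact (coreQ0_cnt s _ _ b ω0 ω).trans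
      (Reg.cnt_le h hR (Nat.le_add_right k L1) hk (mem_atS.1 hω).1)
  set S := (range (n - 3 * L - M - L1)).filter (fun j => θ * L1 ≤ x (j + L + M)) with hSdef
  have hc'n : c' * n ≤ c1 / 100 * n := by gcongr
  obtain ⟨ω0, hω0, hp0, hE, hφ⟩ := select h (E := fun ω => ¬ b ω = none) (κ := 1 / 2)
    (by norm_num) (by rw [ms_not h]; linarith) (J := 5)
    ![fun ω => dfc (atS s b ω) (atP s p b ω) Y A T G, φg, φa,
      fun ω => ∑ k ∈ range (n - L1), (x k - ce (atS s b ω) (atP s p b ω) (qv (k + L1) G)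
        (pj (qv k G) (pj A T))),
      fun ω => ∑ j ∈ S, ((L : ℝ) - ce (atS s b ω) (atP s p b ω) (qv (j + L) Y) (qv j Y))]
    ![η * n, 3 * (c1 / 100 * n) + 2, 3 * (c1 / 100 * n) + 2, (2 * D + 1) * n, 6 * ε * L * n]
    (by
      intro i ω hω hp
      have hA := at_isP h b hω hp
      fin_cases i
      · exact dfc_nonneg hA Y A T G
      · exact hφg0 ω hω hp
      · exact hφa0 ω hω hp
      · change 0 ≤ ∑ k ∈ range (n - L1), (x k - ce (atS s b ω) (atP s p b ω)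
          (qv (k + L1) G) (pj (qv k G) (pj A T)))
        refine sum_nonneg fun k hk => sub_nonneg.2 ((coreQ0_l0 hA _ _ _).trans ?_)
        exact coreQ1_cnt hA _ _ (hxc ω k (by have := mem_range.1 hk; omega))
      · change 0 ≤ ∑ j ∈ S, ((L : ℝ) - ce (atS s b ω) (atP s p b ω) (qv (j + L) Y) (qv j Y))
        exact sum_nonneg fun j _ => sub_nonneg.2 (coreQ1_win1 hA Y L j))
    (by
      intro i
      fin_cases i
      · exact (dfc_at h Y A T G b (Or.inr hbT)).trans hd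
      · have := coreQ0_info h (qs n g0) b
        change ex s p φg ≤ 3 * (c1 / 100 * n) + 2
        linarith
      · have := coreQ0_info h (qs n s0) b
        change ex s p φa ≤ 3 * (c1 / 100 * n) + 2
        linarith
      · change ex s p (fun ω => ∑ k ∈ range (n - L1), (x k - ce (atS s b ω) (atP s p b ω)
          (qv (k + L1) G) (pj (qv k G) (pj A T)))) ≤ (2 * D + 1) * n
        rw [coreQ0_ex h]
        simp only [ce_at h]
        have h1 : ∀ k ∈ range (n - L1), x k - ce s p (qv (k + L1) G) (pj (pj (qv k G) (pj A T)) b) ≤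
            2 * D + (ce s p (qv (k + L1) G) (qv k G) -
              ce s p (qv (k + L1) G) (pj (qv k G) (pj A T))) := by
          intro k hk
          have a1 := (Reg.ce_ge h hR (Nat.le_add_right k L1)
            (by have := mem_range.1 hk; omega)).1
          have a2 : ce s p (qv (k + L1) G) (pj (qv k G) (pj A T)) ≤
              ce s p (qv (k + L1) G) (pj (pj (qv k G) (pj A T)) b) :=
            ce_mono h (fun _ _ _ _ e => congrArg Prod.fst e) (fun ω hω ω' hω' e =>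
              Prod.ext e (hbT ω hω ω' hω' (congrArg (fun z => z.2.2) e)))
          rw [hx]
          linarith
        refine (sum_le_sum h1).trans ?_
        rw [sum_add_distrib, sum_const, card_range, nsmul_eq_mul]
        have a3 := coreQ0_loss h G (pj A T) L1 (n - L1)
        have a4 : (L1 : ℝ) * (ce s p G (nil Ω) - ce s p G (pj A T)) ≤ L1 * (η * n) := by
          have := (dfc_GAT h Y A T G).trans hd
          gcongr
        have a5 : (L1 * η) * n ≤ 1 * n := by gcongr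
        have a6 : ((n - L1 : ℕ) : ℝ) * (2 * D) ≤ n * (2 * D) := by
          have : ((n - L1 : ℕ) : ℝ) ≤ n := by exact_mod_cast Nat.sub_le n L1
          gcongr
        nlinarith
      · change ex s p (fun ω => ∑ j ∈ S, ((L : ℝ) - ce (atS s b ω) (atP s p b ω)
          (qv (j + L) Y) (qv j Y))) ≤ 6 * ε * L * n
        rw [coreQ0_ex h S (fun _ => (L : ℝ))]
        simp only [ce_at h]
        have a1 := coreQ0_top hs hS ht hν.le (by gcongr; exact min_le_right _ _) hL hR hD hε hθL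
          hd hηb S (filter_subset _ _) (fun j hj => by
            have := (mem_filter.1 hj).2
            rwa [hx] at this)
        have a2 := coreQ0_shift (fun j => ce s p (qv (j + L) Y) (qv j Y) -
          ce s p (qv (j + L) Y) (pj (qv j Y) b)) (fun k => sub_nonneg.2 (coreQ0_l0 h _ _ _))
          (fun m => coreQ0_loss h Y b L m) 0 _ S (filter_subset _ _)
        simp only [add_zero] at a2
        have a3 : (L : ℝ) * (ce s p Y (nil Ω) - ce s p Y b) ≤ L * (ε * n) := by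
          have b1 := (coreQ0_info h Y b).trans hbe
          have b2 : c' * n ≤ ε * n := by gcongr
          gcongr
          linarith
        rw [sum_sub_distrib] at a1 a2 ⊢
        nlinarith)
  have e0 := hφ 0
  have e1 := hφ 1
  have e2 := hφ 2
  have e3 := hφ 3
  have e4 := hφ 4
  simp only [Matrix.cons_val_zero, Matrix.cons_val_one, Matrix.cons_val] at e0 e1 e2 e3 e4
  push_cast at e0 e1 e2 e3 e4
  obtain ⟨f', hf'⟩ := hbR ω0 hω0 hE
  have hA := at_isP h b hω0 hp0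
  have hεLn : 0 ≤ ε * L * n := by positivity
  refine H n (by omega) (atS s b ω0) (atP s p b ω0) Y A T G a f' x g0 s0 (SysQ.at hS b hω0 hp0)
    ?_ hf' (hxc ω0) ?_ ?_ ?_ (Prx.mono (hφg2 ω0 hω0 hp0) ?_) (Prx.mono (hφa2 ω0 hω0 hp0) ?_)
  · have : 12 * η * n ≤ η1 * n := by gcongr
    linarith
  · linarith
  · linarith
  · refine (coreQ1_cnt hA _ _ fun ω hω => (coreQ0_cnt s _ _ b ω0 ω).trans
      (hY ω (mem_atS.1 hω).1)).trans ?_
    gcongr
    linarith
  · linarith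
  · linarith

end Vale.Agent.P127S
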