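import Vale.Agent.P127S.StepQ
import Vale.Agent.P127S.Comb
import Vale.Agent.P127S.CoreQ1A

/-! Systems of the second kind, last stage. -/

open Real Finset Vale.Agent.P118O

noncomputable section

namespace Vale.Agent.P127S

theorem coreQ1_nil {Ω α β : Type} {s : Finset Ω} {p : Ω → ℝ} (h : IsP s p) (X : Ω → α)
    (Y : Ω → β) : ce s p X (pj Y (nil Ω)) = ce s p X Y :=
  le_antisymm
    (ce_mono h (fun _ _ _ _ e => congrArg Prod.fst e) (fun _ _ _ _ e => congrArg Prod.fst e))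
    (ce_mono h (fun _ _ _ _ e => congrArg Prod.fst e)
      (fun _ _ _ _ e => Prod.ext e rfl))

theorem coreQ1_exc {Ω : Type} {s : Finset Ω} {p : Ω → ℝ} (h : IsP s p) (x : ℝ) :
    ex s p (fun _ => x) = x := by
  unfold ex
  rw [← sum_mul, h.2, one_mul]

theorem coreQ1_cnt {Ω α β : Type} {s : Finset Ω} {p : Ω → ℝ} (h : IsP s p) (X : Ω → α)
    (Y : Ω → β) {x : ℝ} (hx : ∀ ω ∈ s, (cnt s X Y (fun _ => True) ω : ℝ) ≤ (2 : ℝ) ^ x) :
    ce s p X Y ≤ x :=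
  (ce_cnt h X Y (fun _ => x) hx).trans (coreQ1_exc h x).le

theorem coreQ1_win {Ω : Type} {s : Finset Ω} {p : Ω → ℝ} (h : IsP s p) (X : Ω → Fin 2 → ℝ)
    (R k : ℕ) : ce s p (qv (k + R) X) (qv k X) ≤ 2 * R := by
  have := ce_qv h (Nat.le_add_right k R) X
  simpa using this

theorem coreQ1_win1 {Ω : Type} {s : Finset Ω} {p : Ω → ℝ} (h : IsP s p) (X : Ω → Unit → ℝ)
    (R k : ℕ) : ce s p (qv (k + R) X) (qv k X) ≤ R := by
  have := ce_qv h (Nat.le_add_right k R) X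
  simpa using this

theorem coreQ1_low {Ω : Type} {s : Finset Ω} {p : Ω → ℝ} (h : IsP s p) {X : Ω → Fin 2 → ℝ}
    (hX : ∀ ω ∈ s, ‖X ω‖ ≤ 1) {n : ℕ} {c : ℝ} {z : Ω → ℝ} (hz : Prx s p n c X z) (R k0 J : ℕ)
    (hk : k0 ≤ 1) (hJ : J < n) :
    R * (J - c - 2 * R - 6) ≤ ∑ k ∈ range J, ce s p (qv (k0 + k + R) X) (qv (k0 + k) X) := by
  have h1 := (tele_sum h (fun k => qv k X) (fun k => det_qv (Nat.le_succ k) X) (nil Ω) R k0 J).1
  simp only [coreQ1_nil h] at h1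
  refine le_trans ?_ h1
  have h2 := Prx.ge h hz (i := k0 + J) (by omega)
  have h3 := ce_le_add h (qv (k0 + J) X) (qv (k0 + R) X) (nil Ω)
  rw [coreQ1_nil h] at h3
  have h4 := ce_near h (k0 + R) X (fun _ _ => 0) (nil Ω) (fun _ _ _ _ _ => rfl)
    (x := ((k0 + R : ℕ) : ℝ)) (Nat.cast_nonneg _) (fun ω hω => by
      rw [Real.rpow_natCast, div_self (by positivity)]
      have : X ω - (fun _ => (0 : ℝ)) = X ω := by
        funext i
        simp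
      rw [this]
      exact hX ω hω)
  have hk' : (k0 : ℝ) ≤ 1 := by exact_mod_cast hk
  have hk0 : (0 : ℝ) ≤ k0 := Nat.cast_nonneg _
  simp only [Fintype.card_fin] at h4
  push_cast at h2 h4
  gcongr
  linarith

open Classical in
/-- Last stage. `δ = σ / 8`, `ε0` from `comb`, `c = min ε0 σ / 100`. Profiles
`g k = ce G[k+L1] G[k] / L1`, `b k = ce a[k+L1] a[k] / L1`, `n' = n - 2 L - L1`,
`a i = 2 - g (n' - i)`, offset `0`. `T` is the set of `i = n' - J` where the level `J ≥ L + M` is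
not saturated (`ce Y[J-M] Y[J-M-L] < (1 - σ / 2) L`; about `σ n / 2` such levels by `tele_sum`
and `ce Y nil ≤ (1 - σ + c) n`; wlog `σ ≤ 1`), has `x J ≤ θ L1`, `θ = ε0 / 100` (all but
`200 ε n / σ` of them, take `ε = σ ^ 2 / 4000`), and for which at most `2 θ n` pairs `k + k' = J`
are bad. A pair is bad if `x k - ce G[k+L1] (G[k],A,T) > D1`
(`D1 = E / θ`, at most `θ n` such `k`) or if it is counted in `stepQ` with
`d k' = f (k' + L1) - f k' - D` (`Reg.mass_le`); average over `J`. For a good pair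
`L1 (g k + b k') ≤ x k + d k' + 2 D ≤ 2 L1 + 14 + 2 D + (D1 + 1) / ε`. -/
theorem coreQ1 {σ : ℝ} (hσ : 0 < σ) : ∃ c θ ε : ℝ, 0 < c ∧ 0 < θ ∧ 0 < ε ∧ ε ≤ 1 / 4 ∧
    ∀ D E : ℝ, 0 ≤ D → 0 ≤ E → ∃ L0 : ℕ, ∀ L1 ≥ L0, ∀ (ν : ℝ) (M L : ℕ), 0 ≤ ν → ν ≤ 1 / 2 ^ L1 →
    L1 ≤ L → SatP ε ν M L → ∃ η : ℝ, 0 < η ∧ ∃ n0 : ℕ, ∀ n ≥ n0,
    ∀ {Ω α τ : Type} (s : Finset Ω) (p : Ω → ℝ) (Y : Ω → Unit → ℝ) (A : Ω → α) (T : Ω → τ)
      (G a : Ω → Fin 2 → ℝ) (f x : ℕ → ℝ) (g0 s0 : Ω → ℝ),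
      SysQ s p n Y A T G a → dfc s p Y A T G ≤ η * n → Reg s p a n D f →
      (∀ k, k + L1 ≤ n → ∀ ω ∈ s,
        (cnt s (qv (k + L1) G) (qv k G) (fun _ => True) ω : ℝ) ≤ (2 : ℝ) ^ x k) →
      ∑ k ∈ range (n - L1), (x k - ce s p (qv (k + L1) G) (pj (qv k G) (pj A T))) ≤ E * n →
      ∑ j ∈ (range (n - 3 * L - M - L1)).filter (fun j => θ * L1 ≤ x (j + L + M)),
        (L - ce s p (qv (j + L) Y) (qv j Y)) ≤ 100 * ε * L * n →
      ce s p Y (nil Ω) ≤ (1 - σ + c) * n →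
      Prx s p n (c * n) G g0 → Prx s p n (c * n) a s0 → False := by
  obtain ⟨σ', hσ0, hσ1, hσσ⟩ : ∃ σ' : ℝ, 0 < σ' ∧ σ' ≤ 1 ∧ σ' ≤ σ :=
    ⟨min σ 1, lt_min hσ one_pos, min_le_right _ _, min_le_left _ _⟩
  obtain ⟨ε0, hε0, hcomb⟩ := comb (δ := σ' / 8) (by positivity)
  obtain ⟨n1, hcomb⟩ := hcomb 0
  obtain ⟨c, hc0, hc1, hc2⟩ : ∃ c : ℝ, 0 < c ∧ c ≤ ε0 / 100 ∧ c ≤ σ' / 100 :=
    ⟨min (ε0 / 100) (σ' / 100), lt_min (by positivity) (by positivity), min_le_left _ _,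
      min_le_right _ _⟩
  obtain ⟨θ, hθ⟩ : ∃ θ : ℝ, θ = ε0 / 100 := ⟨_, rfl⟩
  obtain ⟨ε, hε⟩ : ∃ ε : ℝ, ε = σ' ^ 2 / 4000 := ⟨_, rfl⟩
  have hθ0 : 0 < θ := by rw [hθ]; positivity
  have hεp : 0 < ε := by rw [hε]; positivity
  refine ⟨c, θ, ε, hc0, hθ0, hεp, by rw [hε]; nlinarith, fun D E hD hE => ?_⟩
  obtain ⟨D1, hD1, hED⟩ : ∃ D1 : ℝ, 0 < D1 ∧ E ≤ θ * D1 :=
    ⟨E / θ + 1, by positivity, by rw [mul_add, mul_div_cancel₀ _ hθ0.ne']; linarith⟩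
  obtain ⟨L0, hL0⟩ := exists_nat_ge (1 + 2 / ε0 + (14 + 2 * D + (D1 + 1) / ε) / θ)
  refine ⟨L0, fun L1 hL1 ν M L hν0 hν hL hs => ?_⟩
  have hL1' : (L0 : ℝ) ≤ L1 := by exact_mod_cast hL1
  have p1 : 0 ≤ 2 / ε0 := by positivity
  have p2 : 0 ≤ (14 + 2 * D + (D1 + 1) / ε) / θ := by positivity
  have q1 : 1 ≤ L1 := by
    have : (1 : ℝ) ≤ L1 := by linarith
    exact_mod_cast this
  have q2 : 2 ≤ ε0 * L1 := by
    have : 2 / ε0 ≤ L1 := by linarith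
    rw [div_le_iff₀ hε0] at this
    linarith
  have q3 : 14 + 2 * D + (D1 + 1) / ε ≤ θ * L1 := by
    have : (14 + 2 * D + (D1 + 1) / ε) / θ ≤ L1 := by linarith
    rw [div_le_iff₀ hθ0] at this
    linarith
  have hLp : (0 : ℝ) < L := by exact_mod_cast (by omega : 0 < L)
  refine ⟨θ * σ' / 20 / (6 * L * 4 ^ L), by positivity, ?_⟩
  obtain ⟨n2, hn2⟩ := exists_nat_ge (5 * (3 * L + M + L1) / σ' + 5 * (4 * L1 + 12) / ε0)
  refine ⟨n1 + 2 * L + L1 + n2, fun n hn Ω α τ s p Y A T G a f x g0 s0 hS hd hR hx hr hP hY hg ha => ?_⟩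
  have h := hS.isP
  have hn2' : (n2 : ℝ) ≤ n := by exact_mod_cast (by omega : n2 ≤ n)
  have p3 : 0 ≤ 5 * (3 * L + M + L1 : ℝ) / σ' := by positivity
  have p4 : 0 ≤ 5 * (4 * L1 + 12 : ℝ) / ε0 := by positivity
  have q4 : (3 * L + M + L1 : ℝ) ≤ σ' * n / 5 := by
    have : 5 * (3 * L + M + L1 : ℝ) / σ' ≤ n := by linarith
    rw [div_le_iff₀ hσ0] at this
    linarith
  have q5 : (4 * L1 + 12 : ℝ) ≤ ε0 * n / 5 := by
    have : 5 * (4 * L1 + 12 : ℝ) / ε0 ≤ n := by linarith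
    rw [div_le_iff₀ hε0] at this
    linarith
  have hn0 : (0 : ℝ) ≤ n := Nat.cast_nonneg n
  refine coreQ1_num (σ := σ') (ε0 := ε0) (c := c) (θ := θ) (ε := ε) (D := D) (D1 := D1) (E := E)
    (K := θ * σ' / 20 * n) (n := n) (L := L) (L1 := L1) (M := M)
    (fun k => ce s p (qv (k + L1) G) (qv k G)) (fun k => ce s p (qv (k + L1) a) (qv k a))
    (fun j => ce s p (qv (j + L) Y) (qv j Y)) x
    (fun k => x k - ce s p (qv (k + L1) G) (pj (qv k G) (pj A T)))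
    (fun k => f (k + L1) - f k - D) (fun j => θ * L1 ≤ x (j + L + M))
    (fun j hj => (not_le.1 hj).le) hσ0 hσ1 hε0 hc1 hc2 hθ hε hD1 hED q1 q2 q3 hL (by positivity)
    le_rfl q4 q5 (hcomb _ (by omega)) (fun k => coreQ1_win h G L1 k) ?_
    (fun k => coreQ1_win h a L1 k) (fun j => ce_nonneg h _ _) (fun j => coreQ1_win1 h Y L j)
    (fun J hJ => coreQ1_low h hS.hg hg L1 1 J le_rfl hJ) ?_ ?_
    (fun k hk => coreQ1_cnt h _ _ (hx k hk)) ?_ hr hP ?_ ?_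
  · intro k
    have := window_lip h G L1 k
    simpa using this
  · intro J hJ
    have := coreQ1_low h hS.ha ha L1 0 J (by omega) hJ
    simpa using this
  · have h1 := (tele_sum h (fun k => qv k Y) (fun k => det_qv (Nat.le_succ k) Y) (nil Ω) L 0
      (n - 3 * L - M - L1)).2
    simp only [coreQ1_nil h, zero_add] at h1
    refine h1.trans ?_
    have h2 : ce s p (qv (n - 3 * L - M - L1 + L) Y) (qv 0 Y) ≤ ce s p Y (nil Ω) :=
      ce_mono h (fun ω _ ω' _ e => by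
        have e1 : Y ω = Y ω' := congrArg Prod.fst e
        simp only [qv, e1]) (fun _ _ _ _ _ => rfl)
    have h3 : (1 - σ + c) * n ≤ (1 - σ' + c) * n := by gcongr
    gcongr
    linarith
  · intro k hk
    have h1 := coreQ1_cnt h _ _ (hx k hk)
    have h2 : ce s p (qv (k + L1) G) (pj (qv k G) (pj A T)) ≤ ce s p (qv (k + L1) G) (qv k G) :=
      ce_mono h (fun _ _ _ _ e => congrArg Prod.fst e) (fun _ _ _ _ e => congrArg Prod.fst e)
    linarith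
  · intro k hk
    have := (Reg.ce_ge h hR (Nat.le_add_right k L1) hk).2
    linarith
  · intro k hk hrk B hB
    have h1 := stepQ (ε := ε) (ν := ν) (x := x k) (D := D1) (M := M) (L := L) (L1 := L1) (k := k)
      hs hS hν0 hν (by omega) (hx k hk) (by linarith) hD1.le hεp
      (fun k => f (k + L1) - f k - D) B (fun k' hk' => by
        obtain ⟨b1, b2, b3⟩ := hB k' hk'
        exact ⟨by omega, b2, fun ω hω => Reg.mass_le h hR (Nat.le_add_right k' L1) b1 hω, b3⟩)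
    refine h1.trans ?_
    calc 2 * (L : ℝ) * 4 ^ L * (3 * dfc s p Y A T G)
        ≤ 2 * L * 4 ^ L * (3 * (θ * σ' / 20 / (6 * L * 4 ^ L) * n)) := by gcongr
      _ = θ * σ' / 20 * n := by field_simp; ring

end Vale.Agent.P127S
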