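import Vale.Agent.P127S.GreedyA

/-! Recentring a bilinear system at an independent sample of the coefficient. -/

open Real Finset Vale.Agent.P118O

noncomputable section

namespace Vale.Agent.P127S

variable {Ω α β γ τ ι : Type}

/-- data of an engine: `A` is the cell of `Y + sv • l0 G + fv • l1 G` given `F, T` -/
structure Eng [Fintype ι] (s : Finset Ω) (p : Ω → ℝ) (n : ℕ) (e : ℝ) (F : Ω → β) (T : Ω → τ)
    (A : Ω → α) (Y : Ω → ι → ℝ) (G : Ω → γ) (l0 l1 : γ → ι → ℝ) (sv fv : Ω → ℝ) : Prop where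
  isP : IsP s p
  pos : ∀ ω ∈ s, 0 < p ω
  ds : Det s sv (pj F T)
  df : Det s fv (pj F T)
  lat : Det s Y (pj (qv n Y) F)
  rel : ∀ ω ∈ s, ∀ ω' ∈ s, F ω = F ω' → T ω = T ω' → A ω = A ω' →
    ‖Y ω' - Y ω - (sv ω • (l0 (G ω) - l0 (G ω')) + fv ω • (l1 (G ω) - l1 (G ω')))‖ ≤ 1 / 2 ^ n
  bd : ∀ ω ∈ s, |sv ω| ≤ (2 : ℝ) ^ e ∧ |fv ω| ≤ (2 : ℝ) ^ e
  h1 : ce s p A (pj F T) ≤ ce s p Y (pj F (pj T G)) + e
  h2 : ce s p Y F ≤ ce s p Y (pj F (pj T G)) + e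
  h3 : ce s p G F ≤ ce s p G (pj F T) + e
  h4 : n - e ≤ ce s p (qs n sv) F

/-- the label over which the second sample is glued -/
def ctK (F : Ω → β) (H : Ω → List Nrm) (Y : Ω → ι → ℝ) (G : Ω → γ) :
    Ω → (β × List Nrm) × (ι → ℝ) × γ := pj (pj F H) (pj Y G)

/-- the atoms of the recentred system -/
def ctW (F : Ω → β) (H : Ω → List Nrm) (T : Ω → τ) : Ω × Ω → (β × List Nrm) × τ :=
  fun x => ((F x.1, H x.1), T x.2)

/-- the recentred target -/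
def ctY (n : ℕ) (Y : Ω → ι → ℝ) (G : Ω → γ) (l0 l1 : γ → ι → ℝ) (sv fv : Ω → ℝ) :
    Ω × Ω → ι → ℝ :=
  fun x => dz n (Y x.1 + sv x.2 • l0 (G x.1) + fv x.2 • l1 (G x.1))

/-- a representative value on each atom of `L` -/
theorem ctr_rep [Fintype ι] {s : Finset Ω} (X : Ω → ι → ℝ) (L : Ω → β) {r : ℝ}
    (h : ∀ ω ∈ s, ∀ ω' ∈ s, L ω = L ω' → ‖X ω - X ω'‖ ≤ r) :
    ∃ f : Ω → ι → ℝ, Det s f L ∧ ∀ ω ∈ s, ‖X ω - f ω‖ ≤ r := by
  classical
  refine ⟨fun ω => (fun b : β => if hb : ∃ ω' ∈ s, L ω' = b then X hb.choose else 0) (L ω),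
    fun ω _ ω' _ e => by simp only [e], fun ω hω => ?_⟩
  have hb : ∃ ω' ∈ s, L ω' = L ω := ⟨ω, hω, rfl⟩
  simp only [dif_pos hb]
  exact h ω hω _ hb.choose_spec.1 hb.choose_spec.2.symm

theorem ctr_two [Fintype ι] (hι : Fintype.card ι ≤ 2) :
    (Fintype.card ι : ℝ) * ((0 : ℝ) + 2) ≤ 4 := by
  have : (Fintype.card ι : ℝ) ≤ 2 := by exact_mod_cast hι
  linarith

theorem ctr_ce4 [Fintype ι] (hι : Fintype.card ι ≤ 2) {s : Finset Ω} {p : Ω → ℝ} (h : IsP s p)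
    (n : ℕ) (X : Ω → ι → ℝ) (L : Ω → β)
    (hX : ∀ ω ∈ s, ∀ ω' ∈ s, L ω = L ω' → ‖X ω - X ω'‖ ≤ 1 / 2 ^ n) :
    ce s p (qv n X) L ≤ 4 := by
  obtain ⟨f, hf, hf'⟩ := ctr_rep X L hX
  have h1 := ce_near h n X f L hf (x := 0) le_rfl (fun ω hω => by
    rw [Real.rpow_zero]; exact hf' ω hω)
  exact h1.trans (ctr_two hι)

theorem ctr_cnt4 [Fintype ι] (hι : Fintype.card ι ≤ 2) {s : Finset Ω}
    (n : ℕ) (X : Ω → ι → ℝ) (L : Ω → β)
    (hX : ∀ ω ∈ s, ∀ ω' ∈ s, L ω = L ω' → ‖X ω - X ω'‖ ≤ 1 / 2 ^ n) {ω : Ω} (hω : ω ∈ s) :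
    (cnt s (qv n X) L (fun _ => True) ω : ℝ) ≤ (2 : ℝ) ^ (4 : ℝ) := by
  obtain ⟨f, hf, hf'⟩ := ctr_rep X L hX
  have h1 := cnt_near n X f L (fun _ => True) hf (x := 0) le_rfl (fun ω hω _ => by
    rw [Real.rpow_zero]; exact hf' ω hω) hω
  exact h1.trans (Real.rpow_le_rpow_of_exponent_le (by norm_num) (ctr_two hι))

theorem ctr_cnt_ex (s : Finset Ω) (X : Ω → α) (L : Ω → β) (ω : Ω) :
    ∃ t : Finset α, t.card = cnt s X L (fun _ => True) ω ∧
      ∀ a, a ∈ t ↔ ∃ ω' ∈ s, L ω' = L ω ∧ X ω' = a := by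
  refine ⟨_, rfl, fun a => ?_⟩
  simp only [mem_image, mem_filter, and_true, and_assoc]

/-- counting in two stages -/
theorem ctr_cnt_mul {s : Finset Ω} (X : Ω → α) (A : Ω → γ) (L : Ω → β) {c : ℝ}
    (hc : ∀ ω ∈ s, (cnt s X (pj A L) (fun _ => True) ω : ℝ) ≤ c) (ω : Ω) :
    (cnt s X L (fun _ => True) ω : ℝ) ≤ cnt s A L (fun _ => True) ω * c := by
  classical
  obtain ⟨t, ht, ht'⟩ := ctr_cnt_ex s X L ω
  obtain ⟨u, hu, hu'⟩ := ctr_cnt_ex s A L ω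
  rw [← ht, ← hu]
  have h1 : t ⊆ u.biUnion (fun a => t.filter fun x => ∃ ω' ∈ s, L ω' = L ω ∧ A ω' = a ∧ X ω' = x) := by
    intro x hx
    obtain ⟨ω', hω', e1, e2⟩ := (ht' x).1 hx
    exact mem_biUnion.2 ⟨A ω', (hu' _).2 ⟨ω', hω', e1, rfl⟩,
      mem_filter.2 ⟨hx, ω', hω', e1, rfl, e2⟩⟩
  have h2 : ∀ a ∈ u, ((t.filter fun x => ∃ ω' ∈ s, L ω' = L ω ∧ A ω' = a ∧ X ω' = x).card : ℝ) ≤
      c := by
    intro a ha
    obtain ⟨ω0, hω0, e1, e2⟩ := (hu' a).1 ha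
    refine le_trans ?_ (hc ω0 hω0)
    obtain ⟨v, hv, hv'⟩ := ctr_cnt_ex s X (pj A L) ω0
    rw [← hv]
    refine Nat.cast_le.2 (card_le_card ?_)
    intro x hx
    obtain ⟨ω', hω', e3, e4, e5⟩ := (mem_filter.1 hx).2
    exact (hv' x).2 ⟨ω', hω', by simp only [pj, e1, e2, e3, e4], e5⟩
  have h3 : (t.card : ℝ) ≤ ∑ a ∈ u,
      ((t.filter fun x => ∃ ω' ∈ s, L ω' = L ω ∧ A ω' = a ∧ X ω' = x).card : ℝ) := by
    exact_mod_cast (card_le_card h1).trans card_biUnion_le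
  have h4 := Finset.sum_le_sum h2
  rw [Finset.sum_const, nsmul_eq_mul] at h4
  exact h3.trans h4

/-- the uncentred target -/
def ctZ (Y : Ω → ι → ℝ) (G : Ω → γ) (l0 l1 : γ → ι → ℝ) (sv fv : Ω → ℝ) : Ω → ι → ℝ :=
  fun ω => Y ω + sv ω • l0 (G ω) + fv ω • l1 (G ω)

theorem ctr_mem {s : Finset Ω} {F : Ω → β} {H : Ω → List Nrm} {Y : Ω → ι → ℝ} {G : Ω → γ}
    {x : Ω × Ω} (hx : x ∈ glueS s (ctK F H Y G) s (ctK F H Y G)) :
    x.1 ∈ s ∧ x.2 ∈ s ∧ F x.1 = F x.2 ∧ H x.1 = H x.2 ∧ Y x.1 = Y x.2 ∧ G x.1 = G x.2 := by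
  obtain ⟨h1, h2, h3⟩ := glue_mem.1 hx
  simp only [ctK, pj, Prod.mk.injEq] at h3
  exact ⟨h1, h2, h3.1.1, h3.1.2, h3.2.1, h3.2.2⟩

theorem ctr_Y {s : Finset Ω} {F : Ω → β} {H : Ω → List Nrm} {Y : Ω → ι → ℝ} {G : Ω → γ}
    (n : ℕ) (l0 l1 : γ → ι → ℝ) (sv fv : Ω → ℝ)
    {x : Ω × Ω} (hx : x ∈ glueS s (ctK F H Y G) s (ctK F H Y G)) :
    ctY n Y G l0 l1 sv fv x = dz n (ctZ Y G l0 l1 sv fv x.2) := by
  obtain ⟨-, -, -, -, h5, h6⟩ := ctr_mem hx
  simp only [ctY, ctZ, h5, h6]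

theorem ctr_dz_eq {n : ℕ} {v w : ι → ℝ} (e : dz n v = dz n w) : qz n v = qz n w := by
  rw [← qz_dz le_rfl v, ← qz_dz le_rfl w, e]

section

variable [Fintype ι] {s : Finset Ω} {p : Ω → ℝ} {n : ℕ} {e : ℝ}
  {F : Ω → β} {T : Ω → τ} {A : Ω → α} {Y : Ω → ι → ℝ} {G : Ω → γ} {l0 l1 : γ → ι → ℝ}
  {sv fv : Ω → ℝ}

theorem ctr_zc (h : Eng s p n e F T A Y G l0 l1 sv fv) :
    ∀ ω ∈ s, ∀ ω' ∈ s, pj A (pj F T) ω = pj A (pj F T) ω' →
      ‖ctZ Y G l0 l1 sv fv ω - ctZ Y G l0 l1 sv fv ω'‖ ≤ 1 / 2 ^ n := by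
  intro ω hω ω' hω' e0
  simp only [pj, Prod.mk.injEq] at e0
  have h1 := h.rel ω' hω' ω hω e0.2.1.symm e0.2.2.symm e0.1.symm
  have h2 : sv ω = sv ω' := h.ds ω hω ω' hω' (by simp only [pj, e0.2.1, e0.2.2])
  have h3 : fv ω = fv ω' := h.df ω hω ω' hω' (by simp only [pj, e0.2.1, e0.2.2])
  have h4 : ctZ Y G l0 l1 sv fv ω - ctZ Y G l0 l1 sv fv ω' = Y ω - Y ω' -
      (sv ω' • (l0 (G ω') - l0 (G ω)) + fv ω' • (l1 (G ω') - l1 (G ω))) := by
    simp only [ctZ, h2, h3, smul_sub]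
    abel
  rw [h4]
  exact h1

/-- the recentred target given `A, F, T` -/
theorem ctr_e1 (hι : Fintype.card ι ≤ 2) (h : Eng s p n e F T A Y G l0 l1 sv fv) :
    ce s p (fun ω => dz n (ctZ Y G l0 l1 sv fv ω)) (pj A (pj F T)) ≤ 4 := by
  refine le_trans (ce_mono h.isP ?_ fun _ _ _ _ e => e) (ctr_ce4 hι h.isP n _ _ (ctr_zc h))
  intro ω _ ω' _ e0
  simp only [pj, qv, Prod.mk.injEq] at e0
  simp only [dz, e0.1]

/-- `Y` given `A, F, T, G` -/
theorem ctr_e2 (hι : Fintype.card ι ≤ 2) (h : Eng s p n e F T A Y G l0 l1 sv fv) :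
    ce s p Y (pj A (pj F (pj T G))) ≤ 4 := by
  refine le_trans (ce_mono h.isP ?_ fun _ _ _ _ e => e)
    (ctr_ce4 hι h.isP n Y (pj A (pj F (pj T G))) ?_)
  · intro ω hω ω' hω' e0
    simp only [pj, Prod.mk.injEq] at e0
    exact h.lat ω hω ω' hω' (by simp only [pj, e0.1, e0.2.2.1])
  · intro ω hω ω' hω' e0
    simp only [pj, Prod.mk.injEq] at e0
    have h1 := h.rel ω' hω' ω hω e0.2.1.symm e0.2.2.1.symm e0.1.symm
    simpa only [e0.2.2.2, sub_self, smul_zero, add_zero, sub_zero] using h1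

/-- `Y` given the recentred target and `F, T, G` -/
theorem ctr_e3 (hι : Fintype.card ι ≤ 2) (h : Eng s p n e F T A Y G l0 l1 sv fv) :
    ce s p Y (pj (fun ω => dz n (ctZ Y G l0 l1 sv fv ω)) (pj F (pj T G))) ≤ 4 := by
  refine le_trans (ce_mono h.isP ?_ fun _ _ _ _ e => e)
    (ctr_ce4 hι h.isP n Y (pj (fun ω => dz n (ctZ Y G l0 l1 sv fv ω)) (pj F (pj T G))) ?_)
  · intro ω hω ω' hω' e0
    simp only [pj, Prod.mk.injEq] at e0
    exact h.lat ω hω ω' hω' (by simp only [pj, e0.1, e0.2.2.1])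
  · intro ω hω ω' hω' e0
    simp only [pj, Prod.mk.injEq] at e0
    have h2 : sv ω = sv ω' := h.ds ω hω ω' hω' (by simp only [pj, e0.2.1, e0.2.2.1])
    have h3 : fv ω = fv ω' := h.df ω hω ω' hω' (by simp only [pj, e0.2.1, e0.2.2.1])
    have h4 : Y ω - Y ω' = ctZ Y G l0 l1 sv fv ω - ctZ Y G l0 l1 sv fv ω' := by
      simp only [ctZ, h2, h3, e0.2.2.2]
      abel
    rw [h4]
    exact qz_close (ctr_dz_eq e0.1)

/-- one coordinate of `Y` given that of the recentred target and `F, T, G` -/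
theorem ctr_e4 (h : Eng s p n e F T A Y G l0 l1 sv fv) (i : ι) :
    ce s p (qs n fun ω => Y ω i)
      (pj (qs n fun ω => dz n (ctZ Y G l0 l1 sv fv ω) i) (pj F (pj T G))) ≤ 2 := by
  have hq : ∀ v : ι → ℝ, ⌊(2 : ℝ) ^ n * dz n v i⌋ = qz n v i := fun v =>
    congrFun (qz_dz le_rfl v) i
  have h1 := ce_near1 h.isP n (fun ω => Y ω i)
    (fun ω => dz n (ctZ Y G l0 l1 sv fv ω) i - sv ω * l0 (G ω) i - fv ω * l1 (G ω) i)
    (pj (qs n fun ω => dz n (ctZ Y G l0 l1 sv fv ω) i) (pj F (pj T G))) ?_ (x := 0) le_rfl ?_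
  · linarith
  · intro ω hω ω' hω' e0
    simp only [pj, qs, hq, Prod.mk.injEq] at e0
    have h2 : sv ω = sv ω' := h.ds ω hω ω' hω' (by simp only [pj, e0.2.1, e0.2.2.1])
    have h3 : fv ω = fv ω' := h.df ω hω ω' hω' (by simp only [pj, e0.2.1, e0.2.2.1])
    simp only [dz, cor, e0.1, h2, h3, e0.2.2.2]
  · intro ω _
    rw [Real.rpow_zero]
    have h2 := (norm_le_pi_norm (ctZ Y G l0 l1 sv fv ω - dz n (ctZ Y G l0 l1 sv fv ω)) i).trans
      (dz_close n _)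
    rw [Real.norm_eq_abs] at h2
    refine le_trans (le_of_eq ?_) h2
    congr 1
    simp only [ctZ, Pi.sub_apply, Pi.add_apply, Pi.smul_apply, smul_eq_mul]
    ring

/-- `I (Y, G; T | F, H) ≤ 2 e` -/
theorem ctr_info (h : Eng s p n e F T A Y G l0 l1 sv fv) (H : Ω → List Nrm)
    (hH : Det s H (pj F T)) : ce s p T (pj F H) - ce s p T (ctK F H Y G) ≤ 2 * e := by
  have h1 := ce_cond h.isP T (pj Y G) (pj F H)
  have h2 : ce s p T (pj (pj Y G) (pj F H)) ≤ ce s p T (ctK F H Y G) := by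
    refine ce_mono h.isP ?_ ?_ <;> intro ω _ ω' _ e0 <;>
      simp only [ctK, pj, Prod.mk.injEq] at e0 ⊢ <;> tauto
  have h3 : ce s p (pj Y G) (pj F H) ≤ ce s p (pj G Y) F := by
    refine ce_mono h.isP ?_ ?_ <;> intro ω _ ω' _ e0 <;>
      simp only [pj, Prod.mk.injEq] at e0 ⊢ <;> tauto
  have h4 := ce_chain (s := s) (p := p) G Y F
  have h5 : ce s p Y (pj G F) ≤ ce s p Y F := by
    refine ce_mono h.isP ?_ ?_ <;> intro ω _ ω' _ e0 <;>
      simp only [pj, Prod.mk.injEq] at e0 ⊢ <;> tauto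
  have h6 : ce s p (pj G Y) (pj F T) ≤ ce s p (pj Y G) (pj T (pj F H)) := by
    refine ce_mono h.isP ?_ ?_
    · intro ω _ ω' _ e0
      simp only [pj, Prod.mk.injEq] at e0 ⊢
      tauto
    · intro ω hω ω' hω' e0
      have h7 := hH ω hω ω' hω' e0
      simp only [pj, Prod.mk.injEq] at e0 ⊢
      tauto
  have h7 := ce_chain (s := s) (p := p) G Y (pj F T)
  have h8 : ce s p Y (pj F (pj T G)) ≤ ce s p Y (pj G (pj F T)) := by
    refine ce_mono h.isP ?_ ?_ <;> intro ω _ ω' _ e0 <;>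
      simp only [pj, Prod.mk.injEq] at e0 ⊢ <;> tauto
  have h9 := h.h2
  have h10 := h.h3
  linarith

/-- conditioning on the second sample of `T` costs at most `2 e` -/
theorem ctr_key {δ ε : Type} (h : Eng s p n e F T A Y G l0 l1 sv fv) (H : Ω → List Nrm)
    (hH : Det s H (pj F T)) (U : Ω → δ) (C : Ω → ε) (hC : Det s (pj F H) C) :
    ce s p U C ≤ ce (glueS s (ctK F H Y G) s (ctK F H Y G)) (glueP p s p (ctK F H Y G))
      (fun x => U x.1) (pj (fun x => T x.2) (fun x => C x.1)) + 2 * e := by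
  have hP := glue_prob h.isP (ctK F H Y G)
  have h1 := ce_cond hP (fun x => U x.1) (fun x => T x.2) (fun x => C x.1)
  have h2 := ce_law (glue_law1 h.isP (ctK F H Y G)) U C
  have h3 := ce_law (glue_law2 h.isP (ctK F H Y G)) T (pj F H)
  have h4 := glue_ce h.isP (ctK F H Y G) (fun ω => ω) T (fun ω _ ω' _ e0 => congrArg _ e0)
  have h5 : ce (glueS s (ctK F H Y G) s (ctK F H Y G)) (glueP p s p (ctK F H Y G))
      (fun x => T x.2) (fun x => C x.1) ≤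
      ce (glueS s (ctK F H Y G) s (ctK F H Y G)) (glueP p s p (ctK F H Y G))
      (fun x => T x.2) (fun x => pj F H x.2) := by
    refine ce_mono hP ?_ ?_
    · intro x _ x' _ e0
      exact (Prod.mk.inj e0).1
    · intro x hx x' hx' e0
      obtain ⟨a1, -, a3, a4, -, -⟩ := ctr_mem hx
      obtain ⟨b1, -, b3, b4, -, -⟩ := ctr_mem hx'
      have h6 := hC _ a1 _ b1 e0
      simp only [pj, Prod.mk.injEq] at h6 ⊢
      exact ⟨by rw [← a3, ← b3, h6.1], by rw [← a4, ← b4, h6.2]⟩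
  have h6 : ce (glueS s (ctK F H Y G) s (ctK F H Y G)) (glueP p s p (ctK F H Y G))
      (fun x => T x.2) (fun x => x.1) ≤
      ce (glueS s (ctK F H Y G) s (ctK F H Y G)) (glueP p s p (ctK F H Y G))
      (fun x => T x.2) (pj (fun x => U x.1) (fun x => C x.1)) := by
    refine ce_mono hP ?_ ?_
    · intro x _ x' _ e0
      exact (Prod.mk.inj e0).1
    · intro x _ x' _ e0
      simp only [pj, e0]
  have h7 := ctr_info h H hH
  linarith

/-- `H (ctY | F, T) ≤ H (Y | F, T, G) + e + 4` -/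
theorem ctr_e5 (hι : Fintype.card ι ≤ 2) (h : Eng s p n e F T A Y G l0 l1 sv fv) :
    ce s p (fun ω => dz n (ctZ Y G l0 l1 sv fv ω)) (pj F T) ≤
      ce s p Y (pj F (pj T G)) + e + 4 := by
  have h1 := ce_le_add h.isP (fun ω => dz n (ctZ Y G l0 l1 sv fv ω)) A (pj F T)
  have h2 := ctr_e1 hι h
  have h3 := h.h1
  linarith

/-- `I (G; A | F, T) ≤ e + 4` -/
theorem ctr_e6 (hι : Fintype.card ι ≤ 2) (h : Eng s p n e F T A Y G l0 l1 sv fv) :
    ce s p G (pj F T) ≤ ce s p G (pj A (pj F T)) + e + 4 := by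
  have h1 := ce_cond h.isP G A (pj F T)
  have h2 := ce_le_add h.isP Y A (pj F (pj T G))
  have h3 := ctr_e2 hι h
  have h4 := h.h1
  have h5 : ce s p A (pj F (pj T G)) ≤ ce s p A (pj G (pj F T)) := by
    refine ce_mono h.isP ?_ ?_ <;> intro ω _ ω' _ e0 <;>
      simp only [pj, Prod.mk.injEq] at e0 ⊢ <;> tauto
  linarith

end

/-- Entropy bookkeeping on the glued space (`glue_ce`, `glue_ce'`, `ce_law`, `ce_near`).
`I (Y, G; T | F, H) ≤ 2 e`, `ce Y (F, T, G, A) ≤ 4`, `ce (ctY) (A x.2, T x.2, F) ≤ 6`,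
`ce Y (ctY, G, T x.2, F) ≤ 4`. -/
theorem ctr [Fintype ι] (hι : Fintype.card ι ≤ 2) {s : Finset Ω} {p : Ω → ℝ} {n : ℕ} {e : ℝ}
    {F : Ω → β} {T : Ω → τ} {A : Ω → α} {Y : Ω → ι → ℝ} {G : Ω → γ} {l0 l1 : γ → ι → ℝ}
    {sv fv : Ω → ℝ} (h : Eng s p n e F T A Y G l0 l1 sv fv) (he : 0 ≤ e) (H : Ω → List Nrm)
    (hH : Det s H (pj F T)) (s2 : Finset (Ω × Ω)) (p2 : Ω × Ω → ℝ)
    (hs : s2 = glueS s (ctK F H Y G) s (ctK F H Y G)) (hp : p2 = glueP p s p (ctK F H Y G)) :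
    ex s2 p2 (fun x => dfc (atS s2 (ctW F H T) x) (atP s2 p2 (ctW F H T) x)
        (ctY n Y G l0 l1 sv fv) (fun x => A x.1) (fun x => T x.1) (fun x => G x.1)) ≤
      10 * e + 30 ∧
    ce s2 p2 (ctY n Y G l0 l1 sv fv) (ctW F H T) ≤ ce s p Y F + 2 * e + 10 ∧
    (∀ i, ce s p (qs n fun ω => Y ω i) F ≤
      ce s2 p2 (qs n fun x => ctY n Y G l0 l1 sv fv x i) (ctW F H T) + 4 * e + 10) ∧
    (∀ {δ : Type} (V : Ω → δ), Det s V (pj F T) →
      ce s p V (pj F H) ≤ ce s2 p2 (fun x => V x.1) (ctW F H T) + 2 * e) ∧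
    (∀ {δ : Type} (V : Ω → δ), Det s V (pj F G) →
      ce s p V F ≤ ce s2 p2 (fun x => V x.1) (ctW F H T) + 2 * e) ∧
    (∀ {δ : Type} (V : Ω → δ), Det s V (pj F T) →
      ce s p V (pj (pj Y G) (pj F H)) ≤ ce s2 p2 (fun x => V x.1)
        (pj (pj (ctY n Y G l0 l1 sv fv) (fun x => G x.1)) (ctW F H T))) ∧
    (∀ z : ℝ, (∀ ω ∈ s, (cnt s A (pj F T) (fun _ => True) ω : ℝ) ≤ (2 : ℝ) ^ z) →
      ∀ x ∈ s2, (cnt s2 (ctY n Y G l0 l1 sv fv) (ctW F H T) (fun _ => True) x : ℝ) ≤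
        (2 : ℝ) ^ (z + 6)) ∧
    ∀ x ∈ s2, ∀ x' ∈ s2, ctW F H T x = ctW F H T x' → T x.1 = T x'.1 → A x.1 = A x'.1 →
      ‖ctY n Y G l0 l1 sv fv x' - ctY n Y G l0 l1 sv fv x -
        ((sv x.1 - sv x.2) • (l0 (G x.1) - l0 (G x'.1)) +
          (fv x.1 - fv x.2) • (l1 (G x.1) - l1 (G x'.1)))‖ ≤ 3 / 2 ^ n := by
  subst hs hp
  have hP := glue_prob h.isP (ctK F H Y G)
  set s2 := glueS s (ctK F H Y G) s (ctK F H Y G) with hs2
  set p2 := glueP p s p (ctK F H Y G) with hp2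
  have hm : ∀ x ∈ s2, x.1 ∈ s ∧ x.2 ∈ s ∧ F x.1 = F x.2 ∧ H x.1 = H x.2 ∧ Y x.1 = Y x.2 ∧
      G x.1 = G x.2 := fun x hx => ctr_mem hx
  have hY : ∀ x ∈ s2, ctY n Y G l0 l1 sv fv x = dz n (ctZ Y G l0 l1 sv fv x.2) :=
    fun x hx => ctr_Y n l0 l1 sv fv hx
  have hW : ∀ x ∈ s2, ∀ x' ∈ s2, ctW F H T x = ctW F H T x' ↔
      F x.2 = F x'.2 ∧ T x.2 = T x'.2 := by
    intro x hx x' hx'
    obtain ⟨-, a2, a3, a4, -, -⟩ := hm x hx
    obtain ⟨-, b2, b3, b4, -, -⟩ := hm x' hx'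
    simp only [ctW, Prod.mk.injEq, a3, a4, b3, b4]
    refine ⟨fun e0 => ⟨e0.1.1, e0.2⟩, fun e0 => ⟨⟨e0.1, ?_⟩, e0.2⟩⟩
    exact hH _ a2 _ b2 (by simp only [pj, e0.1, e0.2])
  have hW1 : ∀ x x', ctW F H T x = ctW F H T x' ↔
      F x.1 = F x'.1 ∧ H x.1 = H x'.1 ∧ T x.2 = T x'.2 := by
    intro x x'
    simp only [ctW, Prod.mk.injEq, and_assoc]
  have law2 : ∀ {δ ε : Type} (U : Ω → δ) (C : Ω → ε),
      ce s2 p2 (fun x => U x.2) (fun x => C x.2) = ce s p U C :=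
    fun U C => ce_law (glue_law2 h.isP (ctK F H Y G)) U C
  have hB : ce s2 p2 (ctY n Y G l0 l1 sv fv) (ctW F H T) ≤ ce s p Y (pj F (pj T G)) + e + 4 := by
    refine le_trans ?_ (ctr_e5 hι h)
    rw [← law2]
    refine ce_mono hP ?_ ?_
    · intro x hx x' hx' e0
      rw [hY x hx, hY x' hx']
      exact (Prod.mk.inj e0).1
    · intro x hx x' hx' e0
      have h1 := (hW x hx x' hx').1 e0
      simp only [pj, h1.1, h1.2]
  have hYF : ce s p Y (pj F (pj T G)) ≤ ce s p Y F := by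
    refine ce_mono h.isP ?_ ?_ <;> intro ω _ ω' _ e0 <;>
      simp only [pj, Prod.mk.injEq] at e0 ⊢ <;> tauto
  refine ⟨?_, by linarith, ?_, ?_, ?_, ?_, ?_, ?_⟩
  · have e1 := ce_at hP (fun x => G x.1) (nil (Ω × Ω)) (ctW F H T)
    have e2 := ce_at hP (fun x => G x.1) (pj (fun x => A x.1) (fun x => T x.1)) (ctW F H T)
    have e3 := ce_at hP (ctY n Y G l0 l1 sv fv) (nil (Ω × Ω)) (ctW F H T)
    have e4 := ce_at hP (ctY n Y G l0 l1 sv fv) (pj (fun x => T x.1) (fun x => G x.1)) (ctW F H T)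
    have e5 : ex s2 p2 (fun x => dfc (atS s2 (ctW F H T) x) (atP s2 p2 (ctW F H T) x)
        (ctY n Y G l0 l1 sv fv) (fun x => A x.1) (fun x => T x.1) (fun x => G x.1)) =
        (ce s2 p2 (fun x => G x.1) (pj (nil (Ω × Ω)) (ctW F H T)) -
          ce s2 p2 (fun x => G x.1) (pj (pj (fun x => A x.1) (fun x => T x.1)) (ctW F H T))) +
        (ce s2 p2 (ctY n Y G l0 l1 sv fv) (pj (nil (Ω × Ω)) (ctW F H T)) -
          ce s2 p2 (ctY n Y G l0 l1 sv fv)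
            (pj (pj (fun x => T x.1) (fun x => G x.1)) (ctW F H T))) := by
      rw [← e1, ← e2, ← e3, ← e4]
      simp only [ex, dfc, ← Finset.sum_sub_distrib, ← Finset.sum_add_distrib]
      exact Finset.sum_congr rfl fun x _ => by ring
    rw [e5]
    have a1 : ce s2 p2 (fun x => G x.1) (pj (nil (Ω × Ω)) (ctW F H T)) ≤ ce s p G (pj F T) := by
      rw [← law2]
      refine ce_mono hP ?_ ?_
      · intro x hx x' hx' e0
        have h1 := (Prod.mk.inj e0).1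
        simp only at h1 ⊢
        rw [(hm x hx).2.2.2.2.2, (hm x' hx').2.2.2.2.2, h1]
      · intro x hx x' hx' e0
        have h1 := (hW x hx x' hx').1 (Prod.mk.inj e0).2
        simp only [pj, h1.1, h1.2]
    have a2 := ctr_key h H hH G (pj A (pj T (pj F H))) (by
      intro ω _ ω' _ e0
      simp only [pj, Prod.mk.injEq] at e0 ⊢
      tauto)
    have a3 : ce s2 p2 (fun x => G x.1) (pj (fun x => T x.2) (fun x => pj A (pj T (pj F H)) x.1)) ≤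
        ce s2 p2 (fun x => G x.1) (pj (pj (fun x => A x.1) (fun x => T x.1)) (ctW F H T)) := by
      refine ce_mono hP ?_ ?_ <;> intro x _ x' _ e0 <;>
        simp only [pj, ctW, Prod.mk.injEq] at e0 ⊢ <;> tauto
    have a4 : ce s p G (pj A (pj F T)) ≤ ce s p G (pj A (pj T (pj F H))) := by
      refine ce_mono h.isP ?_ ?_
      · intro ω _ ω' _ e0
        exact (Prod.mk.inj e0).1
      · intro ω hω ω' hω' e0
        have h1 := hH ω hω ω' hω' (Prod.mk.inj e0).2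
        simp only [pj, Prod.mk.injEq] at e0 ⊢
        tauto
    have a5 := ctr_e6 hι h
    have b1 : ce s2 p2 (ctY n Y G l0 l1 sv fv) (pj (nil (Ω × Ω)) (ctW F H T)) ≤
        ce s2 p2 (ctY n Y G l0 l1 sv fv) (ctW F H T) := by
      refine ce_mono hP ?_ ?_
      · intro x _ x' _ e0
        exact (Prod.mk.inj e0).1
      · intro x _ x' _ e0
        exact (Prod.mk.inj e0).2
    have b2 := ce_le_add hP (fun x => Y x.1) (ctY n Y G l0 l1 sv fv)
      (pj (pj (fun x => T x.1) (fun x => G x.1)) (ctW F H T))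
    have b3 : ce s2 p2 (fun x => Y x.1) (pj (ctY n Y G l0 l1 sv fv)
        (pj (pj (fun x => T x.1) (fun x => G x.1)) (ctW F H T))) ≤ 4 := by
      refine le_trans ?_ (ctr_e3 hι h)
      rw [← law2]
      refine ce_mono hP ?_ ?_
      · intro x hx x' hx' e0
        have h1 := (Prod.mk.inj e0).1
        simp only at h1 ⊢
        rw [(hm x hx).2.2.2.2.1, (hm x' hx').2.2.2.2.1, h1]
      · intro x hx x' hx' e0
        simp only [pj, Prod.mk.injEq] at e0 ⊢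
        have h1 := (hW x hx x' hx').1 e0.2.2
        refine ⟨?_, h1.1, h1.2, ?_⟩
        · rw [← hY x hx, ← hY x' hx', e0.1]
        · rw [← (hm x hx).2.2.2.2.2, ← (hm x' hx').2.2.2.2.2, e0.2.1.2]
    have b4 := ctr_key h H hH Y (pj T (pj G (pj F H))) (by
      intro ω _ ω' _ e0
      simp only [pj, Prod.mk.injEq] at e0 ⊢
      tauto)
    have b5 : ce s2 p2 (fun x => Y x.1) (pj (fun x => T x.2) (fun x => pj T (pj G (pj F H)) x.1)) ≤
        ce s2 p2 (fun x => Y x.1) (pj (pj (fun x => T x.1) (fun x => G x.1)) (ctW F H T)) := by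
      refine ce_mono hP ?_ ?_ <;> intro x _ x' _ e0 <;>
        simp only [pj, ctW, Prod.mk.injEq] at e0 ⊢ <;> tauto
    have b6 : ce s p Y (pj F (pj T G)) ≤ ce s p Y (pj T (pj G (pj F H))) := by
      refine ce_mono h.isP ?_ ?_
      · intro ω _ ω' _ e0
        exact (Prod.mk.inj e0).1
      · intro ω hω ω' hω' e0
        simp only [pj, Prod.mk.injEq] at e0 ⊢
        have h1 := hH ω hω ω' hω' (by simp only [pj, e0.1, e0.2.1])
        tauto
    linarith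
  · intro i
    have a1 := info_mono h.isP (X := Y) (V := qs n fun ω => Y ω i) F (pj F (pj T G))
      (by
        intro ω _ ω' _ e0
        simp only [pj, Prod.mk.injEq] at e0
        simp only [qs, e0.1])
      (fun ω _ ω' _ e0 => (Prod.mk.inj e0).1)
    have a2 := ce_le_add h.isP (qs n fun ω => Y ω i)
      (qs n fun ω => dz n (ctZ Y G l0 l1 sv fv ω) i) (pj F (pj T G))
    have a3 := ctr_e4 h i
    have a4 : ce s p (qs n fun ω => dz n (ctZ Y G l0 l1 sv fv ω) i) (pj F (pj T G)) ≤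
        ce s2 p2 (qs n fun x => ctY n Y G l0 l1 sv fv x i) (ctW F H T) := by
      rw [← law2]
      refine ce_mono hP ?_ ?_
      · intro x hx x' hx' e0
        have h1 := (Prod.mk.inj e0).1
        simp only [qs, hY x hx, hY x' hx'] at h1 ⊢
        exact h1
      · intro x hx x' hx' e0
        simp only [pj, Prod.mk.injEq] at e0
        exact (hW x hx x' hx').2 ⟨e0.1, e0.2.1⟩
    have a5 := h.h2
    linarith
  · intro δ V _
    have a1 := ctr_key h H hH V (pj F H) fun _ _ _ _ e0 => e0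
    have a2 : ce s2 p2 (fun x => V x.1) (pj (fun x => T x.2) (fun x => pj F H x.1)) ≤
        ce s2 p2 (fun x => V x.1) (ctW F H T) := by
      refine ce_mono hP ?_ ?_ <;> intro x _ x' _ e0 <;>
        simp only [pj, ctW, Prod.mk.injEq] at e0 ⊢ <;> tauto
    linarith
  · intro δ V hV
    have a1 := info_mono h.isP (X := G) (V := V) F (pj F T)
      (by
        intro ω hω ω' hω' e0
        simp only [pj, Prod.mk.injEq] at e0
        exact hV ω hω ω' hω' (by simp only [pj, e0.1, e0.2]))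
      (fun ω _ ω' _ e0 => (Prod.mk.inj e0).1)
    have hV2 : ∀ x ∈ s2, V x.1 = V x.2 := fun x hx => by
      obtain ⟨a1, a2, a3, -, -, a6⟩ := hm x hx
      exact hV _ a1 _ a2 (by simp only [pj, a3, a6])
    have a2 : ce s p V (pj F T) ≤ ce s2 p2 (fun x => V x.1) (ctW F H T) := by
      rw [← law2]
      refine ce_mono hP ?_ ?_
      · intro x hx x' hx' e0
        have h1 := (Prod.mk.inj e0).1
        simp only at h1 ⊢
        rw [← hV2 x hx, ← hV2 x' hx', h1]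
      · intro x hx x' hx' e0
        simp only [pj, Prod.mk.injEq] at e0
        exact (hW x hx x' hx').2 e0
    have a3 := h.h3
    linarith
  · intro δ V _
    have a1 := glue_ce' h.isP (ctK F H Y G) (fun ω => ω) V (fun ω _ ω' _ e0 => congrArg _ e0)
    have a2 : ce s p V (pj (pj Y G) (pj F H)) ≤ ce s p V (ctK F H Y G) := by
      refine ce_mono h.isP ?_ ?_ <;> intro ω _ ω' _ e0 <;>
        simp only [ctK, pj, Prod.mk.injEq] at e0 ⊢ <;> tauto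
    refine a2.trans (a1.symm.le.trans (ce_mono hP ?_ ?_))
    · intro x _ x' _ e0
      exact (Prod.mk.inj e0).1
    · intro x hx x' hx' e0
      have e1 : x.2 = x'.2 := e0
      simp only [pj, Prod.mk.injEq]
      refine ⟨⟨?_, ?_⟩, (hW x hx x' hx').2 ⟨by rw [e1], by rw [e1]⟩⟩
      · rw [hY x hx, hY x' hx', e1]
      · rw [(hm x hx).2.2.2.2.2, (hm x' hx').2.2.2.2.2, e1]
  · intro z hz x hx
    have hx2 := (hm x hx).2.1
    have a1 := ctr_cnt_mul (qv n (ctZ Y G l0 l1 sv fv)) A (pj F T)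
      (fun ω hω => ctr_cnt4 hι n _ _ (ctr_zc h) hω) x.2
    have a2 : cnt s2 (ctY n Y G l0 l1 sv fv) (ctW F H T) (fun _ => True) x ≤
        cnt s (qv n (ctZ Y G l0 l1 sv fv)) (pj F T) (fun _ => True) x.2 := by
      classical
      obtain ⟨t, ht, ht'⟩ := ctr_cnt_ex s2 (ctY n Y G l0 l1 sv fv) (ctW F H T) x
      obtain ⟨u, hu, hu'⟩ := ctr_cnt_ex s (qv n (ctZ Y G l0 l1 sv fv)) (pj F T) x.2
      rw [← ht, ← hu]
      refine le_trans (card_le_card ?_) (card_image_le (f := cor n))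
      intro y hy
      obtain ⟨x', hx', e1, rfl⟩ := (ht' y).1 hy
      have h2 := (hW x' hx' x hx).1 e1
      rw [hY x' hx']
      refine mem_image.2 ⟨qv n (ctZ Y G l0 l1 sv fv) x'.2,
        (hu' _).2 ⟨x'.2, (hm x' hx').2.1, ?_, rfl⟩, rfl⟩
      simp only [pj, h2.1, h2.2]
    have a3 : (2 : ℝ) ^ z * (2 : ℝ) ^ (4 : ℝ) ≤ (2 : ℝ) ^ (z + 6) := by
      rw [← Real.rpow_add (by norm_num)]
      exact Real.rpow_le_rpow_of_exponent_le (by norm_num) (by linarith)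
    have a4 := mul_le_mul_of_nonneg_right (hz _ hx2) (by positivity : (0 : ℝ) ≤ (2 : ℝ) ^ (4 : ℝ))
    have a5 : (cnt s2 (ctY n Y G l0 l1 sv fv) (ctW F H T) (fun _ => True) x : ℝ) ≤
        cnt s (qv n (ctZ Y G l0 l1 sv fv)) (pj F T) (fun _ => True) x.2 := by exact_mod_cast a2
    linarith
  · intro x hx x' hx' e0 eT eA
    have h1 := (hW x hx x' hx').1 e0
    have h2 := (hW1 x x').1 e0
    obtain ⟨a1, a2, -⟩ := hm x hx
    obtain ⟨b1, b2, -⟩ := hm x' hx'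
    have h3 := h.rel _ a1 _ b1 h2.1 eT eA
    have h4 : sv x'.2 = sv x.2 := h.ds _ b2 _ a2 (by simp only [pj, h1.1, h1.2])
    have h5 : fv x'.2 = fv x.2 := h.df _ b2 _ a2 (by simp only [pj, h1.1, h1.2])
    have h6 := dz_close n (Y x.1 + sv x.2 • l0 (G x.1) + fv x.2 • l1 (G x.1))
    have h7 := dz_close n (Y x'.1 + sv x'.2 • l0 (G x'.1) + fv x'.2 • l1 (G x'.1))
    have h8 : ctY n Y G l0 l1 sv fv x' - ctY n Y G l0 l1 sv fv x -
        ((sv x.1 - sv x.2) • (l0 (G x.1) - l0 (G x'.1)) +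
          (fv x.1 - fv x.2) • (l1 (G x.1) - l1 (G x'.1))) =
        (Y x'.1 - Y x.1 - (sv x.1 • (l0 (G x.1) - l0 (G x'.1)) +
          fv x.1 • (l1 (G x.1) - l1 (G x'.1)))) +
        (Y x.1 + sv x.2 • l0 (G x.1) + fv x.2 • l1 (G x.1) -
          dz n (Y x.1 + sv x.2 • l0 (G x.1) + fv x.2 • l1 (G x.1))) -
        (Y x'.1 + sv x'.2 • l0 (G x'.1) + fv x'.2 • l1 (G x'.1) -
          dz n (Y x'.1 + sv x'.2 • l0 (G x'.1) + fv x'.2 • l1 (G x'.1))) := by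
      simp only [ctY, h4, h5, sub_smul, smul_sub]
      abel
    rw [h8]
    refine (norm_sub_le _ _).trans ?_
    have h9 := norm_add_le (Y x'.1 - Y x.1 - (sv x.1 • (l0 (G x.1) - l0 (G x'.1)) +
          fv x.1 • (l1 (G x.1) - l1 (G x'.1)))) (Y x.1 + sv x.2 • l0 (G x.1) +
          fv x.2 • l1 (G x.1) - dz n (Y x.1 + sv x.2 • l0 (G x.1) + fv x.2 • l1 (G x.1)))
    have h10 : (3 : ℝ) / 2 ^ n = 1 / 2 ^ n + 1 / 2 ^ n + 1 / 2 ^ n := by ring
    linarith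

/-- the recentred normalised coefficient vector -/
def ctA (W : Ω → Nrm) (sv fv : Ω → ℝ) : Ω × Ω → Fin 2 → ℝ :=
  fun x => (1 / 2 : ℝ) • (nv W sv fv x.1 - nv W sv fv x.2)

end Vale.Agent.P127S
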