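import Vale.Agent.P127S.RegA

/-! Adding a uniform segment. -/

open Real Finset Filter Topology Vale.Agent.P118O

noncomputable section

namespace Vale.Agent.P127S

variable {N : ℕ → ℕ} {Ω α : ℕ → Type} {S : Sp N Ω}

/-- the dyadic scale of a length, cut to the window from `a` to `b` -/
def dsE (a b : ℕ) (x : ℝ) : ℕ := sInf {n | a ≤ n ∧ (b ≤ n ∨ 1 / (2 : ℝ) ^ n ≤ x)}

theorem dsE_spec {a b : ℕ} (h : a ≤ b) (x : ℝ) : a ≤ dsE a b x ∧ dsE a b x ≤ b ∧
    (1 / (2 : ℝ) ^ b ≤ x → 1 / (2 : ℝ) ^ dsE a b x ≤ x) ∧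
      (0 ≤ x → (2 : ℝ) ^ dsE a b x * x ≤ 2 + 2 ^ a * x) := by
  have hb : b ∈ {n | a ≤ n ∧ (b ≤ n ∨ 1 / (2 : ℝ) ^ n ≤ x)} := ⟨h, Or.inl le_rfl⟩
  have h1 : dsE a b x ∈ {n | a ≤ n ∧ (b ≤ n ∨ 1 / (2 : ℝ) ^ n ≤ x)} := Nat.sInf_mem ⟨b, hb⟩
  have h2 : dsE a b x ≤ b := Nat.sInf_le hb
  refine ⟨h1.1, h2, fun hx => h1.2.elim (fun h3 => ?_) id, fun hx => ?_⟩
  · rwa [le_antisymm h2 h3]
  · rcases h1.1.eq_or_lt with h3 | h3
    · rw [← h3]
      linarith
    · obtain ⟨n, hn⟩ : ∃ n, dsE a b x = n + 1 := ⟨dsE a b x - 1, by omega⟩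
      have h4 : n ∉ {n | a ≤ n ∧ (b ≤ n ∨ 1 / (2 : ℝ) ^ n ≤ x)} :=
        Nat.notMem_of_lt_sInf (by change n < dsE a b x; omega)
      have h5 : x < 1 / (2 : ℝ) ^ n := lt_of_not_ge fun h6 => h4 ⟨by omega, Or.inr h6⟩
      rw [lt_div_iff₀ (by positivity)] at h5
      have h6 : 0 ≤ (2 : ℝ) ^ a * x := by positivity
      rw [hn, pow_succ]
      linarith

theorem ds_cl {M : ℝ} (hM : 0 ≤ M) (x : ℝ) : |cl M x| ≤ M ∧ |cl M x| ≤ |x| := by
  unfold cl
  refine ⟨abs_le.2 ⟨le_max_left _ _, max_le (by linarith) (min_le_left _ _)⟩, abs_le.2 ⟨?_, ?_⟩⟩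
  · exact le_max_of_le_right (le_min (by linarith [abs_nonneg x]) (neg_abs_le x))
  · exact max_le (by linarith [abs_nonneg x]) ((min_le_right _ _).trans (le_abs_self x))

theorem ds_cl_eq {M x : ℝ} (h : |x| ≤ M) : cl M x = x := by
  unfold cl
  rw [min_eq_right (abs_le.1 h).2, max_eq_right (abs_le.1 h).1]

theorem ds_div (e : ℕ) (x : ℝ) : |x / 2 ^ e| ≤ |x| := by
  rw [abs_div, abs_of_pos (by positivity : (0 : ℝ) < 2 ^ e)]
  exact div_le_self (abs_nonneg x) (one_le_pow₀ one_le_two)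

theorem ds_Q {M : ℝ} (hM : 0 ≤ M) (x : ℝ) {e i : ℕ} (h : e ≤ i) :
    (2 : ℝ) ^ i * cl M (cl M x / 2 ^ e) = 2 ^ (i - e) * cl M x := by
  rw [ds_cl_eq ((ds_div e _).trans (ds_cl hM x).1), pow_sub₀ _ two_ne_zero h]
  ring

theorem ds_H {β : ℕ → Type} {U : RV Ω β} {X : VV Ω (Unit → ℤ)} (t : VV Ω ℝ) (a b : VV Ω ℕ)
    (hab : ∀ k ω, a k ω ≤ b k ω) (ha : DetS S a U) (hb : DetS S b U)
    (h1 : DetS S (fun k ω => ⌊(2 : ℝ) ^ a k ω * t k ω⌋ : VV Ω ℤ) U)
    (hX : ∀ k ω i, X k ω i = ⌊(2 : ℝ) ^ b k ω * t k ω⌋) (k : ℕ) :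
    H S X U k ≤ ex (S.s k) (S.P k) fun ω => (b k ω : ℝ) - a k ω := by
  have h2 : H S X U k ≤ ce (S.s k) (S.P k) (fun ω => ⌊(2 : ℝ) ^ b k ω * t k ω⌋) (U k) := by
    refine ce_mono (S.isP k) (fun ω _ ω' _ h => ?_) fun _ _ _ _ h => h
    funext i
    rw [hX, hX]
    exact congrArg Prod.fst h
  refine h2.trans (ce_cnt (S.isP k) _ _ _ fun ω hω => ?_)
  refine (Fin_cnt (Ico (⌊(2 : ℝ) ^ a k ω * t k ω⌋ * (2 ^ (b k ω - a k ω) : ℕ))
    (⌊(2 : ℝ) ^ a k ω * t k ω⌋ * (2 ^ (b k ω - a k ω) : ℕ) + (2 ^ (b k ω - a k ω) : ℕ)))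
    fun ω' hω' e _ => ?_).trans_eq ?_
  · have e1 : a k ω' = a k ω := ha k ω' hω' ω hω e
    have e2 : b k ω' = b k ω := hb k ω' hω' ω hω e
    have e3 : ⌊(2 : ℝ) ^ a k ω' * t k ω'⌋ = ⌊(2 : ℝ) ^ a k ω * t k ω⌋ := h1 k ω' hω' ω hω e
    have := Fin_ico (hab k ω') e3
    rwa [show b k ω' - a k ω' = b k ω - a k ω by rw [e1, e2]] at this
  · rw [Int.card_Ico, add_sub_cancel_left, Int.toNat_natCast, ← Nat.cast_sub (hab k ω),
      Real.rpow_natCast]
    push_cast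
    rfl

theorem ds_pv (T Y v : VV Ω V3) (s : VV Ω ℝ) :
    PV v T - PV v (T - Y - sm s v) = PV v Y := by
  funext k ω i
  by_cases h : v k ω (amax (v k ω)) = 0
  · simp [PV, sm, h]
    have h1 : v k ω = 0 := by rw [← norm_eq_zero, ← amax_spec, h, abs_zero]
    simp [h1]
  · simp [PV, sm]
    field_simp
    ring

/-- the third term -/
theorem ds_third {Z : RV Ω α} {T Y v : VV Ω V3} {s : VV Ω ℝ} {j l l0 : ℕ → ℕ} (hj : Lv N j)
    (hl : ∀ k, l k ≤ j k) (h0 : ∀ k, l0 k ≤ j k) (h1 : ∀ k, j k - l k ≤ l0 k)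
    (hv : DetS S v Z) (hY : Bdd S Y) (hs : Bdd S s) (hT : Kn S Z (T - Y - sm s v) j)
    (hbT : Bdd S T) (hlow : whp S fun k ω => 1 / (2 : ℝ) ^ l0 k ≤ ‖v k ω‖)
    (hsm : Small S v fun k => j k - l k)
    (hu : Le N (fun k => l k) (H S (Q N l (sc s)) (J Z (Q N j Y)))) :
    Le N (fun k => (j k : ℝ) - l0 k) (H S (Q N j T) (J (J Z (Q N j Y)) (Q N l0 T))) := by
  have hj0 : Lv N l0 := fun k => (h0 k).trans (hj k)
  let e : VV Ω ℕ := fun k ω => dsE (j k - l k) (l0 k) ‖v k ω‖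
  have he := fun k ω => dsE_spec (h1 k) ‖v k ω‖
  have he1 : ∀ k ω, j k - l k ≤ e k ω := fun k ω => (he k ω).1
  have he2 : ∀ k ω, e k ω ≤ l0 k := fun k ω => (he k ω).2.1
  have heZ : DetS S e Z := hv.map fun k x => dsE (j k - l k) (l0 k) ‖x‖
  let t : VV Ω ℝ := fun k ω => cl (2 ^ N k) (s k ω)
  let u : VV Ω ℝ := fun k ω => t k ω / 2 ^ e k ω
  let w : VV Ω V3 := fun k ω => (2 : ℝ) ^ e k ω • v k ω
  have hwZ : DetS S w Z := hv.map fun k x => (2 : ℝ) ^ dsE (j k - l k) (l0 k) ‖x‖ • x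
  have hM : ∀ k, (0 : ℝ) ≤ 2 ^ N k := fun k => by positivity
  have hbu : Bdd S (sc u) := small_sc.2 (Small.dom hs 1 fun k ω _ => by
    rw [one_mul]
    exact (ds_div _ _).trans (ds_cl (hM k) _).2)
  have hbw : Bdd S w := by
    have h2 : Small S (sm (up Ω fun k => j k - l k) v) fun _ => 0 := Small.zoom hsm
    have h3 : Small S (fun k ω => ‖sm (up Ω fun k => j k - l k) v k ω‖ : VV Ω ℝ) fun _ => 0 :=
      h2.dom 1 fun k ω _ => by rw [one_mul, norm_norm]
    have h4 : Small S (fun _ _ => 2 : VV Ω ℝ) fun _ => 0 :=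
      Small.of_le (Eventually.of_forall fun k ω _ => by norm_num)
    refine (h4.add h3).dom 1 fun k ω _ => ?_
    have h5 := (he k ω).2.2.2 (norm_nonneg _)
    rw [one_mul]
    refine le_trans ?_ (le_abs_self _)
    change ‖(2 : ℝ) ^ e k ω • v k ω‖ ≤ 2 + ‖(2 : ℝ) ^ (j k - l k) • v k ω‖
    rw [norm_smul, norm_smul, Real.norm_of_nonneg (by positivity),
      Real.norm_of_nonneg (by positivity)]
    exact h5
  have huw : whp S fun k ω => sm u w k ω = sm s v k ω := by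
    refine (hs 1 one_pos).mono (Eventually.of_forall fun k ω _ h => ?_)
    have h2 : |s k ω| ≤ 2 ^ N k := by
      rw [one_mul, Nat.cast_zero, sub_zero, Real.rpow_natCast] at h
      exact h
    change (cl (2 ^ N k) (s k ω) / 2 ^ e k ω) • (2 : ℝ) ^ e k ω • v k ω = s k ω • v k ω
    rw [ds_cl_eq h2, smul_smul, div_mul_cancel₀ _ (by positivity)]
  set W := J Z (Q N j Y) with hW
  have hZW : DetS S Z W := (DetS.refl Z).left
  have hYW : Kn S W Y j := (Kn.self hY j).mono (DetS.refl _).right.kw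
  have hrW : Kn S W (T - Y - sm s v) j := hT.mono hZW.kw
  -- `T[l0]` is known from `W` and `s1`
  have hA : Kw S (J W (Q N l0 T)) (J W (Q N l0 (sc u))) := by
    refine Kw.pair (DetS.refl _).left.kw ?_
    have h2 : Kn S (J W (Q N l0 (sc u))) (sm u w) l0 :=
      Kn.smul' hj0 (hwZ.trans hZW.left) hbw ((Kn.self hbu l0).mono (DetS.refl _).right.kw)
        fun k => le_rfl
    have h3 := (((hrW.add hj hYW).lev h0).mono (DetS.refl W).left.kw).add hj0
      (h2.congr hj0 huw)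
    rw [show T - Y - sm s v + Y + sm s v = T by abel] at h3
    exact h3.kw
  -- `s2` is known from `W` and `T[j]`
  have hB : Kw S (Q N j (sc u)) (J (Q N j T) (J W (Q N l0 (sc u)))) := by
    have hWU : DetS S W (J (Q N j T) (J W (Q N l0 (sc u)))) := (DetS.refl W).left.right
    have h2 := ((Kn.self hbT j).mono (DetS.refl _).left.kw).sub hj ((hrW.add hj hYW).mono hWU.kw)
    rw [show T - (T - Y - sm s v + Y) = sm s v by abel] at h2
    let M : VV Ω (Unit → Fin 3 → ℝ) := fun k ω _ i =>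
      if i = amax (v k ω) then 1 / w k ω (amax (v k ω)) else 0
    have hMZ : DetS S M Z := DetS.map2 hv hwZ fun k x y _ i =>
      if i = amax x then 1 / y (amax x) else 0
    have hlw : whp S fun k ω => 1 ≤ |w k ω (amax (v k ω))| := by
      refine hlow.mono (Eventually.of_forall fun k ω _ h => ?_)
      have h3 := (he k ω).2.2.1 h
      change 1 ≤ |(2 : ℝ) ^ e k ω * v k ω (amax (v k ω))|
      rw [abs_mul, amax_spec, abs_of_pos (by positivity)]
      rw [div_le_iff₀ (by positivity), mul_comm] at h3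
      exact h3
    have hMs : Small S M fun _ => 0 := by
      refine Small.of_whp (hlw.mono (Eventually.of_forall fun k ω _ h => ?_))
      refine (pi_norm_le_iff_of_nonneg (by norm_num)).2 fun i =>
        (pi_norm_le_iff_of_nonneg (by norm_num)).2 fun i' => ?_
      change ‖if i' = amax (v k ω) then 1 / w k ω (amax (v k ω)) else 0‖ ≤ _
      split_ifs
      · rw [Real.norm_eq_abs, abs_div, abs_one]
        refine (div_le_one_of_le₀ h (abs_nonneg _)).trans ?_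
        norm_num
      · norm_num
    have h3 := Kn.lin hj ((hMZ.trans hZW).trans hWU) hMs h2 fun k => le_rfl
    refine (h3.congr hj ((hlw.and huw).mono (Eventually.of_forall fun k ω _ h => ?_))).kw
    funext i
    have h4 : w k ω (amax (v k ω)) ≠ 0 := fun h5 => by
      have h6 := h.1
      rw [h5, abs_zero] at h6
      exact absurd h6 (by norm_num)
    change ∑ i', (if i' = amax (v k ω) then 1 / w k ω (amax (v k ω)) else 0) * sm s v k ω i' = u k ω
    rw [← h.2]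
    simp only [ite_mul, zero_mul, Finset.sum_ite_eq', Finset.mem_univ, if_true]
    change 1 / w k ω (amax (v k ω)) * (u k ω * w k ω (amax (v k ω))) = u k ω
    field_simp
  have hC := H_kw hB hA
  have hD : Le N (H S (Q N l0 (sc u)) W)
      (H S (Q N l0 (sc u)) (J W (Q N (fun _ => 0) (sc s)))) :=
    H_kw (DetS.refl _).left.kw (Kw.pair (Kw.refl W) (Kn.zero (small_sc.2 hs) W).kw)
  have hE := ds_H (S := S) (U := J W (Q N (fun _ => 0) (sc s))) (X := Q N l0 (sc u)) t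
    (fun _ _ => 0) (fun k ω => l0 k - e k ω) (fun _ _ => Nat.zero_le _) (DetS.const fun _ => 0)
    ((heZ.trans hZW.left).map fun k x => l0 k - x)
    ((DetS.refl (Q N (fun _ => 0) (sc s))).right.map fun _ z => z ())
    fun k ω _ => congrArg Int.floor (ds_Q (hM k) _ (he2 k ω))
  have hF := ds_H (S := S) (U := J (J W (Q N l0 (sc u))) (Q N j (sc u))) (X := Q N l (sc s)) t
    (fun k ω => j k - e k ω) (fun k _ => l k) (fun k ω => by have := he1 k ω; omega)
    ((heZ.trans hZW.left.left).map fun k x => j k - x) (DetS.const l)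
    (by
      have h2 : (fun k ω => ⌊(2 : ℝ) ^ (j k - e k ω) * t k ω⌋ : VV Ω ℤ) =
          fun k ω => Q N j (sc u) k ω () := by
        funext k ω
        exact (congrArg Int.floor (ds_Q (hM k) _ ((he2 k ω).trans (h0 k)))).symm
      rw [h2]
      exact (DetS.refl (Q N j (sc u))).right.map fun _ z => z ())
    fun k ω _ => rfl
  have hG : ∀ k, (ex (S.s k) (S.P k) fun ω => ((l0 k - e k ω : ℕ) : ℝ) - (0 : ℕ)) +
      (ex (S.s k) (S.P k) fun ω => (l k : ℝ) - (j k - e k ω : ℕ)) = (l0 k : ℝ) + l k - j k := by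
    intro k
    rw [← Fin_ex (S.isP k) ((l0 k : ℝ) + l k - j k)]
    unfold ex
    rw [← Finset.sum_add_distrib]
    refine Finset.sum_congr rfl fun ω _ => ?_
    beta_reduce
    rw [Nat.cast_sub (he2 k ω), Nat.cast_sub ((he2 k ω).trans (h0 k))]
    push_cast
    ring
  have _ := hl
  refine ((hu.add hC).add hD).lin fun k => ?_
  linarith [hE k, hF k, hG k, H_le_add (S := S) (Q N l (sc s)) (Q N l0 (sc u)) W k,
    H_le_add (S := S) (Q N l (sc s)) (Q N j (sc u)) (J W (Q N l0 (sc u))) k]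

/-- `H (T[j] | Z) ≳ H (T[l0] | Z) + H ((PV v T)[j] | Z, T[l0]) + H (T[j] | Z, T[l0], (PV v T)[j])`.
First term: condition on `s[l]` (then `T` and `Y` are known from each other at level `j`,
`Kn.smul'`). Second term: `PV v T - PV v Y = PV v (T - Y - s v)` is known from `Z`. Third term:
condition on `W = (Z, Y[j])`. Let `e` (read off from `Z`) be the integer in `[j - l, l0]` nearest
to `-logb ‖v‖` (so `1 / 2 ^ e ≤ 2 ‖v‖`, and `‖v‖ ≤ 2 ^ (o (N) - e)`), `s1 = ⌊2 ^ (l0 - e) s⌋`,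
`s2 = ⌊2 ^ (j - e) s⌋` for the truncated `s`. By `ce_cnt` with a random exponent
`H (s[l] | W, s2) ≤ E (l - j + e)` and `H (s1 | W) ≲ E (l0 - e)`, so `H (s2 | W, s1) ≳ j - l0`;
`s2` is known from `(W, T[j])` and `T[l0]` is known from `(W, s1)`: rescale by `2 ^ e`, e.g. apply
`kn_near` to `s / 2 ^ e` at the levels `j` and `l0`. -/
theorem ds {Z : RV Ω α} {T Y v : VV Ω V3} {s : VV Ω ℝ} {j l l0 : ℕ → ℕ} (hj : Lv N j)
    (hl : ∀ k, l k ≤ j k) (h0 : ∀ k, l0 k ≤ j k) (h1 : ∀ k, j k - l k ≤ l0 k)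
    (hv : DetS S v Z) (hY : Bdd S Y) (hs : Bdd S s) (hT : Kn S Z (T - Y - sm s v) j)
    (hlow : whp S fun k ω => 1 / (2 : ℝ) ^ l0 k ≤ ‖v k ω‖)
    (hsm : Small S v fun k => j k - l k)
    (hu : Le N (fun k => l k) (H S (Q N l (sc s)) (J Z (Q N j Y)))) :
    Le N (fun k => H S (Q N l0 Y) (J Z (Q N l (sc s))) k +
        H S (Q N j (PV v Y)) (J (J Z (Q N l (sc s))) (Q N l0 Y)) k + ((j k : ℝ) - l0 k))
      (H S (Q N j T) Z) := by
  have hj0 : Lv N l0 := fun k => (h0 k).trans (hj k)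
  have hsv : Small S (sm s v) fun _ => 0 :=
    Small.smul (b := fun _ => 0) (b' := fun _ => 0) hs hsm.bdd
  have hbT : Bdd S T := by
    have h2 := (Small.add hT.bdd hY).add hsv
    rwa [show T - Y - sm s v + Y + sm s v = T by abel] at h2
  have hZ1 : DetS S Z (J Z (Q N l (sc s))) := (DetS.refl Z).left
  have ksv : Kn S (J Z (Q N l (sc s))) (sm s v) j :=
    Kn.smul' hj (hv.trans hZ1) hsm ((Kn.self (small_sc.2 hs) l).mono (DetS.refl _).right.kw)
      fun k => by have := hl k; omega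
  have kr : Kn S (J Z (Q N l (sc s))) (T - Y - sm s v + sm s v) l0 :=
    ((hT.mono hZ1.kw).add hj ksv).lev h0
  have t1 : Le N (H S (Q N l0 Y) (J Z (Q N l (sc s)))) (H S (Q N l0 T) Z) := by
    refine H_kw ?_ hZ1.kw
    have h2 := ((Kn.self hbT l0).mono (DetS.refl _).left.kw).sub hj0
      (kr.mono (DetS.refl _).right.kw)
    rw [show T - (T - Y - sm s v + sm s v) = Y by abel] at h2
    exact h2.kw
  have t2 : Le N (H S (Q N j (PV v Y)) (J (J Z (Q N l (sc s))) (Q N l0 Y)))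
      (H S (Q N j (PV v T)) (J Z (Q N l0 T))) := by
    refine H_kw ?_ (Kw.pair hZ1.left.kw ?_)
    · have hb : Bdd S (PV v T) := (Kn.pv hj (DetS.refl v).left
        ((Kn.self hbT j).mono (DetS.refl _).right.kw)).bdd
      have h2 := ((Kn.self hb j).mono (DetS.refl _).left.kw).sub hj
        ((Kn.pv hj hv hT).mono
          (hZ1.left (Z := Q N l0 Y)).right.kw)
      rw [ds_pv] at h2
      exact h2.kw
    · have h2 := (kr.mono (DetS.refl _).left.kw).add hj0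
        ((Kn.self hY l0).mono (DetS.refl _).right.kw)
      rw [show T - Y - sm s v + sm s v + Y = T by abel] at h2
      exact h2.kw
  have t3 := ds_third hj hl h0 h1 hv hY hs hT hbT hlow hsm hu
  have t4 : Le N (H S (Q N j T) (J (J Z (Q N j Y)) (Q N l0 T)))
      (H S (Q N j T) (J Z (J (Q N l0 T) (Q N j (PV v T))))) := by
    have hZW : DetS S Z (J (J Z (Q N j Y)) (Q N l0 T)) := (DetS.refl Z).left.left
    refine H_kw (DetS.refl _).left.kw (Kw.pair hZW.kw (Kw.pair (DetS.refl _).right.kw ?_))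
    have h2 := (Kn.pv hj (hv.trans hZW)
      ((Kn.self hY j).mono (DetS.refl _).right.left.kw)).add hj ((Kn.pv hj hv hT).mono hZW.kw)
    rw [← ds_pv T Y v s, sub_add_cancel] at h2
    exact h2.kw
  have t5 : Le N (H S (J (J (Q N l0 T) (Q N j (PV v T))) (Q N j T)) Z) (H S (Q N j T) Z) := by
    refine H_kw (Kw.pair (Kw.pair (det_Q h0 T).left.kw ?_) (DetS.refl _).left.kw) (Kw.refl Z)
    exact (Kn.pv hj hv.right ((Kn.self hbT j).mono (DetS.refl _).left.kw)).kw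
  refine ((((t1.add t2).add t3).add t4).add t5).lin fun k => ?_
  linarith [H_chain (S := S) (J (Q N l0 T) (Q N j (PV v T))) (Q N j T) Z k,
    H_chain (S := S) (Q N l0 T) (Q N j (PV v T)) Z k]

end Vale.Agent.P127S
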