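import Vale.Agent.P127S.DS10

/-! Lipschitz and higher order bounds. -/

open Real Finset Filter Topology Vale.Agent.P118O

noncomputable section

namespace Vale.Agent.P127S

variable {N : ℕ → ℕ} {Ω γ δ : ℕ → Type} {S : Sp N Ω} {L : Ln Ω} {D1 : RV Ω δ} {D2 : RV Ω γ}
  {P1 P2 R B B2 : VV Ω M3} {I : Finset (Fin 3)} {σ : ℝ} {b j j0 : ℕ → ℕ} {t2 : VV Ω ℝ}

theorem ds1_det (h : PairSt S L t2 D1 D2 P1 P2 I σ b) : DetS S (t2 - L.t) (J D1 D2) :=
  DetS.map2 (DetS.right h.st2.cfg.dt) (DetS.left h.st1.cfg.dt) fun _ x y => x - y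

theorem ds1_mat (h : PairSt S L t2 D1 D2 P1 P2 I σ b) : Mat S (J D1 D2) (P2 - P1) I :=
  (h.st2.pj.mono (DetS.refl D2).right).sub (h.st1.pj.mono (DetS.refl D1).left)

theorem ds1_mat2 (h : PairSt S L t2 D1 D2 P1 P2 I σ b) (h2 : St2 S L D1 P1 I σ B) :
    Mat S (J D1 D2) (P2 - P1 - sm (t2 - L.t) B) I :=
  (ds1_mat h).sub ((h2.mat.mono (DetS.refl D1).left).smul (ds1_det h) h.small.bdd)

theorem ds1_kw (D1 : RV Ω δ) (D2 : RV Ω γ) {α : ℕ → Type} (Y : RV Ω α) :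
    Kw S (J D1 Y) (J (J D1 D2) Y) :=
  (Kw.refl D1).left.left.pair (Kw.refl Y).right

theorem ds1_lev {f g : ℕ → ℕ} (h : ∀ k, f k ≤ g k) : Le N (fun k => f k) fun k => g k :=
  Le.of_le fun k => Nat.cast_le.2 (h k)

theorem ds1_id1 (L : Ln Ω) (t2 : VV Ω ℝ) (P1 P2 B : VV Ω M3) :
    ph P2 (L.wt t2).x - ph P1 L.x + MV (P2 - P1 - sm (t2 - L.t) B) L.x
      = sm (t2 - L.t) (ph P1 L.θ - MV B L.x) - sm (t2 - L.t) (MV (P2 - P1) L.θ) := by
  rw [wt_x]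
  funext k w i
  simp only [MV, ph, sm, Fin.sum_univ_three, Pi.add_apply, Pi.sub_apply, Pi.smul_apply,
    smul_eq_mul]
  ring

theorem ds1_id2 (L : Ln Ω) (t2 : VV Ω ℝ) (P1 P2 B B2 : VV Ω M3) :
    ph P2 (L.wt t2).x - ph P1 L.x
      + MV (P2 - P1 - sm (t2 - L.t) B - sm ((t2 - L.t) * (t2 - L.t)) B2) L.x
      = sm (t2 - L.t) (ph P1 L.θ - MV B L.x)
        - sm ((t2 - L.t) * (t2 - L.t)) (MV B L.θ + MV B2 L.x)
        - sm (t2 - L.t) (MV (P2 - P1 - sm (t2 - L.t) B) L.θ) := by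
  rw [wt_x]
  funext k w i
  simp only [MV, ph, sm, Fin.sum_univ_three, Pi.add_apply, Pi.sub_apply, Pi.smul_apply,
    Pi.mul_apply, smul_eq_mul]
  ring

/-- `ds1` with `j0 = 0`, `j = b`, `pair_id` -/
theorem lip (h : PairSt S L t2 D1 D2 P1 P2 I σ b) :
    Small S (P2 - P1) b ∨ Has σ (I.card + 1) := by
  have hθ := h.st1.cfg.bdd.2.1
  refine ds1 h (fun k => Nat.zero_le _) h.hb (ds1_mat h) (ds1_mat h).bdd ?_
  rw [pair_id]
  exact Kn.of_small (h.st1.cfg.lev h.hb) ((h.small.smul (h.st1.pj.bdd.tr hθ)).sub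
    (h.small.smul ((ds1_mat h).bdd.mv hθ))) _

/-- `ds1` with `j0 = b`, `j = 2 b`: the sum is `u ψ - u (P2 - P1) θ` -/
theorem c11 (h : PairSt S L t2 D1 D2 P1 P2 I σ b) (h2 : St2 S L D1 P1 I σ B)
    (hb : ∀ k, 2 * b k ≤ L.n k) :
    Small S (P2 - P1 - sm (t2 - L.t) B) (fun k => 2 * b k) ∨ Has σ (I.card + 1) := by
  rcases lip h with h1 | h1
  swap
  · exact Or.inr h1
  have hθ : Small S L.θ fun _ => 0 := h.st1.cfg.bdd.2.1
  have hB : Small S B fun _ => 0 := h2.mat.bdd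
  have hl := h.st1.cfg.lev hb
  have h4 : Small S (sm (t2 - L.t) B) b :=
    (h.small.smul hB).mono (ds1_lev fun k => Nat.le_add_right _ _)
  refine ds1 h (j0 := b) (fun k => by omega) hb (ds1_mat2 h h2) (h1.sub h4) ?_
  rw [ds1_id1]
  have h5 : Small S (sm (t2 - L.t) (MV (P2 - P1) L.θ)) fun k => 2 * b k :=
    (h.small.smul (h1.mv hθ)).mono (ds1_lev fun k => by omega)
  exact Kn.sub hl (Kn.smul hl (ds1_det h).left h.small
    ((h2.rel b h.hb).mono (ds1_kw D1 D2 _)) fun k => by omega) (Kn.of_small hl h5 _)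

/-- `ds1` with `j0 = 2 b`, `j = 3 b`: with `R = P2 - P1 - u B` the sum is
`u ψ - u ^ 2 χ - u R θ` -/
theorem c21 (h : PairSt S L t2 D1 D2 P1 P2 I σ b) (h3 : St3 S L D1 P1 I σ B B2)
    (hb : ∀ k, 3 * b k ≤ L.n k) :
    Small S (P2 - P1 - sm (t2 - L.t) B - sm ((t2 - L.t) * (t2 - L.t)) B2) (fun k => 3 * b k) ∨
      Has σ (I.card + 1) := by
  have hb2 : ∀ k, 2 * b k ≤ L.n k := fun k => by have := hb k; omega
  rcases c11 h h3.st2 hb2 with h1 | h1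
  swap
  · exact Or.inr h1
  have hθ : Small S L.θ fun _ => 0 := h.st1.cfg.bdd.2.1
  have hB : Small S B2 fun _ => 0 := h3.mat.bdd
  have hl := h.st1.cfg.lev hb
  have hd : DetS S ((t2 - L.t) * (t2 - L.t)) (J D1 D2) := (ds1_det h).map fun _ x => x * x
  have h0 : Small S ((t2 - L.t) * (t2 - L.t)) fun k => b k + b k := h.small.smul h.small
  have hs : Small S ((t2 - L.t) * (t2 - L.t)) fun k => 2 * b k :=
    h0.mono (ds1_lev fun k => by omega)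
  have h4 : Small S (sm ((t2 - L.t) * (t2 - L.t)) B2) fun k => 2 * b k :=
    (hs.smul hB).mono (ds1_lev fun k => Nat.le_add_right _ _)
  refine ds1 h (j0 := fun k => 2 * b k) (fun k => by omega) hb
    ((ds1_mat2 h h3.st2).sub ((h3.mat.mono (DetS.refl D1).left).smul hd hs.bdd)) (h1.sub h4) ?_
  rw [ds1_id2]
  have h5 : Small S (sm (t2 - L.t) (MV (P2 - P1 - sm (t2 - L.t) B) L.θ)) fun k => 3 * b k :=
    (h.small.smul (h1.mv hθ)).mono (ds1_lev fun k => by omega)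
  exact Kn.sub hl (Kn.sub hl (Kn.smul hl (ds1_det h).left h.small
    ((h3.st2.rel _ hb2).mono (ds1_kw D1 D2 _)) fun k => by omega)
    (Kn.smul hl hd.left hs ((h3.rel _ hb2).mono (ds1_kw D1 D2 _)) fun k => by omega))
    (Kn.of_small hl h5 _)

end Vale.Agent.P127S
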