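import Vale.Agent.P127S.Pair0

/-! Properties of pairs. -/

open Real Finset Filter Topology Vale.Agent.P118O

noncomputable section

namespace Vale.Agent.P127S

variable {N : ℕ → ℕ} {Ω Ω' α β γ δ : ℕ → Type} {S : Sp N Ω} {S' : Sp N Ω'} {m : RV Ω' Ω}
  {L : Ln Ω} {D D1 : RV Ω δ} {D2 : RV Ω γ} {P P1 P2 : VV Ω M3} {I : Finset (Fin 3)} {σ : ℝ}
  {b l : ℕ → ℕ} {A : VV Ω Prop} {t2 : VV Ω ℝ}

theorem pair_small (h : PairSt S L t2 D1 D2 P1 P2 I σ b) : Small S (t2 - L.t) b := by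
  refine Small.of_le (Eventually.of_forall fun k ω hω => ?_)
  have h1 := h.close k ω hω
  have hp : (0 : ℝ) < 2 ^ b k := by positivity
  show |t2 k ω - L.t k ω| ≤ 8 / 2 ^ b k
  exact h1.trans (div_le_div_of_nonneg_right (by norm_num) hp.le)

theorem pair_kn (h : PairSt S L t2 D1 D2 P1 P2 I σ b) {Z : RV Ω α} (hD : DetS S D1 Z) :
    Kn S Z (sc t2) b :=
  kn_near (h.st1.cfg.lev h.hb) (F := sc L.t) ((h.st1.cfg.dt.map fun _ x _ => x).trans hD)
    (small_sc.2 h.st2.cfg.bdd.2.2.1) (small_sc.2 (pair_small h))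

theorem PairSt.res (h : PairSt S L t2 D1 D2 P1 P2 I σ b) (hA : pos S A) :
    PairSt (S.res A) L t2 D1 D2 P1 P2 I σ b := by
  have hn : Lv N L.n := h.st1.cfg.lv
  refine ⟨h.st1.res hA, h.st2.res hA, ?_, h.hb, fun k ω hω => h.close k ω (res_mem hω), ?_⟩
  · have e := res_full hA hn (Kn.zero h.st1.cfg.bdd.2.1 (J D1 D2)) (fun _ => Nat.zero_le _)
      (h.joint.lin fun k => by simp)
    exact e.lin fun k => by simp
  · have e := res_full hA hn (pair_kn h (Z := J (L.p N L.n) D1) pair0_snd) h.hb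
      (h.unif.lin fun k => by simp)
    exact e.lin fun k => by simp

theorem PairSt.pull (h : PairSt S L t2 D1 D2 P1 P2 I σ b) (e : Ext S S' m) :
    PairSt S' (L.pull m) (pl m t2) (pl m D1) (pl m D2) (pl m P1) (pl m P2) I σ b := by
  refine ⟨h.st1.pull e, h.st2.pull e, ?_, h.hb, fun k ω hω => h.close k _ (e.1 k ω hω), ?_⟩
  · have := h.joint
    rw [← e.ent] at this
    exact this
  · have := h.unif
    rw [← e.ent] at this
    exact this

theorem PairSt.dT_det (h : PairSt S L t2 D1 D2 P1 P2 I σ b) : DetS S (dT L t2 b) (J D1 D2) := by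
  exact (DetS.right (Y := D1) h.st2.cfg.dt).map2 (DetS.left (Z := D2) h.st1.cfg.dt)
    fun k x y => 2 ^ b k * (x - y)

theorem PairSt.dT_bdd (h : PairSt S L t2 D1 D2 P1 P2 I σ b) : Bdd S (dT L t2 b) := by
  refine Small.of_le (Eventually.of_forall fun k ω hω => ?_)
  have h1 := h.close k ω hω
  have hp : (0 : ℝ) < 2 ^ b k := by positivity
  rw [le_div_iff₀ hp] at h1
  show ‖2 ^ b k * (t2 k ω - L.t k ω)‖ ≤ 8 / 2 ^ 0
  rw [Real.norm_eq_abs, abs_mul, abs_of_pos hp]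
  linarith

theorem PairSt.small (h : PairSt S L t2 D1 D2 P1 P2 I σ b) : Small S (t2 - L.t) b := by
  exact pair_small h

theorem dT_eq (L : Ln Ω) (t2 : VV Ω ℝ) (b : ℕ → ℕ) : sm (tw Ω b) (dT L t2 b) = t2 - L.t := by
  funext k ω
  have hp : (2 : ℝ) ^ b k ≠ 0 := by positivity
  show 1 / 2 ^ b k * (2 ^ b k * (t2 k ω - L.t k ω)) = t2 k ω - L.t k ω
  field_simp

theorem wt_x (L : Ln Ω) (t2 : VV Ω ℝ) : (L.wt t2).x = L.x + sm (t2 - L.t) L.θ := by
  funext k ω i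
  simp [sm, Ln.x, Ln.wt]
  ring

/-- the basic identity `y2 - y1 + (P2 - P1) x1 = u γ1 - u (P2 - P1) θ` -/
theorem pair_id (L : Ln Ω) (t2 : VV Ω ℝ) (P1 P2 : VV Ω M3) :
    ph P2 (L.wt t2).x - ph P1 L.x + MV (P2 - P1) L.x =
      sm (t2 - L.t) (ph P1 L.θ) - sm (t2 - L.t) (MV (P2 - P1) L.θ) := by
  funext k ω i
  simp [MV, ph, sm, Ln.x, Ln.wt, Fin.sum_univ_three]
  ring

/-- `t2[b+l]` is known from `(dT)[l]` and `D1`; `full_lev`, `unif_pow` -/
theorem PairSt.unif_pow (h : PairSt S L t2 D1 D2 P1 P2 I σ b) (hl : ∀ k, b k + l k ≤ L.n k)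
    {r : ℕ} (hr : 1 ≤ r) : Le N (fun k => l k)
      (H S (Q N l (sc fun k ω => dT L t2 b k ω ^ r)) (J (L.p N L.n) D1)) := by
  have hc := h.st1.cfg
  have hbl : Lv N fun k => b k + l k := hc.lev hl
  have hl' : Lv N l := fun k => le_trans (Nat.le_add_left _ _) (hbl k)
  refine P127S.unif_pow hl' h.dT_bdd ?_ hr
  have h1 := full_lev hl h.unif
  have hu : Bdd S (sc (dT L t2 b)) := small_sc.2 h.dT_bdd
  have k1 : Kn S (J (Q N l (sc (dT L t2 b))) (J (L.p N L.n) D1)) (sc L.t) fun k => b k + l k :=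
    Kn.of_det (small_sc.2 hc.bdd.2.2.1) (hc.dt.map fun _ x _ => x).right.right _
  have k2 : Kn S (J (Q N l (sc (dT L t2 b))) (J (L.p N L.n) D1))
      (sm (tw Ω b) (sc (dT L t2 b))) fun k => b k + l k :=
    Kn.smul hbl (DetS.const fun k => (1 : ℝ) / 2 ^ b k) (small_tw S b)
      ((Kn.self hu l).mono pair0_fst.kw) fun k => (add_comm _ _).le
  have k3 := (k1.add hbl k2).eqs (Y := sc t2) fun k ω _ => by
    funext i
    have := congrFun (congrFun (dT_eq L t2 b) k) ω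
    change 1 / 2 ^ b k * dT L t2 b k ω = t2 k ω - L.t k ω at this
    show L.t k ω + 1 / 2 ^ b k * dT L t2 b k ω = t2 k ω
    linarith
  have h2 := H_kw k3.kw (Kw.refl _)
  refine (h1.trans h2).lin fun k => ?_
  simp only [Fintype.card_unit]
  push_cast
  linarith

theorem PairSt.cw (h : PairSt S L t2 D1 D2 P1 P2 I σ b) {j : ℕ → ℕ} (hj : ∀ k, j k ≤ L.n k) :
    Cw S L D1 (J D1 D2) j := by
  exact h.st1.cfg.cw pair0_fst h.joint hj

/-- what is known from the line and `D1` is independent of `D2` -/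
theorem PairSt.ind (h : PairSt S L t2 D1 D2 P1 P2 I σ b) {F : RV Ω α} {G : RV Ω β}
    (hD : Kw S D1 F) (hF : Kw S F (J D1 (L.p N L.n))) (hG : Kw S G (J D1 (L.p N L.n))) :
    Ind S G D2 F := by
  have i0 : Ind S (L.p N L.n) D2 D1 := h.st1.cfg.ind_p h.joint
  have i1 := (i0.cond hF).mono (W := G) (hG.trans (pair0_fst.left.pair pair0_snd).kw)
  exact i1.congr pair0_snd.kw (hD.pair (Kw.refl F))

/-- More side information at the first time: a copy of `Θ` glued over `(D1, D2)`.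
`I (Θ'; D2, p | D1) = I (Θ'; D2 | D1) ≲ 0` by `glue_H2` and `PairSt.ind`. -/
theorem PairSt.ext (h : PairSt S L t2 D1 D2 P1 P2 I σ b) {Θ : RV Ω α}
    (hΘ : Kw S Θ (J D1 (L.p N L.n))) :
    PairSt (S.glue (J D1 D2)) (L.pull (p1 Ω)) (pl (p1 Ω) t2) (J (pl (p1 Ω) D1) (pl (p2 Ω) Θ))
      (pl (p1 Ω) D2) (pl (p1 Ω) P1) (pl (p1 Ω) P2) I σ b := by
  have e1 := ext1 (S := S) (J D1 D2)
  have e2 := ext2 (S := S) (J D1 D2)
  have h' := h.pull e1
  have q1 : EqS (S.glue (J D1 D2)) (pl (p1 Ω) D1) (pl (p2 Ω) D1) := glue_eq pair0_fst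
  have q2 : EqS (S.glue (J D1 D2)) (pl (p1 Ω) D2) (pl (p2 Ω) D2) := glue_eq pair0_snd
  have hj : Le N (fun k => 3 * L.n k) (H (S.glue (J D1 D2)) (pl (p1 Ω) (Q N L.n L.θ))
      (J (J (pl (p1 Ω) D1) (pl (p2 Ω) Θ)) (pl (p1 Ω) D2))) := by
    have g : H (S.glue (J D1 D2)) (pl (p1 Ω) (Q N L.n L.θ)) (pl (p2 Ω) (J (J D1 Θ) D2)) =
        H S (Q N L.n L.θ) (J D1 D2) := glue_H1 (pair0_fst.left.pair pair0_snd) _
    have := h.joint
    rw [← g] at this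
    refine this.trans (Le.of_le fun k => le_of_eq (congrFun (H_congr (fun _ _ _ => rfl) ?_) k))
    intro k ω hω
    show ((pl (p2 Ω) D1 k ω, pl (p2 Ω) Θ k ω), pl (p2 Ω) D2 k ω) =
      ((pl (p1 Ω) D1 k ω, pl (p2 Ω) Θ k ω), pl (p1 Ω) D2 k ω)
    rw [q1 k ω hω, q2 k ω hω]
  refine ⟨h'.st1.ext pair0_fst ?_, h'.st2, hj, h.hb, h'.close, ?_⟩
  · exact hj.trans (Le.of_le (H_mono pair0_fst pair0_fst))
  · have i0 : Ind S Θ D2 D1 := h.ind (Kw.refl D1) pair0_fst.kw hΘ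
    have g1 : H (S.glue (J D1 D2)) (pl (p2 Ω) Θ) (pl (p1 Ω) (J D1 (J D2 (L.p N L.n)))) =
        H S Θ (J D1 D2) := glue_H2 (pair0_fst.pair pair0_fst.right) Θ
    have g2 : H (S.glue (J D1 D2)) (pl (p2 Ω) Θ) (pl (p1 Ω) D1) = H S Θ D1 := by
      rw [← e2.ent Θ D1]
      exact H_congr (fun _ _ _ => rfl) q1
    have i1 : Ind (S.glue (J D1 D2)) (pl (p2 Ω) Θ)
        (J (pl (p1 Ω) D2) (pl (p1 Ω) (L.p N L.n))) (pl (p1 Ω) D1) := by
      unfold Ind at i0 ⊢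
      rw [← g1, ← g2] at i0
      exact i0
    have hT : DetS S (Q N L.n (sc t2)) D2 := pair0_T h.st2.cfg L.n
    have i2 := (i1.symm.cond (W := pl (p1 Ω) (L.p N L.n)) pair0_snd.right.kw).mono
      (W := pl (p1 Ω) (Q N L.n (sc t2))) (hT.pull e1).left.right.kw
    have a1 : Le N (H (S.glue (J D1 D2)) (pl (p1 Ω) (Q N L.n (sc t2)))
          (J (pl (p1 Ω) (L.p N L.n)) (pl (p1 Ω) D1)))
        (H (S.glue (J D1 D2)) (pl (p1 Ω) (Q N L.n (sc t2)))
          (J (pl (p1 Ω) D1) (pl (p1 Ω) (L.p N L.n)))) :=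
      Le.of_le (H_mono pair0_fst (pair0_snd.pair pair0_fst))
    have a2 : Le N (H (S.glue (J D1 D2)) (pl (p1 Ω) (Q N L.n (sc t2)))
          (J (J (pl (p1 Ω) D1) (pl (p1 Ω) (L.p N L.n))) (pl (p2 Ω) Θ)))
        (H (S.glue (J D1 D2)) (pl (p1 Ω) (Q N L.n (sc t2)))
          (J (pl (p1 Ω) (L.p N L.n)) (J (pl (p1 Ω) D1) (pl (p2 Ω) Θ)))) :=
      Le.of_le (H_mono pair0_fst (pair0_snd.left.pair (pair0_fst.left.pair pair0_snd)))
    exact h'.unif.trans (a1.trans (Le.trans i2 a2))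

end Vale.Agent.P127S
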