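import Vale.Agent.P127S.RegC

/-! A new saturated direction. -/

open Real Finset Filter Topology Vale.Agent.P118O

noncomputable section

namespace Vale.Agent.P127S

variable {N : ℕ → ℕ} {Ω γ δ : ℕ → Type} {S : Sp N Ω} {L : Ln Ω} {D : RV Ω δ} {D' : RV Ω γ}
  {P : VV Ω M3} {I : Finset (Fin 3)} {σ : ℝ} {j1 j2 : ℕ → ℕ}

open Classical in
/-- the normalized direction -/
def upW (i0 : Fin 3) (u : V3) : V3 :=
  if amax u = i0 ∧ u ≠ 0 then (u i0)⁻¹ • u else Pi.single i0 1

/-- the enlarged projection -/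
def upP (i0 : Fin 3) (P : VV Ω M3) (v : VV Ω V3) : VV Ω M3 :=
  fun k ω i j => P k ω i j + upW i0 (v k ω) i * ((if j = i0 then 1 else 0) - P k ω i0 j)

theorem up_ne {i0 : Fin 3} {u : V3} (h : amax u = i0 ∧ u ≠ 0) : u i0 ≠ 0 := fun e => by
  have h1 := amax_spec u
  rw [h.1, e, abs_zero] at h1
  exact h.2 (norm_eq_zero.1 h1.symm)

theorem upW_self (i0 : Fin 3) (u : V3) : upW i0 u i0 = 1 := by
  unfold upW
  split_ifs with h
  · exact inv_mul_cancel₀ (up_ne h)
  · exact Pi.single_eq_same _ _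

theorem upW_zero {i0 i : Fin 3} {u : V3} (hi : i ≠ i0) (hu : u i = 0) : upW i0 u i = 0 := by
  unfold upW
  split_ifs with h
  · rw [Pi.smul_apply, hu, smul_zero]
  · exact Pi.single_eq_of_ne hi _

theorem upW_le (i0 : Fin 3) (u : V3) (i : Fin 3) : |upW i0 u i| ≤ 1 := by
  unfold upW
  split_ifs with h
  · have h1 := amax_spec u
    rw [h.1] at h1
    rw [Pi.smul_apply, smul_eq_mul, abs_mul, abs_inv, inv_mul_le_one₀ (abs_pos.2 (up_ne h)), h1]
    exact norm_le_pi_norm u i
  · rw [Pi.single_apply]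
    split_ifs <;> simp

theorem up_pj (hP : Pj S D' P I) {v : VV Ω V3} (hv : DetS S v D')
    (hI : ∀ k ω, ∀ i ∈ I, v k ω i = 0) {i0 : Fin 3} (hi : i0 ∉ I) :
    Pj S D' (upP i0 P v) (insert i0 I) where
  det := hP.det.map2 hv (δ := fun _ => M3) fun _ M u i j =>
    M i j + upW i0 u i * ((if j = i0 then 1 else 0) - M i0 j)
  bdd := by
    have h1 : Small S (fun k ω => (fun i j => upW i0 (v k ω) i * (if j = i0 then 1 else 0) : M3))
        fun _ => 0 := by
      refine Small.of_le (Eventually.of_forall fun k ω _ => ?_)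
      refine (pi_norm_le_iff_of_nonneg (by norm_num)).2 fun i =>
        (pi_norm_le_iff_of_nonneg (by norm_num)).2 fun j => ?_
      have := upW_le i0 (v k ω) i
      rw [Real.norm_eq_abs]
      split_ifs
      · rw [mul_one]; linarith
      · rw [mul_zero, abs_zero]; norm_num
    have h2 : Small S (fun k ω => (fun i j => upW i0 (v k ω) i * P k ω i0 j : M3)) fun _ => 0 := by
      refine Small.dom hP.bdd 1 fun k ω _ => ?_
      rw [one_mul]
      refine (pi_norm_le_iff_of_nonneg (norm_nonneg _)).2 fun i =>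
        (pi_norm_le_iff_of_nonneg (norm_nonneg _)).2 fun j => ?_
      rw [norm_mul]
      refine (mul_le_of_le_one_left (norm_nonneg _) (upW_le i0 (v k ω) i)).trans ?_
      exact (norm_le_pi_norm (P k ω i0) j).trans (norm_le_pi_norm (P k ω) i0)
    refine (Small.add hP.bdd (h1.sub h2)).congr (whp.of_all (Eventually.of_forall fun k ω _ => ?_))
    funext i j
    simp only [upP, Pi.add_apply, Pi.sub_apply, mul_sub]
  col k ω i j hj := by
    rw [mem_insert, not_or] at hj
    simp only [upP, hP.col k ω _ j hj.2, if_neg hj.1, sub_zero, mul_zero, add_zero]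
  one k ω i hi' j hj := by
    rcases mem_insert.1 hi' with rfl | h1
    · simp only [upP, upW_self, one_mul, add_sub_cancel, eq_comm]
    · have h2 : i ≠ i0 := fun e => hi (e ▸ h1)
      simp only [upP, upW_zero h2 (hI k ω i h1), zero_mul, add_zero]
      rcases mem_insert.1 hj with rfl | h3
      · rw [hP.col k ω i j hi, if_neg h2]
      · exact hP.one k ω i h1 j h3

theorem up_ph {i0 : Fin 3} {v : VV Ω V3} (X : VV Ω V3) {k : ℕ} {ω : Ω k}
    (h : amax (v k ω) = i0 ∧ v k ω ≠ 0) : PV v (ph P X) k ω = ph (upP i0 P v) X k ω := by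
  funext i
  have e : ∑ j, (if j = i0 then 1 else 0) * X k ω j = X k ω i0 := by simp
  have e2 : upW i0 (v k ω) = (v k ω i0)⁻¹ • v k ω := if_pos h
  simp only [PV, ph, MV, upP, e2, h.1, Pi.sub_apply, Pi.smul_apply, smul_eq_mul,
    add_mul, sum_add_distrib, mul_assoc, ← mul_sum, sub_mul, sum_sub_distrib, e]
  ring

/-- Choose `i0` with `amax v = i0 ∧ v ≠ 0` on a positive event `A` (`pos_fin`, `pos.and`); then
`i0 ∉ I`. The bound `hs` passes to `A` by `res_le`, since `r2w` and `H_pv` give the matching lower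
bound on every event. Let `w = if amax v = i0 ∧ v ≠ 0 then v / v i0 else Pi.single i0 1` and
`P' z = P z + (z i0 - (P z) i0) • w`, i.e. `P' i j = P i j + w i * ((if j = i0 then 1 else 0) -
P i0 j)`; then `ph P' z = PV v (ph P z)` on `A`, `Pj` holds for `insert i0 I`. The new state is the
window (`win_cfg`, `win_kn`) on `S.res A` with side information `J D' (p j1)`. -/
theorem up_has (h : Cfg S L D) (lb : LB σ) (hσ : 0 < σ) (hw : Cw S L D D' j1) (hP : Pj S D' P I)
    (h12 : ∀ k, j1 k ≤ j2 k) (h2 : ∀ k, j2 k ≤ L.n k) (hb : Big N fun k => (j2 k : ℝ) - j1 k)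
    {v : VV Ω V3} (hv : DetS S v D') (hI : ∀ k ω, ∀ i ∈ I, v k ω i = 0)
    (h0 : whp S fun k ω => v k ω ≠ 0)
    (hs : Le N (H S (Q N j2 (PV v (ph P L.x))) (J D' (L.p N j1)))
      fun k => (qd σ I - 1) * ((j2 k : ℝ) - j1 k)) : Has σ (I.card + 1) := by
  obtain ⟨i0, hi0⟩ := pos_fin S fun k ω => amax (v k ω)
  have hA := hi0.and h0
  have hi : i0 ∉ I := fun hi => by
    obtain ⟨c, hc, he⟩ := hA
    obtain ⟨k, hk⟩ := he.exists
    obtain ⟨ω, -, hω, -⟩ := exists_of_ms (S.isP k) (hc.trans_le hk)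
    exact up_ne hω (hI k ω i0 hi)
  have h1 : ∀ k, j1 k ≤ L.n k := fun k => (h12 k).trans (h2 k)
  have hres := res_le hA ⟨|qd σ I - 1|, fun k => by
      have a1 : (j1 k : ℝ) ≤ j2 k := by exact_mod_cast h12 k
      have a2 : (j2 k : ℝ) ≤ N k := by exact_mod_cast h.lev h2 k
      rw [abs_mul, abs_of_nonneg (sub_nonneg.2 a1)]
      exact mul_le_mul_of_nonneg_left (by linarith [(Nat.cast_nonneg (j1 k) : (0 : ℝ) ≤ _)])
        (abs_nonneg _)⟩ hs fun B hB => by
    have a1 := r2w (h.res hB) lb (Cw.res h hw hB) (hP.res hB) h12 h2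
    have a2 := H_pv (h.lev h2) h12 ((hv.res B).left (Z := L.p N j1))
      (Kn.tr (h.lev h1) (hP.res hB).det.left (hP.res hB).bdd
        ((h.res hB).kn_x h1 (hw.det.res B).left (Kw.refl _).right))
    exact (a1.add a2).lin fun k => by linarith
  have hP' := (up_pj hP hv hI hi).res hA
  have hc := h.res hA
  refine ⟨N, Ω, _, _, L.win N j1 j2, J D' (L.p N j1), upP i0 P v, insert i0 I,
    ⟨win_cfg hc (Cw.res h hw hA) h12 h2 hb, hP'.mono (DetS.refl _).left, lb, hσ, ?_⟩,
    card_insert_of_notMem hi⟩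
  have e1 := (res_whp_self hA).mono (B := fun k ω => PV v (ph P L.x) k ω = ph (upP i0 P v) L.x k ω)
    (Eventually.of_forall fun k ω _ hω => up_ph L.x hω)
  have b1 : Bdd _ (PV v (ph P L.x)) := Small.congr (hP'.bdd.tr hc.bdd.2.2.2)
    (e1.mono (Eventually.of_forall fun k ω _ hω => hω.symm))
  have b2 := ((Kn.self b1 j2).congr (h.lev h2) e1).kw
  have b3 := (win_kn hc (hw.det.res _) h12 h2 hP'.det hP'.bdd).1
  have b4 := H_kw (b3.trans ((Kw.refl _).right.pair b2.left)) (Kw.refl (J D' (L.p N j1)))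
  refine (b4.trans hres).lin fun k => ?_
  have e2 : (((L.win N j1 j2).n k : ℕ) : ℝ) = (j2 k : ℝ) - j1 k := Nat.cast_sub (h12 k)
  have e3 : qd σ (insert i0 I) = qd σ I - 1 := by
    rw [qd, qd, card_insert_of_notMem hi]
    push_cast
    ring
  rw [e2, e3]
  exact le_rfl

end Vale.Agent.P127S
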