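import Vale.Agent.P127S.DS
import Vale.Agent.P127S.Up
import Vale.Agent.P127S.Pair

/-! Linear terms in the free coordinates must be small. -/

open Real Finset Filter Topology Vale.Agent.P118O

noncomputable section

namespace Vale.Agent.P127S

variable {N : ℕ → ℕ} {Ω γ δ : ℕ → Type} {S : Sp N Ω} {L : Ln Ω} {D1 : RV Ω δ} {D2 : RV Ω γ}
  {P1 P2 R B B2 : VV Ω M3} {I : Finset (Fin 3)} {σ : ℝ} {b j j0 : ℕ → ℕ} {t2 : VV Ω ℝ}

theorem ds10_ex {A : VV Ω Prop} (h : whp S A) : ∀ᶠ k in UF, ∃ ω, A k ω := by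
  obtain ⟨c, hc, h1⟩ := h.toPos
  refine h1.mono fun k hk => ?_
  by_contra hn
  have e : ms (S.s k) (S.P k) (A k) = 0 := by
    refine Finset.sum_eq_zero fun ω hω => ?_
    exact absurd ⟨ω, (mem_rs.1 hω).2⟩ hn
  rw [e] at hk
  exact absurd hc (not_lt.2 hk)

theorem ds10_msk (I : Finset (Fin 3)) (i : Fin 3) (X : VV Ω V3) :
    msk (I.erase i) (msk I X) = msk (I.erase i) X := by
  funext k ω r
  simp only [msk]
  split_ifs with h1 h2
  · rfl
  · exact absurd (Finset.mem_of_mem_erase h1) h2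
  · rfl

theorem ds10_co {i : Fin 3} (hi : i ∈ I) (X : VV Ω V3) : sc (co (msk I X) i) = sc (co X i) := by
  funext k ω r
  simp only [sc, co, msk, if_pos hi]

theorem ds10_id {i : Fin 3} (hc : ∀ k ω r, ∀ j ∉ I, R k ω r j = 0) (T Y X : VV Ω V3) :
    T - Y + MV R X - MV R (msk (I.erase i) X)
      = T - Y - sm (co X i) (fun k ω r => -R k ω r i : VV Ω V3) := by
  funext k ω r
  have e : ∑ j, R k ω r j * X k ω j
      = R k ω r i * X k ω i + ∑ j, R k ω r j * (if j ∈ I.erase i then X k ω j else 0) := by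
    rw [← Finset.add_sum_erase _ _ (Finset.mem_univ i),
      ← Finset.add_sum_erase Finset.univ _ (Finset.mem_univ i), if_neg (Finset.notMem_erase i I),
      mul_zero, zero_add]
    congr 1
    refine Finset.sum_congr rfl fun j hj => ?_
    split_ifs with h1
    · rfl
    · rw [hc k ω r j fun h2 => h1 (Finset.mem_erase.2 ⟨(Finset.mem_erase.1 hj).1, h2⟩), zero_mul,
        zero_mul]
  simp only [MV, sm, co, msk, Pi.sub_apply, Pi.add_apply, Pi.smul_apply, smul_eq_mul]
  rw [e]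
  ring

theorem ds10_core {l0 : ℕ → ℕ} (h : PairSt S L t2 D1 D2 P1 P2 I σ b) (h0 : ∀ k, j0 k ≤ l0 k)
    (h1 : ∀ k, l0 k ≤ j k) (hj : ∀ k, j k ≤ L.n k) (hR : Mat S (J D1 D2) R I)
    (hs : Small S R j0)
    (hk : Kn S (J (J D1 D2) (Q N j0 (ph P1 L.x))) (ph P2 (L.wt t2).x - ph P1 L.x + MV R L.x) j)
    {i : Fin 3} (hi : i ∈ I) (hb : Big N fun k => (j k : ℝ) - l0 k)
    (hlow : whp S fun k ω => 1 / (2 : ℝ) ^ l0 k ≤ ‖(fun r => -R k ω r i : V3)‖) :
    Has σ (I.card + 1) := by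
  have hc := h.st1.cfg
  have h0j : ∀ k, j0 k ≤ j k := fun k => (h0 k).trans (h1 k)
  have hl0 : ∀ k, l0 k ≤ L.n k := fun k => (h1 k).trans (hj k)
  have hj0 : ∀ k, j0 k ≤ L.n k := fun k => (h0j k).trans (hj k)
  have lj : Lv N j := hc.lev hj
  have lj0 : Lv N j0 := hc.lev hj0
  have bx : Bdd S L.x := hc.bdd.2.2.2
  have by1 : Bdd S (ph P1 L.x) := Bdd.tr h.st1.pj.bdd bx
  have bm : ∀ I', Bdd S (msk I' L.x) := fun I' => ((Kn.zero bx D1).mask I').bdd
  have dv : DetS S (fun k ω r => -R k ω r i : VV Ω V3) (J D1 D2) :=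
    hR.det.map fun _ M r => -M r i
  have sv : Small S (fun k ω r => -R k ω r i : VV Ω V3) j0 :=
    Small.pi fun r => ((hs.coord r).coord i).neg
  have ky : ∀ {α : ℕ → Type} {W : RV Ω α} {l : ℕ → ℕ}, (∀ k, l k ≤ L.n k) → DetS S D1 W →
      Kw S (L.p N l) W → Kn S W (ph P1 L.x) l := fun hl hD hp =>
    Kn.tr (hc.lev hl) (h.st1.pj.det.trans hD) h.st1.pj.bdd (hc.kn_x hl hD hp)
  have hT : Kn S (J (J (J D1 D2) (Q N j0 (ph P1 L.x))) (Q N j (msk (I.erase i) L.x)))
      (ph P2 (L.wt t2).x - ph P1 L.x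
        - sm (co L.x i) (fun k ω r => -R k ω r i : VV Ω V3)) j := by
    rw [← ds10_id hR.col]
    exact Kn.sub lj (hk.mono (Kw.refl _).left) (Kn.mv lj hR.det.left.left hR.bdd
      ((Kn.self (bm _) j).mono (Kw.refl _).right) fun k => le_rfl)
  have hu : Le N (fun k => ((j k - j0 k : ℕ) : ℝ))
      (H S (Q N (fun k => j k - j0 k) (sc (co L.x i)))
        (J (J (J (J D1 D2) (Q N j0 (ph P1 L.x))) (Q N j (msk (I.erase i) L.x)))
          (Q N j (ph P1 L.x)))) := by
    have a1 := h.st1.r5' (j1 := fun _ => 0) (h.cw fun k => Nat.zero_le _) (fun k => Nat.zero_le _)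
      (fun k => le_rfl) hj hi
    have a2 := full_lev (j' := fun k => j k - j0 k) (fun k => Nat.sub_le _ _) a1
    refine (Le.trans (Le.of_le fun k => ?_) a2).trans (H_kw (Kw.refl _).left ?_)
    · simp
    · exact (((Kw.refl _).left.left.left.pair (det_Q h0j _).kw.right.left).pair
        (Kw.refl _).right).pair (Kw.refl _).right.left
  have hds := ds (l0 := l0) (s := co L.x i) lj (fun k => Nat.sub_le _ _) h1
    (fun k => by have := h0 k; have := h0j k; omega) dv.left.left by1 (bx.coord i) hT hlow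
    (sv.mono (Le.of_le fun k => by rw [Nat.sub_sub_self (h0j k)])) hu
  have b2 : Kn S (J (J (J D1 D2) (Q N j0 (ph P1 L.x))) (Q N j (msk (I.erase i) L.x)))
      (ph P2 (L.wt t2).x) j0 := by
    have e : ph P2 (L.wt t2).x
        = ph P2 (L.wt t2).x - ph P1 L.x + MV R L.x + ph P1 L.x - MV R L.x := by abel
    have e2 : Small S (MV R L.x) j0 :=
      (hs.mv (j := fun _ => 0) bx).mono (Le.of_le fun k => by simp)
    rw [e]
    exact Kn.sub lj0 (Kn.add lj0 ((hk.lev h0j).mono (Kw.refl _).left)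
      ((Kn.self by1 j0).mono (Kw.refl _).right.left)) (Kn.of_small lj0 e2 _)
  have r1 := h.st2.r3' h0j hj (Kw.refl _).right.left.left b2
  have km : ∀ {α : ℕ → Type} (W : RV Ω α), Kn S (J W (Q N j (msk I L.x))) (msk I L.x) j :=
    fun W => (Kn.self (bm I) j).mono (Kw.refl _).right
  have kZ : ∀ {l : ℕ → ℕ}, (∀ k, j0 k ≤ l k) → (∀ k, l k ≤ L.n k) →
      Kw S (J (J (J (J D1 D2) (Q N j0 (ph P1 L.x))) (Q N j (msk (I.erase i) L.x)))
        (Q N (fun k => j k - j0 k) (sc (co L.x i))))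
        (J (J (J D1 D2) (L.p N l)) (Q N j (msk I L.x))) := by
    intro l e1 e2
    refine (((Kw.refl _).left.left.pair ?_).pair ?_).pair ?_
    · exact ((ky e2 (DetS.refl _).left.left.left (Kw.refl _).right.left).lev e1).kw
    · have := (km (J (J D1 D2) (L.p N l))).mask (I.erase i)
      rw [ds10_msk] at this
      exact this.kw
    · have := (km (J (J D1 D2) (L.p N l))).coord i
      rw [ds10_co hi] at this
      exact (this.lev fun k => Nat.sub_le _ _).kw
  have r2 := (h.st1.r2x (h.cw hj0) h0 h1 hj).trans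
    (H_kw (Kw.refl _).left (kZ (fun k => le_rfl) hj0))
  have r3 := H_kw (S := S) (Kw.refl (Q N j (PV (fun k ω r => -R k ω r i : VV Ω V3)
    (ph P1 L.x)))).left
    ((kZ h0 hl0).pair (ky hl0 (DetS.refl _).left.left.left (Kw.refl _).right.left).kw)
  have r4 : Ind S (Q N j (ph P1 L.x)) (Q N j (msk I L.x)) (J (J D1 D2) (L.p N l0)) :=
    (h.st1.r3' h1 hj (Kw.refl _).left.left
      (ky hl0 (DetS.refl _).left.left (Kw.refl _).right)).trans
      (h.st1.r2x (h.cw hl0) h1 (fun k => le_rfl) hj)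
  have r5 : Ind S (Q N j (PV (fun k ω r => -R k ω r i : VV Ω V3) (ph P1 L.x)))
      (Q N j (msk I L.x)) (J (J D1 D2) (L.p N l0)) :=
    r4.mono (Kn.pv lj dv.left.left ((Kn.self by1 j).mono (Kw.refl _).right)).kw
  refine up_has hc h.st1.lb h.st1.hσ (h.cw hl0) (h.st1.pj.mono (DetS.refl _).left) h1 hj hb dv
    (fun k ω r hr => by rw [hR.row k ω r hr, neg_zero])
    (hlow.mono (Eventually.of_forall fun k ω _ h2 h3 => ?_)) ?_
  · rw [h3, norm_zero] at h2
    exact absurd h2 (not_le.2 (by positivity))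
  · exact ((((r5.add r3).add hds).add r1).add r2).lin fun k => by
      simp only []
      linarith

/-- If some column `v = - R e_i` is not small at level `j` (`small_or`, `Small.pi`; then `i ∈ I`),
restrict to the event `2 ^ (c N - j) < ‖v‖` (`PairSt.res`), put `l0 = max j0 (j - ⌊c N⌋)`
(note `c N ≲ j - j0` by `Small R j0`, so `j - l0` is `Big`), `l = j - j0`, `s = x i`,
`Z = ((D1, D2), y1[j0], (msk (I.erase i) x)[j])`, and apply `ds` with `T = y2`, `Y = y1`
(`St.r5'` with `j1 = 0`, `j2 = j3 = j` and `full_lev` give `hu`). The right side is `≲ q (j - j0)` by `St.r3'` for the second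
state, the first term is `≳ q (l0 - j0)` by `St.r2x`. In the second term pass to the conditioning
`((D1, D2), p l0, (msk I x)[j])` and remove `(msk I x)[j]`, which is independent of `y1[j]` given
`((D1, D2), p l0)` by `St.r3'`, `St.r2x`, `Ind.mono`. Then `up_has`. -/
theorem ds1 (h : PairSt S L t2 D1 D2 P1 P2 I σ b) (h0 : ∀ k, j0 k ≤ j k)
    (hj : ∀ k, j k ≤ L.n k) (hR : Mat S (J D1 D2) R I) (hs : Small S R j0)
    (hk : Kn S (J (J D1 D2) (Q N j0 (ph P1 L.x))) (ph P2 (L.wt t2).x - ph P1 L.x + MV R L.x) j) :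
    Small S R j ∨ Has σ (I.card + 1) := by
  by_cases hall : ∀ i, Small S (fun k ω r => -R k ω r i : VV Ω V3) j
  · refine Or.inl (Small.pi fun r => Small.pi fun i => ?_)
    exact ((hall i).coord r).dom 1 fun k ω _ => by simp
  right
  obtain ⟨i, hn⟩ := not_forall.1 hall
  have hi : i ∈ I := by
    by_contra hi
    refine hn (Small.of_le (Eventually.of_forall fun k ω _ => ?_))
    have e : (fun r => -R k ω r i : V3) = 0 := funext fun r => by
      rw [hR.col k ω r i hi, neg_zero, Pi.zero_apply]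
    simp only [e, norm_zero]
    positivity
  obtain ⟨c, hc, hA⟩ := (small_or S _ j).resolve_left hn
  have hw := res_whp_self hA
  have sv : Small S (fun k ω r => -R k ω r i : VV Ω V3) j0 :=
    Small.pi fun r => ((hs.coord r).coord i).neg
  have h1 := ds10_ex (hw.and (sv.res hA (c / 2) (half_pos hc)))
  have h2 : ∀ᶠ k in UF, 2 / c ≤ (N k : ℝ) :=
    (tendsto_natCast_atTop_atTop.comp S.big).eventually_ge_atTop _
  refine ds10_core (l0 := fun k => max (j0 k) (j k - ⌊c * N k⌋₊)) (h.res hA)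
    (fun k => le_max_left _ _) (fun k => max_le (h0 k) (Nat.sub_le _ _)) hj (hR.res hA)
    (hs.res hA) (hk.res hA) hi ⟨c / 2, half_pos hc, (h1.and h2).mono fun k hk => ?_⟩
    (hw.mono (Eventually.of_forall fun k ω _ h3 => le_trans ?_ h3.le))
  · obtain ⟨⟨ω, a1, a2⟩, a3⟩ := hk
    have a4 := (Real.rpow_lt_rpow_left_iff one_lt_two).1 (a1.trans_le a2)
    have a5 := Nat.lt_floor_add_one (c * N k)
    rw [div_le_iff₀ hc] at a3
    have a6 : (0 : ℝ) ≤ j0 k := Nat.cast_nonneg _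
    beta_reduce
    rcases le_total (j0 k) (j k - ⌊c * N k⌋₊) with a7 | a7
    · rw [max_eq_right a7]
      rcases le_total (j k) ⌊c * N k⌋₊ with a8 | a8
      · rw [Nat.sub_eq_zero_of_le a8]
        push_cast
        linarith
      · rw [Nat.cast_sub a8]
        linarith
    · rw [max_eq_left a7]
      linarith
  · rw [one_div, ← Real.rpow_natCast, ← Real.rpow_neg zero_le_two]
    refine Real.rpow_le_rpow_of_exponent_le one_le_two ?_
    have a1 : j k ≤ max (j0 k) (j k - ⌊c * N k⌋₊) + ⌊c * N k⌋₊ := by omega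
    have a2 : (j k : ℝ) ≤ (max (j0 k) (j k - ⌊c * N k⌋₊) : ℕ) + (⌊c * N k⌋₊ : ℝ) := by
      exact_mod_cast a1
    have a3 : (⌊c * N k⌋₊ : ℝ) ≤ c * N k := Nat.floor_le (by positivity)
    linarith

end Vale.Agent.P127S
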