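import Vale.Agent.P127S.DS20

/-! Planiness. -/

open Real Finset Filter Topology Vale.Agent.P118O

noncomputable section

namespace Vale.Agent.P127S

variable {N : ℕ → ℕ} {Ω α γ δ : ℕ → Type} {S : Sp N Ω} {L : Ln Ω} {D D1 : RV Ω δ} {D2 : RV Ω γ}
  {P P' P1 P2 : VV Ω M3} {I : Finset (Fin 3)} {σ : ℝ} {b : ℕ → ℕ} {t2 : VV Ω ℝ}

theorem DS2_id (L : Ln Ω) (t2 : VV Ω ℝ) (P1 P2 : VV Ω M3) (b : ℕ → ℕ) :
    ph P2 (L.wt t2).x - ph P1 L.x - sm (tw Ω b) (sm (dT L t2 b) (ph P1 L.θ)) =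
      -MV (P2 - P1) L.x - sm (t2 - L.t) (MV (P2 - P1) L.θ) := by
  have e1 : sm (tw Ω b) (sm (dT L t2 b) (ph P1 L.θ)) = sm (t2 - L.t) (ph P1 L.θ) := by
    rw [← dT_eq L t2 b]
    funext k ω
    simp only [sm, smul_smul, smul_eq_mul]
  have e2 := pair_id L t2 P1 P2
  rw [e1]
  calc ph P2 (L.wt t2).x - ph P1 L.x - sm (t2 - L.t) (ph P1 L.θ)
      = (ph P2 (L.wt t2).x - ph P1 L.x + MV (P2 - P1) L.x) - MV (P2 - P1) L.x -
          sm (t2 - L.t) (ph P1 L.θ) := by abel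
    _ = _ := by rw [e2]; abel

theorem DS2_ph_sub (P : VV Ω M3) (X Y : VV Ω V3) : ph P X - ph P Y = ph P (X - Y) := by
  funext k ω i
  simp only [ph, MV, Pi.sub_apply, mul_sub, Finset.sum_sub_distrib]
  ring

theorem DS2_pair (h : PairSt S L t2 D1 D2 P1 P2 I σ b) (hb : ∀ k, b k + b k ≤ L.n k)
    (hbig : Big N fun k => b k) : Has σ (I.card + 1) ∨
      (St S (L.cut N b) D1 P1 I σ ∧
        KnAll S (L.cut N b).n D1 (L.cut N b).x (ph P1 (L.cut N b).θ)) := by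
  rcases lip h with hs | hs
  swap
  · exact Or.inl hs
  have hc := h.st1.cfg
  have hP := h.st1.pj
  have hb1 : ∀ k, b k ≤ L.n k := h.hb
  have lvb : Lv N b := hc.lev hb1
  have lv2 : Lv N fun k => b k + 0 + b k := hc.lev hb
  obtain ⟨-, bθ, -, bx⟩ := hc.bdd
  have bW : Bdd S (ph P1 L.θ) := Bdd.tr hP.bdd bθ
  have hX : ∀ i : ℕ → ℕ, (∀ k, i k ≤ b k) → Kn S (J D1 (L.p N i)) (ph P1 L.θ) i := fun i hi =>
    Kn.tr (hc.lev fun k => (hi k).trans (hb1 k)) hP.det.left hP.bdd (hc.kn_θ (Kw.refl _).right)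
  have hx : Kn S (J D1 (Q N b L.x)) L.x b := (Kn.self bx b).mono (Kw.refl _).right
  have hR : DetS S (P2 - P1) (J (J D1 (Q N b L.x)) D2) :=
    DetS.map2 (h.st2.pj.det.right) (hP.det.left.left) fun _ u v => u - v
  have hr : Kn S (J (J D1 (Q N b L.x)) D2)
      (ph P2 (L.wt t2).x - ph P1 L.x - sm (tw Ω b) (sm (dT L t2 b) (ph P1 L.θ)))
      fun k => b k + 0 + b k := by
    rw [DS2_id]
    refine Kn.sub lv2 (Kn.neg lv2 (Kn.mv lv2 hR hs (hx.mono (Kw.refl _).left) fun k => le_rfl))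
      (Kn.of_small lv2 ?_ _)
    have h1 : Small S (MV (P2 - P1) L.θ) fun k => b k + 0 := Small.mv hs bθ
    have h2 := Small.smul h.small h1
    exact h2.mono (Le.of_le fun k => by simp)
  have hu := h.unif_pow (l := b) hb (r := 1) le_rfl
  simp only [pow_one] at hu
  rcases ds2 (F := J D1 (Q N b L.x)) (W := ph P1 L.θ) (s := dT L t2 b) (e := b)
    (i := fun _ => 0) (l := b) h hP hb (fun k ω a ha => hP.ph_supp L.θ k ω ha)
    (DetS.refl _).left
    ((Kw.refl _).left.pair (hc.kn_x hb1 (DetS.refl _).left (Kw.refl _).right).kw)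
    (Kn.tr lvb hP.det.left hP.bdd hx) (Kn.zero bW _)
    ((hX b fun _ => le_rfl).lev fun k => (Nat.zero_add _).le) h.dT_det h.dT_bdd hu hr with hk | hk
  swap
  · exact Or.inl hk
  refine Or.inr ⟨h.st1.cut hb1 hbig, ?_⟩
  have h0 : KnAll S b D1 (ph 0 L.x) (ph P1 L.θ) := by
    refine h.st1.zero.knall (j3 := b) (fun _ => le_rfl) hb1 hX ?_
    rw [ph_zero]
    exact hk.lev fun k => (Nat.zero_add _).ge
  rw [ph_zero] at h0
  obtain ⟨c1, c2⟩ := cut_small hc b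
  refine h0.near lvb bx c2 ?_
  rw [DS2_ph_sub]
  exact Bdd.tr hP.bdd c1

/-- Planiness. Pair with `b = n / 2` (`pair_ex`), `lip`, `ds2` with `e = l = b`, `i = 0`,
`F = (D1, x[b])`, `W = ph P1 θ`, `s = dT` (`pair_id`). Then `St.knall` for `St.zero`, `St.cut`,
and `KnAll.near` with `cut_small`. -/
theorem plan (h : St S L D P I σ) : Has σ (I.card + 1) ∨
    ∃ (Ω' δ' : ℕ → Type) (S' : Sp N Ω') (L' : Ln Ω') (D' : RV Ω' δ') (P' : VV Ω' M3),
      St S' L' D' P' I σ ∧ KnAll S' L'.n D' L'.x (ph P' L'.θ) := by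
  have hb : ∀ k, L.n k / 2 ≤ L.n k := fun k => Nat.div_le_self _ _
  have hbig : Big N fun k => ((L.n k / 2 : ℕ) : ℝ) := by
    refine h.cfg.big.mono (c := 1 / 2) (by norm_num)
      ((Le.refl fun _ => 0).linc S.big 1 fun k => ?_)
    have e1 : L.n k ≤ 2 * (L.n k / 2) + 1 := by omega
    have e2 : (L.n k : ℝ) ≤ 2 * ((L.n k / 2 : ℕ) : ℝ) + 1 := by exact_mod_cast e1
    linarith
  rcases DS2_pair (pair_ex h hb) (fun k => by
    show L.n k / 2 + L.n k / 2 ≤ L.n k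
    omega) hbig with h1 | h1
  · exact Or.inl h1
  · exact Or.inr ⟨_, _, _, _, _, _, h1⟩

/-- `plan` and `St.flat` (`I = ∅` forces `P = 0`) -/
theorem step0 (h : Has σ 0) : Has σ 1 := by
  obtain ⟨N, Ω, δ, S, L, D, P, I, h1, hI⟩ := h
  rcases plan h1 with h2 | ⟨Ω', δ', S', L', D', P', h2, h3⟩
  · rwa [hI] at h2
  · exfalso
    have hP : P' = 0 := by
      funext k ω i j
      exact h2.pj.col k ω i j (by simp [Finset.card_eq_zero.1 hI])
    refine h2.flat (j1 := fun _ => 0) (j2 := L'.n) (j3 := L'.n)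
      (h2.cfg.cw_self fun _ => Nat.zero_le _) (fun _ => Nat.zero_le _) (fun _ => le_rfl)
      (fun _ => le_rfl) (by simpa using h2.cfg.big) ?_
    refine (h3 L'.n fun _ => le_rfl).mono ((Kw.refl _).left.left.pair ?_)
    rw [hP, ph_zero]
    exact (Kw.refl _).right

end Vale.Agent.P127S
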