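import Vale.Agent.P127S.DSA
import Vale.Agent.P127S.DS1

/-! Slopes are known from the conditioning, or a new direction is saturated. -/

open Real Finset Filter Topology Vale.Agent.P118O

noncomputable section

namespace Vale.Agent.P127S

variable {N : ℕ → ℕ} {Ω α γ δ : ℕ → Type} {S : Sp N Ω} {L : Ln Ω} {D D1 : RV Ω δ} {D2 : RV Ω γ}
  {P P' P1 P2 : VV Ω M3} {I : Finset (Fin 3)} {σ : ℝ} {b : ℕ → ℕ} {t2 : VV Ω ℝ}

theorem ds20_cw (h : PairSt S L t2 D1 D2 P1 P2 I σ b) {F : RV Ω α} {a : ℕ → ℕ}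
    (ha : ∀ k, a k ≤ L.n k) (hF : Kw S F (J D1 (L.p N a))) : Cw S L D1 (J (J D1 D2) F) a :=
  (h.cw ha).add (hF.trans ((Kw.refl _).left.left.pair (Kw.refl _).right))

theorem ds20_up (h : PairSt S L t2 D1 D2 P1 P2 I σ b) (hP : Pj S D1 P' I) {F : RV Ω α}
    {β β' β'' : ℕ → Type} {W1 : RV Ω β} {W2 : RV Ω β'} {u : RV Ω β''} {a l0 j : ℕ → ℕ}
    {v : VV Ω V3} (h1 : ∀ k, a k ≤ l0 k) (h2 : ∀ k, l0 k ≤ j k) (h3 : ∀ k, j k ≤ L.n k)
    (hb : Big N fun k => (j k : ℝ) - l0 k) (hD : DetS S D1 F) (hF : Kw S F (J D1 (L.p N a)))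
    (hW : Kw S W1 (J D1 (L.p N a))) (hi : Ind S (L.p N L.n) W2 (J F D2))
    (hA : Kn S (J F D2) (ph P2 (L.wt t2).x) a) (hu : DetS S u (J D1 D2))
    (hv : DetS S v (J W1 W2)) (hI : ∀ k ω, ∀ i ∈ I, v k ω i = 0)
    (h0 : whp S fun k ω => v k ω ≠ 0)
    (hle : Le N (fun k => H S (Q N l0 (ph P' L.x)) (J (J F (J W1 W2)) u) k +
        H S (Q N j (PV v (ph P' L.x))) (J (J (J F (J W1 W2)) u) (Q N l0 (ph P' L.x))) k +
        ((j k : ℝ) - l0 k)) (H S (Q N j (ph P2 (L.wt t2).x)) (J F D2))) :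
    Has σ (I.card + 1) := by
  have c := h.st1.cfg
  have h4 : ∀ k, l0 k ≤ L.n k := fun k => (h2 k).trans (h3 k)
  have h5 : ∀ k, a k ≤ L.n k := fun k => (h1 k).trans (h4 k)
  have w1 : Cw S L D1 (J (J (J D1 D2) F) W1) a :=
    (ds20_cw h h5 hF).add (hW.trans ((Kw.refl _).left.left.left.pair (Kw.refl _).right))
  have k1 : Kw S D1 (J (J F D2) (L.p N L.n)) := hD.left.left.kw
  have k2 : Kw S (L.p N a) (J (J F D2) (L.p N L.n)) := (det_p h5).right.kw
  have k3 : Kw S (J (J (J (J D1 D2) F) W1) (L.p N a)) (J (J F D2) (L.p N L.n)) :=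
    (((k1.pair (Kw.refl _).right.left).pair (Kw.refl _).left.left).pair
      (hW.trans (k1.pair k2))).pair k2
  have i1 : Ind S (L.p N L.n) W2 (J (J (J (J D1 D2) F) W1) (L.p N a)) :=
    (hi.cond k3).congr (Kw.refl _).right
      (((Kw.refl _).right.left.left.pair (Kw.refl _).right.left.left.left).pair (Kw.refl _))
  have k4 : DetS S (Q N L.n L.θ) (L.p N L.n) := (DetS.refl _).right
  have i2 : Ind S (Q N L.n L.θ) W2 (J (J (J (J D1 D2) F) W1) (L.p N a)) := i1.mono k4.right.kw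
  have w2 : Cw S L D1 (J (J (J (J D1 D2) F) W1) W2) a :=
    ⟨w1.det.left, h5, (w1.c2.trans i2).trans (H_kw (Kw.refl _).left
      (((Kw.refl _).left.left.pair (Kw.refl _).right).pair (Kw.refl _).right.left))⟩
  have hP' := hP.mono w2.det
  have k5 : Kw S (J (J F (J W1 W2)) u) (J (J (J (J D1 D2) F) W1) W2) :=
    ((Kw.refl _).right.left.left.pair ((Kw.refl _).right.left.pair (Kw.refl _).right)).pair
      hu.left.left.left.kw
  have k6 : Kn S (J (J (J (J (J D1 D2) F) W1) W2) (L.p N l0)) (ph P' L.x) l0 :=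
    (c.kn_x h4 w2.det.left (Kw.refl _).right).tr (c.lev h4) hP'.det.left hP'.bdd
  have e1 := (r2w c h.st1.lb w2 hP' h1 h4).trans
    (H_kw (Z := Q N l0 (ph P' L.x)) (Kw.refl _).left k5.left)
  have e2 : Le N (H S (Q N j (PV v (ph P' L.x))) (J (J (J (J (J D1 D2) F) W1) W2) (L.p N l0)))
      (H S (Q N j (PV v (ph P' L.x))) (J (J (J F (J W1 W2)) u) (Q N l0 (ph P' L.x)))) :=
    H_kw (Kw.refl _).left (k5.left.pair k6.kw)
  have e3 := h.st2.r3' (j2 := j) (fun k => (h1 k).trans (h2 k)) h3 (Kw.refl _).right hA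
  refine up_has c h.st1.lb h.st1.hσ (w2.mono c h1 h4) hP' h2 h3 hb
    (hv.trans ((DetS.refl _).right.left.pair (DetS.refl _).right)) hI h0 ?_
  exact (((e1.add e2).add hle).add e3).lin fun k => by linarith

/-- `dsa` with `T = D2`, `G = p (e + i)`, `Z = p n`, `Y = ph P' x`, `A = y2` (`h3` by `St.r3'` for
the second state and `r2w`; `h4` by `PairSt.ind`). In the second alternative work with
`(h.pull (ext1 K)).res`, `D' = ((D1, D2), F, W[i+l], W'[i+l])`; `Cw` at level `e + i` follows from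
the independence of `W'[i+l]` (`Ind.cond`, `Ind.mono`, `Cw.add`). The first term is
`≳ q (l0 - e - i)` by `r2w`, the right side is `≲ q l` by `St.r3'`; `up_has` with `v = dsV ..`. -/
theorem ds2 (h : PairSt S L t2 D1 D2 P1 P2 I σ b) (hP : Pj S D1 P' I) {F : RV Ω α} {W : VV Ω V3}
    {s : VV Ω ℝ} {e i l : ℕ → ℕ} (hn : ∀ k, e k + i k + l k ≤ L.n k)
    (hI : ∀ k ω, ∀ a ∈ I, W k ω a = 0) (hD : DetS S D1 F)
    (hF : Kw S F (J D1 (L.p N fun k => e k + i k))) (hy : Kn S F (ph P' L.x) fun k => e k + i k)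
    (hW0 : Kn S F W i) (hW : Kn S (J D1 (L.p N fun k => e k + i k)) W fun k => i k + l k)
    (hs : DetS S s (J D1 D2)) (hsb : Bdd S s)
    (hu : Le N (fun k => l k) (H S (Q N l (sc s)) (J (L.p N L.n) D1)))
    (hr : Kn S (J F D2) (ph P2 (L.wt t2).x - ph P' L.x - sm (tw Ω e) (sm s W))
      fun k => e k + i k + l k) :
    Kn S F W (fun k => i k + l k) ∨ Has σ (I.card + 1) := by
  have c := h.st1.cfg
  have hj : Lv N fun k => e k + i k + l k := c.lev hn
  have ha : ∀ k, e k + i k ≤ L.n k := fun k => (Nat.le_add_right _ _).trans (hn k)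
  have hja : Lv N fun k => e k + i k := c.lev ha
  have hji : Lv N i := c.lev fun k => (Nat.le_add_left _ _).trans (ha k)
  have hs' : DetS S s (J F D2) := hs.trans (hD.left.pair (DetS.refl _).right)
  have hF' : Kw S F (J D1 (L.p N L.n)) :=
    hF.trans ((Kw.refl _).left.pair (det_p ha).right.kw)
  have hA : Kn S (J F D2) (ph P2 (L.wt t2).x) fun k => e k + i k := by
    have a1 : Kn S (J F D2) (sm s W) i :=
      (hW0.mono (Kw.refl _).left).smul hji hs' hsb fun k => Nat.le_add_right _ _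
    have a2 : Kn S (J F D2) (sm (tw Ω e) (sm s W)) fun k => e k + i k :=
      a1.smul hja (DetS.const _) (small_tw S e) fun k => (Nat.add_comm _ _).le
    have a3 := ((hr.lev fun k => Nat.le_add_right _ _).add hja a2).add hja
      (hy.mono (Z' := J F D2) (Kw.refl _).left)
    rwa [sub_add_cancel, sub_add_cancel] at a3
  have w1 := ds20_cw h ha hF
  have h3 : Le N (H S (Q N (fun k => e k + i k + l k) (ph P2 (L.wt t2).x)) (J F D2))
      (H S (Q N (fun k => e k + i k + l k) (ph P' L.x))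
        (J (J F D2) (L.p N fun k => e k + i k))) :=
    ((h.st2.r3' (fun k => Nat.le_add_right _ _) hn (Kw.refl _).right hA).trans
      (r2w c h.st1.lb w1 (hP.mono w1.det) (fun k => Nat.le_add_right _ _) hn)).trans
      (H_kw (Kw.refl _).left
        (((Kw.refl _).right.left.pair (Kw.refl _).right.left.left).pair (Kw.refl _).right))
  have hZ : Kn S (J F (L.p N L.n)) (ph P' L.x) fun k => e k + i k + l k :=
    (c.kn_x hn hD.left (det_p hn).right.kw).tr hj (hP.det.trans hD).left hP.bdd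
  have h5 : Le N (fun k => l k) (H S (Q N l (sc s)) (J F (L.p N L.n))) :=
    hu.trans (H_kw (Kw.refl _).left
      ((hF'.trans ((Kw.refl _).right.pair (Kw.refl _).left)).pair (Kw.refl _).left))
  rcases dsa hj hW0 (hW.mono (hD.left.kw.pair (Kw.refl _).right)) hs' hsb hy.bdd hr h3
    (h.ind hD.kw hF' (Kw.refl _).right) (det_p ha).right.kw hZ.kw h5 with
    h1 | ⟨κ, K, E, l0, hE, -, hl, hb, hv, hi, hle⟩
  · exact Or.inl h1
  right
  have x1 := ext1 (S := S) K
  have d1 : DetS ((S.glue K).res E) (pl (p1 Ω) (L.p N L.n)) (p1 Ω) :=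
    fun k ω _ ω' _ e => congrArg (L.p N L.n k) e
  refine ds20_up ((h.pull x1).res hE) ((hP.pull x1).res hE) (F := pl (p1 Ω) F)
    (W1 := pl (p1 Ω) (Q N (fun k => i k + l k) W)) (W2 := pl (p2 Ω) (Q N (fun k => i k + l k) W))
    (u := pl (p1 Ω) (Q N l (sc s))) (a := fun k => e k + i k) (j := fun k => e k + i k + l k)
    (v := dsV N W e fun k => i k + l k) (fun k => (hl k).1) (fun k => (hl k).2) hn hb
    ((hD.pull x1).res E) ((hF.pull x1).res hE) ((hW.kw.pull x1).res hE) (hi.mono d1.right.kw)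
    ((hA.pull x1).res hE) ?_ ?_ ?_ ?_ hle
  · exact ((((det_Q_self l (sc s)).trans (hs.map fun _ x _ => x)).pull x1).res E :)
  · exact DetS.map2 (DetS.refl _).left (DetS.refl _).right
      fun k x y => (1 / 2 ^ e k : ℝ) • (cor (i k + l k) x - cor (i k + l k) y)
  · intro k ω a ha
    simp [dsV, sm, pl, dq, cor, Q, hI _ _ a ha]
  · refine hv.mono (Eventually.of_forall fun k ω _ h1 h2 => ?_)
    rw [h2, norm_zero] at h1
    exact absurd h1 (not_le.2 (by positivity))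

end Vale.Agent.P127S
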