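import Vale.Agent.P127S.DS

/-! Two lines through the same two cells. -/

open Real Finset Filter Topology Vale.Agent.P118O

noncomputable section

namespace Vale.Agent.P127S

variable {N : ℕ → ℕ} {Ω α β γ δ : ℕ → Type} {S : Sp N Ω}

/-- the label over which the second line is glued -/
def dsK (N : ℕ → ℕ) (F : RV Ω α) (T : RV Ω β) (A r W : VV Ω V3) (j i : ℕ → ℕ) :
    RV Ω fun k => (α k × β k) × (Fin 3 → ℤ) × (Fin 3 → ℤ) × (Fin 3 → ℤ) :=
  J (J F T) (J (Q N j A) (J (Q N j r) (Q N i W)))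

/-- the difference of the two slopes -/
def dsV (N : ℕ → ℕ) (W : VV Ω V3) (b i : ℕ → ℕ) : VV (fun k => Ω k × Ω k) V3 :=
  sm (tw _ b) (pl (p1 Ω) (dq N i W) - pl (p2 Ω) (dq N i W))

/-- the conditioning in the glued space -/
def dsZ (N : ℕ → ℕ) (F : RV Ω α) (W : VV Ω V3) (i : ℕ → ℕ) :
    RV (fun k => Ω k × Ω k) fun k => α k × (Fin 3 → ℤ) × (Fin 3 → ℤ) :=
  J (pl (p1 Ω) F) (J (pl (p1 Ω) (Q N i W)) (pl (p2 Ω) (Q N i W)))

theorem dsa_exists {A : VV Ω Prop} (h : pos S A) : ∀ᶠ k in UF, ∃ ω ∈ S.s k, A k ω := by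
  obtain ⟨c, hc, h⟩ := h
  filter_upwards [h] with k hk
  obtain ⟨ω, hω, hA, -⟩ := exists_of_ms (S.isP k) (hc.trans_le hk)
  exact ⟨ω, hω, hA⟩

theorem dsa_glue_small {K : RV Ω α} {X : VV Ω V3} {j : ℕ → ℕ} (hK : DetS S (Q N j X) K)
    (hX : Bdd S X) : Small (S.glue K) (pl (p1 Ω) X - pl (p2 Ω) X) j := by
  have h1 := (small_dq hX j).pull (ext1 K)
  have h2 := (small_dq hX j).pull (ext2 K)
  have e := glue_eq ((det_dq j X).trans hK)
  refine (h1.sub h2).congr (whp.of_all (Eventually.of_forall fun k x hx => ?_))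
  have e' : dq N j X k x.1 = dq N j X k x.2 := e k x hx
  change X k x.1 - dq N j X k x.1 - (X k x.2 - dq N j X k x.2) = X k x.1 - X k x.2
  rw [e']; abel

theorem dsa_knY {F : RV Ω α} {T : RV Ω β} {Z : RV Ω δ} {Y A W : VV Ω V3} {s : VV Ω ℝ}
    {b i l : ℕ → ℕ} (hj : Lv N fun k => b k + i k + l k) (hs : DetS S s (J F T)) (hsb : Bdd S s)
    (hr : Kn S (J F T) (A - Y - sm (tw Ω b) (sm s W)) fun k => b k + i k + l k)
    (hZ : DetS S (J F T) Z) (hW : Kn S Z W fun k => i k + l k)
    (hA : Kn S Z A fun k => b k + i k + l k) : Kn S Z Y fun k => b k + i k + l k := by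
  have hil : Lv N fun k => i k + l k := fun k => by have := hj k; simp only at this ⊢; omega
  have h1 : Kn S Z (sm s W) fun k => i k + l k :=
    Kn.smul hil (hs.trans hZ) hsb hW fun k => by simp
  have h2 : Kn S Z (sm (tw Ω b) (sm s W)) fun k => b k + i k + l k :=
    Kn.smul hj (DetS.const fun k => (1 / 2 ^ b k : ℝ)) (small_tw S b) h1 fun k => by omega
  refine (Kn.sub hj (Kn.sub hj hA (hr.mono hZ.kw)) h2).eqs fun k ω _ => ?_
  simp only [Pi.sub_apply]; abel

theorem dsa_big {c : ℝ} (hc : 0 < c) (hN : Tendsto N UF atTop) {e l : ℕ → ℕ}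
    (h : ∀ᶠ k in UF, c / 2 * N k ≤ l k) :
    Big N fun k => ((e k + l k : ℕ) : ℝ) - (max (e k) (e k + l k - ⌊c * N k⌋₊) : ℕ) := by
  refine ⟨c / 2, by positivity, ?_⟩
  have h2 : ∀ᶠ k in UF, 2 / c ≤ (N k : ℝ) :=
    (tendsto_natCast_atTop_atTop.comp hN).eventually_ge_atTop _
  filter_upwards [h, h2] with k hk hk2
  have h3 : 2 ≤ c * N k := by rw [div_le_iff₀ hc] at hk2; linarith
  have h4 : c * N k - 1 ≤ ⌊c * N k⌋₊ := (Nat.sub_one_lt_floor _).le
  rcases le_total (e k) (e k + l k - ⌊c * N k⌋₊) with h5 | h5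
  · rw [max_eq_right h5]
    rcases le_total ⌊c * N k⌋₊ (e k + l k) with h6 | h6
    · rw [Nat.cast_sub h6]; linarith
    · rw [Nat.sub_eq_zero_of_le h6]; push_cast
      have : (0 : ℝ) ≤ e k := Nat.cast_nonneg _
      linarith
  · rw [max_eq_left h5]; push_cast; linarith

theorem dsa_low {c : ℝ} (hc : 0 < c) (n e j : ℕ) :
    1 / (2 : ℝ) ^ (max e (j - ⌊c * n⌋₊)) ≤ (2 : ℝ) ^ (c * n - j) := by
  rw [one_div, ← Real.rpow_natCast, ← Real.rpow_neg (by norm_num)]
  refine Real.rpow_le_rpow_of_exponent_le (by norm_num) ?_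
  have h1 : (⌊c * n⌋₊ : ℝ) ≤ c * n := Nat.floor_le (by positivity)
  have h2 : j ≤ max e (j - ⌊c * n⌋₊) + ⌊c * n⌋₊ := by omega
  have h3 : (j : ℝ) ≤ (max e (j - ⌊c * n⌋₊) : ℕ) + (⌊c * n⌋₊ : ℝ) := by exact_mod_cast h2
  linarith

theorem dsa_right {κ : ℕ → Type} {F : RV Ω α} {T : RV Ω β} {G : RV Ω γ} {Z : RV Ω δ}
    {Y A W r : VV Ω V3} {s : VV Ω ℝ} {b i l l0 : ℕ → ℕ} {K : RV Ω κ}
    {E : VV (fun k => Ω k × Ω k) Prop} (hj : Lv N fun k => b k + i k + l k)
    (hW : Kn S (J F G) W fun k => i k + l k)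
    (hs : DetS S s (J F T)) (hsb : Bdd S s) (hY : Bdd S Y)
    (hr : Kn S (J F T) (A - Y - sm (tw Ω b) (sm s W)) fun k => b k + i k + l k)
    (h4 : Ind S Z T F) (hG : Kw S G (J F Z))
    (hZ : Kw S (Q N (fun k => b k + i k + l k) Y) (J F Z))
    (h5 : Le N (fun k => l k) (H S (Q N l (sc s)) (J F Z))) (hAb : Bdd S A) (hWb : Bdd S W)
    (hrd : r = A - Y - sm (tw Ω b) (sm s W)) (dFT : DetS S (J F T) K)
    (dA : DetS S (Q N (fun k => b k + i k + l k) A) K)
    (dr : DetS S (Q N (fun k => b k + i k + l k) r) K)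
    (iF : Ind (S.glue K) (pl (p2 Ω) (Q N (fun k => i k + l k) W)) (p1 Ω) (pl (p1 Ω) F))
    (hE : pos (S.glue K) E) (h0 : ∀ k, b k + i k ≤ l0 k ∧ l0 k ≤ b k + i k + l k)
    (hlow : whp ((S.glue K).res E)
      (fun k x => 1 / (2 : ℝ) ^ l0 k ≤ ‖dsV N W b (fun k => i k + l k) k x‖))
    (hv0 : Small (S.glue K) (dsV N W b fun k => i k + l k) fun k => b k + i k) :
    Le N (fun k => H ((S.glue K).res E) (pl (p1 Ω) (Q N l0 Y))
          (J (dsZ N F W fun k => i k + l k) (pl (p1 Ω) (Q N l (sc s)))) k +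
        H ((S.glue K).res E)
          (Q N (fun k => b k + i k + l k) (PV (dsV N W b fun k => i k + l k) (pl (p1 Ω) Y)))
          (J (J (dsZ N F W fun k => i k + l k) (pl (p1 Ω) (Q N l (sc s))))
            (pl (p1 Ω) (Q N l0 Y))) k + (((b k + i k + l k : ℕ) : ℝ) - l0 k))
      (H ((S.glue K).res E) (pl (p1 Ω) (Q N (fun k => b k + i k + l k) A))
        (pl (p1 Ω) (J F T))) := by
  have hl : Lv N l := fun k => by have := hj k; simp only at this; omega
  have hr' : Kn S (J F T) r fun k => b k + i k + l k := hrd ▸ hr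
  have dp : ∀ {ε : ℕ → Type} (X : RV Ω ε), DetS (S.glue K) (pl (p1 Ω) X) (p1 Ω) :=
    fun X k x _ x' _ e => congrArg (X k) e
  have hq1 := (small_dq hWb fun k => i k + l k).pull (ext1 K)
  have hq2 := (small_dq hWb fun k => i k + l k).pull (ext2 K)
  have eF := glue_eq ((DetS.refl F).left.trans dFT)
  have eFT := glue_eq dFT
  have kW : Kw S (Q N (fun k => i k + l k) W) (J F Z) :=
    hW.kw.trans ((DetS.refl F).left.kw.pair hG)
  have hu : Le N (fun k => l k) (H (S.glue K) (Q N l (sc (pl (p1 Ω) s)))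
      (J (dsZ N F W fun k => i k + l k) (Q N (fun k => b k + i k + l k) (pl (p1 Ω) Y)))) := by
    have h1 := (iF.symm.cond (dp Z).right.kw).mono (dp (Q N l (sc s))).right.kw
    have h2 : Le N (fun k => l k) (H (S.glue K) (pl (p1 Ω) (Q N l (sc s))) (pl (p1 Ω) (J F Z))) := by
      rw [(ext1 K).ent]; exact h5
    refine (h2.trans h1).trans (H_kw (Kw.refl _).left ?_)
    exact ((DetS.refl _).left.left.kw.pair ((kW.pull (ext1 K)).left.pair
      (DetS.refl _).right.kw)).pair (hZ.pull (ext1 K)).left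
  have hs1 : Bdd (S.glue K) (pl (p1 Ω) s) := hsb.pull (ext1 K)
  have hu' := res_full hE hl (Kn.zero (small_sc.2 hs1)
    (J (dsZ N F W fun k => i k + l k) (Q N (fun k => b k + i k + l k) (pl (p1 Ω) Y))))
    (fun k => Nat.zero_le _) (hu.lin fun k => by simp)
  have es := glue_eq (hs.trans dFT)
  have hT : Small (S.glue K) (pl (p2 Ω) Y - pl (p1 Ω) Y -
      sm (pl (p1 Ω) s) (dsV N W b fun k => i k + l k)) fun k => b k + i k + l k := by
    have h1 := dsa_glue_small dA hAb
    have h2 := dsa_glue_small dr hr'.bdd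
    have h3 := ((small_tw (S.glue K) b).smul (hs1.smul (hq1.sub hq2))).mono
      (b' := fun k => b k + i k + l k) (Le.of_le fun k => by push_cast; linarith)
    refine ((h2.sub h1).add h3).congr (whp.of_all (Eventually.of_forall fun k x hx => ?_))
    have e : s k x.1 = s k x.2 := es k x hx
    funext a
    simp only [hrd, dsV, sm, tw, pl, p1, p2, Pi.sub_apply, Pi.add_apply, Pi.smul_apply,
      smul_eq_mul, ← e]
    ring
  have dv : DetS (S.glue K) (dsV N W b fun k => i k + l k) (dsZ N F W fun k => i k + l k) :=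
    DetS.map2 (DetS.refl _).left.right (DetS.refl _).right.right
      fun k z z' => (1 / 2 ^ b k : ℝ) • (cor (i k + l k) z - cor (i k + l k) z')
  have m1 : Bdd ((S.glue K).res E) (pl (p1 Ω) Y) := Small.res hE (Small.pull (ext1 K) hY)
  have m2 : Bdd ((S.glue K).res E) (pl (p1 Ω) s) := Small.res hE hs1
  have m3 : Small ((S.glue K).res E) (dsV N W b fun k => i k + l k)
      fun k => b k + i k + l k - l k :=
    (hv0.res hE).mono (Le.of_le fun k => by rw [Nat.add_sub_cancel])
  have m4 : Le N (fun k => l k) (H ((S.glue K).res E) (Q N l (sc (pl (p1 Ω) s)))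
      (J (dsZ N F W fun k => i k + l k) (Q N (fun k => b k + i k + l k) (pl (p1 Ω) Y)))) :=
    hu'.lin fun k => by simp
  have main := ds (S := (S.glue K).res E) (Z := dsZ N F W fun k => i k + l k)
    (T := pl (p2 Ω) Y) (Y := pl (p1 Ω) Y) (v := dsV N W b fun k => i k + l k)
    (s := pl (p1 Ω) s) (j := fun k => b k + i k + l k) (l := l) (l0 := l0) hj
    (fun k => Nat.le_add_left _ _)
    (fun k => (h0 k).2) (fun k => by have := (h0 k).1; omega) (dv.res _) m1 m2
    ((Kn.of_small hj hT _).res hE) hlow m3 m4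
  refine main.trans ?_
  have i2 := (((h4.cond kW).mono (hZ.trans ((DetS.refl F).left.left.pair (DetS.refl Z).right).kw)).pull (ext2 K)).res hE
  have kY : Kw S (Q N (fun k => b k + i k + l k) Y) (J (Q N (fun k => b k + i k + l k) A)
      (J (J F (Q N (fun k => i k + l k) W)) T)) :=
    (dsa_knY hj hs hsb hr ((DetS.refl F).left.left.right.pair (DetS.refl T).right.right)
      ((Kn.self hWb _).mono (DetS.refl _).right.left.right.kw)
      ((Kn.self hAb _).mono (DetS.refl _).left.kw)).kw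
  have dF2 : DetS (S.glue K) (pl (p2 Ω) F) (pl (p1 Ω) F) := fun k x hx x' hx' e => by
    rw [← eF k x hx, ← eF k x' hx']; exact e
  have s1 := H_kw (S := (S.glue K).res E) (X := pl (p2 Ω) (Q N (fun k => b k + i k + l k) Y))
    (W := dsZ N F W fun k => i k + l k) (Kw.refl _).left
    (Y := pl (p2 Ω) (J F (Q N (fun k => i k + l k) W)))
    ((dF2.left.pair (DetS.refl _).right.right).res _).kw
  have s2 := H_kw ((kY.pull (ext2 K)).res hE)
    (Y := pl (p2 Ω) (J F T))
    ((((DetS.refl F).left.left.pair (DetS.refl T).right).pull (ext2 K)).res _).kw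
  rw [H_congr ((glue_eq dA).res _) (eFT.res _)]
  exact (s1.trans i2).trans s2

/-- Glue over `K = dsK ..` with `r = A - Y - s W / 2 ^ b`. Key fact: `W[i+l]` is independent of `K`
given `F`, since `I (G; T | F) ≲ 0` (`h4`) and `I (G; A[j] | F, T) ≲ 0` (`h3`; `Y[j]` is known from
`A[j], F, T, G`). If `dsV` is small at level `j` then `W[i+l]` of the second copy is known from the
first copy, and `glue_H2` gives the left alternative. Otherwise (`small_or`) take the event
`2 ^ (c N - j) < ‖v‖`, `l0 = max (b + i) (j - ⌊c N⌋)`, and apply `ds` with `T = Y` of the second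
copy: `Y' - Y - s v` is small at level `j`. `hu` holds before restriction and passes by
`res_full`. Finally `H (Y'[j] | Z0) ≲ H (Y'[j] | F, W', T) ≲ H (A[j] | F, T)` by `h4` for the second
copy (`Ind.pull`, `Ind.res`). -/
theorem dsa {F : RV Ω α} {T : RV Ω β} {G : RV Ω γ} {Z : RV Ω δ} {Y A W : VV Ω V3} {s : VV Ω ℝ}
    {b i l : ℕ → ℕ} (hj : Lv N fun k => b k + i k + l k)
    (hW0 : Kn S F W i) (hW : Kn S (J F G) W fun k => i k + l k)
    (hs : DetS S s (J F T)) (hsb : Bdd S s) (hY : Bdd S Y)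
    (hr : Kn S (J F T) (A - Y - sm (tw Ω b) (sm s W)) fun k => b k + i k + l k)
    (h3 : Le N (H S (Q N (fun k => b k + i k + l k) A) (J F T))
      (H S (Q N (fun k => b k + i k + l k) Y) (J (J F T) G)))
    (h4 : Ind S Z T F) (hG : Kw S G (J F Z))
    (hZ : Kw S (Q N (fun k => b k + i k + l k) Y) (J F Z))
    (h5 : Le N (fun k => l k) (H S (Q N l (sc s)) (J F Z))) :
    Kn S F W (fun k => i k + l k) ∨
      ∃ (κ : ℕ → Type) (K : RV Ω κ) (E : VV (fun k => Ω k × Ω k) Prop) (l0 : ℕ → ℕ),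
        pos (S.glue K) E ∧ DetS S (J F T) K ∧ (∀ k, b k + i k ≤ l0 k ∧ l0 k ≤ b k + i k + l k) ∧
        Big N (fun k => ((b k + i k + l k : ℕ) : ℝ) - l0 k) ∧
        whp ((S.glue K).res E)
          (fun k x => 1 / (2 : ℝ) ^ l0 k ≤ ‖dsV N W b (fun k => i k + l k) k x‖) ∧
        Ind ((S.glue K).res E) (p1 Ω) (pl (p2 Ω) (Q N (fun k => i k + l k) W))
          (pl (p1 Ω) (J F T)) ∧
        Le N (fun k => H ((S.glue K).res E) (pl (p1 Ω) (Q N l0 Y))
              (J (dsZ N F W fun k => i k + l k) (pl (p1 Ω) (Q N l (sc s)))) k +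
            H ((S.glue K).res E)
              (Q N (fun k => b k + i k + l k) (PV (dsV N W b fun k => i k + l k) (pl (p1 Ω) Y)))
              (J (J (dsZ N F W fun k => i k + l k) (pl (p1 Ω) (Q N l (sc s))))
                (pl (p1 Ω) (Q N l0 Y))) k + (((b k + i k + l k : ℕ) : ℝ) - l0 k))
          (H ((S.glue K).res E) (pl (p1 Ω) (Q N (fun k => b k + i k + l k) A))
            (pl (p1 Ω) (J F T))) := by
  have hil : Lv N fun k => i k + l k := fun k => by have := hj k; simp only at this ⊢; omega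
  have hl : Lv N l := fun k => by have := hj k; simp only at this; omega
  have hWb : Bdd S W := hW0.bdd
  have hsW : Bdd S (sm (tw Ω b) (sm s W)) :=
    ((small_tw S b).smul (hsb.smul hWb)).bdd
  have hAb : Bdd S A := by
    refine ((hr.bdd.add hY).add hsW).congr (whp.of_all (Eventually.of_forall fun k ω _ => ?_))
    simp only [Pi.add_apply, Pi.sub_apply]; abel
  obtain ⟨r, hrd⟩ : ∃ r, r = A - Y - sm (tw Ω b) (sm s W) := ⟨_, rfl⟩
  obtain ⟨K, hK⟩ : ∃ K, K = dsK N F T A r W (fun k => b k + i k + l k) i := ⟨_, rfl⟩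
  have hr' : Kn S (J F T) r fun k => b k + i k + l k := hrd ▸ hr
  have dFT : DetS S (J F T) K := hK ▸ (DetS.refl _).left
  have dF : DetS S F K := (DetS.refl F).left.trans dFT
  have dA : DetS S (Q N (fun k => b k + i k + l k) A) K := hK ▸ (DetS.refl _).left.right
  have dr : DetS S (Q N (fun k => b k + i k + l k) r) K := hK ▸ (DetS.refl _).left.right.right
  have dW : DetS S (Q N i W) K := hK ▸ (DetS.refl _).right.right.right
  have iGT : Ind S G T F := h4.mono hG
  have iAG : Ind S (Q N (fun k => b k + i k + l k) A) G (J F T) := by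
    refine h3.trans (H_kw ?_ (Kw.refl _))
    exact (dsa_knY hj hs hsb hr (DetS.refl _).left.right
      (hW.mono (((DetS.refl F).left.left.right.pair (DetS.refl G).right.right).kw))
      ((Kn.self hAb _).mono (DetS.refl _).left.kw)).kw
  have iWK : Ind S (Q N (fun k => i k + l k) W) K F := by
    have h1 := (iGT.chain iAG.symm).symm
    have dFT' : DetS S (J F T) (J F (J T (Q N (fun k => b k + i k + l k) A))) :=
      (DetS.refl F).left.pair (DetS.refl T).left.right
    have h2 : Kw S K (J F (J T (Q N (fun k => b k + i k + l k) A))) := by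
      rw [hK]
      exact dFT'.kw.pair ((DetS.refl _).right.right.kw.pair
        ((hr'.kw.trans dFT'.kw).pair hW0.kw.left))
    exact (h1.mono h2).symm.mono hW.kw
  have dK : DetS S K fun _ ω => ω := fun k ω _ ω' _ e => congrArg (K k) e
  have hg : H (S.glue K) (pl (p2 Ω) (Q N (fun k => i k + l k) W)) (p1 Ω) =
      H S (Q N (fun k => i k + l k) W) K := glue_H2 dK _
  have iWK' : Le N (H S (Q N (fun k => i k + l k) W) F)
      (H (S.glue K) (pl (p2 Ω) (Q N (fun k => i k + l k) W)) (p1 Ω)) := by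
    rw [hg]
    exact Le.trans iWK (Le.of_le (H_mono (DetS.refl _).left (DetS.refl _).right))
  have dp : ∀ {ε : ℕ → Type} (X : RV Ω ε), DetS (S.glue K) (pl (p1 Ω) X) (p1 Ω) :=
    fun X k x _ x' _ e => congrArg (X k) e
  have hq1 := (small_dq hWb fun k => i k + l k).pull (ext1 K)
  have hq2 := (small_dq hWb fun k => i k + l k).pull (ext2 K)
  rcases small_or (S.glue K) (dsV N W b fun k => i k + l k) fun k => b k + i k + l k with hv | hv
  · left
    refine ⟨hWb, iWK'.trans ?_⟩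
    have h1 : Small (S.glue K) (sm (up _ b) (dsV N W b fun k => i k + l k)) fun k => i k + l k :=
      Small.zoom (hv.mono (Le.of_le fun k => by push_cast; linarith))
    refine (kn_near hil (dp (dq N (fun k => i k + l k) W)) (hWb.pull (ext2 K))
      ((hq2.sub h1).congr (whp.of_all (Eventually.of_forall fun k x _ => ?_)))).kw
    funext a
    simp only [dsV, sm, up, tw, pl, p1, p2, Pi.sub_apply, Pi.smul_apply, smul_eq_mul]
    field_simp
    ring
  right
  obtain ⟨c, hc, hE⟩ := hv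
  have hv0 : Small (S.glue K) (dsV N W b fun k => i k + l k) fun k => b k + i k := by
    have h1 := dsa_glue_small dW hWb
    have h2 : Le N (fun k => i k) fun k => ((i k + l k : ℕ) : ℝ) :=
      Le.of_le fun k => by exact_mod_cast Nat.le_add_right _ _
    refine (small_tw _ b).smul (((h1.sub (hq1.mono h2)).add (hq2.mono h2)).congr
      (whp.of_all (Eventually.of_forall fun k x _ => ?_)))
    simp only [pl, p1, p2, Pi.sub_apply, Pi.add_apply]; abel
  have eF := glue_eq dF
  have eFT := glue_eq dFT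
  have iF : Ind (S.glue K) (pl (p2 Ω) (Q N (fun k => i k + l k) W)) (p1 Ω) (pl (p1 Ω) F) := by
    have h1 : H (S.glue K) (pl (p2 Ω) (Q N (fun k => i k + l k) W)) (pl (p1 Ω) F) =
        H S (Q N (fun k => i k + l k) W) F := by
      rw [H_congr (fun _ _ _ => rfl) eF]; exact (ext2 K).ent _ _
    unfold Ind
    rw [h1]
    exact iWK'.trans (Le.of_le (H_mono (DetS.refl _).left ((dp F).pair (DetS.refl _))))
  have hlow : whp ((S.glue K).res fun k x =>
      (2 : ℝ) ^ (c * N k - (b k + i k + l k : ℕ)) < ‖dsV N W b (fun k => i k + l k) k x‖)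
      fun k x => 1 / (2 : ℝ) ^ (max (b k + i k) (b k + i k + l k - ⌊c * N k⌋₊)) ≤
        ‖dsV N W b (fun k => i k + l k) k x‖ :=
    (res_whp_self hE).mono (Eventually.of_forall fun k x _ h => (dsa_low hc _ _ _).trans h.le)
  refine ⟨_, K, _, fun k => max (b k + i k) (b k + i k + l k - ⌊c * N k⌋₊), hE, dFT,
    fun k => ⟨le_max_left _ _, max_le (Nat.le_add_right _ _) (Nat.sub_le _ _)⟩, ?_, hlow, ?_, ?_⟩
  · refine dsa_big hc S.big (e := fun k => b k + i k) ?_
    filter_upwards [dsa_exists (hE.and (hv0 (c / 2) (by positivity)))] with k hk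
    obtain ⟨x, -, h1, h2⟩ := hk
    have h3 := (Real.rpow_lt_rpow_left_iff (by norm_num : (1 : ℝ) < 2)).1 (h1.trans_le h2)
    push_cast at h3
    linarith
  · have h1 := iF.symm.cond (dp T).right.kw
    exact Ind.res hE h1
  exact dsa_right hj hW hs hsb hY hr h4 hG hZ h5 hAb hWb hrd dFT dA dr iF hE
    (fun k => ⟨le_max_left _ _, max_le (Nat.le_add_right _ _) (Nat.sub_le _ _)⟩) hlow hv0

end Vale.Agent.P127S
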