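import Vale.Agent.P127S.Prep
import Vale.Agent.P127S.CoreP

/-! The first engine. -/

open Real Finset Vale.Agent.P118O

noncomputable section

namespace Vale.Agent.P127S

section Aux

variable {Ω α β γ τ ι υ : Type} {s : Finset Ω} {p : Ω → ℝ}

theorem EngP_mono [Fintype ι] {n : ℕ} {e e' : ℝ} {F : Ω → β} {T : Ω → τ} {A : Ω → α}
    {Y : Ω → ι → ℝ} {G : Ω → γ} {l0 l1 : γ → ι → ℝ} {sv fv : Ω → ℝ}
    (h : Eng s p n e F T A Y G l0 l1 sv fv) (he : e ≤ e') :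
    Eng s p n e' F T A Y G l0 l1 sv fv := by
  have h2 : (2 : ℝ) ^ e ≤ (2 : ℝ) ^ e' := Real.rpow_le_rpow_of_exponent_le one_le_two he
  exact ⟨h.isP, h.pos, h.ds, h.df, h.lat, h.rel,
    fun ω hω => ⟨(h.bd ω hω).1.trans h2, (h.bd ω hω).2.trans h2⟩, by linarith [h.h1],
    by linarith [h.h2], by linarith [h.h3], by linarith [h.h4]⟩

theorem EngP_low (h : IsP s p) {n' n : ℕ} (hn : n' ≤ n) (z : Ω → ℝ) :
    ce s p (qs n z) (nil Ω) ≤ ce s p (qs n' z) (nil Ω) + ((n : ℝ) - n') := by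
  have h1 := ce_le_add h (qs n z) (qs n' z) (nil Ω)
  have h2 : ce s p (qs n z) (pj (qs n' z) (nil Ω)) ≤ ce s p (qs n z) (qs n' z) :=
    ce_mono h (fun _ _ _ _ e => (Prod.mk.inj e).1) (fun _ _ _ _ e => (Prod.mk.inj e).1)
  have h3 := ce_qs h hn z
  linarith

theorem EngP_prx (h : IsP s p) {n' n : ℕ} (hn : n' ≤ n) {c c' : ℝ} (hc : c ≤ c') {X : Ω → ι → ℝ}
    {z : Ω → ℝ} (hz : Prx s p n c X z) : Prx s p n' c' X z := by
  refine Prx.mono ⟨hz.1, hz.2.1, ?_⟩ hc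
  have h1 := EngP_low h hn z
  have h2 := hz.2.2
  linarith

theorem EngP_top (h : IsP s p) {ϱ τ0 : ℝ} {L L' : ℕ} (hL : L ≤ L') {Z : Ω → β} {Z' : Ω → γ}
    (hZ : Det s Z' Z) {T : Ω → τ} {a : Ω → Fin 2 → ℝ} {u : Ω → υ} {y : υ → Fin 2 → ℝ}
    {Au : Finset υ} {Q : υ → ℝ} (ht : Top s p ϱ τ0 L' Z T a u y Au Q) :
    Top s p ϱ τ0 L Z' T a u y Au Q := by
  refine ⟨ht.det, ht.mem, ht.pos, ht.one, ht.bd, fun ω hω => (ht.near ω hω).trans ?_, ht.spr, ?_⟩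
  · exact one_div_le_one_div_of_le (by positivity) (pow_le_pow_right₀ one_le_two hL)
  · have h1 : ce s p u Z ≤ ce s p u Z' := ce_mono h (fun _ _ _ _ e => (Prod.mk.inj e).1) hZ
    linarith [ht.kl]

theorem EngP_nil (h : IsP s p) (X : Ω → α) (W : Ω → β) :
    ce s p X (pj (nil Ω) W) = ce s p X W :=
  le_antisymm (ce_mono h (fun _ _ _ _ e => (Prod.mk.inj e).1) fun _ _ _ _ e => (Prod.mk.inj e).2)
    (ce_mono h (fun _ _ _ _ e => (Prod.mk.inj e).1) fun _ _ _ _ e => Prod.ext rfl e)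

theorem EngP_dfc (h : IsP s p) {δ : Type} {Y : Ω → β} {Y' : Ω → δ} (hY : Det s Y' Y) (A : Ω → α)
    (T : Ω → τ) (G : Ω → γ) : dfc s p Y' A T G ≤ dfc s p Y A T G := by
  have h1 := info_mono h (X := Y) (V := Y') (nil Ω) (pj T G)
    (fun ω hω ω' hω' e => hY ω hω ω' hω' (Prod.mk.inj e).1) (fun _ _ _ _ _ => rfl)
  unfold dfc
  linarith

theorem EngP_ms (h : IsP s p) (K : Ω → β) (E : Ω → Prop) :
    ms (glueS s K s K) (glueP p s p K) (fun x => E x.1) = ms s p E := by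
  classical
  have h1 := glue_law1 h K fun ω => if E ω then 1 else 0
  simp only [mul_ite, mul_one, mul_zero] at h1
  simp only [ms, Finset.sum_filter]
  refine Eq.trans ?_ (h1.trans ?_)
  · exact Finset.sum_congr rfl fun x _ => by by_cases hx : E x.1 <;> simp only [hx, if_true, if_false]
  · exact Finset.sum_congr rfl fun x _ => by by_cases hx : E x <;> simp only [hx, if_true, if_false]

theorem EngP_gpos (h : IsP s p) (hp : ∀ ω ∈ s, 0 < p ω) (K : Ω → β) {x : Ω × Ω}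
    (hx : x ∈ glueS s K s K) : 0 < glueP p s p K x := by
  obtain ⟨h1, h2, -⟩ := glue_mem.1 hx
  exact div_pos (mul_pos (hp _ h1) (hp _ h2)) ((hp _ h2).trans_le (le_pr h K h2))

theorem EngP_apos (h : IsP s p) (hp : ∀ ω ∈ s, 0 < p ω) (W : Ω → β) {ω0 ω : Ω}
    (hω : ω ∈ atS s W ω0) : 0 < atP s p W ω0 ω := by
  classical
  obtain ⟨h1, h2⟩ := mem_atS.1 hω
  refine div_pos (hp _ h1) ((hp _ h1).trans_le ?_)
  unfold ms
  exact Finset.single_le_sum (f := p) (fun ω' hω' => h.1 ω' (Finset.mem_filter.1 hω').1)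
    (Finset.mem_filter.2 ⟨h1, h2⟩)

theorem EngP_ex_sub (f g : Ω → ℝ) : ex s p (fun ω => f ω - g ω) = ex s p f - ex s p g := by
  simp only [ex, mul_sub, Finset.sum_sub_distrib]

theorem EngP_ex_const (h : IsP s p) (c : ℝ) : ex s p (fun _ => c) = c := by
  rw [ex, ← Finset.sum_mul, h.2, one_mul]

theorem EngP_floor (i l : ℕ) {u v : ℝ} (e : ⌊(2 : ℝ) ^ i * (2 ^ l / 2 * u)⌋ = ⌊(2 : ℝ) ^ i * (2 ^ l / 2 * v)⌋) :
    ⌊(2 : ℝ) ^ i * (u / 2)⌋ = ⌊(2 : ℝ) ^ i * (v / 2)⌋ := by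
  have h1 : ∀ t : ℝ, (2 : ℝ) ^ i * (t / 2) = (2 : ℝ) ^ i * (2 ^ l / 2 * t) / ((2 ^ l : ℕ) : ℝ) := by
    intro t
    push_cast
    field_simp
  rw [h1 u, h1 v, Int.floor_div_natCast, Int.floor_div_natCast, e]

/-- the normalised target -/
def EngP_Y (z : Nrm) (v : Fin 2 → ℝ) : Fin 2 → ℝ :=
  ![2 ^ z.l / 2 * v 0, 2 ^ z.y / 2 * (v 1 - z.b * v 0)]

theorem EngP_rel {z : Nrm} {t : ℝ} (ht : 0 ≤ t) (hl : (z.l : ℝ) ≤ t) (hy : (z.y : ℝ) ≤ t)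
    (hb : |z.b| ≤ (2 : ℝ) ^ t) {n n' : ℕ} (hn : (n' : ℝ) + 2 * t + 2 ≤ n) {v v' : Fin 2 → ℝ}
    {s1 s2 f1 f2 g g' : ℝ}
    (h : ‖v' - v - ((s1 - s2) • ((![g, 0] : Fin 2 → ℝ) - ![g', 0]) +
      (f1 - f2) • ((![0, g] : Fin 2 → ℝ) - ![0, g']))‖ ≤ 3 / 2 ^ n) :
    ‖EngP_Y z v' - EngP_Y z v - (g - g') • ((1 / 2 : ℝ) • (z.ap s1 f1 - z.ap s2 f2))‖ ≤
      1 / 2 ^ n' := by
  have h0 := (norm_le_pi_norm _ 0).trans h
  have h1 := (norm_le_pi_norm _ 1).trans h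
  simp only [Pi.sub_apply, Pi.add_apply, Pi.smul_apply, smul_eq_mul, Matrix.cons_val_zero,
    Matrix.cons_val_one, Matrix.cons_val_fin_one, sub_self, mul_zero, add_zero, zero_add,
    Real.norm_eq_abs] at h0 h1
  have hT : (1 : ℝ) ≤ 2 ^ t := Real.one_le_rpow one_le_two ht
  have hl' : (2 : ℝ) ^ z.l ≤ 2 ^ t := by
    rw [← Real.rpow_natCast]; exact Real.rpow_le_rpow_of_exponent_le one_le_two hl
  have hy' : (2 : ℝ) ^ z.y ≤ 2 ^ t := by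
    rw [← Real.rpow_natCast]; exact Real.rpow_le_rpow_of_exponent_le one_le_two hy
  have hk : (2 : ℝ) ^ t * 2 ^ t * (4 / 2 ^ n) ≤ 1 / 2 ^ n' := by
    have h2 : (2 : ℝ) ^ ((n' : ℝ) + 2 * t + 2) ≤ 2 ^ (n : ℝ) :=
      Real.rpow_le_rpow_of_exponent_le one_le_two hn
    rw [Real.rpow_add two_pos, Real.rpow_add two_pos, two_mul t, Real.rpow_add two_pos,
      Real.rpow_natCast, Real.rpow_natCast, Real.rpow_two] at h2
    rw [← mul_div_assoc, div_le_div_iff₀ (by positivity) (by positivity)]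
    linarith
  obtain ⟨E, hE⟩ : ∃ E : ℝ, E = 1 / 2 ^ n := ⟨_, rfl⟩
  have hE0 : 0 ≤ E := by rw [hE]; positivity
  have e3 : (3 : ℝ) / 2 ^ n = 3 * E := by rw [hE]; ring
  have e4 : (4 : ℝ) / 2 ^ n = 4 * E := by rw [hE]; ring
  rw [e3] at h0 h1
  rw [e4] at hk
  obtain ⟨U, hU⟩ : ∃ U : ℝ, U = 2 ^ t := ⟨_, rfl⟩
  rw [← hU] at hT hl' hy' hk hb
  refine (pi_norm_le_iff_of_nonneg (by positivity)).2 (Fin.forall_fin_two.2 ⟨?_, ?_⟩)
  · have h2 : (EngP_Y z v' - EngP_Y z v - (g - g') • ((1 / 2 : ℝ) • (z.ap s1 f1 - z.ap s2 f2))) 0 =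
        2 ^ z.l / 2 * (v' 0 - v 0 - (s1 - s2) * (g - g')) := by
      simp only [EngP_Y, Nrm.ap, Pi.sub_apply, Pi.smul_apply, smul_eq_mul, Matrix.cons_val_zero]
      ring
    rw [h2, Real.norm_eq_abs, abs_mul, abs_of_nonneg (by positivity)]
    refine le_trans (mul_le_mul (b := U) (by linarith) h0 (abs_nonneg _) (by linarith))
      (le_trans ?_ hk)
    nlinarith [mul_nonneg (mul_nonneg (sub_nonneg.2 hT) (zero_le_one.trans hT)) hE0,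
      mul_nonneg (zero_le_one.trans hT) hE0]
  · have h2 : (EngP_Y z v' - EngP_Y z v - (g - g') • ((1 / 2 : ℝ) • (z.ap s1 f1 - z.ap s2 f2))) 1 =
        2 ^ z.y / 2 * ((v' 1 - v 1 - (f1 - f2) * (g - g')) -
          z.b * (v' 0 - v 0 - (s1 - s2) * (g - g'))) := by
      simp only [EngP_Y, Nrm.ap, Pi.sub_apply, Pi.smul_apply, smul_eq_mul, Matrix.cons_val_one,
        Matrix.cons_val_fin_one]
      ring
    have h3 : |(v' 1 - v 1 - (f1 - f2) * (g - g')) - z.b * (v' 0 - v 0 - (s1 - s2) * (g - g'))| ≤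
        3 * E + U * (3 * E) := by
      refine (abs_sub _ _).trans (add_le_add h1 ?_)
      rw [abs_mul]
      exact mul_le_mul hb h0 (abs_nonneg _) (by linarith)
    rw [h2, Real.norm_eq_abs, abs_mul, abs_of_nonneg (by positivity)]
    refine le_trans (mul_le_mul (b := U / 2) (by linarith) h3 (abs_nonneg _) (by linarith))
      (le_trans ?_ hk)
    nlinarith [mul_nonneg (mul_nonneg (sub_nonneg.2 hT) (zero_le_one.trans hT)) hE0,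
      mul_nonneg (mul_nonneg (zero_le_one.trans hT) (zero_le_one.trans hT)) hE0]

theorem EngP_bd {n : ℕ} {e : ℝ} (he : 0 ≤ e) {y : Fin 2 → ℝ} {a b g : ℝ} (hy : ‖y‖ ≤ (2 : ℝ) ^ e)
    (ha : |a| ≤ (2 : ℝ) ^ e) (hg : |g| ≤ 1) :
    |dz n (y + a • (![g, 0] : Fin 2 → ℝ) + b • (![0, g] : Fin 2 → ℝ)) 0| ≤ (2 : ℝ) ^ (e + 2) := by
  have h1 := (norm_le_pi_norm _ 0).trans
    (dz_close n (y + a • (![g, 0] : Fin 2 → ℝ) + b • (![0, g] : Fin 2 → ℝ)))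
  have h2 := (norm_le_pi_norm _ 0).trans hy
  have h3 : (1 : ℝ) / 2 ^ n ≤ 1 := by
    rw [div_le_one (by positivity)]; exact one_le_pow₀ one_le_two
  have h4 : (1 : ℝ) ≤ 2 ^ e := Real.one_le_rpow one_le_two he
  have h5 : |a * g| ≤ (2 : ℝ) ^ e := by
    rw [abs_mul]; exact (mul_le_of_le_one_right (abs_nonneg _) hg).trans ha
  simp only [Pi.sub_apply, Pi.add_apply, Pi.smul_apply, smul_eq_mul, Matrix.cons_val_zero,
    mul_zero, add_zero, Real.norm_eq_abs] at h1 h2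
  rw [Real.rpow_add two_pos, Real.rpow_two]
  rw [abs_le] at h1 h2 h5 ⊢
  constructor <;> linarith [h1.1, h1.2, h2.1, h2.2, h5.1, h5.2]

theorem EngP_num {c c1 σ η1 : ℝ} (hc : 0 < c) (hcc : 100 * c ≤ c1) (hcσ : 100 * c ≤ σ)
    (hc' : 100 * c ≤ 1) (hη1 : 0 < η1) {n n1 : ℕ} (hn1 : 2 * n1 ≤ n) (hn : 1 ≤ c * n) :
    ∃ n' : ℕ, n' ≤ n ∧ n1 ≤ n' ∧ (n' : ℝ) + 2 * (c * n) + 2 ≤ n ∧
      (n : ℝ) ≤ n' + 2 * (c * n) + 3 ∧ 50 * (c * n) ≤ c1 * n' ∧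
      σ / 2 * n' + 50 * (c * n) ≤ σ * n ∧ η1 / 2 * n ≤ η1 * n' := by
  have hn0 : (0 : ℝ) ≤ n := Nat.cast_nonneg n
  have hcn : 100 * (c * n) ≤ n := by nlinarith
  obtain ⟨n', hn', hn'1, hn'2⟩ : ∃ n' : ℕ, n' ≤ n ∧ (n' : ℝ) + 2 * (c * n) + 2 ≤ n ∧
      (n : ℝ) ≤ n' + 2 * (c * n) + 3 := by
    have h1 := Nat.le_ceil (2 * (c * n) + 2)
    have h2 := Nat.ceil_lt_add_one (show 0 ≤ 2 * (c * n) + 2 by positivity)
    have h3 : ⌈2 * (c * n) + 2⌉₊ ≤ n := Nat.ceil_le.2 (by linarith)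
    refine ⟨n - ⌈2 * (c * n) + 2⌉₊, Nat.sub_le _ _, ?_, ?_⟩ <;> rw [Nat.cast_sub h3] <;> linarith
  have hhalf : (n : ℝ) ≤ 2 * n' := by linarith
  have hn'0 : (0 : ℝ) ≤ n' := Nat.cast_nonneg n'
  have h4 : (n' : ℝ) ≤ n := Nat.cast_le.2 hn'
  refine ⟨n', hn', ?_, hn'1, hn'2, by nlinarith, by nlinarith, by nlinarith⟩
  have h1 : ((2 * n1 : ℕ) : ℝ) ≤ n := Nat.cast_le.2 hn1
  have h2 : (n1 : ℝ) ≤ n' := by push_cast at h1; linarith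
  exact Nat.cast_le.1 h2

theorem EngP_sys {n n' : ℕ} {e t : ℝ} {F : Ω → β} {T : Ω → τ} {A : Ω → α} {Y : Ω → Fin 2 → ℝ}
    {g sv fv : Ω → ℝ} (hE : Eng s p n e F T A Y g (fun g => ![g, 0]) (fun g => ![0, g]) sv fv)
    (he : 0 ≤ e) (hb : ∀ ω ∈ s, |g ω| ≤ 1) {H : Ω → List Nrm} {W : Ω → Nrm}
    (hH : Det s H (pj F T)) (hW : Det s W (pj F H)) {s2 : Finset (Ω × Ω)} {p2 : Ω × Ω → ℝ}
    (hs2 : s2 = glueS s (ctK F H Y g) s (ctK F H Y g)) (hp2 : p2 = glueP p s p (ctK F H Y g))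
    (hnv : ∀ ω ∈ s, ‖nv W sv fv ω‖ ≤ 1) {x0 : Ω × Ω} (hx0 : x0 ∈ s2) (ht : 0 ≤ t)
    (hl : ((W x0.1).l : ℝ) ≤ t) (hy : ((W x0.1).y : ℝ) ≤ t) (hb' : |(W x0.1).b| ≤ (2 : ℝ) ^ t)
    (hn : (n' : ℝ) + 2 * t + 2 ≤ n) :
    SysP (atS s2 (ctW F H T) x0) (atP s2 p2 (ctW F H T) x0) n'
      (fun x => EngP_Y (W x0.1) (ctY n Y g (fun g => ![g, 0]) (fun g => ![0, g]) sv fv x))
      (fun x => A x.1) (fun x => T x.1) (fun x => g x.1) (ctA W sv fv) := by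
  obtain ⟨-, -, -, -, -, -, -, k8⟩ := ctr (by simp) hE he H hH s2 p2 hs2 hp2
  have hI : IsP s2 p2 := by rw [hs2, hp2]; exact glue_prob hE.isP _
  have hpos : ∀ x ∈ s2, 0 < p2 x := by
    rw [hs2, hp2]; exact fun x hx => EngP_gpos hE.isP hE.pos _ hx
  have hmem : ∀ x ∈ s2, x.1 ∈ s ∧ x.2 ∈ s ∧ F x.1 = F x.2 ∧ H x.1 = H x.2 := by
    rw [hs2]
    intro x hx
    obtain ⟨h1, h2, h3⟩ := glue_mem.1 hx
    exact ⟨h1, h2, (Prod.mk.inj (Prod.mk.inj h3).1).1, (Prod.mk.inj (Prod.mk.inj h3).1).2⟩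
  have hW2' : ∀ x x', ctW F H T x = ctW F H T x' → F x.1 = F x'.1 ∧ H x.1 = H x'.1 ∧
      T x.2 = T x'.2 := fun x x' e => ⟨(Prod.mk.inj (Prod.mk.inj e).1).1,
    (Prod.mk.inj (Prod.mk.inj e).1).2, (Prod.mk.inj e).2⟩
  have hSm : ∀ x ∈ atS s2 (ctW F H T) x0, x ∈ s2 ∧ ctW F H T x = ctW F H T x0 :=
    fun x hx => mem_atS.1 hx
  have m0 := hmem x0 hx0
  have hA : ∀ x ∈ atS s2 (ctW F H T) x0, ctA W sv fv x = (1 / 2 : ℝ) •
      ((W x0.1).ap (sv x.1) (fv x.1) - (W x0.1).ap (sv x.2) (fv x.2)) := fun x hx => by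
    obtain ⟨h1, h2⟩ := hSm x hx
    obtain ⟨h3, h4, -⟩ := hW2' x x0 h2
    obtain ⟨m1, m2, m3, m4⟩ := hmem x h1
    have h5 : W x.1 = W x0.1 := hW _ m1 _ m0.1 (Prod.ext h3 h4)
    have h6 : W x.2 = W x0.1 := hW _ m2 _ m0.1 (Prod.ext (m3.symm.trans h3) (m4.symm.trans h4))
    simp only [ctA, nv, h5, h6]
  refine ⟨at_isP hI _ hx0 (hpos x0 hx0), fun x hx => EngP_apos hI hpos _ hx, ?_, ?_, ?_, ?_⟩
  · intro x hx x' hx' e
    obtain ⟨h1, h2⟩ := hSm x hx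
    obtain ⟨h1', h2'⟩ := hSm x' hx'
    obtain ⟨h3, -, h4⟩ := hW2' x x' (h2.trans h2'.symm)
    obtain ⟨m1, m2, m3, -⟩ := hmem x h1
    obtain ⟨m1', m2', m3', -⟩ := hmem x' h1'
    have e1 : pj F T x.1 = pj F T x'.1 := Prod.ext h3 e
    have e2 : pj F T x.2 = pj F T x'.2 := Prod.ext (m3.symm.trans (h3.trans m3')) h4
    rw [hA x hx, hA x' hx', hE.ds _ m1 _ m1' e1, hE.df _ m1 _ m1' e1, hE.ds _ m2 _ m2' e2,
      hE.df _ m2 _ m2' e2]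
  · intro x hx
    obtain ⟨m1, m2, -⟩ := hmem x (hSm x hx).1
    have h1 := norm_sub_le (nv W sv fv x.1) (nv W sv fv x.2)
    rw [ctA, norm_smul, Real.norm_of_nonneg (by norm_num)]
    linarith [hnv _ m1, hnv _ m2]
  · exact fun x hx => hb _ (hmem x (hSm x hx).1).1
  · intro x hx x' hx' e1 e2
    rw [hA x hx]
    exact EngP_rel ht hl hy hb' hn
      (k8 x (hSm x hx).1 x' (hSm x' hx').1 ((hSm x hx).2.trans (hSm x' hx').2.symm) e2 e1)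

theorem EngP_prxY (h : IsP s p) (z : Nrm) {n n' : ℕ} (hn : n' ≤ n) {Y : Ω → Fin 2 → ℝ} {e d : ℝ}
    (hb : ∀ ω ∈ s, |Y ω 0| ≤ (2 : ℝ) ^ e) (he : e ≤ d)
    (hc : n + 1 - d ≤ ce s p (qs n fun ω => Y ω 0) (nil Ω)) :
    Prx s p n' d (fun ω => EngP_Y z (Y ω)) fun ω => Y ω 0 / 2 := by
  refine ⟨fun i x _ x' _ e => EngP_floor i z.l (congrFun e 0), fun x hx => ?_, ?_⟩
  · have h1 := hb x hx
    have h2 : (2 : ℝ) ^ e ≤ 2 ^ d := Real.rpow_le_rpow_of_exponent_le one_le_two he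
    rw [abs_div, abs_two]
    linarith [abs_nonneg (Y x 0)]
  · have h1 := EngP_low h (hn.trans (Nat.le_succ n)) fun x => Y x 0 / 2
    have h2 : (qs n.succ fun x => Y x 0 / 2) = qs n fun x => Y x 0 := by
      funext x
      simp only [qs]
      congr 1
      rw [pow_succ]
      ring
    rw [h2] at h1
    push_cast at h1
    linarith

end Aux

/-- Take `c1` from `coreP` with `σ / 2`, `c = θ = c1 / 100`; `prep`, `ctr`. On the atom, with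
`z = W x0.1`, `Y' = ![2 ^ l / 2 * Y* 0, 2 ^ y / 2 * (Y* 1 - b * Y* 0)]`, `a = ctA`, level
`n' = n - w`, `w = ⌈3 c n⌉ + 3`; `Y'` and `Y*` determine each other. Functionals: `atom_low` for
`qs n g`, `n + η n + 5 - ce (atom) (qs n (Y* 0)) nil` and
`ce (atom) Y* nil - ce (atom) (qs n (Y* 0)) nil`. Proxies at level `n'`: `Y* 0 / 2` and the one of
`prep` (a proxy at level `n` is a proxy at every lower level). -/
theorem engP {σ : ℝ} (hσ : 0 < σ) : ∃ c : ℝ, 0 < c ∧ ∀ ε : ℝ, 0 < ε →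
    ∃ η : ℝ, 0 < η ∧ ∃ n0 : ℕ, ∀ n ≥ n0,
    ∀ {Ω α β τ : Type} (s : Finset Ω) (p : Ω → ℝ) (F : Ω → β) (T : Ω → τ) (A : Ω → α)
      (Y : Ω → Fin 2 → ℝ) (g sv fv : Ω → ℝ),
      Eng s p n (η * n) F T A Y g (fun g => ![g, 0]) (fun g => ![0, g]) sv fv →
      (∀ ω ∈ s, |g ω| ≤ 1 ∧ ‖Y ω‖ ≤ (2 : ℝ) ^ (η * n)) →
      ce s p Y F ≤ n + η * n → n - η * n ≤ ce s p (qs n fun ω => Y ω 0) F →
      (∀ ω ∈ s, ms s p (fun ω' => qs n g ω' = qs n g ω ∧ F ω' = F ω) ≤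
        (2 : ℝ) ^ (-(σ * n)) * ms s p (fun ω' => F ω' = F ω)) →
      ∃ b c0 : Ω → ℝ, ce s p (pj b c0) F ≤ ε * n ∧
        (∀ ω ∈ s, |b ω| ≤ (2 : ℝ) ^ (ε * n) ∧ |c0 ω| ≤ (2 : ℝ) ^ (ε * n)) ∧
        1 - ε ≤ ms s p (fun ω => |fv ω - sv ω * b ω - c0 ω| ≤ (2 : ℝ) ^ (-(c * n))) := by
  obtain ⟨c1, hc1, hcore⟩ := coreP (half_pos hσ)
  obtain ⟨c, hc, hcc, hcσ, hc'⟩ : ∃ c : ℝ, 0 < c ∧ 100 * c ≤ c1 ∧ 100 * c ≤ σ ∧ 100 * c ≤ 1 := by
    refine ⟨min (min c1 σ) 1 / 100, by positivity, ?_, ?_, ?_⟩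
    · linarith [min_le_left (min c1 σ) 1, min_le_left c1 σ]
    · linarith [min_le_left (min c1 σ) 1, min_le_right c1 σ]
    · linarith [min_le_right (min c1 σ) 1]
  refine ⟨c / 2, half_pos hc, fun ε hε => ?_⟩
  obtain ⟨ϱ, hϱ, L0, hprep⟩ := prep hc hε hc
  obtain ⟨L2, τ0, η1, hτ0, hη1, n1, hcore⟩ := hcore ϱ hϱ
  obtain ⟨η2, hη2, n2, hprep⟩ := hprep (max L2 L0) (le_max_right _ _) τ0 (η1 / 2) hτ0
    (half_pos hη1)
  obtain ⟨K, hK⟩ : ∃ K : ℝ, K = 40 / ε := ⟨_, rfl⟩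
  have hK0 : 0 < K := by rw [hK]; positivity
  obtain ⟨η, hη, hη2', hηc, hηK⟩ : ∃ η : ℝ, 0 < η ∧ η ≤ η2 ∧ η ≤ c ∧ K * η ≤ c := by
    refine ⟨min η2 (min c (c / K)), by positivity, min_le_left _ _,
      (min_le_right _ _).trans (min_le_left _ _), ?_⟩
    rw [mul_comm, ← le_div_iff₀ hK0]
    exact (min_le_right _ _).trans (min_le_right _ _)
  refine ⟨η, hη, max (max n2 (2 * n1)) ⌈(K + 1) / c⌉₊, ?_⟩
  intro n hn Ω α β τ s p F T A Y g sv fv hE hb hY hY0 hg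
  have hn2 : n2 ≤ n := ((le_max_left _ _).trans (le_max_left _ _)).trans hn
  have hn1 : 2 * n1 ≤ n := ((le_max_right _ _).trans (le_max_left _ _)).trans hn
  have hn0 : (0 : ℝ) ≤ n := Nat.cast_nonneg n
  have hnK : K + 1 ≤ c * n := by
    have h1 : (K + 1) / c ≤ n := Nat.ceil_le.1 ((le_max_right _ _).trans hn)
    rwa [div_le_iff₀ hc, mul_comm] at h1
  have he0 : 0 ≤ η * n := mul_nonneg hη.le hn0
  have hec : η * n ≤ c * n := mul_le_mul_of_nonneg_right hηc hn0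
  have heK : K * (η * n) ≤ c * n := by
    rw [← mul_assoc]; exact mul_le_mul_of_nonneg_right hηK hn0
  obtain ⟨n', hn', hn'0, hn'1, hn'2, hc1n, hσn, hη1n⟩ :=
    EngP_num hc hcc hcσ hc' hη1 hn1 (by linarith)
  rcases hprep n hn2 s p F T A Y g _ _ sv fv (by simp)
    (EngP_mono hE (mul_le_mul_of_nonneg_right hη2' hn0)) with h | ⟨H, W, s2, p2, hH, hW, hs2, hp2,
      hnv, hsel⟩
  · exact h
  exfalso
  obtain ⟨-, k2, k3, -, k5, -⟩ := ctr (by simp) hE he0 H hH s2 p2 hs2 hp2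
  have k3 := k3 0
  have k5 := k5 (qs n g) fun ω _ ω' _ e => by simp only [qs, (Prod.mk.inj e).2]
  have hI : IsP s2 p2 := by rw [hs2, hp2]; exact glue_prob hE.isP _
  have hpos : ∀ x ∈ s2, 0 < p2 x := by
    rw [hs2, hp2]; exact fun x hx => EngP_gpos hE.isP hE.pos _ hx
  have hmem : ∀ x ∈ s2, x.1 ∈ s ∧ x.2 ∈ s ∧ F x.1 = F x.2 ∧ H x.1 = H x.2 := by
    rw [hs2]
    intro x hx
    obtain ⟨h1, h2, h3⟩ := glue_mem.1 hx
    exact ⟨h1, h2, (Prod.mk.inj (Prod.mk.inj h3).1).1, (Prod.mk.inj (Prod.mk.inj h3).1).2⟩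
  obtain ⟨Ys, hYs⟩ : ∃ Ys, Ys = ctY n Y g (fun g => ![g, 0]) (fun g => ![0, g]) sv fv := ⟨_, rfl⟩
  have hYb : ∀ x ∈ s2, |Ys x 0| ≤ (2 : ℝ) ^ (η * n + 2) := fun x hx => by
    rw [hYs]
    exact EngP_bd he0 (hb _ (hmem x hx).1).2 (hE.bd _ (hmem x hx).2.1).1 (hb _ (hmem x hx).1).1
  rw [← hYs] at k2 k3 hsel
  obtain ⟨W2, hW2⟩ : ∃ W2, W2 = ctW F H T := ⟨_, rfl⟩
  have hW2' : ∀ x x', W2 x = W2 x' → F x.1 = F x'.1 ∧ H x.1 = H x'.1 ∧ T x.2 = T x'.2 := by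
    rw [hW2]
    exact fun x x' e => ⟨(Prod.mk.inj (Prod.mk.inj e).1).1, (Prod.mk.inj (Prod.mk.inj e).1).2,
      (Prod.mk.inj e).2⟩
  rw [← hW2] at k2 k3 k5 hsel
  obtain ⟨φ1, a1, a2, a3⟩ := atom_low hI (fun x => qs n g x.1) (fun x => F x.1) W2
    (fun x _ x' _ e => (hW2' x x' e).1) (x := σ * n) fun x hx => by
      have h1 := EngP_ms hE.isP (ctK F H Y g) fun ω' => qs n g ω' = qs n g x.1 ∧ F ω' = F x.1
      have h2 := EngP_ms hE.isP (ctK F H Y g) fun ω' => F ω' = F x.1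
      rw [← hs2, ← hp2] at h1 h2
      rw [h1, h2]
      exact hg _ (hmem x hx).1
  have a4 : ce s2 p2 (fun x => qs n g x.1) (fun x => F x.1) = ce s p (qs n g) F := by
    rw [hs2, hp2]
    exact ce_law (glue_law1 hE.isP (ctK F H Y g)) (qs n g) F
  have b1 : ∀ x ∈ s2, ce (atS s2 W2 x) (atP s2 p2 W2 x) (qs n fun x => Ys x 0) (nil _) ≤
      n + η * n + 4 := fun x hx => by
    have h1 := ce_qs_bd (at_isP hI W2 hx (hpos x hx)) n (fun x => Ys x 0) (nil _)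
      (c := η * n + 2) (by linarith) fun x' hx' => hYb x' (mem_atS.1 hx').1
    linarith
  obtain ⟨x0, hx0, hp0, hφ, hl, hb', hy, hdf, hprx, u, y, Au, Q, htop⟩ := hsel
    ![φ1, fun x => n + η * n + 4 -
        ce (atS s2 W2 x) (atP s2 p2 W2 x) (qs n fun x => Ys x 0) (nil _),
      fun x => ce (atS s2 W2 x) (atP s2 p2 W2 x) Ys (nil _) -
        ce (atS s2 W2 x) (atP s2 p2 W2 x) (qs n fun x => Ys x 0) (nil _)]
    ![2 * (η * n), 6 * (η * n) + 14, 8 * (η * n) + 20]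
    (by
      intro i x hx hp
      fin_cases i
      · exact a1 x hx hp
      · exact sub_nonneg.2 (b1 x hx)
      · exact sub_nonneg.2 (ce_mono (at_isP hI W2 hx hp)
          (fun _ _ _ _ e => by simp only [qs, (Prod.mk.inj e).1]) fun _ _ _ _ _ => rfl))
    (by
      intro i
      fin_cases i
      · change ex s2 p2 φ1 ≤ 2 * (η * n)
        linarith
      · change ex s2 p2 (fun x => n + η * n + 4 -
          ce (atS s2 W2 x) (atP s2 p2 W2 x) (qs n fun x => Ys x 0) (nil _)) ≤ 6 * (η * n) + 14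
        rw [EngP_ex_sub, EngP_ex_const hI, ce_at hI, EngP_nil hI]
        linarith
      · change ex s2 p2 (fun x => ce (atS s2 W2 x) (atP s2 p2 W2 x) Ys (nil _) -
          ce (atS s2 W2 x) (atP s2 p2 W2 x) (qs n fun x => Ys x 0) (nil _)) ≤ 8 * (η * n) + 20
        rw [EngP_ex_sub, ce_at hI, ce_at hI, EngP_nil hI, EngP_nil hI]
        linarith)
  have hKe : ∀ t : ℝ, 40 * t / ε = K * t := fun t => by rw [hK]; ring
  have f1 : φ1 x0 ≤ 40 * (2 * (η * n)) / ε := hφ 0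
  have f2 : n + η * n + 4 - ce (atS s2 W2 x0) (atP s2 p2 W2 x0) (qs n fun x => Ys x 0) (nil _) ≤
    40 * (6 * (η * n) + 14) / ε := hφ 1
  have f3 : ce (atS s2 W2 x0) (atP s2 p2 W2 x0) Ys (nil _) -
      ce (atS s2 W2 x0) (atP s2 p2 W2 x0) (qs n fun x => Ys x 0) (nil _) ≤
    40 * (8 * (η * n) + 20) / ε := hφ 2
  rw [hKe] at f1 f2 f3
  have f4 := a3 x0 hx0 hp0
  have f5 := b1 x0 hx0
  have hS := at_isP hI W2 hx0 hp0
  have hsys := EngP_sys hE he0 (fun ω hω => (hb ω hω).1) hH hW hs2 hp2 hnv hx0 (by positivity)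
    hl hy hb' hn'1
  rw [← hYs, ← hW2] at hsys
  have hYS : ∀ x ∈ atS s2 W2 x0, |Ys x 0| ≤ (2 : ℝ) ^ (η * n + 2) :=
    fun x hx => hYb x (mem_atS.1 hx).1
  obtain ⟨S, hS'⟩ : ∃ S, S = atS s2 W2 x0 := ⟨_, rfl⟩
  obtain ⟨P, hP'⟩ : ∃ P, P = atP s2 p2 W2 x0 := ⟨_, rfl⟩
  rw [← hS'] at hYS
  rw [← hS', ← hP'] at hsys hS f2 f3 f4 f5 hdf hprx htop
  have hdet : Det S (fun x => EngP_Y (W x0.1) (Ys x)) Ys := fun _ _ _ _ e => by simp only [e]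
  refine hcore n' hn'0 S P _ _ _ _ _ u y Au Q _ _ hsys
    ((EngP_dfc hS hdet _ _ _).trans (hdf.trans hη1n)) (EngP_top hS (le_max_left _ _)
      (fun x hx x' hx' e => Prod.ext (hdet x hx x' hx' (Prod.mk.inj e).1) (Prod.mk.inj e).2) htop)
    ?_ ?_ (EngP_prxY hS _ hn' hYS (by linarith) (by linarith)) (EngP_prx hS hn' (by linarith) hprx)
  · have h1 := EngP_low hS hn' fun x => g x.1
    change σ * n - φ1 x0 ≤ ce S P (qs n fun x => g x.1) (nil _) at f4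
    linarith
  · have h1 : ce S P (fun x => EngP_Y (W x0.1) (Ys x)) (nil _) ≤ ce S P Ys (nil _) :=
      ce_mono hS (fun x hx x' hx' e => hdet x hx x' hx' (Prod.mk.inj e).1) fun _ _ _ _ _ => rfl
    linarith

end Vale.Agent.P127S
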