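import Vale.Agent.P127S.Prep
import Vale.Agent.P127S.CoreQ

/-! The second engine. -/

open Real Finset Vale.Agent.P118O

noncomputable section

namespace Vale.Agent.P127S

section aux

variable {Ω α α' β β' γ γ' τ ι υ : Type} {s : Finset Ω} {p : Ω → ℝ}

theorem EngQ_ce_eq (h : IsP s p) {X : Ω → α} {X' : Ω → α'} {Y : Ω → β} {Y' : Ω → β'}
    (h1 : Det s X X') (h2 : Det s X' X) (h3 : Det s Y Y') (h4 : Det s Y' Y) :
    ce s p X Y = ce s p X' Y' := by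
  apply le_antisymm
  · exact ce_mono h (fun ω hω ω' hω' e => h1 ω hω ω' hω' (congrArg Prod.fst e)) h4
  · exact ce_mono h (fun ω hω ω' hω' e => h2 ω hω ω' hω' (congrArg Prod.fst e)) h3

theorem EngQ_det_refl (X : Ω → α) : Det s X X := fun _ _ _ _ e => e

theorem EngQ_det_pj {X : Ω → α} {X' : Ω → α'} {Y : Ω → β} {Y' : Ω → β'}
    (h1 : Det s X X') (h2 : Det s Y Y') : Det s (pj X Y) (pj X' Y') := by
  intro ω hω ω' hω' e
  have e1 : X' ω = X' ω' := congrArg Prod.fst e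
  have e2 : Y' ω = Y' ω' := congrArg Prod.snd e
  show (X ω, Y ω) = (X ω', Y ω')
  rw [h1 ω hω ω' hω' e1, h2 ω hω ω' hω' e2]

theorem EngQ_dfc_eq (h : IsP s p) {Y : Ω → β} {Y' : Ω → β'} {A : Ω → α} {T : Ω → τ}
    {G : Ω → γ} {G' : Ω → γ'} (h1 : Det s Y Y') (h2 : Det s Y' Y) (h3 : Det s G G')
    (h4 : Det s G' G) : dfc s p Y' A T G' = dfc s p Y A T G := by
  unfold dfc
  rw [EngQ_ce_eq h h4 h3 (EngQ_det_refl (nil Ω)) (EngQ_det_refl (nil Ω)),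
    EngQ_ce_eq h h4 h3 (EngQ_det_refl (pj A T)) (EngQ_det_refl (pj A T)),
    EngQ_ce_eq h h2 h1 (EngQ_det_refl (nil Ω)) (EngQ_det_refl (nil Ω)),
    EngQ_ce_eq h h2 h1 (EngQ_det_pj (EngQ_det_refl T) h4) (EngQ_det_pj (EngQ_det_refl T) h3)]

theorem EngQ_top (h : IsP s p) {ϱ τ0 : ℝ} {L2 L3 : ℕ} {Z : Ω → β} {Z' : Ω → β'} {T : Ω → τ}
    {a : Ω → Fin 2 → ℝ} {u : Ω → υ} {y : υ → Fin 2 → ℝ} {Au : Finset υ} {Q : υ → ℝ}
    (ht : Top s p ϱ τ0 L3 Z T a u y Au Q) (hL : L2 ≤ L3) (h1 : Det s Z Z') (h2 : Det s Z' Z) :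
    Top s p ϱ τ0 L2 Z' T a u y Au Q where
  det := ht.det
  mem := ht.mem
  pos := ht.pos
  one := ht.one
  bd := ht.bd
  near := fun ω hω => (ht.near ω hω).trans
    (one_div_le_one_div_of_le (by positivity) (pow_le_pow_right₀ (by norm_num) hL))
  spr := ht.spr
  kl := by
    rw [← EngQ_ce_eq h (EngQ_det_refl u) (EngQ_det_refl u) h1 h2]
    exact ht.kl

theorem EngQ_mono [Fintype ι] {n : ℕ} {e e' : ℝ} {F : Ω → β} {T : Ω → τ} {A : Ω → α}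
    {Y : Ω → ι → ℝ} {G : Ω → γ} {l0 l1 : γ → ι → ℝ} {sv fv : Ω → ℝ}
    (h : Eng s p n e F T A Y G l0 l1 sv fv) (he : e ≤ e') :
    Eng s p n e' F T A Y G l0 l1 sv fv where
  isP := h.isP
  pos := h.pos
  ds := h.ds
  df := h.df
  lat := h.lat
  rel := h.rel
  bd := fun ω hω =>
    ⟨(h.bd ω hω).1.trans (Real.rpow_le_rpow_of_exponent_le (by norm_num) he),
      (h.bd ω hω).2.trans (Real.rpow_le_rpow_of_exponent_le (by norm_num) he)⟩
  h1 := by linarith [h.h1]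
  h2 := by linarith [h.h2]
  h3 := by linarith [h.h3]
  h4 := by linarith [h.h4]

theorem EngQ_cnt {β δ : Type} (X : Ω → α) (f : α → δ) (W : Ω → β) (ω0 ω : Ω) :
    cnt (atS s W ω0) (fun ω => f (X ω)) (nil Ω) (fun _ => True) ω ≤
      cnt s X W (fun _ => True) ω0 := by
  classical
  unfold cnt
  refine le_trans (Finset.card_le_card ?_) (Finset.card_image_le (f := f))
  intro z hz
  obtain ⟨ω', hω', rfl⟩ := Finset.mem_image.1 hz
  have h1 := mem_atS.1 ((@Finset.mem_filter _ _ (_) _ _).1 hω').1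
  exact Finset.mem_image.2 ⟨X ω', Finset.mem_image.2
    ⟨ω', (@Finset.mem_filter _ _ (_) _ _).2 ⟨h1.1, h1.2, trivial⟩, rfl⟩, rfl⟩

theorem EngQ_shift (h : IsP s p) (n w : ℕ) (g : Ω → ℝ) :
    ce s p (qs n g) (nil Ω) ≤ ce s p (qs n fun ω => g ω / 2 ^ w) (nil Ω) + w := by
  have e : qs n g = qs (n + w) fun ω => g ω / 2 ^ w := by
    funext ω
    unfold qs
    congr 1
    rw [pow_add]
    field_simp
  rw [e]
  have h1 := ce_le_add h (qs (n + w) fun ω => g ω / 2 ^ w) (qs n fun ω => g ω / 2 ^ w) (nil Ω)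
  have h2 : ce s p (qs (n + w) fun ω => g ω / 2 ^ w) (pj (qs n fun ω => g ω / 2 ^ w) (nil Ω)) ≤
      ce s p (qs (n + w) fun ω => g ω / 2 ^ w) (qs n fun ω => g ω / 2 ^ w) :=
    ce_mono h (fun ω _ ω' _ e => congrArg Prod.fst e) (fun ω _ ω' _ e => congrArg Prod.fst e)
  have h3 := ce_qs h (Nat.le_add_right n w) (fun ω => g ω / 2 ^ w)
  push_cast at h3
  linarith

theorem EngQ_ex_sub (h : IsP s p) (c : ℝ) (f : Ω → ℝ) :
    ex s p (fun ω => c - f ω) = c - ex s p f := by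
  unfold ex
  simp only [mul_sub, Finset.sum_sub_distrib]
  rw [← Finset.sum_mul, h.2, one_mul]

theorem EngQ_glue_pos (h : IsP s p) (hp : ∀ ω ∈ s, 0 < p ω) (K : Ω → β) {x : Ω × Ω}
    (hx : x ∈ glueS s K s K) : 0 < glueP p s p K x := by
  obtain ⟨h1, h2, _⟩ := glue_mem.1 hx
  unfold glueP
  exact div_pos (mul_pos (hp _ h1) (hp _ h2)) ((hp _ h2).trans_le (le_pr h K h2))

theorem EngQ_at_pos (hp : ∀ ω ∈ s, 0 < p ω) (W : Ω → β) {ω0 : Ω} (h0 : ω0 ∈ s)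
    {ω : Ω} (hω : ω ∈ atS s W ω0) : 0 < atP s p W ω0 ω := by
  classical
  unfold atP rp
  refine div_pos (hp _ (mem_atS.1 hω).1) ?_
  unfold ms
  exact Finset.sum_pos (fun x hx => hp x (Finset.mem_filter.1 hx).1)
    ⟨ω0, Finset.mem_filter.2 ⟨h0, rfl⟩⟩

end aux

/-- the rescaled planar variable -/
def EngQ_G (z : Nrm) (w : ℕ) (G : Fin 2 → ℝ) : Fin 2 → ℝ :=
  ![2 ^ z.y / 2 ^ z.l * (G 0 + z.b * G 1) / 2 ^ w, G 1 / 2 ^ w]

/-- the rescaled target -/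
def EngQ_Y (z : Nrm) (w : ℕ) (Y : Unit → ℝ) : Unit → ℝ := fun i => 2 ^ z.y / 2 ^ (w + 1) * Y i

theorem EngQ_G_inj (z : Nrm) (w : ℕ) : Function.Injective (EngQ_G z w) := by
  intro G G' e
  have e1 : G 1 / 2 ^ w = G' 1 / 2 ^ w := congrFun e 1
  have e0 : 2 ^ z.y / 2 ^ z.l * (G 0 + z.b * G 1) / 2 ^ w =
      2 ^ z.y / 2 ^ z.l * (G' 0 + z.b * G' 1) / 2 ^ w := congrFun e 0
  have hw : (2 : ℝ) ^ w ≠ 0 := by positivity
  have hk : (2 : ℝ) ^ z.y / 2 ^ z.l ≠ 0 := by positivity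
  have f1 : G 1 = G' 1 := (div_left_inj' hw).1 e1
  have f0 : G 0 + z.b * G 1 = G' 0 + z.b * G' 1 := mul_left_cancel₀ hk ((div_left_inj' hw).1 e0)
  funext i
  fin_cases i
  · show G 0 = G' 0
    rw [f1] at f0
    linarith
  · exact f1

theorem EngQ_Y_inj (z : Nrm) (w : ℕ) : Function.Injective (EngQ_Y z w) := by
  intro Y Y' e
  funext i
  have hk : (2 : ℝ) ^ z.y / 2 ^ (w + 1) ≠ 0 := by positivity
  exact mul_left_cancel₀ hk (congrFun e i)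

theorem EngQ_G_bd (z : Nrm) (w : ℕ) (G : Fin 2 → ℝ) {t e : ℝ} (ht : 0 ≤ t) (he : 0 ≤ e)
    (hb : |z.b| ≤ (2 : ℝ) ^ t) (hG : ‖G‖ ≤ (2 : ℝ) ^ e) (hw : z.y + 1 + t + e ≤ w) :
    ‖EngQ_G z w G‖ ≤ 1 := by
  have g0 : |G 0| ≤ (2 : ℝ) ^ e := (norm_le_pi_norm G 0).trans hG
  have g1 : |G 1| ≤ (2 : ℝ) ^ e := (norm_le_pi_norm G 1).trans hG
  have hw2 : (2 : ℝ) ^ z.y * 2 * (2 : ℝ) ^ t * (2 : ℝ) ^ e ≤ 2 ^ w := by
    have : (2 : ℝ) ^ ((z.y : ℝ) + 1 + t + e) ≤ (2 : ℝ) ^ (w : ℝ) :=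
      Real.rpow_le_rpow_of_exponent_le (by norm_num) hw
    rw [Real.rpow_add (by norm_num), Real.rpow_add (by norm_num), Real.rpow_add (by norm_num),
      Real.rpow_natCast, Real.rpow_natCast, Real.rpow_one] at this
    exact this
  have t1 : (1 : ℝ) ≤ (2 : ℝ) ^ t := Real.one_le_rpow (by norm_num) ht
  have e1 : (1 : ℝ) ≤ (2 : ℝ) ^ e := Real.one_le_rpow (by norm_num) he
  have y1 : (1 : ℝ) ≤ (2 : ℝ) ^ z.y := one_le_pow₀ (by norm_num)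
  have l1 : (1 : ℝ) ≤ (2 : ℝ) ^ z.l := one_le_pow₀ (by norm_num)
  have hwp : (0 : ℝ) < 2 ^ w := by positivity
  refine (pi_norm_le_iff_of_nonneg zero_le_one).2 fun i => ?_
  fin_cases i
  · show |2 ^ z.y / 2 ^ z.l * (G 0 + z.b * G 1) / 2 ^ w| ≤ 1
    rw [abs_div, abs_of_pos hwp, div_le_one hwp, abs_mul,
      abs_of_pos (show (0 : ℝ) < 2 ^ z.y / 2 ^ z.l by positivity)]
    have a1 : |G 0 + z.b * G 1| ≤ 2 * (2 : ℝ) ^ t * (2 : ℝ) ^ e := by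
      have := abs_add_le (G 0) (z.b * G 1)
      rw [abs_mul] at this
      have h2 : |z.b| * |G 1| ≤ (2 : ℝ) ^ t * (2 : ℝ) ^ e :=
        mul_le_mul hb g1 (abs_nonneg _) (by positivity)
      nlinarith
    have a2 : (2 : ℝ) ^ z.y / 2 ^ z.l ≤ 2 ^ z.y := div_le_self (by positivity) l1
    calc (2 : ℝ) ^ z.y / 2 ^ z.l * |G 0 + z.b * G 1|
        ≤ 2 ^ z.y * (2 * (2 : ℝ) ^ t * (2 : ℝ) ^ e) :=
          mul_le_mul a2 a1 (abs_nonneg _) (by positivity)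
      _ ≤ 2 ^ w := by linarith
  · show |G 1 / 2 ^ w| ≤ 1
    rw [abs_div, abs_of_pos hwp, div_le_one hwp]
    have : (2 : ℝ) ^ e ≤ (2 : ℝ) ^ z.y * 2 * (2 : ℝ) ^ t * (2 : ℝ) ^ e := by
      have : (1 : ℝ) ≤ (2 : ℝ) ^ z.y * 2 * (2 : ℝ) ^ t := by nlinarith
      nlinarith
    linarith

theorem EngQ_rel (z : Nrm) (w n : ℕ) (hw : z.y + 1 ≤ w) (Y Y' : Unit → ℝ) (G G' : Fin 2 → ℝ)
    (s1 s2 f1 f2 : ℝ)
    (h : ‖Y' - Y - ((s1 - s2) • ((fun _ : Unit => G 0) - fun _ : Unit => G' 0) +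
      (f1 - f2) • ((fun _ : Unit => G 1) - fun _ : Unit => G' 1))‖ ≤ 3 / 2 ^ n) :
    |EngQ_Y z w Y' () - EngQ_Y z w Y () -
      dot2 ((1 / 2 : ℝ) • (z.ap s1 f1 - z.ap s2 f2)) (EngQ_G z w G - EngQ_G z w G')| ≤
      1 / 2 ^ n := by
  have h1 : |Y' () - Y () - ((s1 - s2) * (G 0 - G' 0) + (f1 - f2) * (G 1 - G' 1))| ≤
      3 / 2 ^ n := (norm_le_pi_norm _ ()).trans h
  have e : EngQ_Y z w Y' () - EngQ_Y z w Y () -
      dot2 ((1 / 2 : ℝ) • (z.ap s1 f1 - z.ap s2 f2)) (EngQ_G z w G - EngQ_G z w G') =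
      2 ^ z.y / 2 ^ (w + 1) *
        (Y' () - Y () - ((s1 - s2) * (G 0 - G' 0) + (f1 - f2) * (G 1 - G' 1))) := by
    simp only [EngQ_Y, EngQ_G, dot2, Nrm.ap, Pi.smul_apply, Pi.sub_apply, smul_eq_mul,
      Matrix.cons_val_zero, Matrix.cons_val_one, pow_succ]
    field_simp
    ring
  rw [e, abs_mul, abs_of_pos (show (0 : ℝ) < 2 ^ z.y / 2 ^ (w + 1) by positivity)]
  have h2 : (2 : ℝ) ^ z.y / 2 ^ (w + 1) ≤ 1 / 4 := by
    rw [div_le_div_iff₀ (by positivity) (by norm_num)]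
    have : (2 : ℝ) ^ (z.y + 2) ≤ 2 ^ (w + 1) := pow_le_pow_right₀ (by norm_num) (by omega)
    rw [pow_add] at this
    linarith
  have h3 : (0 : ℝ) < 1 / 2 ^ n := by positivity
  calc (2 : ℝ) ^ z.y / 2 ^ (w + 1) *
        |Y' () - Y () - ((s1 - s2) * (G 0 - G' 0) + (f1 - f2) * (G 1 - G' 1))|
      ≤ 1 / 4 * (3 / 2 ^ n) := mul_le_mul h2 h1 (abs_nonneg _) (by norm_num)
    _ = 3 / 4 * (1 / 2 ^ n) := by ring
    _ ≤ 1 / 2 ^ n := by linarith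

/-- Take `c1` from `coreQ`, `c = θ = c1 / 100`; `prep`, `ctr`. On the atom, with `z = W x0.1` and
`w = ⌈4 c n⌉ + 3`: `G' = (1 / 2 ^ w) • ![2 ^ y / 2 ^ l * (G 0 + b * G 1), G 1]`,
`Y' = (2 ^ y / 2 ^ (w + 1)) • Y*`, `a = ctA`, same level `n`; `G'` and `G`, `Y'` and `Y*` determine
each other. Functional: `n + η n + 2 - ce (atom) (qs n (G 1)) nil`; the proxy for `G'` is
`G' 1` itself. -/
theorem engQ {σ : ℝ} (hσ : 0 < σ) : ∃ c : ℝ, 0 < c ∧ ∀ ε : ℝ, 0 < ε →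
    ∃ η : ℝ, 0 < η ∧ ∃ n0 : ℕ, ∀ n ≥ n0,
    ∀ {Ω α β τ : Type} (s : Finset Ω) (p : Ω → ℝ) (F : Ω → β) (T : Ω → τ) (A : Ω → α)
      (Y : Ω → Unit → ℝ) (G : Ω → Fin 2 → ℝ) (sv fv : Ω → ℝ),
      Eng s p n (η * n) F T A Y G (fun G _ => G 0) (fun G _ => G 1) sv fv →
      (∀ ω ∈ s, ‖G ω‖ ≤ (2 : ℝ) ^ (η * n)) →
      n - η * n ≤ ce s p (qs n fun ω => G ω 1) F →
      (∀ ω ∈ s, (cnt s A (pj F T) (fun _ => True) ω : ℝ) ≤ (2 : ℝ) ^ ((1 - σ) * n)) →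
      ∃ b c0 : Ω → ℝ, ce s p (pj b c0) F ≤ ε * n ∧
        (∀ ω ∈ s, |b ω| ≤ (2 : ℝ) ^ (ε * n) ∧ |c0 ω| ≤ (2 : ℝ) ^ (ε * n)) ∧
        1 - ε ≤ ms s p (fun ω => |fv ω - sv ω * b ω - c0 ω| ≤ (2 : ℝ) ^ (-(c * n))) := by
  obtain ⟨c1, hc1, hcore⟩ := coreQ hσ
  have hc : 0 < c1 / 100 := by positivity
  refine ⟨c1 / 100 / 2, by positivity, fun ε hε => ?_⟩
  obtain ⟨ϱ, hϱ, L0, hprep⟩ := prep hc hε hc
  obtain ⟨L2, τ0, η1, hτ0, hη1, n1, hcore⟩ := hcore ϱ hϱ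
  obtain ⟨η0, hη0, n2, hprep⟩ := hprep (max L2 L0) (le_max_right _ _) τ0 η1 hτ0 hη1
  obtain ⟨n3, hn3⟩ := exists_nat_ge ((2 * (80 / ε + 6)) / c1)
  refine ⟨min η0 (min (c1 / 100) (c1 * ε / 640)), by positivity, max n1 (max n2 n3), ?_⟩
  intro n hn Ω α β τ s p F T A Y G sv fv hE hG hG1 hA
  set η := min η0 (min (c1 / 100) (c1 * ε / 640)) with hηd
  have hη : 0 < η := by positivity
  have hηa : η ≤ η0 := min_le_left _ _
  have hηb : η ≤ c1 / 100 := (min_le_right _ _).trans (min_le_left _ _)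
  have hηc : η ≤ c1 * ε / 640 := (min_le_right _ _).trans (min_le_right _ _)
  have hn1 : n1 ≤ n := (le_max_left _ _).trans hn
  have hn2 : n2 ≤ n := ((le_max_left _ _).trans (le_max_right _ _)).trans hn
  have hn3' : n3 ≤ n := ((le_max_right _ _).trans (le_max_right _ _)).trans hn
  have hn0 : (0 : ℝ) ≤ n := Nat.cast_nonneg n
  have hbig : 2 * (80 / ε + 6) ≤ c1 * n := by
    have : (2 * (80 / ε + 6)) / c1 ≤ n := hn3.trans (Nat.cast_le.2 hn3')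
    rw [div_le_iff₀ hc1] at this
    linarith
  have h80 : 0 < 80 / ε := by positivity
  have hηn : 0 ≤ η * n := by positivity
  have hcard : Fintype.card Unit ≤ 2 := by simp
  rcases hprep n hn2 s p F T A Y G _ _ sv fv hcard
    (EngQ_mono hE (mul_le_mul_of_nonneg_right hηa hn0)) with h | h
  · exact h
  exfalso
  obtain ⟨H, W, s2, p2, hH, hW, hs, hp, hnv, hsel⟩ := h
  obtain ⟨-, -, -, -, c5, -, c7, c8⟩ := ctr hcard hE hηn H hH s2 p2 hs hp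
  have hP2 : IsP s2 p2 := by rw [hs, hp]; exact glue_prob hE.isP _
  have hpos2 : ∀ x ∈ s2, 0 < p2 x := by
    intro x hx
    rw [hs] at hx
    rw [hp]
    exact EngQ_glue_pos hE.isP hE.pos _ hx
  have hmem : ∀ x ∈ s2, x.1 ∈ s ∧ x.2 ∈ s ∧ ctK F H Y G x.1 = ctK F H Y G x.2 := by
    intro x hx
    rw [hs] at hx
    exact glue_mem.1 hx
  set K := ctW F H T with hK
  set V : Ω × Ω → ℤ := qs n fun x => G x.1 1 with hV
  have hφ0 : ∀ x ∈ s2, 0 < p2 x →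
      0 ≤ n + η * n + 2 - ce (atS s2 K x) (atP s2 p2 K x) V (nil _) := by
    intro x hx hpx
    have := ce_qs_bd (at_isP hP2 K hx hpx) n (fun x : Ω × Ω => G x.1 1) (nil _) hηn
      (fun x' hx' => (norm_le_pi_norm (G x'.1) 1).trans (hG _ (hmem _ (mem_atS.1 hx').1).1))
    linarith
  have hφe : ex s2 p2 (fun x => n + η * n + 2 - ce (atS s2 K x) (atP s2 p2 K x) V (nil _)) ≤
      4 * (η * n) + 2 := by
    rw [EngQ_ex_sub hP2, ce_at hP2]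
    have h1 := c5 (qs n fun ω => G ω 1) (fun ω _ ω' _ e => by
      have e2 : G ω = G ω' := congrArg Prod.snd e
      simp only [qs, e2])
    have h2 : ce s2 p2 V K ≤ ce s2 p2 V (pj (nil _) K) :=
      ce_mono hP2 (fun ω _ ω' _ e => congrArg Prod.fst e)
        (fun ω _ ω' _ e => Prod.ext rfl e)
    have h3 : ce s2 p2 (fun x => (qs n fun ω => G ω 1) x.1) K = ce s2 p2 V K := rfl
    linarith
  obtain ⟨x0, hx0, hpx0, hφ, hl, hb, hy, hdfc, hprx, u, y, Au, Q, htop⟩ :=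
    hsel (fun _ x => n + η * n + 2 - ce (atS s2 K x) (atP s2 p2 K x) V (nil _))
      (fun _ => 4 * (η * n) + 2) (fun _ => hφ0) (fun _ => hφe)
  have hφ1 := hφ 0
  set s3 := atS s2 K x0 with hs3
  set p3 := atP s2 p2 K x0 with hp3
  have hP3 : IsP s3 p3 := at_isP hP2 K hx0 hpx0
  set z := W x0.1 with hz
  set w : ℕ := ⌈4 * (c1 / 100) * n⌉₊ + 3 with hwd
  have hw1 : 4 * (c1 / 100) * n + 3 ≤ w := by
    have := Nat.le_ceil (4 * (c1 / 100) * n)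
    rw [hwd]
    push_cast
    linarith
  have hw2 : (w : ℝ) ≤ 4 * (c1 / 100) * n + 4 := by
    have := Nat.ceil_lt_add_one (show 0 ≤ 4 * (c1 / 100) * n by positivity)
    rw [hwd]
    push_cast
    linarith
  have hcn : 0 ≤ c1 / 100 * n := by positivity
  have hηn' : η * n ≤ c1 / 100 * n := mul_le_mul_of_nonneg_right hηb hn0
  have hwy : z.y + 1 ≤ w := by
    have : (z.y : ℝ) + 1 ≤ w := by linarith
    exact_mod_cast this
  have hat : ∀ x ∈ s3, x ∈ s2 ∧ K x = K x0 ∧ W x.1 = z ∧ W x.2 = z ∧ F x.1 = F x0.1 ∧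
      sv x.2 = sv x0.2 ∧ fv x.2 = fv x0.2 := by
    intro x hx
    obtain ⟨hx2, hk⟩ := mem_atS.1 hx
    obtain ⟨m1, m2, m3⟩ := hmem x hx2
    obtain ⟨o1, o2, o3⟩ := hmem x0 hx0
    have k1 : pj F H x.1 = pj F H x0.1 := congrArg Prod.fst hk
    have k2 : T x.2 = T x0.2 := congrArg Prod.snd hk
    have k3 : pj F H x.1 = pj F H x.2 := congrArg Prod.fst m3
    have k4 : pj F H x0.1 = pj F H x0.2 := congrArg Prod.fst o3
    have k5 : F x.2 = F x0.2 := congrArg Prod.fst (k3.symm.trans (k1.trans k4))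
    have k6 : pj F T x.2 = pj F T x0.2 := Prod.ext k5 k2
    exact ⟨hx2, hk, hW _ m1 _ o1 k1, hW _ m2 _ o1 (k3.symm.trans k1), congrArg Prod.fst k1,
      hE.ds _ m2 _ o2 k6, hE.df _ m2 _ o2 k6⟩
  set Ys := ctY n Y G (fun G _ => G 0) (fun G _ => G 1) sv fv with hYs
  have hGb : ∀ x ∈ s3, ‖EngQ_G z w (G x.1)‖ ≤ 1 := fun x hx =>
    EngQ_G_bd z w _ hcn hηn hb (hG _ (hmem _ (hat x hx).1).1) (by linarith)
  have ha : ∀ x ∈ s3, ctA W sv fv x =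
      (1 / 2 : ℝ) • (z.ap (sv x.1) (fv x.1) - z.ap (sv x.2) (fv x.2)) := by
    intro x hx
    obtain ⟨-, -, k1, k2, -⟩ := hat x hx
    simp only [ctA, nv, k1, k2]
  have hsys : SysQ s3 p3 n (fun x => EngQ_Y z w (Ys x)) (fun x => A x.1) (fun x => T x.1)
      (fun x => EngQ_G z w (G x.1)) (ctA W sv fv) :=
    { isP := hP3
      pos := fun x hx => EngQ_at_pos hpos2 K hx0 hx
      det := by
        intro x hx x' hx' e
        obtain ⟨m, -, -, -, k1, k2, k3⟩ := hat x hx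
        obtain ⟨m', -, -, -, k1', k2', k3'⟩ := hat x' hx'
        have k6 : pj F T x.1 = pj F T x'.1 := Prod.ext (k1.trans k1'.symm) e
        rw [ha x hx, ha x' hx', k2, k3, k2', k3', hE.ds _ (hmem _ m).1 _ (hmem _ m').1 k6,
          hE.df _ (hmem _ m).1 _ (hmem _ m').1 k6]
      ha := by
        intro x hx
        obtain ⟨m1, m2, -⟩ := hmem x (hat x hx).1
        unfold ctA
        rw [norm_smul]
        have := norm_sub_le (nv W sv fv x.1) (nv W sv fv x.2)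
        have h1 := hnv _ m1
        have h2 := hnv _ m2
        rw [Real.norm_of_nonneg (by norm_num : (0 : ℝ) ≤ 1 / 2)]
        linarith
      hg := hGb
      rel := by
        intro x hx x' hx' e1 e2
        obtain ⟨m, k, -⟩ := hat x hx
        obtain ⟨m', k', -⟩ := hat x' hx'
        rw [ha x hx]
        exact EngQ_rel z w n hwy _ _ _ _ _ _ _ _ (c8 x m x' m' (k.trans k'.symm) e2 e1) }
  have d1 : Det s3 Ys (fun x => EngQ_Y z w (Ys x)) := fun x _ x' _ e => EngQ_Y_inj z w e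
  have d2 : Det s3 (fun x => EngQ_Y z w (Ys x)) Ys := fun x _ x' _ e => congrArg _ e
  have d3 : Det s3 (fun x : Ω × Ω => G x.1) (fun x => EngQ_G z w (G x.1)) :=
    fun x _ x' _ e => EngQ_G_inj z w e
  have d4 : Det s3 (fun x : Ω × Ω => EngQ_G z w (G x.1)) (fun x => G x.1) :=
    fun x _ x' _ e => congrArg _ e
  refine hcore n hn1 s3 p3 _ _ _ _ _ u y Au Q (fun x => G x.1 1 / 2 ^ w)
    (fun x => (sv x.1 - sv x0.2) / 2) hsys ?_
    (EngQ_top hP3 htop (le_max_left _ _) (EngQ_det_pj d1 d3) (EngQ_det_pj d2 d4)) ?_ ?_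
    (hprx.mono (by nlinarith))
  · rw [EngQ_dfc_eq hP3 d1 d2 d3 d4]
    exact hdfc
  · intro x _
    have h1 := EngQ_cnt (s := s2) Ys (EngQ_Y z w) K x0 x
    have h2 := c7 _ hA x0 hx0
    have h3 : (2 : ℝ) ^ ((1 - σ) * n + 6) ≤ (2 : ℝ) ^ ((1 - σ + c1) * n) :=
      Real.rpow_le_rpow_of_exponent_le (by norm_num) (by nlinarith)
    exact ((Nat.cast_le.2 h1).trans h2).trans h3
  · refine ⟨fun i x _ x' _ e => congrFun e 1, fun x hx => ?_, ?_⟩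
    · have h1 : |G x.1 1 / 2 ^ w| ≤ 1 := (norm_le_pi_norm (EngQ_G z w (G x.1)) 1).trans (hGb x hx)
      exact h1.trans (Real.one_le_rpow (by norm_num) (by positivity))
    · have h1 := EngQ_shift hP3 n w (fun x : Ω × Ω => G x.1 1)
      have h2 : 40 * (4 * (η * n) + 2) / ε ≤ c1 * n / 4 + 80 / ε := by
        have h3 : 160 * (η * n) / ε ≤ c1 * n / 4 := by
          rw [div_le_iff₀ hε]
          have := mul_le_mul_of_nonneg_right hηc hn0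
          nlinarith
        have h4 : 40 * (4 * (η * n) + 2) / ε = 160 * (η * n) / ε + 80 / ε := by ring
        linarith
      have h5 : ce s3 p3 (qs n fun x : Ω × Ω => G x.1 1) (nil _) = ce s3 p3 V (nil _) := rfl
      nlinarith

end Vale.Agent.P127S
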