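import Vale.Agent.P127S.Fin

/-! Anti-concentration and concentration of sums of independent bounded vectors. -/

open Real Finset Vale.Agent.P118O

noncomputable section

namespace Vale.Agent.P127S

/-- the covariance of `ξ` under the weights `Q` on `A` is at least `v ^ 2` in all directions -/
def Spr {α ι : Type} [Fintype ι] (A : Finset α) (Q : α → ℝ) (ξ : α → ι → ℝ) (v : ℝ) : Prop :=
  ∀ η : ι → ℝ, v ^ 2 * ∑ i, η i ^ 2 ≤ vr A Q (fun a => ∑ i, η i * ξ a i)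

theorem ess_gc {ι : Type} [Fintype ι] {b : ℝ} (hb : 0 < b) (y : ι → ℝ) :
    ∫ η : ι → ℝ, Complex.exp (-(b : ℂ) * ∑ i, (η i : ℂ) ^ 2 + ∑ i, (Complex.I * y i) * η i) =
      ((√(π / b) ^ Fintype.card ι * Real.exp (-(∑ i, y i ^ 2) / (4 * b)) : ℝ) : ℂ) := by
  rw [GaussianFourier.integral_cexp_neg_mul_sum_add (by simpa using hb)]
  have h1 : ((π : ℂ) / b) ^ ((Fintype.card ι : ℂ) / 2) =
      ((√(π / b) ^ Fintype.card ι : ℝ) : ℂ) := by
    have h2 : ((π : ℂ) / b) = ((π / b : ℝ) : ℂ) := by push_cast; rfl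
    have h3 : ((Fintype.card ι : ℂ) / 2) = (((Fintype.card ι : ℝ) / 2 : ℝ) : ℂ) := by
      push_cast; rfl
    have h4 : 0 ≤ π / b := by positivity
    rw [h2, h3, ← Complex.ofReal_cpow h4, Real.sqrt_eq_rpow, ← Real.rpow_natCast,
      ← Real.rpow_mul h4]
    congr 2
    ring
  have h5 : ∑ i, (Complex.I * y i) ^ 2 = -∑ i, (y i : ℂ) ^ 2 := by
    rw [← Finset.sum_neg_distrib]
    refine Finset.sum_congr rfl fun i _ => ?_
    rw [mul_pow, Complex.I_sq]
    ring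
  rw [h1, h5]
  push_cast
  rfl

theorem ess_gr {ι : Type} [Fintype ι] {b : ℝ} (hb : 0 < b) :
    MeasureTheory.Integrable (fun η : ι → ℝ => Real.exp (-b * ∑ i, η i ^ 2)) ∧
      ∫ η : ι → ℝ, Real.exp (-b * ∑ i, η i ^ 2) = √(π / b) ^ Fintype.card ι := by
  have h : (fun η : ι → ℝ => Real.exp (-b * ∑ i, η i ^ 2)) =
      fun η => ∏ i, Real.exp (-b * η i ^ 2) := by
    funext η
    rw [Finset.mul_sum, Real.exp_sum]
  rw [h]
  refine ⟨MeasureTheory.Integrable.fintype_prod (f := fun _ t => Real.exp (-b * t ^ 2))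
    fun _ => integrable_exp_neg_mul_sq hb, ?_⟩
  rw [MeasureTheory.integral_fintype_prod_volume_eq_pow (fun t : ℝ => Real.exp (-b * t ^ 2)),
    integral_gaussian]

theorem ess_four {ι υ : Type} [Fintype ι] {b : ℝ} (hb : 0 < b) (U : Finset υ) (q : υ → ℝ)
    (y : υ → ι → ℝ) (g : (ι → ℝ) → ℝ) (hg : MeasureTheory.Integrable g)
    (h : ∀ η : ι → ℝ, ‖∑ u ∈ U, (q u : ℂ) * Complex.exp (∑ i, (Complex.I * y u i) * η i)‖ *
      Real.exp (-b * ∑ i, η i ^ 2) ≤ g η) :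
    √(π / b) ^ Fintype.card ι * ∑ u ∈ U, q u * Real.exp (-(∑ i, y u i ^ 2) / (4 * b)) ≤
      ∫ η, g η := by
  have h1 : ((√(π / b) ^ Fintype.card ι *
      ∑ u ∈ U, q u * Real.exp (-(∑ i, y u i ^ 2) / (4 * b)) : ℝ) : ℂ) =
      ∫ η : ι → ℝ, ∑ u ∈ U, (q u : ℂ) *
        Complex.exp (-(b : ℂ) * ∑ i, (η i : ℂ) ^ 2 + ∑ i, (Complex.I * y u i) * η i) := by
    rw [MeasureTheory.integral_finsetSum _ fun u _ =>
      (GaussianFourier.integrable_cexp_neg_mul_sum_add (by simpa using hb) _).const_mul _,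
      Finset.mul_sum, Complex.ofReal_sum]
    refine Finset.sum_congr rfl fun u _ => ?_
    rw [MeasureTheory.integral_const_mul, ess_gc hb]
    push_cast
    ring
  have h2 := congrArg norm h1
  rw [Complex.norm_real] at h2
  refine (le_abs_self _).trans (le_trans (le_of_eq h2) ?_)
  refine MeasureTheory.norm_integral_le_of_norm_le hg (Filter.Eventually.of_forall fun η => ?_)
  refine le_trans (le_of_eq ?_) (h η)
  have h3 : Complex.exp (-(b : ℂ) * ∑ i, (η i : ℂ) ^ 2) =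
      ((Real.exp (-b * ∑ i, η i ^ 2) : ℝ) : ℂ) := by
    push_cast
    rfl
  simp only [Complex.exp_add, h3]
  rw [← Real.norm_of_nonneg (Real.exp_pos (-b * ∑ i, η i ^ 2)).le, ← Complex.norm_real,
    ← norm_mul, Finset.sum_mul]
  congr 1
  refine Finset.sum_congr rfl fun u _ => ?_
  rw [Complex.norm_real, Real.norm_of_nonneg (Real.exp_pos _).le]
  ring

theorem ess_ind {υ : Type} (U : Finset υ) (E : υ → Prop) [DecidablePred E] (q F : υ → ℝ)
    (h0 : ∀ u ∈ U, 0 ≤ F u) (h1 : ∀ u ∈ U, E u → q u ≤ F u) :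
    ∑ u ∈ U.filter E, q u ≤ ∑ u ∈ U, F u :=
  le_trans (Finset.sum_le_sum fun u hu => h1 u (Finset.mem_filter.1 hu).1 (Finset.mem_filter.1 hu).2)
    (Finset.sum_le_sum_of_subset_of_nonneg (Finset.filter_subset _ _) fun u hu _ => h0 u hu)

theorem ess_vr {α : Type} {A : Finset α} {Q : α → ℝ} (hQ : IsP A Q) (f : α → ℝ) :
    vr A Q f = ∑ a ∈ A, Q a * f a ^ 2 - (∑ a ∈ A, Q a * f a) ^ 2 := by
  unfold vr ex
  have h : ∀ a ∈ A, Q a * (f a - ∑ a ∈ A, Q a * f a) ^ 2 =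
      Q a * f a ^ 2 - 2 * (∑ a ∈ A, Q a * f a) * (Q a * f a) + (∑ a ∈ A, Q a * f a) ^ 2 * Q a :=
    fun a _ => by ring
  rw [Finset.sum_congr rfl h, Finset.sum_add_distrib, Finset.sum_sub_distrib, ← Finset.mul_sum,
    ← Finset.mul_sum, hQ.2]
  ring

theorem ess_phi1 {α : Type} {A : Finset α} {Q : α → ℝ} (hQ : IsP A Q) (f : α → ℝ) :
    ‖∑ a ∈ A, (Q a : ℂ) * Complex.exp (Complex.I * f a)‖ ≤ 1 := by
  refine (norm_sum_le _ _).trans (le_of_eq ?_)
  rw [← hQ.2]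
  refine Finset.sum_congr rfl fun a ha => ?_
  rw [norm_mul, Complex.norm_exp_I_mul_ofReal, mul_one, Complex.norm_real,
    Real.norm_of_nonneg (hQ.1 a ha)]

theorem ess_phi {α : Type} {A : Finset α} {Q : α → ℝ} (hQ : IsP A Q) (f : α → ℝ)
    (hf : ∀ a ∈ A, ∀ a' ∈ A, |f a - f a'| ≤ π) :
    ‖∑ a ∈ A, (Q a : ℂ) * Complex.exp (Complex.I * f a)‖ ≤ Real.exp (-(2 / π ^ 2) * vr A Q f) := by
  have h1 : ∑ a ∈ A, (Q a : ℂ) * Complex.exp (Complex.I * f a) =
      ((∑ a ∈ A, Q a * Real.cos (f a) : ℝ) : ℂ) +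
        ((∑ a ∈ A, Q a * Real.sin (f a) : ℝ) : ℂ) * Complex.I := by
    rw [Complex.ofReal_sum, Complex.ofReal_sum, Finset.sum_mul, ← Finset.sum_add_distrib]
    refine Finset.sum_congr rfl fun a _ => ?_
    rw [mul_comm Complex.I, Complex.exp_mul_I]
    push_cast
    ring
  have h2 : (∑ a ∈ A, Q a * Real.cos (f a)) ^ 2 + (∑ a ∈ A, Q a * Real.sin (f a)) ^ 2 =
      ∑ a ∈ A, ∑ a' ∈ A, Q a * Q a' * Real.cos (f a - f a') := by
    rw [sq, sq, Finset.sum_mul_sum, Finset.sum_mul_sum, ← Finset.sum_add_distrib]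
    refine Finset.sum_congr rfl fun a _ => ?_
    rw [← Finset.sum_add_distrib]
    refine Finset.sum_congr rfl fun a' _ => ?_
    rw [Real.cos_sub]
    ring
  have h3 : ∑ a ∈ A, ∑ a' ∈ A, Q a * Q a' * (1 - 2 / π ^ 2 * (f a - f a') ^ 2) =
      1 - 4 / π ^ 2 * vr A Q f := by
    have h4 : ∀ a ∈ A, ∑ a' ∈ A, Q a * Q a' * (1 - 2 / π ^ 2 * (f a - f a') ^ 2) =
        Q a - 2 / π ^ 2 * (Q a * f a ^ 2) + 4 / π ^ 2 * (∑ a' ∈ A, Q a' * f a') * (Q a * f a) -
          2 / π ^ 2 * (∑ a' ∈ A, Q a' * f a' ^ 2) * Q a := by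
      intro a _
      have h5 : ∀ a' ∈ A, Q a * Q a' * (1 - 2 / π ^ 2 * (f a - f a') ^ 2) =
          (Q a - 2 / π ^ 2 * (Q a * f a ^ 2)) * Q a' + 4 / π ^ 2 * (Q a * f a) * (Q a' * f a') -
            2 / π ^ 2 * Q a * (Q a' * f a' ^ 2) := fun a' _ => by ring
      rw [Finset.sum_congr rfl h5, Finset.sum_sub_distrib, Finset.sum_add_distrib,
        ← Finset.mul_sum, ← Finset.mul_sum, ← Finset.mul_sum, hQ.2]
      ring
    rw [Finset.sum_congr rfl h4, Finset.sum_sub_distrib, Finset.sum_add_distrib,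
      Finset.sum_sub_distrib, ← Finset.mul_sum, ← Finset.mul_sum, ← Finset.mul_sum, hQ.2,
      ess_vr hQ]
    ring
  have h6 : ∑ a ∈ A, ∑ a' ∈ A, Q a * Q a' * Real.cos (f a - f a') ≤ 1 - 4 / π ^ 2 * vr A Q f := by
    rw [← h3]
    exact Finset.sum_le_sum fun a ha => Finset.sum_le_sum fun a' ha' =>
      mul_le_mul_of_nonneg_left (Real.cos_le_one_sub_mul_cos_sq (hf a ha a' ha'))
        (mul_nonneg (hQ.1 a ha) (hQ.1 a' ha'))
  rw [h1, Complex.norm_add_mul_I]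
  refine Real.sqrt_le_iff.2 ⟨(Real.exp_pos _).le, ?_⟩
  rw [h2, ← Real.exp_nat_mul]
  refine h6.trans (le_trans (le_of_eq ?_) (Real.add_one_le_exp _))
  push_cast
  ring

theorem ess_dot {ι : Type} [Fintype ι] (hι : Fintype.card ι ≤ 2) (η w : ι → ℝ) {ρ : ℝ}
    (hw : ‖w‖ ≤ ρ) : (∑ i, η i * w i) ^ 2 ≤ (∑ i, η i ^ 2) * (2 * ρ ^ 2) := by
  refine (Finset.sum_mul_sq_le_sq_mul_sq _ _ _).trans
    (mul_le_mul_of_nonneg_left ?_ (Finset.sum_nonneg fun i _ => sq_nonneg _))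
  have h1 : ∑ i, w i ^ 2 ≤ ∑ _i : ι, ρ ^ 2 := Finset.sum_le_sum fun i _ => by
    rw [← sq_abs]
    exact pow_le_pow_left₀ (abs_nonneg _) ((norm_le_pi_norm w i).trans hw) 2
  rw [Finset.sum_const, Finset.card_univ, nsmul_eq_mul] at h1
  have h2 : (Fintype.card ι : ℝ) ≤ 2 := by exact_mod_cast hι
  exact h1.trans (mul_le_mul_of_nonneg_right h2 (sq_nonneg _))

open Classical in
theorem ess_char {α ι κ : Type} [Fintype ι] [Fintype κ] (hι : Fintype.card ι ≤ 2)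
    (A : κ → Finset α) (Q : κ → α → ℝ) (hQ : ∀ r, IsP (A r) (Q r)) (ξ : κ → α → ι → ℝ)
    {ρ v lam : ℝ} (hρ : 0 < ρ) (hl : 0 ≤ lam) (hξ : ∀ r, ∀ a ∈ A r, ‖ξ r a‖ ≤ ρ)
    (act : Finset κ) (hact : ∀ r ∈ act, Spr (A r) (Q r) (ξ r) v) (z η : ι → ℝ) :
    ‖∑ u ∈ Fintype.piFinset A, ((∏ r, Q r (u r) : ℝ) : ℂ) *
        Complex.exp (∑ i, (Complex.I * ((∑ r, ξ r (u r) - z) i : ℝ)) * η i)‖ ≤
      Real.exp (-(2 / π ^ 2 * v ^ 2 * act.card) * ∑ i, η i ^ 2) +
        Real.exp (lam * (∑ i, η i ^ 2 - π ^ 2 / (8 * ρ ^ 2))) := by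
  have h1 : ∑ u ∈ Fintype.piFinset A, ((∏ r, Q r (u r) : ℝ) : ℂ) *
        Complex.exp (∑ i, (Complex.I * ((∑ r, ξ r (u r) - z) i : ℝ)) * η i) =
      (∏ r, ∑ a ∈ A r, (Q r a : ℂ) * Complex.exp (Complex.I * (∑ i, η i * ξ r a i : ℝ))) *
        Complex.exp (Complex.I * (-∑ i, η i * z i : ℝ)) := by
    rw [Finset.prod_univ_sum, Finset.sum_mul]
    refine Finset.sum_congr rfl fun u _ => ?_
    rw [Finset.prod_mul_distrib, ← Complex.exp_sum, mul_assoc, ← Complex.exp_add,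
      Complex.ofReal_prod]
    congr 2
    have h2 : ∑ i, (∑ r, ξ r (u r) - z) i * η i =
        ∑ r, ∑ i, η i * ξ r (u r) i + -∑ i, η i * z i := by
      rw [Finset.sum_comm, ← Finset.sum_neg_distrib, ← Finset.sum_add_distrib]
      refine Finset.sum_congr rfl fun i _ => ?_
      rw [Pi.sub_apply, Finset.sum_apply, ← Finset.mul_sum]
      ring
    rw [← Finset.mul_sum, ← mul_add, ← Complex.ofReal_sum, ← Complex.ofReal_add, ← h2,
      Complex.ofReal_sum, Finset.mul_sum]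
    refine Finset.sum_congr rfl fun i _ => ?_
    push_cast
    ring
  rw [h1, norm_mul, Complex.norm_exp_I_mul_ofReal, mul_one, norm_prod]
  by_cases hη : ∑ i, η i ^ 2 ≤ π ^ 2 / (8 * ρ ^ 2)
  · refine le_trans ?_ (le_add_of_nonneg_right (Real.exp_pos _).le)
    have h3 : ∀ r, ‖∑ a ∈ A r, (Q r a : ℂ) * Complex.exp (Complex.I * (∑ i, η i * ξ r a i : ℝ))‖ ≤
        if r ∈ act then Real.exp (-(2 / π ^ 2 * v ^ 2) * ∑ i, η i ^ 2) else 1 := by
      intro r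
      split_ifs with hr
      · refine (ess_phi (hQ r) (fun a => ∑ i, η i * ξ r a i) fun a ha a' ha' => ?_).trans ?_
        · have h4 : ∑ i, η i * ξ r a i - ∑ i, η i * ξ r a' i = ∑ i, η i * (ξ r a - ξ r a') i := by
            rw [← Finset.sum_sub_distrib]
            refine Finset.sum_congr rfl fun i _ => ?_
            rw [Pi.sub_apply]
            ring
          have h5 : ‖ξ r a - ξ r a'‖ ≤ 2 * ρ := by
            linarith [norm_sub_le (ξ r a) (ξ r a'), hξ r a ha, hξ r a' ha']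
          have h6 := ess_dot hι η _ h5
          rw [h4]
          refine abs_le_of_sq_le_sq' ?_ Real.pi_pos.le |> abs_le.2
          rw [le_div_iff₀ (by positivity)] at hη
          linarith
        · refine Real.exp_le_exp.2 ?_
          have h7 := mul_le_mul_of_nonneg_left (hact r hr η) (show 0 ≤ 2 / π ^ 2 by positivity)
          linarith
      · exact ess_phi1 (hQ r) _
    refine (Finset.prod_le_prod (fun r _ => norm_nonneg _) fun r _ => h3 r).trans (le_of_eq ?_)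
    rw [Finset.prod_ite_mem, Finset.univ_inter, Finset.prod_const, ← Real.exp_nat_mul]
    congr 1
    ring
  · refine le_trans ?_ (le_add_of_nonneg_left (Real.exp_pos _).le)
    refine (Finset.prod_le_one (fun r _ => norm_nonneg _) fun r _ => ess_phi1 (hQ r) _).trans ?_
    exact Real.one_le_exp (mul_nonneg hl (by linarith [not_le.1 hη]))

open Classical in
theorem ess_prod {α κ : Type} [Fintype κ] (A : κ → Finset α) (Q h : κ → α → ℝ) :
    ∑ u ∈ Fintype.piFinset A, (∏ r, Q r (u r)) * ∏ r, h r (u r) =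
      ∏ r, ∑ a ∈ A r, Q r a * h r a := by
  rw [Finset.prod_univ_sum]
  exact Finset.sum_congr rfl fun u _ => Finset.prod_mul_distrib.symm

open Classical in
theorem ess_sq {α κ : Type} [Fintype κ] (A : κ → Finset α) (Q : κ → α → ℝ)
    (hQ : ∀ r, IsP (A r) (Q r)) (g : κ → α → ℝ) (hg : ∀ r, ∑ a ∈ A r, Q r a * g r a = 0) :
    ∑ u ∈ Fintype.piFinset A, (∏ r, Q r (u r)) * (∑ r, g r (u r)) ^ 2 =
      ∑ r, ∑ a ∈ A r, Q r a * g r a ^ 2 := by
  have h1 : ∀ r r', ∑ u ∈ Fintype.piFinset A, (∏ k, Q k (u k)) * (g r (u r) * g r' (u r')) =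
      if r' = r then ∑ a ∈ A r, Q r a * g r a ^ 2 else 0 := by
    intro r r'
    have h2 := ess_prod A Q fun k a => (if k = r then g k a else 1) * (if k = r' then g k a else 1)
    simp only [Finset.prod_mul_distrib, Finset.prod_ite_eq', Finset.mem_univ, if_true] at h2
    rw [h2]
    split_ifs with h
    · subst h
      rw [Finset.prod_eq_single r']
      · simp only [if_true, sq]
      · intro k _ hk
        simp only [if_neg hk, mul_one, (hQ k).2]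
      · intro h
        exact absurd (Finset.mem_univ _) h
    · refine Finset.prod_eq_zero (Finset.mem_univ r) ?_
      simp only [if_true, if_neg (Ne.symm h), mul_one, hg r]
  have h3 : ∀ u ∈ Fintype.piFinset A, (∏ r, Q r (u r)) * (∑ r, g r (u r)) ^ 2 =
      ∑ r, ∑ r', (∏ k, Q k (u k)) * (g r (u r) * g r' (u r')) := by
    intro u _
    rw [sq, Finset.sum_mul_sum, Finset.mul_sum]
    exact Finset.sum_congr rfl fun r _ => Finset.mul_sum _ _ _
  rw [Finset.sum_congr rfl h3, Finset.sum_comm]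
  refine Finset.sum_congr rfl fun r _ => ?_
  rw [Finset.sum_comm]
  simp only [h1, Finset.sum_ite_eq', Finset.mem_univ, if_true]

open Classical in
/-- Esseen type bound. The indicator of the ball is at most `e * exp (-|x - z| ^ 2 / (2 R ^ 2))`,
which is the mean of `cos (η · (x - z))` for a Gaussian `η` of variance `1 / R ^ 2`
(`Measure.pi` of `gaussianReal`, `charFun_gaussianReal` or `integral_cexp_neg_mul_add_const`).
The characteristic function of the sum is a product; `|φ_r η| ^ 2 = E cos (η · (ξ - ξ'))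
≤ 1 - 4 Var / π ^ 2` when `2 ρ |η|₁ ≤ π` (`Real.cos_le_one_sub_mul_cos_sq` or
`Real.cos_quadratic_upper_bound`). So the mass is at most
`e * ((1 + 4 K' v ^ 2 / (π R) ^ 2) ^ (-d / 2) + Gaussian tail)`. -/
theorem esseen {α ι κ : Type} [Fintype ι] [Fintype κ] (hι : Fintype.card ι ≤ 2)
    (A : κ → Finset α) (Q : κ → α → ℝ) (hQ : ∀ r, IsP (A r) (Q r)) (ξ : κ → α → ι → ℝ)
    {ρ v R : ℝ} (hρ : 0 < ρ) (hv : 0 < v) (hR : 0 < R) (hξ : ∀ r, ∀ a ∈ A r, ‖ξ r a‖ ≤ ρ)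
    (act : Finset κ) (hact : ∀ r ∈ act, Spr (A r) (Q r) (ξ r) v) (hne : act.Nonempty)
    (z : ι → ℝ) :
    ∑ u ∈ (Fintype.piFinset A).filter (fun u => ‖∑ r, ξ r (u r) - z‖ ≤ R), ∏ r, Q r (u r) ≤
      3 * (2 * R / (v * Real.sqrt act.card)) ^ Fintype.card ι +
        12 * Real.exp (-(R / ρ) ^ 2 / 4) := by
  have hb : 0 < R ^ 2 / 2 := by positivity
  have hK : (0 : ℝ) < act.card := by exact_mod_cast hne.card_pos
  have hq : ∀ u ∈ Fintype.piFinset A, 0 ≤ ∏ r, Q r (u r) := fun u hu =>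
    Finset.prod_nonneg fun r _ => (hQ r).1 _ (Fintype.mem_piFinset.1 hu r)
  obtain ⟨a, ha⟩ : ∃ a : ℝ, a = 2 / π ^ 2 * v ^ 2 * act.card := ⟨_, rfl⟩
  have ha0 : 0 < a := by rw [ha]; positivity
  obtain ⟨c, hc⟩ : ∃ c : ℝ, c = Real.exp (-(R ^ 2 / 4 * (π ^ 2 / (8 * ρ ^ 2)))) := ⟨_, rfl⟩
  have hc0 : 0 ≤ c := by rw [hc]; positivity
  obtain ⟨i1, i2⟩ := ess_gr (ι := ι) (b := a + R ^ 2 / 2) (by positivity)
  obtain ⟨i3, i4⟩ := ess_gr (ι := ι) (b := R ^ 2 / 4) (by positivity)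
  have h1 := ess_four hb (Fintype.piFinset A) (fun u => ∏ r, Q r (u r))
    (fun u => ∑ r, ξ r (u r) - z)
    (fun η => Real.exp (-(a + R ^ 2 / 2) * ∑ i, η i ^ 2) +
      c * Real.exp (-(R ^ 2 / 4) * ∑ i, η i ^ 2)) (i1.add (i3.const_mul c)) (fun η => by
      refine (mul_le_mul_of_nonneg_right (ess_char hι A Q hQ ξ hρ
        (show 0 ≤ R ^ 2 / 4 by positivity) hξ act hact z η) (Real.exp_pos _).le).trans
        (le_of_eq ?_)
      rw [add_mul, hc, ← Real.exp_add, ← Real.exp_add, ← Real.exp_add, ← ha]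
      congr 2 <;> ring)
  rw [MeasureTheory.integral_add i1 (i3.const_mul c), MeasureTheory.integral_const_mul, i2,
    i4] at h1
  have hZ : 0 < √(π / (R ^ 2 / 2)) := Real.sqrt_pos.2 (by positivity)
  have h2 : √(π / (a + R ^ 2 / 2)) ≤ √(π / (R ^ 2 / 2)) * (2 * R / (v * √act.card)) := by
    refine Real.sqrt_le_iff.2 ⟨by positivity, ?_⟩
    rw [mul_pow, Real.sq_sqrt (by positivity), div_pow, mul_pow v, Real.sq_sqrt hK.le]
    have h3 : π / (R ^ 2 / 2) * ((2 * R) ^ 2 / (v ^ 2 * act.card)) = π / (v ^ 2 * act.card / 8) := by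
      field_simp
      ring
    rw [h3]
    refine div_le_div_of_nonneg_left Real.pi_pos.le (by positivity) ?_
    have h4 : 1 / 8 ≤ 2 / π ^ 2 := by
      rw [le_div_iff₀ (by positivity)]
      nlinarith [Real.pi_le_four, Real.pi_pos]
    have h5 := mul_le_mul_of_nonneg_right h4 (show 0 ≤ v ^ 2 * act.card by positivity)
    rw [ha]
    nlinarith
  have h6 : √(π / (R ^ 2 / 4)) ^ Fintype.card ι ≤ √(π / (R ^ 2 / 2)) ^ Fintype.card ι * 2 := by
    have h7 : √(π / (R ^ 2 / 4)) = √(π / (R ^ 2 / 2)) * √2 := by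
      rw [← Real.sqrt_mul (by positivity)]
      congr 1
      field_simp
      ring
    rw [h7, mul_pow]
    refine mul_le_mul_of_nonneg_left ?_ (by positivity)
    refine (pow_le_pow_right₀ (Real.one_le_sqrt.2 one_le_two) hι).trans ?_
    rw [Real.sq_sqrt zero_le_two]
  have h8 : c ≤ Real.exp (-(R / ρ) ^ 2 / 4) := by
    rw [hc]
    refine Real.exp_le_exp.2 ?_
    have h9 : R ^ 2 / 4 * (π ^ 2 / (8 * ρ ^ 2)) = (R / ρ) ^ 2 / 4 * (π ^ 2 / 8) := by
      field_simp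
    have h10 : 1 ≤ π ^ 2 / 8 := by nlinarith [Real.pi_gt_three]
    rw [h9]
    nlinarith [sq_nonneg (R / ρ)]
  have h11 : ∑ u ∈ Fintype.piFinset A, (∏ r, Q r (u r)) *
      Real.exp (-(∑ i, (∑ r, ξ r (u r) - z) i ^ 2) / (4 * (R ^ 2 / 2))) ≤
      (2 * R / (v * √act.card)) ^ Fintype.card ι + 2 * Real.exp (-(R / ρ) ^ 2 / 4) := by
    refine le_of_mul_le_mul_left (h1.trans ?_) (pow_pos hZ (Fintype.card ι))
    have h12 := pow_le_pow_left₀ (Real.sqrt_nonneg _) h2 (Fintype.card ι)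
    rw [mul_pow] at h12
    have h13 := mul_le_mul h8 h6 (by positivity) (Real.exp_pos _).le
    linarith
  have h14 : ∑ u ∈ (Fintype.piFinset A).filter (fun u => ‖∑ r, ξ r (u r) - z‖ ≤ R),
      ∏ r, Q r (u r) ≤ ∑ u ∈ Fintype.piFinset A, 3 * ((∏ r, Q r (u r)) *
        Real.exp (-(∑ i, (∑ r, ξ r (u r) - z) i ^ 2) / (4 * (R ^ 2 / 2)))) := by
    refine ess_ind _ _ _ _ (fun u hu =>
      mul_nonneg (by norm_num) (mul_nonneg (hq u hu) (Real.exp_pos _).le)) fun u hu1 hu2 => ?_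
    have h15 : ∑ i, (∑ r, ξ r (u r) - z) i ^ 2 ≤ ∑ _i : ι, R ^ 2 := Finset.sum_le_sum fun i _ => by
      rw [← sq_abs]
      exact pow_le_pow_left₀ (abs_nonneg _) ((norm_le_pi_norm _ i).trans hu2) 2
    rw [Finset.sum_const, Finset.card_univ, nsmul_eq_mul] at h15
    have h16 : (Fintype.card ι : ℝ) ≤ 2 := by exact_mod_cast hι
    have h17 : -1 ≤ -(∑ i, (∑ r, ξ r (u r) - z) i ^ 2) / (4 * (R ^ 2 / 2)) := by
      rw [le_div_iff₀ (by positivity)]
      nlinarith [sq_nonneg R]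
    have h18 : 1 ≤ 3 * Real.exp (-1) := by
      rw [Real.exp_neg, ← div_eq_mul_inv, le_div_iff₀ (Real.exp_pos _)]
      linarith [Real.exp_one_lt_d9]
    have h19 := h18.trans (mul_le_mul_of_nonneg_left (Real.exp_le_exp.2 h17) (by norm_num))
    have h20 := mul_le_mul_of_nonneg_left h19 (hq u hu1)
    rw [mul_one, mul_left_comm] at h20
    exact h20
  rw [← Finset.mul_sum] at h14
  linarith [Real.exp_pos (-(R / ρ) ^ 2 / 4)]

open Classical in
/-- Chebyshev inequality for a product law -/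
theorem cheb {α ι κ : Type} [Fintype ι] [Fintype κ]
    (A : κ → Finset α) (Q : κ → α → ℝ) (hQ : ∀ r, IsP (A r) (Q r)) (ξ : κ → α → ι → ℝ)
    {ρ R : ℝ} (hR : 0 < R) (hξ : ∀ r, ∀ a ∈ A r, ‖ξ r a‖ ≤ ρ) :
    ∑ u ∈ (Fintype.piFinset A).filter
        (fun u => R < ‖∑ r, ξ r (u r) - ∑ r, ∑ a ∈ A r, Q r a • ξ r a‖), ∏ r, Q r (u r) ≤
      Fintype.card ι * Fintype.card κ * ρ ^ 2 / R ^ 2 := by
  have hq : ∀ u ∈ Fintype.piFinset A, 0 ≤ ∏ r, Q r (u r) := fun u hu =>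
    Finset.prod_nonneg fun r _ => (hQ r).1 _ (Fintype.mem_piFinset.1 hu r)
  obtain ⟨g, hg⟩ : ∃ g : ι → κ → α → ℝ,
      g = fun i r a => ξ r a i - ∑ a' ∈ A r, Q r a' * ξ r a' i := ⟨_, rfl⟩
  have h1 : ∀ i r, ∑ a ∈ A r, Q r a * g i r a = 0 := by
    intro i r
    simp only [hg, mul_sub, Finset.sum_sub_distrib]
    rw [← Finset.sum_mul, (hQ r).2, one_mul, sub_self]
  have h2 : ∀ i r, ∑ a ∈ A r, Q r a * g i r a ^ 2 ≤ ρ ^ 2 := by
    intro i r
    have h3 := ess_vr (hQ r) fun a => ξ r a i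
    have h4 : ∑ a ∈ A r, Q r a * ξ r a i ^ 2 ≤ ∑ a ∈ A r, Q r a * ρ ^ 2 :=
      Finset.sum_le_sum fun a ha => mul_le_mul_of_nonneg_left (by
        rw [← sq_abs]
        exact pow_le_pow_left₀ (abs_nonneg _) ((norm_le_pi_norm _ i).trans (hξ r a ha)) 2)
        ((hQ r).1 a ha)
    rw [← Finset.sum_mul, (hQ r).2, one_mul] at h4
    simp only [vr, ex] at h3
    simp only [hg]
    linarith [sq_nonneg (∑ a ∈ A r, Q r a * ξ r a i)]
  have h5 : ∑ u ∈ Fintype.piFinset A, (∏ r, Q r (u r)) * ∑ i, (∑ r, g i r (u r)) ^ 2 ≤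
      Fintype.card ι * Fintype.card κ * ρ ^ 2 := by
    simp only [Finset.mul_sum]
    rw [Finset.sum_comm]
    have h6 : ∀ i, ∑ u ∈ Fintype.piFinset A, (∏ r, Q r (u r)) * (∑ r, g i r (u r)) ^ 2 ≤
        Fintype.card κ * ρ ^ 2 := by
      intro i
      rw [ess_sq A Q hQ (g i) (h1 i)]
      refine (Finset.sum_le_sum fun r _ => h2 i r).trans (le_of_eq ?_)
      rw [Finset.sum_const, Finset.card_univ, nsmul_eq_mul]
    refine (Finset.sum_le_sum fun i _ => h6 i).trans (le_of_eq ?_)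
    rw [Finset.sum_const, Finset.card_univ, nsmul_eq_mul, mul_assoc]
  rw [le_div_iff₀ (by positivity), Finset.sum_mul]
  refine le_trans (le_trans (Finset.sum_le_sum fun u hu => ?_)
    (Finset.sum_le_sum_of_subset_of_nonneg (Finset.filter_subset _ _) fun u hu _ =>
      mul_nonneg (hq u hu) (Finset.sum_nonneg fun i _ => sq_nonneg _))) h5
  obtain ⟨hu1, hu2⟩ := Finset.mem_filter.1 hu
  refine mul_le_mul_of_nonneg_left ?_ (hq u hu1)
  obtain ⟨i, hi⟩ : ∃ i, R < ‖(∑ r, ξ r (u r) - ∑ r, ∑ a ∈ A r, Q r a • ξ r a) i‖ := by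
    by_contra hcon
    exact hu2.not_ge ((pi_norm_le_iff_of_nonneg hR.le).2 fun i => not_lt.1 fun h => hcon ⟨i, h⟩)
  have h7 : (∑ r, ξ r (u r) - ∑ r, ∑ a ∈ A r, Q r a • ξ r a) i = ∑ r, g i r (u r) := by
    simp only [hg, Pi.sub_apply, Finset.sum_apply, Pi.smul_apply, smul_eq_mul,
      Finset.sum_sub_distrib]
  rw [h7, Real.norm_eq_abs] at hi
  refine le_trans ?_ (Finset.single_le_sum (f := fun i => (∑ r, g i r (u r)) ^ 2)
    (fun i _ => sq_nonneg _) (Finset.mem_univ i))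
  rw [← sq_abs (∑ r, g i r (u r))]
  exact pow_le_pow_left₀ hR.le hi.le 2

end Vale.Agent.P127S
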