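import Vale.Agent.P127S.Fin0

/-! Glued spaces, dyadic cells, telescoping. -/

open Real Finset Vale.Agent.P118O

noncomputable section

namespace Vale.Agent.P127S

variable {Ω Ω' α β γ δ ι : Type} {s : Finset Ω} {p : Ω → ℝ}

/-! ### glued spaces -/

theorem glue_mem {F : Ω → β} {x : Ω × Ω} :
    x ∈ glueS s F s F ↔ x.1 ∈ s ∧ x.2 ∈ s ∧ F x.1 = F x.2 := by
  simp only [glueS, mem_filter, mem_product, and_assoc]

theorem glue_prob (h : IsP s p) (F : Ω → β) : IsP (glueS s F s F) (glueP p s p F) := by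
  exact glue_isP h h fun _ => rfl

theorem glue_law1 (h : IsP s p) (F : Ω → β) :
    SameLaw (glueS s F s F) (glueP p s p F) (fun x => x.1) s p (fun ω => ω) := by
  exact fun f => glue_fst h h (fun _ => rfl) f

theorem glue_law2 (h : IsP s p) (F : Ω → β) :
    SameLaw (glueS s F s F) (glueP p s p F) (fun x => x.2) s p (fun ω => ω) := by
  exact fun f => glue_snd h h (fun _ => rfl) f

/-- conditional independence: the second copy given the first one -/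
theorem glue_ce (h : IsP s p) (F : Ω → β) (U : Ω → α) (V : Ω → γ) (hU : Det s F U) :
    ce (glueS s F s F) (glueP p s p F) (fun x => V x.2) (fun x => U x.1) = ce s p V F := by
  have h1 := glue_ent h h (fun _ => rfl) U V hU
  have h2 := ((glue_law1 h F).comp U).ent_eq
  have h3 : ent (glueS s F s F) (glueP p s p F) (fun x => (V x.2, U x.1)) =
      ent (glueS s F s F) (glueP p s p F) (fun x => (U x.1, V x.2)) :=
    ent_congr (fun _ _ _ _ e => Prod.ext (Prod.mk.inj e).2 (Prod.mk.inj e).1)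
      (fun _ _ _ _ e => Prod.ext (Prod.mk.inj e).2 (Prod.mk.inj e).1)
  rw [ce, ce, cent, h3, h1, h2, add_sub_cancel_left]

/-- conditional independence: the first copy given the second one -/
theorem glue_ce' (h : IsP s p) (F : Ω → β) (U : Ω → α) (V : Ω → γ) (hU : Det s F U) :
    ce (glueS s F s F) (glueP p s p F) (fun x => V x.1) (fun x => U x.2) = ce s p V F := by
  have hl : SameLaw (glueS s F s F) (glueP p s p F) (fun x => x) (glueS s F s F) (glueP p s p F)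
      (fun x => x.swap) := by
    intro f
    have hm : ∀ x ∈ glueS s F s F, x.swap ∈ glueS s F s F := fun x hx =>
      glue_mem.2 ⟨(glue_mem.1 hx).2.1, (glue_mem.1 hx).1, (glue_mem.1 hx).2.2.symm⟩
    refine sum_nbij' Prod.swap Prod.swap hm hm (fun _ _ => rfl) (fun _ _ => rfl) fun x hx => ?_
    simp only [glueP, Prod.fst_swap, Prod.snd_swap, Prod.swap_swap, (glue_mem.1 hx).2.2,
      mul_comm (p x.1)]
  exact (ce_law hl (fun x => V x.1) (fun x => U x.2)).trans (glue_ce h F U V hU)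

/-! ### dyadic cells -/

theorem Fin_floor {j j' : ℕ} (h : j ≤ j') (x : ℝ) :
    ⌊(2 : ℝ) ^ j * x⌋ = ⌊(2 : ℝ) ^ j' * x⌋ / ((2 ^ (j' - j) : ℕ) : ℤ) := by
  obtain ⟨k, rfl⟩ := Nat.exists_eq_add_of_le h
  rw [← Int.floor_div_natCast, Nat.add_sub_cancel_left]
  congr 1
  push_cast
  rw [pow_add]
  field_simp

theorem qz_nest {j j' : ℕ} (h : j ≤ j') {v w : ι → ℝ} (e : qz j' v = qz j' w) :
    qz j v = qz j w := by
  funext i
  have e1 := congrFun e i
  simp only [qz] at e1 ⊢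
  rw [Fin_floor h, Fin_floor h, e1]

theorem det_qv {j j' : ℕ} (h : j ≤ j') (X : Ω → ι → ℝ) : Det s (qv j X) (qv j' X) := by
  exact fun _ _ _ _ e => qz_nest h e

theorem det_qs {j j' : ℕ} (h : j ≤ j') (X : Ω → ℝ) : Det s (qs j X) (qs j' X) := by
  intro ω _ ω' _ e
  simp only [qs] at e ⊢
  rw [Fin_floor h, Fin_floor h, e]

theorem qz_close [Fintype ι] {j : ℕ} {v w : ι → ℝ} (e : qz j v = qz j w) :
    ‖v - w‖ ≤ 1 / 2 ^ j := by
  refine (pi_norm_le_iff_of_nonneg (by positivity)).2 fun i => ?_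
  have h1 := Int.abs_sub_lt_one_of_floor_eq_floor (congrFun e i)
  rw [← mul_sub, abs_mul, abs_of_pos (by positivity : (0 : ℝ) < 2 ^ j)] at h1
  rw [Real.norm_eq_abs, Pi.sub_apply, le_div_iff₀ (by positivity), mul_comm]
  exact h1.le

theorem Fin_ex (h : IsP s p) (c : ℝ) : ex s p (fun _ => c) = c := by
  rw [ex, ← sum_mul, h.2, one_mul]

theorem Fin_cnt {X : Ω → α} {Y : Ω → β} {E : Ω → Prop} {ω : Ω} (T : Finset α)
    (hT : ∀ ω' ∈ s, Y ω' = Y ω → E ω' → X ω' ∈ T) : (cnt s X Y E ω : ℝ) ≤ T.card := by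
  refine Nat.cast_le.2 (card_le_card fun a ha => ?_)
  simp only [mem_image, mem_filter] at ha
  obtain ⟨ω', ⟨h1, h2, h3⟩, rfl⟩ := ha
  exact hT ω' h1 h2 h3

theorem Fin_ico {j j' : ℕ} (hj : j ≤ j') {x : ℝ} {a : ℤ} (e : ⌊(2 : ℝ) ^ j * x⌋ = a) :
    ⌊(2 : ℝ) ^ j' * x⌋ ∈ Ico (a * (2 ^ (j' - j) : ℕ)) (a * (2 ^ (j' - j) : ℕ) + (2 ^ (j' - j) : ℕ)) := by
  rw [Fin_floor hj] at e
  have h0 : (0 : ℤ) < (2 ^ (j' - j) : ℕ) := by positivity
  have h1 := Int.ediv_mul_add_emod ⌊(2 : ℝ) ^ j' * x⌋ (2 ^ (j' - j) : ℕ)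
  have h2 := Int.emod_nonneg ⌊(2 : ℝ) ^ j' * x⌋ h0.ne'
  have h3 := Int.emod_lt_of_pos ⌊(2 : ℝ) ^ j' * x⌋ h0
  rw [e] at h1
  exact mem_Ico.2 ⟨by linarith, by linarith⟩

theorem ce_qv (h : IsP s p) [Fintype ι] {j j' : ℕ} (hj : j ≤ j') (X : Ω → ι → ℝ) :
    ce s p (qv j' X) (qv j X) ≤ Fintype.card ι * ((j' : ℝ) - j) := by
  classical
  refine (ce_cnt h _ _ (fun _ => Fintype.card ι * ((j' : ℝ) - j)) fun ω _ => ?_).trans_eq
    (Fin_ex h _)
  refine (Fin_cnt (Fintype.piFinset fun i => Ico (qv j X ω i * (2 ^ (j' - j) : ℕ))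
    (qv j X ω i * (2 ^ (j' - j) : ℕ) + (2 ^ (j' - j) : ℕ))) fun ω' _ e _ => ?_).trans_eq ?_
  · exact Fintype.mem_piFinset.2 fun i => Fin_ico hj (congrFun e i)
  · rw [Fintype.card_piFinset]
    simp only [Int.card_Ico, add_sub_cancel_left, Int.toNat_natCast, prod_const, card_univ]
    rw [← Nat.cast_sub hj, ← Nat.cast_mul, Real.rpow_natCast, ← pow_mul, mul_comm]
    push_cast
    rfl

theorem ce_qs (h : IsP s p) {j j' : ℕ} (hj : j ≤ j') (X : Ω → ℝ) :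
    ce s p (qs j' X) (qs j X) ≤ (j' : ℝ) - j := by
  refine (ce_cnt h _ _ (fun _ => (j' : ℝ) - j) fun ω _ => ?_).trans_eq (Fin_ex h _)
  refine (Fin_cnt (Ico (qs j X ω * (2 ^ (j' - j) : ℕ))
    (qs j X ω * (2 ^ (j' - j) : ℕ) + (2 ^ (j' - j) : ℕ))) fun ω' _ e _ => Fin_ico hj e).trans_eq ?_
  rw [Int.card_Ico, add_sub_cancel_left, Int.toNat_natCast, ← Nat.cast_sub hj, Real.rpow_natCast]
  push_cast
  rfl

theorem Fin_mem {j : ℕ} {u v r : ℝ} (h : |u - v| ≤ r / 2 ^ j) :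
    ⌊(2 : ℝ) ^ j * u⌋ ∈ Icc ⌊(2 : ℝ) ^ j * v - r⌋ ⌊(2 : ℝ) ^ j * v + r⌋ := by
  rw [le_div_iff₀ (by positivity), ← abs_of_pos (by positivity : (0 : ℝ) < 2 ^ j), ← abs_mul,
    abs_le] at h
  exact mem_Icc.2 ⟨Int.floor_mono (by linarith [h.1]), Int.floor_mono (by linarith [h.2])⟩

theorem Fin_icc (c : ℝ) {x : ℝ} (hx : 0 ≤ x) :
    ((Icc ⌊c - 2 ^ x⌋ ⌊c + 2 ^ x⌋).card : ℝ) ≤ (2 : ℝ) ^ (x + 2) := by
  have h1 : (1 : ℝ) ≤ 2 ^ x := Real.one_le_rpow one_le_two hx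
  have h2 : ⌊c - 2 ^ x⌋ ≤ ⌊c + 2 ^ x⌋ := Int.floor_mono (by linarith)
  have h3 : (((Icc ⌊c - 2 ^ x⌋ ⌊c + 2 ^ x⌋).card : ℤ) : ℝ) =
      ((⌊c + 2 ^ x⌋ + 1 - ⌊c - 2 ^ x⌋ : ℤ) : ℝ) := by
    rw [Int.card_Icc_of_le _ _ (by omega)]
  push_cast at h3
  rw [h3, Real.rpow_add two_pos, Real.rpow_two]
  linarith [Int.floor_le (c + 2 ^ x), Int.lt_floor_add_one (c - 2 ^ x)]

/-- a vector known up to `2 ^ x / 2 ^ j` on the event `E` meets few cells of level `j` -/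
theorem cnt_near [Fintype ι] (j : ℕ) (X f : Ω → ι → ℝ) (Y : Ω → β) (E : Ω → Prop)
    (hf : Det s f Y) {x : ℝ} (hx : 0 ≤ x)
    (hE : ∀ ω ∈ s, E ω → ‖X ω - f ω‖ ≤ (2 : ℝ) ^ x / 2 ^ j) {ω : Ω} (hω : ω ∈ s) :
    (cnt s (qv j X) Y E ω : ℝ) ≤ (2 : ℝ) ^ (Fintype.card ι * (x + 2)) := by
  classical
  refine (Fin_cnt (Fintype.piFinset fun i => Icc ⌊(2 : ℝ) ^ j * f ω i - 2 ^ x⌋
    ⌊(2 : ℝ) ^ j * f ω i + 2 ^ x⌋) fun ω' h1 e h2 => ?_).trans ?_
  · refine Fintype.mem_piFinset.2 fun i => Fin_mem ?_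
    have h3 := (norm_le_pi_norm (X ω' - f ω') i).trans (hE ω' h1 h2)
    rwa [hf ω' h1 ω hω e] at h3
  · rw [Fintype.card_piFinset, Nat.cast_prod, mul_comm, Real.rpow_mul zero_le_two,
      Real.rpow_natCast, ← card_univ, ← prod_const]
    exact prod_le_prod (fun _ _ => Nat.cast_nonneg _) fun i _ => Fin_icc _ hx

theorem cnt_near1 (j : ℕ) (X f : Ω → ℝ) (Y : Ω → β) (E : Ω → Prop)
    (hf : Det s f Y) {x : ℝ} (hx : 0 ≤ x)
    (hE : ∀ ω ∈ s, E ω → |X ω - f ω| ≤ (2 : ℝ) ^ x / 2 ^ j) {ω : Ω} (hω : ω ∈ s) :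
    (cnt s (qs j X) Y E ω : ℝ) ≤ (2 : ℝ) ^ (x + 2) := by
  refine (Fin_cnt (Icc ⌊(2 : ℝ) ^ j * f ω - 2 ^ x⌋ ⌊(2 : ℝ) ^ j * f ω + 2 ^ x⌋)
    fun ω' h1 e h2 => Fin_mem ?_).trans (Fin_icc _ hx)
  have h3 := hE ω' h1 h2
  rwa [hf ω' h1 ω hω e] at h3

theorem ce_near (h : IsP s p) [Fintype ι] (j : ℕ) (X f : Ω → ι → ℝ) (Y : Ω → β)
    (hf : Det s f Y) {x : ℝ} (hx : 0 ≤ x)
    (hE : ∀ ω ∈ s, ‖X ω - f ω‖ ≤ (2 : ℝ) ^ x / 2 ^ j) :
    ce s p (qv j X) Y ≤ Fintype.card ι * (x + 2) := by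
  exact (ce_cnt h _ _ (fun _ => Fintype.card ι * (x + 2)) fun ω hω =>
    cnt_near j X f Y _ hf hx (fun ω hω _ => hE ω hω) hω).trans_eq (Fin_ex h _)

theorem ce_near1 (h : IsP s p) (j : ℕ) (X f : Ω → ℝ) (Y : Ω → β)
    (hf : Det s f Y) {x : ℝ} (hx : 0 ≤ x) (hE : ∀ ω ∈ s, |X ω - f ω| ≤ (2 : ℝ) ^ x / 2 ^ j) :
    ce s p (qs j X) Y ≤ x + 2 := by
  exact (ce_cnt h _ _ (fun _ => x + 2) fun ω hω =>
    cnt_near1 j X f Y _ hf hx (fun ω hω _ => hE ω hω) hω).trans_eq (Fin_ex h _)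

theorem Fin_geo (T : Finset ℤ) (z : ℤ) : ∑ a ∈ T, (1 / 2 : ℝ) ^ (a - z).natAbs ≤ 4 := by
  have k : ∀ T : Finset ℤ, Set.InjOn (fun a => (a - z).natAbs) T →
      ∑ a ∈ T, (1 / 2 : ℝ) ^ (a - z).natAbs ≤ 2 := fun T hT => by
    rw [← sum_image (f := fun n : ℕ => (1 / 2 : ℝ) ^ n) hT]
    exact (summable_geometric_two.sum_le_tsum _ fun _ _ => by positivity).trans_eq
      tsum_geometric_two
  rw [← sum_filter_add_sum_filter_not T fun a => z ≤ a]
  have h1 := k (T.filter fun a => z ≤ a) fun a ha b hb e => by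
    have a1 := (mem_filter.1 ha).2
    have a2 := (mem_filter.1 hb).2
    simp only at e
    omega
  have h2 := k (T.filter fun a => ¬ z ≤ a) fun a ha b hb e => by
    have a1 := (mem_filter.1 ha).2
    have a2 := (mem_filter.1 hb).2
    simp only at e
    omega
  linarith

/-- Small mean square error gives bounded entropy. `cgibbs` with the weights
`c / (1 + (z - z0) ^ 2)` around `z0 = ⌊2 ^ j f⌋` and `log (1 + u) ≤ u`. -/
theorem ce_var (h : IsP s p) (j : ℕ) (X f : Ω → ℝ) (Y : Ω → β) (hf : Det s f Y)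
    (hv : ex s p (fun ω => (X ω - f ω) ^ 2) ≤ 1 / 4 ^ j) : ce s p (qs j X) Y ≤ 10 := by
  classical
  obtain ⟨g, hg⟩ : ∃ g : β → ℝ, ∀ ω ∈ s, g (Y ω) = f ω := by
    refine ⟨fun b => if hb : ∃ ω ∈ s, Y ω = b then f hb.choose else 0, fun ω hω => ?_⟩
    have hb : ∃ ω' ∈ s, Y ω' = Y ω := ⟨ω, hω, rfl⟩
    simp only [dif_pos hb]
    exact hf _ hb.choose_spec.1 ω hω hb.choose_spec.2
  have h1 := cgibbs h (qs j X) Y
    (fun b a => 1 / 4 * (1 / 2 : ℝ) ^ (a - ⌊(2 : ℝ) ^ j * g b⌋).natAbs)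
    (fun _ _ _ => by positivity) (fun _ _ => by positivity) fun ω _ => by
      rw [← mul_sum]
      exact (mul_le_mul_of_nonneg_left (Fin_geo _ _) (by norm_num)).trans_eq (by norm_num)
  have hl := Real.log_pos one_lt_two
  rw [ce, div_le_iff₀ hl]
  refine h1.trans ?_
  have h2 : ∀ ω ∈ s, p ω * -Real.log (1 / 4 * (1 / 2 : ℝ) ^
      (qs j X ω - ⌊(2 : ℝ) ^ j * g (Y ω)⌋).natAbs) ≤
      p ω * (4 * Real.log 2) + 4 ^ j * Real.log 2 * (p ω * (X ω - f ω) ^ 2) := by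
    intro ω hω
    have e : -Real.log (1 / 4 * (1 / 2 : ℝ) ^ (qs j X ω - ⌊(2 : ℝ) ^ j * g (Y ω)⌋).natAbs) =
        (2 + |((qs j X ω - ⌊(2 : ℝ) ^ j * g (Y ω)⌋ : ℤ) : ℝ)|) * Real.log 2 := by
      rw [show (1 / 4 : ℝ) = (1 / 2) ^ 2 by norm_num, ← pow_add, Real.log_pow, one_div,
        Real.log_inv, ← Int.cast_abs, ← Nat.cast_natAbs]
      push_cast
      ring
    have h3 : |((qs j X ω - ⌊(2 : ℝ) ^ j * g (Y ω)⌋ : ℤ) : ℝ)| ≤ 2 + 4 ^ j * (X ω - f ω) ^ 2 := by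
      have h4 : (4 : ℝ) ^ j * (X ω - f ω) ^ 2 = (2 ^ j * X ω - 2 ^ j * f ω) ^ 2 := by
        rw [show (4 : ℝ) = 2 ^ 2 by norm_num, ← pow_mul, mul_comm 2 j, pow_mul]
        ring
      rw [hg ω hω, h4, qs, Int.cast_sub, abs_le]
      generalize (2 : ℝ) ^ j * X ω = u
      generalize (2 : ℝ) ^ j * f ω = v
      have a1 := Int.floor_le u
      have a2 := Int.lt_floor_add_one u
      have a3 := Int.floor_le v
      have a4 := Int.lt_floor_add_one v
      constructor <;> nlinarith [sq_nonneg (u - v - 1), sq_nonneg (u - v + 1), sq_nonneg (u - v)]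
    rw [e]
    have h5 := mul_le_mul_of_nonneg_left h3 (mul_nonneg (h.1 ω hω) hl.le)
    nlinarith
  refine (sum_le_sum h2).trans ?_
  rw [sum_add_distrib, ← sum_mul, h.2, ← mul_sum]
  have h6 := mul_le_mul_of_nonneg_left hv (by positivity : 0 ≤ 4 ^ j * Real.log 2)
  have h7 : 4 ^ j * Real.log 2 * (1 / 4 ^ j) = Real.log 2 := by field_simp
  unfold ex at h6
  linarith

open Classical in
/-- An event that is rare for a reference kernel is rare if the relative entropy is small.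
`cgibbs` with the mixture of `Q` and of `Q` conditioned on the event. -/
theorem kl_event (h : IsP s p) (V : Ω → α) (G : Ω → β) (Q : β → α → ℝ) (A : β → Finset α)
    (hA : ∀ ω ∈ s, V ω ∈ A (G ω)) (hQ : ∀ ω ∈ s, ∀ a ∈ A (G ω), 0 < Q (G ω) a)
    (h1 : ∀ ω ∈ s, ∑ a ∈ A (G ω), Q (G ω) a ≤ 1) (B : β → α → Prop) {x : ℝ} (hx : 0 ≤ x)
    (hB : ∀ ω ∈ s, ∑ a ∈ (A (G ω)).filter (B (G ω)), Q (G ω) a ≤ (2 : ℝ) ^ (-x)) :
    ms s p (fun ω => B (G ω) (V ω)) * x ≤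
      ex s p (fun ω => -Real.logb 2 (Q (G ω) (V ω))) - ce s p V G + 1 := by
  have hx2 : (0 : ℝ) < 2 ^ x := by positivity
  have hw : ∀ b a, (0 : ℝ) < 1 + if B b a then 2 ^ x else 0 := fun b a => by
    split_ifs <;> positivity
  have hpos : ∀ ω ∈ s, 0 < Q (G ω) (V ω) := fun ω hω => hQ ω hω _ (hA ω hω)
  have g := cgibbs h V G (fun b a => Q b a / 2 * (1 + if B b a then 2 ^ x else 0))
    (fun ω hω _ => mul_pos (half_pos (hpos ω hω)) (hw _ _))
    (fun ω hω => (mul_pos (half_pos (hpos ω hω)) (hw _ _)).le) fun ω hω => by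
      refine (sum_le_sum_of_subset_of_nonneg (t := A (G ω)) (fun a ha => ?_) fun a ha _ =>
        (mul_pos (half_pos (hQ ω hω a ha)) (hw _ _)).le).trans ?_
      · obtain ⟨ω', h2, rfl⟩ := mem_image.1 ha
        rw [← (mem_filter.1 h2).2]
        exact hA ω' (mem_filter.1 h2).1
      · have e : ∑ a ∈ A (G ω), Q (G ω) a / 2 * (1 + if B (G ω) a then 2 ^ x else 0) =
            (∑ a ∈ A (G ω), Q (G ω) a) / 2 +
              (∑ a ∈ (A (G ω)).filter (B (G ω)), Q (G ω) a) * 2 ^ x / 2 := by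
          rw [sum_filter, sum_mul, sum_div, sum_div, ← sum_add_distrib]
          refine sum_congr rfl fun a _ => ?_
          split_ifs <;> ring
        have h3 := mul_le_mul_of_nonneg_right (hB ω hω) hx2.le
        rw [← Real.rpow_add two_pos, neg_add_cancel, Real.rpow_zero] at h3
        rw [e]
        linarith [h1 ω hω]
  have hl := Real.log_pos one_lt_two
  have h4 : ∀ ω ∈ s, p ω * -Real.log (Q (G ω) (V ω) / 2 *
      (1 + if B (G ω) (V ω) then 2 ^ x else 0)) ≤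
      (p ω * -Real.logb 2 (Q (G ω) (V ω)) + p ω -
        (if B (G ω) (V ω) then p ω else 0) * x) * Real.log 2 := by
    intro ω hω
    have hp := h.1 ω hω
    have e : Real.logb 2 (Q (G ω) (V ω)) * Real.log 2 = Real.log (Q (G ω) (V ω)) := by
      rw [Real.logb, div_mul_cancel₀ _ hl.ne']
    rw [Real.log_mul (half_pos (hpos ω hω)).ne' (hw _ _).ne', Real.log_div (hpos ω hω).ne'
      two_ne_zero, ← e]
    split_ifs
    · have h5 : x * Real.log 2 ≤ Real.log (1 + 2 ^ x) := by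
        rw [← Real.log_rpow two_pos]
        exact Real.log_le_log hx2 (by linarith)
      nlinarith [mul_le_mul_of_nonneg_left h5 hp]
    · rw [add_zero, Real.log_one]
      exact le_of_eq (by ring)
  have h6 := g.trans (sum_le_sum h4)
  rw [← sum_mul, ← div_le_iff₀ hl, sum_sub_distrib, sum_add_distrib, h.2, ← sum_mul,
    ← sum_filter] at h6
  unfold ms ex ce
  linarith

theorem Fin_det {X : ℕ → Ω → α} (hX : ∀ k, Det s (X k) (X (k + 1))) {a b : ℕ} (h : a ≤ b) :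
    Det s (X a) (X b) := by
  induction b, h using Nat.le_induction with
  | base => exact fun _ _ _ _ e => e
  | succ b _ ih => exact fun ω hω ω' hω' e => ih ω hω ω' hω' (hX b ω hω ω' hω' e)

theorem Fin_chain (h : IsP s p) {A : Ω → α} {B : Ω → β} (hA : Det s A B) (W : Ω → γ) :
    ce s p B (pj A W) = ce s p B W - ce s p A W := by
  have h1 : ce s p (pj A B) W = ce s p B W :=
    le_antisymm (ce_mono h (fun ω hω ω' hω' e => Prod.ext (hA ω hω ω' hω' (Prod.mk.inj e).1)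
      (Prod.mk.inj e).1) fun _ _ _ _ e => e)
      (ce_mono h (fun _ _ _ _ e => (Prod.mk.inj (Prod.mk.inj e).1).2) fun _ _ _ _ e => e)
  rw [← h1, ce_chain, add_sub_cancel_left]

theorem Fin_tele (f : ℕ → ℝ) (R n : ℕ) :
    ∑ k ∈ range n, (f (k + R) - f k) = ∑ k ∈ range R, (f (n + k) - f k) := by
  have h1 := sum_range_add f n R
  have h2 := sum_range_add f R n
  rw [add_comm R n] at h2
  simp only [add_comm R] at h2
  rw [sum_sub_distrib, sum_sub_distrib]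
  linarith

/-- Windows of `R` consecutive steps of an increasing family: what is lost by conditioning on `Z`
adds up to at most `R` times the total information. Split `k` by its residue mod `R`, or write each
window as a sum of single steps. -/
theorem tele_info (h : IsP s p) (X : ℕ → Ω → α) (hX : ∀ k, Det s (X k) (X (k + 1))) (W : Ω → β)
    (Z : Ω → γ) (hZ : Det s W Z) (R n : ℕ) :
    ∑ k ∈ range n, (ce s p (X (k + R)) (pj (X k) W) - ce s p (X (k + R)) (pj (X k) Z)) ≤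
      R * (ce s p (X (n + R)) W - ce s p (X (n + R)) Z) := by
  set I : ℕ → ℝ := fun k => ce s p (X k) W - ce s p (X k) Z with hI
  have hm : ∀ A B : Ω → α, ce s p B (pj A Z) ≤ ce s p B (pj A W) := fun A B =>
    ce_mono h (fun _ _ _ _ e => (Prod.mk.inj e).1) fun ω hω ω' hω' e =>
      Prod.ext (Prod.mk.inj e).1 (hZ ω hω ω' hω' (Prod.mk.inj e).2)
  have h1 : ∀ a b, a ≤ b →
      ce s p (X b) (pj (X a) W) - ce s p (X b) (pj (X a) Z) = I b - I a := fun a b hab => by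
    rw [Fin_chain h (Fin_det hX hab), Fin_chain h (Fin_det hX hab)]
    simp only [hI]
    ring
  have h2 : ∀ k, 0 ≤ I k := fun k =>
    sub_nonneg.2 (ce_mono h (fun _ _ _ _ e => (Prod.mk.inj e).1) hZ)
  rw [sum_congr rfl fun k _ => h1 k (k + R) (Nat.le_add_right _ _), Fin_tele]
  refine (sum_le_card_nsmul _ _ (I (n + R)) fun k hk => ?_).trans_eq
    (by rw [card_range, nsmul_eq_mul])
  have h3 := h1 (n + k) (n + R) (by have := mem_range.1 hk; omega)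
  linarith [hm (X (n + k)) (X (n + R)), h2 k]

/-- the sum of the window entropies -/
theorem tele_sum (h : IsP s p) (X : ℕ → Ω → α) (hX : ∀ k, Det s (X k) (X (k + 1))) (W : Ω → β)
    (R k0 n : ℕ) :
    R * ce s p (X (k0 + n)) (pj (X (k0 + R)) W) ≤
        ∑ k ∈ range n, ce s p (X (k0 + k + R)) (pj (X (k0 + k)) W) ∧
      ∑ k ∈ range n, ce s p (X (k0 + k + R)) (pj (X (k0 + k)) W) ≤
        R * ce s p (X (k0 + n + R)) (pj (X k0) W) := by
  set H : ℕ → ℝ := fun k => ce s p (X (k0 + k)) W with hH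
  have hm : ∀ a b, a ≤ b → H a ≤ H b := fun a b hab =>
    ce_mono h (fun ω hω ω' hω' e => Fin_det hX (Nat.add_le_add_left hab k0) ω hω ω' hω'
      (Prod.mk.inj e).1) fun _ _ _ _ e => e
  have h1 : ∀ a b, a ≤ b → ce s p (X (k0 + b)) (pj (X (k0 + a)) W) = H b - H a :=
    fun a b hab => Fin_chain h (Fin_det hX (Nat.add_le_add_left hab k0)) W
  have h2 : ∑ k ∈ range n, ce s p (X (k0 + k + R)) (pj (X (k0 + k)) W) =
      ∑ k ∈ range R, (H (n + k) - H k) := by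
    rw [← Fin_tele]
    exact sum_congr rfl fun k _ => by rw [add_assoc, h1 k (k + R) (Nat.le_add_right _ _)]
  constructor
  · rcases le_total R n with hR | hR
    · rw [h2, h1 R n hR, ← nsmul_eq_mul]
      conv_lhs => rw [← card_range R]
      refine card_nsmul_le_sum _ _ _ fun k hk => ?_
      rw [card_range]
      linarith [hm n (n + k) (by omega), hm k R (mem_range.1 hk).le]
    · rw [ce_det h (Y := pj (X (k0 + R)) W) fun ω hω ω' hω' e =>
        Fin_det hX (Nat.add_le_add_left hR k0) ω hω ω' hω' (Prod.mk.inj e).1, mul_zero]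
      exact sum_nonneg fun _ _ => ce_nonneg h _ _
  · have h3 := h1 0 (n + R) (Nat.zero_le _)
    rw [add_zero, ← add_assoc] at h3
    rw [h2, h3]
    refine (sum_le_card_nsmul _ _ (H (n + R) - H 0) fun k hk => ?_).trans_eq
      (by rw [card_range, nsmul_eq_mul])
    linarith [hm (n + k) (n + R) (by have := mem_range.1 hk; omega), hm 0 k (Nat.zero_le _)]

end Vale.Agent.P127S
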