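import Vale.Agent.P118O.EntB
import Vale.Agent.P118O.Defs

/-! Conditional entropy in bits on finite weighted sets: definitions and basic rules. -/

open Real Finset Vale.Agent.P118O

noncomputable section

namespace Vale.Agent.P127S

variable {Ω Ω' α β γ δ ι : Type}

/-- conditional entropy in bits -/
def ce (s : Finset Ω) (p : Ω → ℝ) (X : Ω → α) (Y : Ω → β) : ℝ := cent s p X Y / Real.log 2

/-- joint variable -/
def pj (X : Ω → α) (Y : Ω → β) : Ω → α × β := fun ω => (X ω, Y ω)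

/-- the trivial variable -/
def nil (Ω : Type) : Ω → Unit := fun _ => ()

/-- dyadic cell of level `j` of a vector -/
def qz (j : ℕ) (v : ι → ℝ) : ι → ℤ := fun i => ⌊(2 : ℝ) ^ j * v i⌋

/-- dyadic cell of level `j` of a vector variable -/
def qv (j : ℕ) (X : Ω → ι → ℝ) : Ω → ι → ℤ := fun ω => qz j (X ω)

/-- dyadic cell of level `j` of a real variable -/
def qs (j : ℕ) (X : Ω → ℝ) : Ω → ℤ := fun ω => ⌊(2 : ℝ) ^ j * X ω⌋

open Classical in
/-- restriction to an event -/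
def rs (s : Finset Ω) (E : Ω → Prop) : Finset Ω := s.filter E

/-- conditional weights -/
def rp (s : Finset Ω) (p : Ω → ℝ) (E : Ω → Prop) : Ω → ℝ := fun ω => p ω / ms s p E

/-- mean value -/
def ex (s : Finset Ω) (p : Ω → ℝ) (f : Ω → ℝ) : ℝ := ∑ ω ∈ s, p ω * f ω

/-- variance -/
def vr (s : Finset Ω) (p : Ω → ℝ) (f : Ω → ℝ) : ℝ := ex s p (fun ω => (f ω - ex s p f) ^ 2)

open Classical in
/-- number of values of `X` on the part of the atom of `Y` through `ω` where `E` holds -/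
def cnt (s : Finset Ω) (X : Ω → α) (Y : Ω → β) (E : Ω → Prop) (ω : Ω) : ℕ :=
  ((s.filter (fun ω' => Y ω' = Y ω ∧ E ω')).image X).card

variable {s : Finset Ω} {p : Ω → ℝ}

theorem mem_rs {E : Ω → Prop} {ω : Ω} : ω ∈ rs s E ↔ ω ∈ s ∧ E ω := by
  classical
  exact mem_filter

theorem fin0_log : 0 < Real.log 2 := Real.log_pos one_lt_two

theorem ce_nonneg (h : IsP s p) (X : Ω → α) (Y : Ω → β) : 0 ≤ ce s p X Y := by
  exact div_nonneg (cent_nonneg h X Y) fin0_log.le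

/-- less to describe, more to condition on -/
theorem ce_mono (h : IsP s p) {X : Ω → α} {X' : Ω → β} {Y : Ω → γ} {Y' : Ω → δ}
    (h1 : Det s X (pj X' Y')) (h2 : Det s Y Y') : ce s p X Y' ≤ ce s p X' Y := by
  exact div_le_div_of_nonneg_right (cent_mono h h1 h2) fin0_log.le

theorem ce_chain (X : Ω → α) (Y : Ω → β) (Z : Ω → γ) :
    ce s p (pj X Y) Z = ce s p X Z + ce s p Y (pj X Z) := by
  have h1 : ent s p (fun ω => (pj X Y ω, Z ω)) = ent s p (fun ω => (Y ω, pj X Z ω)) :=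
    ent_congr (fun _ _ _ _ e => by simp only [pj, Prod.mk.injEq] at e ⊢; tauto)
      (fun _ _ _ _ e => by simp only [pj, Prod.mk.injEq] at e ⊢; tauto)
  have h2 : ent s p (fun ω => (X ω, Z ω)) = ent s p (pj X Z) := rfl
  simp only [ce, cent, h1, h2]
  ring

theorem ce_le_add (h : IsP s p) (X : Ω → α) (U : Ω → β) (Y : Ω → γ) :
    ce s p X Y ≤ ce s p U Y + ce s p X (pj U Y) := by
  rw [ce, ce, ce, ← add_div]
  exact div_le_div_of_nonneg_right (cent_le_add h X U Y) fin0_log.le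

/-- extra conditioning on `U` costs at most the entropy of `U` -/
theorem ce_cond (h : IsP s p) (X : Ω → α) (U : Ω → β) (Y : Ω → γ) :
    ce s p X Y - ce s p X (pj U Y) = ce s p U Y - ce s p U (pj X Y) := by
  have h1 : ent s p (fun ω => (X ω, pj U Y ω)) = ent s p (fun ω => (U ω, pj X Y ω)) :=
    ent_congr (fun _ _ _ _ e => by simp only [pj, Prod.mk.injEq] at e ⊢; tauto)
      (fun _ _ _ _ e => by simp only [pj, Prod.mk.injEq] at e ⊢; tauto)
  have h2 : ent s p (fun ω => (X ω, Y ω)) = ent s p (pj X Y) := rfl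
  have h3 : ent s p (fun ω => (U ω, Y ω)) = ent s p (pj U Y) := rfl
  simp only [ce, cent, h1, h2, h3]
  ring

theorem ce_det (h : IsP s p) {X : Ω → α} {Y : Ω → β} (h1 : Det s X Y) : ce s p X Y = 0 := by
  have h2 : ent s p (fun ω => (X ω, Y ω)) = ent s p Y :=
    ent_congr (fun ω hω ω' hω' e => Prod.ext (h1 ω hω ω' hω' e) e)
      (fun _ _ _ _ e => (Prod.mk.inj e).2)
  rw [ce, cent, h2, sub_self, zero_div]

theorem ce_congr {X X' : Ω → α} {Y Y' : Ω → β} (h1 : ∀ ω ∈ s, X ω = X' ω)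
    (h2 : ∀ ω ∈ s, Y ω = Y' ω) : ce s p X Y = ce s p X' Y' := by
  have h3 : ent s p (fun ω => (X ω, Y ω)) = ent s p (fun ω => (X' ω, Y' ω)) :=
    ent_congr (fun ω hω ω' hω' e => by rwa [h1 ω hω, h1 ω' hω', h2 ω hω, h2 ω' hω'])
      (fun ω hω ω' hω' e => by rwa [← h1 ω hω, ← h1 ω' hω', ← h2 ω hω, ← h2 ω' hω'])
  have h4 : ent s p Y = ent s p Y' :=
    ent_congr (fun ω hω ω' hω' e => by rwa [h2 ω hω, h2 ω' hω'])
      (fun ω hω ω' hω' e => by rwa [← h2 ω hω, ← h2 ω' hω'])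
  rw [ce, ce, cent, cent, h3, h4]

theorem ce_law {s' : Finset Ω'} {p' : Ω' → ℝ} {W : Ω → γ} {W' : Ω' → γ}
    (h : SameLaw s p W s' p' W') (f : γ → α) (g : γ → β) :
    ce s p (fun ω => f (W ω)) (fun ω => g (W ω)) =
      ce s' p' (fun ω => f (W' ω)) (fun ω => g (W' ω)) := by
  rw [ce, ce, cent, cent, (h.comp fun w => (f w, g w)).ent_eq, (h.comp g).ent_eq]

/-- counting bound with a random exponent (`cgibbs` with the uniform law on each atom) -/
theorem ce_cnt (h : IsP s p) (X : Ω → α) (Y : Ω → β) (x : Ω → ℝ)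
    (hx : ∀ ω ∈ s, (cnt s X Y (fun _ => True) ω : ℝ) ≤ (2 : ℝ) ^ x ω) :
    ce s p X Y ≤ ex s p x := by
  classical
  have hc : ∀ ω, cnt s X Y (fun _ => True) ω = ((s.filter fun ω' => Y ω' = Y ω).image X).card :=
    fun ω => by simp only [cnt, and_true]
  have hp : ∀ ω ∈ s, (0 : ℝ) < ((s.filter fun ω' => Y ω' = Y ω).image X).card := fun ω hω =>
    Nat.cast_pos.2 (Finset.card_pos.2 ⟨X ω, mem_image_of_mem X (mem_filter.2 ⟨hω, rfl⟩)⟩)
  have h1 := cgibbs h X Y (fun b _ => (((s.filter fun ω' => Y ω' = b).image X).card : ℝ)⁻¹)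
    (fun ω hω _ => inv_pos.2 (hp ω hω)) (fun ω hω => (inv_pos.2 (hp ω hω)).le) fun ω hω => by
      rw [Finset.sum_const, nsmul_eq_mul, mul_inv_cancel₀ (hp ω hω).ne']
  rw [ce, div_le_iff₀ fin0_log, ex, Finset.sum_mul]
  refine h1.trans (Finset.sum_le_sum fun ω hω => ?_)
  rw [Real.log_inv, neg_neg, mul_assoc, ← Real.log_rpow two_pos]
  exact mul_le_mul_of_nonneg_left (Real.log_le_log (hp ω hω) (hc ω ▸ hx ω hω)) (h.1 ω hω)

theorem fin0_prop (h : IsP s p) (E : Ω → Prop) (Y : Ω → β) : ce s p E Y ≤ 1 := by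
  classical
  rw [ce, div_le_one fin0_log]
  refine cent_le_log_card h E Y fun ω _ => ?_
  exact_mod_cast (Finset.card_le_univ _).trans Fintype.card_prop.le

/-- Counting bound with an exceptional event. Add the indicator of `E` (at most one bit) to the
conditioning and use `ce_cnt`. -/
theorem ce_event (h : IsP s p) (X : Ω → α) (Y : Ω → β) (E : Ω → Prop) {x y : ℝ}
    (hE : ∀ ω ∈ s, (cnt s X Y E ω : ℝ) ≤ (2 : ℝ) ^ x)
    (hA : ∀ ω ∈ s, (cnt s X Y (fun _ => True) ω : ℝ) ≤ (2 : ℝ) ^ y) :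
    ce s p X Y ≤ 1 + ms s p E * x + ms s p (fun ω => ¬ E ω) * y := by
  classical
  have h1 := ce_cnt h X (pj E Y) (fun ω => if E ω then x else y) fun ω hω => by
    by_cases he : E ω
    · rw [if_pos he]
      refine le_trans (Nat.cast_le.2 (Finset.card_le_card (Finset.image_subset_image ?_)))
        (hE ω hω)
      intro ω' hω'
      simp only [mem_filter, pj, Prod.mk.injEq, and_true, eq_iff_iff] at hω' ⊢
      exact ⟨hω'.1, hω'.2.2, hω'.2.1.2 he⟩
    · rw [if_neg he]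
      refine le_trans (Nat.cast_le.2 (Finset.card_le_card (Finset.image_subset_image ?_)))
        (hA ω hω)
      intro ω' hω'
      simp only [mem_filter, pj, Prod.mk.injEq, and_true, eq_iff_iff] at hω' ⊢
      exact ⟨hω'.1, hω'.2.2⟩
  have h2 : ex s p (fun ω => if E ω then x else y) =
      ms s p E * x + ms s p (fun ω => ¬ E ω) * y := by
    simp only [ex, ms, Finset.sum_filter, Finset.sum_mul, ← Finset.sum_add_distrib]
    refine Finset.sum_congr rfl fun ω _ => ?_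
    by_cases he : E ω <;> simp [he]
  linarith [ce_le_add h X E Y, fin0_prop h E Y]

theorem ce_prop (h : IsP s p) (E : Ω → Prop) (Y : Ω → β) : ce s p E Y ≤ 1 := by
  exact fin0_prop h E Y

theorem fin0_pr (X : Ω → α) (a : α) : pr s p X a = ms s p (fun ω => X ω = a) := rfl

theorem fin0_ms_congr {E E' : Ω → Prop} (hE : ∀ ω ∈ s, E ω ↔ E' ω) : ms s p E = ms s p E' := by
  classical
  unfold ms
  refine Finset.sum_congr (Finset.ext fun ω => ?_) fun _ _ => rfl
  simp only [mem_filter, and_congr_right_iff]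
  exact hE ω

theorem fin0_pr2 (X : Ω → α) (Y : Ω → β) (a : α) (b : β) :
    pr s p (fun ω => (X ω, Y ω)) (a, b) = ms s p (fun ω => X ω = a ∧ Y ω = b) :=
  fin0_ms_congr fun _ _ => Prod.mk_inj

theorem fin0_cent (X : Ω → α) (Y : Ω → β) : cent s p X Y = ∑ ω ∈ s, p ω *
    (Real.log (pr s p Y (Y ω)) - Real.log (pr s p (fun ω => (X ω, Y ω)) (X ω, Y ω))) := by
  rw [cent, ent, ent, ← Finset.sum_sub_distrib]
  exact Finset.sum_congr rfl fun ω _ => by ring

theorem fin0_sum (h : IsP s p) (E : Ω → Prop) (g : Ω → ℝ) :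
    ms s p E * ∑ ω ∈ rs s E, rp s p E ω * g ω = ∑ ω ∈ rs s E, p ω * g ω := by
  rw [Finset.mul_sum]
  refine Finset.sum_congr rfl fun ω hω => ?_
  rcases eq_or_ne (ms s p E) 0 with h0 | h0
  · have h1 : p ω = 0 :=
      (Finset.sum_eq_zero_iff_of_nonneg fun ω' hω' => h.1 ω' (mem_rs.1 hω').1).1 h0 ω hω
    rw [h0, h1, zero_mul, zero_mul]
  · rw [rp, ← mul_assoc, mul_div_cancel₀ _ h0]

theorem fin0_ms_rs (E E' : Ω → Prop) :
    ms (rs s E) (rp s p E) E' = ms s p (fun ω => E ω ∧ E' ω) / ms s p E := by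
  classical
  rw [ms, ms, Finset.sum_div]
  refine Finset.sum_congr (Finset.ext fun ω => ?_) fun _ _ => rfl
  simp only [mem_filter, mem_rs, and_assoc]

theorem fin0_split (E : Ω → Prop) (g : Ω → ℝ) :
    ∑ ω ∈ rs s E, g ω + ∑ ω ∈ rs s (fun ω => ¬ E ω), g ω = ∑ ω ∈ s, g ω := by
  classical
  rw [← Finset.sum_filter_add_sum_filter_not s E g]
  congr 1 <;> exact Finset.sum_congr (Finset.ext fun ω => by rw [mem_rs, mem_filter]) fun _ _ => rfl

theorem fin0_piece (h : IsP s p) (X : Ω → α) (Y : Ω → β) (Z : Ω → γ) (E : Ω → Prop)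
    (hE : ∀ ω ∈ s, E ω → ∀ ω' ∈ s, (E ω' ↔ Z ω' = Z ω)) :
    ms s p E * cent (rs s E) (rp s p E) X Y = ∑ ω ∈ rs s E, p ω *
      (Real.log (pr s p (pj Y Z) (pj Y Z ω)) -
        Real.log (pr s p (fun ω => (X ω, pj Y Z ω)) (X ω, pj Y Z ω))) := by
  rw [fin0_cent, fin0_sum h]
  refine Finset.sum_congr rfl fun ω hω => ?_
  obtain ⟨h1, h2⟩ := mem_rs.1 hω
  rcases (h.1 ω h1).eq_or_lt with hp | hp
  · rw [← hp, zero_mul, zero_mul]
  have h3 : pr (rs s E) (rp s p E) Y (Y ω) = pr s p (pj Y Z) (pj Y Z ω) / ms s p E := by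
    rw [fin0_pr, fin0_ms_rs, fin0_pr]
    congr 1
    refine fin0_ms_congr fun ω' hω' => ?_
    rw [hE ω h1 h2 ω' hω']
    simp only [pj, Prod.mk.injEq]
    tauto
  have h4 : pr (rs s E) (rp s p E) (fun ω => (X ω, Y ω)) (X ω, Y ω) =
      pr s p (fun ω => (X ω, pj Y Z ω)) (X ω, pj Y Z ω) / ms s p E := by
    rw [fin0_pr, fin0_ms_rs, fin0_pr]
    congr 1
    refine fin0_ms_congr fun ω' hω' => ?_
    rw [hE ω h1 h2 ω' hω']
    simp only [pj, Prod.mk.injEq]
    tauto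
  have h5 : 0 < ms s p E :=
    hp.trans_le (Finset.single_le_sum (f := p) (fun ω' hω' => h.1 ω' (mem_rs.1 hω').1) hω)
  rw [h3, h4, Real.log_div (hp.trans_le (le_pr h _ h1)).ne' h5.ne',
    Real.log_div (hp.trans_le (le_pr h (fun ω => (X ω, pj Y Z ω)) h1)).ne' h5.ne']
  ring

theorem fin0_atoms (Z : Ω → γ) (c : γ → ℝ) (g : Ω → ℝ)
    (hc : ∀ z, ms s p (fun ω => Z ω = z) * c z = ∑ ω ∈ rs s (fun ω => Z ω = z), g ω) :
    ∑ ω ∈ s, g ω = ex s p (fun ω => c (Z ω)) := by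
  classical
  rw [ex, ent_sum_val Z c, ← Finset.sum_fiberwise_of_maps_to (t := s.image Z) (g := Z)
    fun ω hω => mem_image_of_mem Z hω]
  refine Finset.sum_congr rfl fun z _ => ?_
  rw [fin0_pr, hc]
  exact Finset.sum_congr (Finset.ext fun ω => by rw [mem_rs, mem_filter]) fun _ _ => rfl

/-- lower bound from small conditional masses -/
theorem ce_ge_sup (h : IsP s p) (X : Ω → α) (Y : Ω → β) {x : ℝ}
    (hx : ∀ ω ∈ s, ms s p (fun ω' => X ω' = X ω ∧ Y ω' = Y ω) ≤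
      (2 : ℝ) ^ (-x) * ms s p (fun ω' => Y ω' = Y ω)) : x ≤ ce s p X Y := by
  rw [ce, le_div_iff₀ fin0_log, fin0_cent, ← one_mul (x * _), ← h.2, Finset.sum_mul]
  refine Finset.sum_le_sum fun ω hω => ?_
  rcases (h.1 ω hω).eq_or_lt with hp | hp
  · rw [← hp, zero_mul, zero_mul]
  refine mul_le_mul_of_nonneg_left ?_ hp.le
  have h1 := hx ω hω
  rw [← fin0_pr, ← fin0_pr2] at h1
  have h2 := Real.log_le_log (hp.trans_le (le_pr h (fun ω => (X ω, Y ω)) hω)) h1
  rw [Real.log_mul (by positivity) (hp.trans_le (le_pr h Y hω)).ne', Real.log_rpow two_pos] at h2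
  linarith

theorem rs_isP (h : IsP s p) {E : Ω → Prop} (hE : 0 < ms s p E) : IsP (rs s E) (rp s p E) := by
  refine ⟨fun ω hω => div_nonneg (h.1 ω (mem_rs.1 hω).1) hE.le, ?_⟩
  simp only [rp]
  rw [← Finset.sum_div]
  exact div_self hE.ne'

theorem ms_rs (h : IsP s p) (E E' : Ω → Prop) :
    ms s p E * ms (rs s E) (rp s p E) E' = ms s p (fun ω => E ω ∧ E' ω) := by
  classical
  have h1 := fin0_sum h E fun ω => if E' ω then 1 else 0
  simp only [mul_ite, mul_one, mul_zero, ← Finset.sum_filter] at h1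
  refine h1.trans (Finset.sum_congr (Finset.ext fun ω => ?_) fun _ _ => rfl)
  simp only [mem_filter, mem_rs, and_assoc]

theorem ex_rs (h : IsP s p) (E : Ω → Prop) (f : Ω → ℝ) :
    ms s p E * ex (rs s E) (rp s p E) f + ms s p (fun ω => ¬ E ω) *
      ex (rs s fun ω => ¬ E ω) (rp s p fun ω => ¬ E ω) f = ex s p f := by
  rw [ex, ex, fin0_sum h, fin0_sum h, fin0_split, ex]

/-- splitting along an event -/
theorem ce_split (h : IsP s p) (X : Ω → α) (Y : Ω → β) (E : Ω → Prop) :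
    ce s p X (pj E Y) = ms s p E * ce (rs s E) (rp s p E) X Y +
      ms s p (fun ω => ¬ E ω) * ce (rs s fun ω => ¬ E ω) (rp s p fun ω => ¬ E ω) X Y := by
  have h1 : ce s p X (pj E Y) = ce s p X (pj Y E) :=
    le_antisymm (ce_mono h (fun _ _ _ _ e => (Prod.mk.inj e).1) fun _ _ _ _ e =>
      Prod.ext (Prod.mk.inj e).2 (Prod.mk.inj e).1)
      (ce_mono h (fun _ _ _ _ e => (Prod.mk.inj e).1) fun _ _ _ _ e =>
        Prod.ext (Prod.mk.inj e).2 (Prod.mk.inj e).1)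
  rw [h1, ce, ce, ce, ← mul_div_assoc, ← mul_div_assoc, ← add_div,
    fin0_piece h X Y E E fun ω _ he ω' _ => by simp [he],
    fin0_piece h X Y E (fun ω => ¬ E ω) fun ω _ he ω' _ => by simp [he], fin0_split, fin0_cent]

/-- conditional entropy as an average over the atoms of `Z` -/
theorem ce_atoms (h : IsP s p) (X : Ω → α) (Y : Ω → β) (Z : Ω → γ) :
    ce s p X (pj Y Z) =
      ex s p (fun ω => ce (rs s fun ω' => Z ω' = Z ω) (rp s p fun ω' => Z ω' = Z ω) X Y) := by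
  rw [ce, fin0_cent, Finset.sum_div]
  refine fin0_atoms Z (fun z => ce (rs s fun ω' => Z ω' = z) (rp s p fun ω' => Z ω' = z) X Y) _
    fun z => ?_
  rw [ce, ← mul_div_assoc, fin0_piece h X Y Z _ fun ω _ he ω' _ => by rw [he], Finset.sum_div]

/-- mean value as an average over the atoms of `Z` -/
theorem ex_atoms (h : IsP s p) (f : Ω → ℝ) (Z : Ω → γ) :
    ex s p f = ex s p (fun ω => ex (rs s fun ω' => Z ω' = Z ω) (rp s p fun ω' => Z ω' = Z ω) f) := by
  exact fin0_atoms Z (fun z => ex (rs s fun ω' => Z ω' = z) (rp s p fun ω' => Z ω' = z) f) _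
    fun z => fin0_sum h _ f

/-- Markov inequality -/
theorem markov (h : IsP s p) {f : Ω → ℝ} (hf : ∀ ω ∈ s, 0 < p ω → 0 ≤ f ω) {c : ℝ} :
    ms s p (fun ω => c ≤ f ω) * c ≤ ex s p f := by
  classical
  rw [ms, Finset.sum_mul, Finset.sum_filter]
  refine Finset.sum_le_sum fun ω hω => ?_
  rcases (h.1 ω hω).eq_or_lt with hp | hp
  · simp [← hp]
  split_ifs with hc
  · exact mul_le_mul_of_nonneg_left hc hp.le
  · exact mul_nonneg hp.le (hf ω hω hp)

/-- an event of positive mass has a point of positive weight -/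
theorem exists_of_ms (h : IsP s p) {E : Ω → Prop} (hE : 0 < ms s p E) :
    ∃ ω ∈ s, E ω ∧ 0 < p ω := by
  obtain ⟨ω, hω, hp⟩ := Finset.exists_ne_zero_of_sum_ne_zero hE.ne'
  obtain ⟨h1, h2⟩ := mem_rs.1 hω
  exact ⟨ω, h1, h2, lt_of_le_of_ne (h.1 ω h1) hp.symm⟩

theorem ms_not (h : IsP s p) (E : Ω → Prop) : ms s p (fun ω => ¬ E ω) = 1 - ms s p E := by
  have h1 := fin0_split (s := s) E p
  rw [h.2] at h1
  exact eq_sub_of_add_eq' h1

theorem ms_or (h : IsP s p) (E E' : Ω → Prop) :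
    ms s p (fun ω => E ω ∨ E' ω) ≤ ms s p E + ms s p E' := by
  classical
  simp only [ms, Finset.sum_filter, ← Finset.sum_add_distrib]
  refine Finset.sum_le_sum fun ω hω => ?_
  have := h.1 ω hω
  by_cases h1 : E ω <;> by_cases h2 : E' ω <;> simp [h1, h2, this]

theorem ms_imp (h : IsP s p) {E E' : Ω → Prop} (hE : ∀ ω ∈ s, E ω → E' ω) :
    ms s p E ≤ ms s p E' := by
  exact Finset.sum_le_sum_of_subset_of_nonneg
    (fun ω hω => mem_rs.2 ⟨(mem_rs.1 hω).1, hE ω (mem_rs.1 hω).1 (mem_rs.1 hω).2⟩)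
    fun ω hω _ => h.1 ω (mem_rs.1 hω).1

theorem ms_ge_zero (h : IsP s p) (E : Ω → Prop) : 0 ≤ ms s p E := by
  exact Finset.sum_nonneg fun ω hω => h.1 ω (mem_rs.1 hω).1

end Vale.Agent.P127S
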