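import Vale.Agent.P127S.Fin

/-! Atoms, selection, Fano type bounds, regular variables. -/

open Real Finset Vale.Agent.P118O

noncomputable section

namespace Vale.Agent.P127S

variable {Ω Ω' α β γ δ ι : Type}

/-- the atom of `W` through `ω` -/
def atS (s : Finset Ω) (W : Ω → β) (ω : Ω) : Finset Ω := rs s fun ω' => W ω' = W ω

/-- the conditional weights on the atom of `W` through `ω` -/
def atP (s : Finset Ω) (p : Ω → ℝ) (W : Ω → β) (ω : Ω) : Ω → ℝ := rp s p fun ω' => W ω' = W ω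

/-- the corner of the dyadic cell with index `z` -/
def cor (j : ℕ) (z : ι → ℤ) : ι → ℝ := fun i => (z i : ℝ) / 2 ^ j

/-- the corner of the dyadic cell of level `j` containing `v` -/
def dz (j : ℕ) (v : ι → ℝ) : ι → ℝ := cor j (qz j v)

/-- scalar product in the plane -/
def dot2 (u v : Fin 2 → ℝ) : ℝ := u 0 * v 0 + u 1 * v 1

/-- All cells of level `k ≤ n` that meet the support have mass between `2 ^ (-h k - D)` and
`2 ^ (-h k)`. -/
def Reg (s : Finset Ω) (p : Ω → ℝ) (X : Ω → ι → ℝ) (n : ℕ) (D : ℝ) (h : ℕ → ℝ) : Prop :=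
  ∀ k ≤ n, ∀ ω ∈ s, (2 : ℝ) ^ (-h k - D) ≤ ms s p (fun ω' => qv k X ω' = qv k X ω) ∧
    ms s p (fun ω' => qv k X ω' = qv k X ω) ≤ (2 : ℝ) ^ (-h k)

/-- `z` is a nearly uniform real variable whose digits are read off from those of `X` -/
def Prx (s : Finset Ω) (p : Ω → ℝ) (n : ℕ) (c : ℝ) (X : Ω → ι → ℝ) (z : Ω → ℝ) : Prop :=
  (∀ i, Det s (qs i z) (qv i X)) ∧ (∀ ω ∈ s, |z ω| ≤ (2 : ℝ) ^ c) ∧
    (n : ℝ) - c ≤ ce s p (qs n z) (nil Ω)

variable {s : Finset Ω} {p : Ω → ℝ}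

theorem FinB_cnt {s' : Finset Ω'} {X : Ω → α} {Y : Ω → β} {E : Ω → Prop} {X' : Ω' → α}
    {Y' : Ω' → γ} {E' : Ω' → Prop} {ω : Ω} {ω₀ : Ω'} (h : ∀ a ∈ s, Y a = Y ω → E a →
      ∃ b ∈ s', Y' b = Y' ω₀ ∧ E' b ∧ X' b = X a) : cnt s X Y E ω ≤ cnt s' X' Y' E' ω₀ := by
  refine card_le_card fun a ha => ?_
  simp only [mem_image, mem_filter] at ha ⊢
  obtain ⟨ω', ⟨h1, h2, h3⟩, rfl⟩ := ha
  obtain ⟨b, h4, h5, h6, h7⟩ := h ω' h1 h2 h3
  exact ⟨b, ⟨h4, h5, h6⟩, h7⟩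

theorem FinB_fib (h : IsP s p) (T : Finset α) (X : Ω → α) (E E' : Ω → Prop)
    (hT : ∀ ω ∈ s, X ω ∈ T → E' ω → E ω) :
    ∑ a ∈ T, ms s p (fun ω => X ω = a ∧ E' ω) ≤ ms s p E := by
  classical
  simp only [ms, sum_filter]
  rw [sum_comm]
  refine sum_le_sum fun ω hω => ?_
  have h0 := h.1 ω hω
  by_cases h1 : E' ω
  · simp only [h1, and_true, sum_ite_eq]
    by_cases h2 : X ω ∈ T
    · rw [if_pos h2, if_pos (hT ω hω h2 h1)]
    · rw [if_neg h2]; split_ifs <;> simp [h0]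
  · simp only [h1, and_false, if_false, sum_const_zero]
    split_ifs <;> simp [h0]

theorem FinB_bits (c : ℝ) (Q : Ω → ℝ) (h : c ≤ ∑ ω ∈ s, p ω * -Real.log (Q ω)) :
    c / Real.log 2 ≤ ex s p (fun ω => -Real.logb 2 (Q ω)) := by
  refine (div_le_div_of_nonneg_right h fin0_log.le).trans_eq ?_
  rw [ex, sum_div]
  exact sum_congr rfl fun ω _ => by rw [Real.logb]; ring

theorem FinB_nil (h : IsP s p) (X : Ω → α) (W : Ω → β) :
    ce s p X (pj (nil Ω) W) = ce s p X W ∧ ce s p X (pj W (nil Ω)) = ce s p X W :=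
  ⟨le_antisymm (ce_mono h (fun _ _ _ _ e => (Prod.mk.inj e).1) fun _ _ _ _ e => (Prod.mk.inj e).2)
    (ce_mono h (fun _ _ _ _ e => (Prod.mk.inj e).1) fun _ _ _ _ e => Prod.ext rfl e),
  le_antisymm (ce_mono h (fun _ _ _ _ e => (Prod.mk.inj e).1) fun _ _ _ _ e => (Prod.mk.inj e).1)
    (ce_mono h (fun _ _ _ _ e => (Prod.mk.inj e).1) fun _ _ _ _ e => Prod.ext e rfl)⟩

theorem FinB_markov (h : IsP s p) {f : Ω → ℝ} (hf : ∀ ω ∈ s, 0 < p ω → 0 ≤ f ω) {e t : ℝ}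
    (ht : 0 < t) (he : ex s p f ≤ e) : ms s p (fun ω => e / t < f ω) ≤ t := by
  by_contra hc
  rw [not_le] at hc
  obtain ⟨ω, hω, h1, h2⟩ := exists_of_ms h (ht.trans hc)
  have h3 : p ω * f ω ≤ ex s p f := single_le_sum (f := fun ω => p ω * f ω) (fun a ha =>
    (h.1 a ha).eq_or_lt.elim (fun e => by rw [← e, zero_mul]) fun e =>
      mul_nonneg e.le (hf a ha e)) hω
  have h4 : 0 ≤ e := (mul_nonneg h2.le (hf ω hω h2)).trans (h3.trans he)
  have h5 : 0 < e := (mul_pos h2 ((div_nonneg h4 ht.le).trans_lt h1)).trans_le (h3.trans he)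
  have h6 := markov h hf (c := e / t)
  have h7 := ms_imp h (E := fun ω => e / t < f ω) (E' := fun ω => e / t ≤ f ω) fun _ _ a => a.le
  have h8 := mul_lt_mul_of_pos_right (hc.trans_le h7) (div_pos h5 ht)
  rw [mul_div_cancel₀ _ ht.ne'] at h8
  linarith

theorem at_isP (h : IsP s p) (W : Ω → β) {ω : Ω} (hω : ω ∈ s) (hp : 0 < p ω) :
    IsP (atS s W ω) (atP s p W ω) := by
  exact rs_isP h (hp.trans_le (le_pr h W hω))

theorem mem_atS {W : Ω → β} {ω ω' : Ω} : ω' ∈ atS s W ω ↔ ω' ∈ s ∧ W ω' = W ω := by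
  exact mem_rs

theorem ce_at (h : IsP s p) (X : Ω → α) (Y : Ω → β) (W : Ω → γ) :
    ex s p (fun ω => ce (atS s W ω) (atP s p W ω) X Y) = ce s p X (pj Y W) := by
  exact (ce_atoms h X Y W).symm

theorem ex_at (h : IsP s p) (f : Ω → ℝ) (W : Ω → γ) :
    ex s p (fun ω => ex (atS s W ω) (atP s p W ω) f) = ex s p f := by
  exact (ex_atoms h f W).symm

theorem dz_close [Fintype ι] (j : ℕ) (v : ι → ℝ) : ‖v - dz j v‖ ≤ 1 / 2 ^ j := by
  refine qz_close (funext fun i => ?_)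
  simp only [dz, cor, qz]
  rw [mul_div_cancel₀ _ (by positivity), Int.floor_intCast]

theorem qz_dz {j j' : ℕ} (h : j ≤ j') (v : ι → ℝ) : qz j (dz j' v) = qz j v := by
  refine qz_nest h (funext fun i => ?_)
  simp only [dz, cor, qz]
  rw [mul_div_cancel₀ _ (by positivity), Int.floor_intCast]

/-- Simultaneous Markov selection inside an event. -/
theorem select (h : IsP s p) {E : Ω → Prop} {κ : ℝ} (hκ : 0 < κ) (hE : κ ≤ ms s p E) {J : ℕ}
    (φ : Fin J → Ω → ℝ) (e : Fin J → ℝ) (h0 : ∀ i, ∀ ω ∈ s, 0 < p ω → 0 ≤ φ i ω)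
    (he : ∀ i, ex s p (φ i) ≤ e i) :
    ∃ ω ∈ s, 0 < p ω ∧ E ω ∧ ∀ i, φ i ω ≤ (J + 1) * e i / κ := by
  classical
  by_contra hc
  push Not at hc
  have hJ : (0 : ℝ) < J + 1 := by positivity
  have h1 : ∀ i, ms s p (fun ω => (J + 1) * e i / κ < φ i ω) ≤ κ / (J + 1) := fun i => by
    have := FinB_markov h (h0 i) (div_pos hκ hJ) (he i)
    rwa [div_div_eq_mul_div, mul_comm] at this
  have h2 : ms s p E ≤ ∑ i, ms s p (fun ω => (J + 1) * e i / κ < φ i ω) := by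
    simp only [ms, sum_filter]
    rw [sum_comm]
    refine sum_le_sum fun ω hω => ?_
    have h3 : ∀ i ∈ univ, 0 ≤ if (J + 1) * e i / κ < φ i ω then p ω else 0 := fun i _ => by
      split_ifs
      exacts [h.1 ω hω, le_rfl]
    by_cases h4 : E ω
    · rcases (h.1 ω hω).eq_or_lt with hp | hp
      · rw [if_pos h4]; exact hp.ge.trans (sum_nonneg h3)
      · obtain ⟨i, hi⟩ := hc ω hω hp h4
        refine le_trans ?_ (single_le_sum h3 (mem_univ i))
        rw [if_pos h4, if_pos hi]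
    · rw [if_neg h4]; exact sum_nonneg h3
  have h5 := sum_le_card_nsmul univ _ _ fun i _ => h1 i
  rw [card_univ, Fintype.card_fin, nsmul_eq_mul] at h5
  have h6 : (J : ℝ) * (κ / (J + 1)) < κ := by
    rw [← mul_div_assoc, div_lt_iff₀ hJ]; linarith
  linarith

/-- Gibbs inequality in bits for a reference law on a finite set -/
theorem ce_le_ref (h : IsP s p) (X : Ω → α) (Y : Ω → β) (A : Finset α) (Q : α → ℝ)
    (hA : ∀ ω ∈ s, X ω ∈ A) (hQ : ∀ a ∈ A, 0 < Q a) (h1 : ∑ a ∈ A, Q a ≤ 1) :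
    ce s p X Y ≤ ex s p (fun ω => -Real.logb 2 (Q (X ω))) := by
  classical
  refine FinB_bits _ _ (cgibbs h X Y (fun _ a => Q a) (fun ω hω _ => hQ _ (hA ω hω))
    (fun ω hω => (hQ _ (hA ω hω)).le) fun ω _ => le_trans (sum_le_sum_of_subset_of_nonneg
      (fun a ha => ?_) fun a ha _ => (hQ a ha).le) h1)
  obtain ⟨ω', h2, rfl⟩ := mem_image.1 ha
  exact hA ω' (mem_filter.1 h2).1

/-- conditional entropy as the mean of the conditional information -/
theorem ce_eq_ex (h : IsP s p) (X : Ω → α) (Y : Ω → β) :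
    ce s p X Y = ex s p (fun ω => -Real.logb 2
      (ms s p (fun ω' => X ω' = X ω ∧ Y ω' = Y ω) / ms s p (fun ω' => Y ω' = Y ω))) := by
  rw [ce, fin0_cent, ex, sum_div]
  refine sum_congr rfl fun ω hω => ?_
  rcases (h.1 ω hω).eq_or_lt with hp | hp
  · rw [← hp, zero_mul, zero_mul, zero_div]
  rw [← fin0_pr2, ← fin0_pr, Real.logb, Real.log_div
    (hp.trans_le (le_pr h (fun ω => (X ω, Y ω)) hω)).ne' (hp.trans_le (le_pr h Y hω)).ne']
  ring

/-- If the masses of `X` given `F` are at most `2 ^ (-x)`, the entropy of `X` on an atom of a finer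
label `W` is at least `x` minus a relative entropy whose mean is the information gained.
Take `φ ω = ex (atom) (-logb (mass of X given F)) - ce (atom) X nil`. -/
theorem atom_low (h : IsP s p) (X : Ω → α) (F : Ω → β) (W : Ω → γ) (hF : Det s F W) {x : ℝ}
    (hx : ∀ ω ∈ s, ms s p (fun ω' => X ω' = X ω ∧ F ω' = F ω) ≤
      (2 : ℝ) ^ (-x) * ms s p (fun ω' => F ω' = F ω)) :
    ∃ φ : Ω → ℝ, (∀ ω ∈ s, 0 < p ω → 0 ≤ φ ω) ∧ ex s p φ ≤ ce s p X F - ce s p X W ∧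
      ∀ ω ∈ s, 0 < p ω → x - φ ω ≤ ce (atS s W ω) (atP s p W ω) X (nil Ω) := by
  classical
  set g : Ω → ℝ := fun ω => -Real.logb 2
    (ms s p (fun ω' => X ω' = X ω ∧ F ω' = F ω) / ms s p (fun ω' => F ω' = F ω)) with hg
  have pos : ∀ ω ∈ s, 0 < p ω → 0 < ms s p (fun ω' => X ω' = X ω ∧ F ω' = F ω) ∧
      0 < ms s p (fun ω' => F ω' = F ω) := fun ω hω hp =>
    ⟨fin0_pr2 (s := s) (p := p) X F _ _ ▸ hp.trans_le (le_pr h (fun ω => (X ω, F ω)) hω),
      hp.trans_le (le_pr h F hω)⟩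
  have pa : ∀ ω, ∀ a ∈ atS s W ω, 0 < atP s p W ω a → 0 < p a := fun ω a ha hp =>
    (h.1 a (mem_atS.1 ha).1).lt_of_ne fun e => by simp [atP, rp, ← e] at hp
  refine ⟨fun ω => ex (atS s W ω) (atP s p W ω) g - ce (atS s W ω) (atP s p W ω) X (nil Ω),
    fun ω hω hp => sub_nonneg.2 ?_, le_of_eq ?_, fun ω hω hp => ?_⟩
  · have eF : ∀ a ∈ atS s W ω, F a = F ω := fun a ha =>
      hF a (mem_atS.1 ha).1 ω hω (mem_atS.1 ha).2
    have h1 := FinB_bits _ _ (cgibbs (at_isP h W hω hp) X (nil Ω) (fun _ a =>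
      ms s p (fun ω' => X ω' = a ∧ F ω' = F ω) / ms s p (fun ω' => F ω' = F ω))
      (fun a ha hpa => by
        have := pos a (mem_atS.1 ha).1 (pa ω a ha hpa)
        rw [eF a ha] at this
        exact div_pos this.1 this.2)
      (fun a _ => div_nonneg (ms_ge_zero h _) (ms_ge_zero h _)) fun a _ => by
        rw [← sum_div, div_le_one (pos ω hω hp).2]
        exact FinB_fib h _ X _ _ fun _ _ _ e => e)
    refine h1.trans_eq (sum_congr rfl fun a ha => ?_)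
    simp only [hg, eF a ha]
  · have h1 := ex_at h g W
    have h2 := ce_at h X (nil Ω) W
    rw [(FinB_nil h X W).1] at h2
    rw [ce_eq_ex h X F, ← hg, ← h1, ← h2]
    simp only [ex, mul_sub, sum_sub_distrib]
  · have h1 : x ≤ ex (atS s W ω) (atP s p W ω) g := by
      rw [← Fin_ex (at_isP h W hω hp) x]
      refine sum_le_sum fun a ha => ?_
      rcases ((at_isP h W hω hp).1 a ha).eq_or_lt with e | e
      · rw [← e, zero_mul, zero_mul]
      refine mul_le_mul_of_nonneg_left ?_ e.le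
      have h2 := pos a (mem_atS.1 ha).1 (pa ω a ha e)
      rw [hg, le_neg, Real.logb_le_iff_le_rpow one_lt_two (div_pos h2.1 h2.2), div_le_iff₀ h2.2]
      exact hx a (mem_atS.1 ha).1
    linarith

/-- Fano inequality for two copies glued over `K`: `ce_event` for the second copy given the first
one, `glue_ce`. -/
theorem glue_fano (h : IsP s p) (K : Ω → β) (V : Ω → α) (ζ : Ω → γ) (hζ : Det s ζ K)
    (B : Ω → α → Prop) {x y D : ℝ}
    (hc : ∀ ω ∈ s, (cnt s V ζ (fun _ => True) ω : ℝ) ≤ (2 : ℝ) ^ x)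
    (hB : ∀ ω ∈ s, (cnt s V ζ (fun ω' => B ω (V ω')) ω : ℝ) ≤ (2 : ℝ) ^ y)
    (he : x - D ≤ ce s p V K) :
    ms (glueS s K s K) (glueP p s p K) (fun z => B z.1 (V z.2)) * (x - y) ≤ D + 1 := by
  have hg := glue_prob h K
  have h1 := ce_event hg (fun z => V z.2) (fun z => z.1) (fun z => B z.1 (V z.2)) (x := y) (y := x)
    (fun z hz => le_trans (Nat.cast_le.2 (FinB_cnt fun a ha e hb => ?_)) (hB z.1 (glue_mem.1 hz).1))
    fun z hz => le_trans (Nat.cast_le.2 (FinB_cnt fun a ha e _ => ?_)) (hc z.1 (glue_mem.1 hz).1)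
  · have h2 := glue_ce h K (fun ω => ω) V fun _ _ _ _ e => congrArg K e
    rw [h2, ms_not hg] at h1
    linarith
  · obtain ⟨a1, a2, a3⟩ := glue_mem.1 ha
    exact ⟨a.2, a2, e ▸ hζ _ a2 _ a1 a3.symm, e ▸ hb, rfl⟩
  · obtain ⟨a1, a2, a3⟩ := glue_mem.1 ha
    exact ⟨a.2, a2, e ▸ hζ _ a2 _ a1 a3.symm, trivial, rfl⟩

theorem Reg.cnt_le (h : IsP s p) {X : Ω → ι → ℝ} {n : ℕ} {D : ℝ} {f : ℕ → ℝ}
    (hR : Reg s p X n D f) {k k' : ℕ} (hk : k ≤ k') (hk' : k' ≤ n) {ω : Ω} (hω : ω ∈ s) :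
    (cnt s (qv k' X) (qv k X) (fun _ => True) ω : ℝ) ≤ (2 : ℝ) ^ (f k' - f k + D) := by
  classical
  set T := (s.filter fun ω' => qv k X ω' = qv k X ω).image (qv k' X) with hT
  have h1 := FinB_fib h T (qv k' X) (fun ω' => qv k X ω' = qv k X ω) (fun _ => True)
    fun a ha h2 _ => by
      obtain ⟨b, h3, h4⟩ := mem_image.1 h2
      exact (det_qv hk X a ha b (mem_filter.1 h3).1 h4.symm).trans (mem_filter.1 h3).2
  have h2 := card_nsmul_le_sum T (fun a => ms s p fun ω' => qv k' X ω' = a ∧ True)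
    ((2 : ℝ) ^ (-f k' - D)) fun a ha => by
      obtain ⟨b, h3, rfl⟩ := mem_image.1 ha
      simpa only [and_true] using (hR k' hk' b (mem_filter.1 h3).1).1
  have h3 := (h2.trans h1).trans (hR k (hk.trans hk') ω hω).2
  rw [nsmul_eq_mul, ← le_div_iff₀ (by positivity), ← Real.rpow_sub two_pos] at h3
  refine (Fin_cnt T fun a ha e _ => mem_image_of_mem _ (mem_filter.2 ⟨ha, e⟩)).trans
    (h3.trans_eq ?_)
  congr 1
  ring

theorem Reg.mass_le (h : IsP s p) {X : Ω → ι → ℝ} {n : ℕ} {D : ℝ} {f : ℕ → ℝ}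
    (hR : Reg s p X n D f) {k k' : ℕ} (hk : k ≤ k') (hk' : k' ≤ n) {ω : Ω} (hω : ω ∈ s) :
    ms s p (fun ω' => qv k' X ω' = qv k' X ω) ≤
      (2 : ℝ) ^ (-(f k' - f k - D)) * ms s p (fun ω' => qv k X ω' = qv k X ω) := by
  refine (hR k' hk' ω hω).2.trans (le_trans (le_of_eq ?_)
    (mul_le_mul_of_nonneg_left (hR k (hk.trans hk') ω hω).1 (by positivity)))
  rw [← Real.rpow_add two_pos]
  congr 1
  ring

theorem Reg.ce_ge (h : IsP s p) {X : Ω → ι → ℝ} {n : ℕ} {D : ℝ} {f : ℕ → ℝ}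
    (hR : Reg s p X n D f) {k k' : ℕ} (hk : k ≤ k') (hk' : k' ≤ n) :
    f k' - f k - D ≤ ce s p (qv k' X) (qv k X) ∧ ce s p (qv k' X) (qv k X) ≤ f k' - f k + D := by
  exact ⟨ce_ge_sup h _ _ fun ω hω => (ms_imp h fun _ _ e => e.1).trans (hR.mass_le h hk hk' hω),
    (ce_cnt h _ _ (fun _ => f k' - f k + D) fun ω hω => hR.cnt_le h hk hk' hω).trans_eq
      (Fin_ex h _)⟩

theorem Prx.ge (h : IsP s p) {n : ℕ} {c : ℝ} {X : Ω → ι → ℝ} {z : Ω → ℝ}
    (hz : Prx s p n c X z) {i : ℕ} (hi : i ≤ n) : (i : ℝ) - c ≤ ce s p (qv i X) (nil Ω) := by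
  have h1 := ce_le_add h (qs n z) (qs i z) (nil Ω)
  have h2 := ce_qs h hi z
  have h3 : ce s p (qs i z) (nil Ω) ≤ ce s p (qv i X) (nil Ω) :=
    ce_mono h (fun a ha b hb e => hz.1 i a ha b hb (Prod.mk.inj e).1) fun _ _ _ _ e => e
  rw [(FinB_nil h _ _).2] at h1
  linarith [hz.2.2]

/-- a bounded real variable has bounded entropy at level `n` -/
theorem ce_qs_bd (h : IsP s p) (n : ℕ) (z : Ω → ℝ) (Y : Ω → β) {c : ℝ} (hc : 0 ≤ c)
    (hz : ∀ ω ∈ s, |z ω| ≤ (2 : ℝ) ^ c) : ce s p (qs n z) Y ≤ n + c + 2 := by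
  refine ce_near1 h n z (fun _ => 0) Y (fun _ _ _ _ _ => rfl) (by positivity) fun ω hω => ?_
  rw [sub_zero, Real.rpow_add two_pos, Real.rpow_natCast, mul_div_cancel_left₀ _ (by positivity)]
  exact hz ω hω

/-- window entropies change by at most the dimension when the window moves by one step -/
theorem window_lip (h : IsP s p) [Fintype ι] (X : Ω → ι → ℝ) (R k : ℕ) :
    |ce s p (qv (k + 1 + R) X) (qv (k + 1) X) - ce s p (qv (k + R) X) (qv k X)| ≤
      Fintype.card ι := by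
  have h1 : ∀ a b, a ≤ b → ce s p (qv b X) (qv a X) =
      ce s p (qv b X) (nil Ω) - ce s p (qv a X) (nil Ω) := fun a b hab => by
    rw [← Fin_chain h (det_qv hab X), (FinB_nil h _ _).2]
  have h2 : ∀ a, 0 ≤ ce s p (qv (a + 1) X) (nil Ω) - ce s p (qv a X) (nil Ω) ∧
      ce s p (qv (a + 1) X) (nil Ω) - ce s p (qv a X) (nil Ω) ≤ Fintype.card ι := fun a => by
    rw [← h1 a (a + 1) (Nat.le_succ a)]
    refine ⟨ce_nonneg h _ _, (ce_qv h (Nat.le_succ a) X).trans_eq ?_⟩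
    push_cast
    ring
  rw [h1 _ _ (Nat.le_add_right _ _), h1 _ _ (Nat.le_add_right _ _), add_right_comm k 1 R, abs_le]
  constructor <;> linarith [(h2 k).1, (h2 k).2, (h2 (k + R)).1, (h2 (k + R)).2]

end Vale.Agent.P127S
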