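import Vale.Agent.P127S.GreedyA

/-! The greedy process. -/

open Real Finset Vale.Agent.P118O

noncomputable section

namespace Vale.Agent.P127S

section aux

variable {Ω α α' β β' γ : Type} {s : Finset Ω} {p : Ω → ℝ}

theorem greedy_ms_imp (h : IsP s p) {E E' : Ω → Prop} (hE : ∀ ω ∈ s, 0 < p ω → E ω → E' ω) :
    ms s p E ≤ ms s p E' := by
  classical
  unfold ms
  rw [Finset.sum_filter, Finset.sum_filter]
  refine Finset.sum_le_sum fun ω hω => ?_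
  have h0 := h.1 ω hω
  by_cases h1 : E ω
  · by_cases h2 : E' ω
    · simp [h1, h2]
    · have : ¬ 0 < p ω := fun h3 => h2 (hE ω hω h3 h1)
      simp only [h1, h2, if_true, if_false]
      exact not_lt.1 this
  · by_cases h2 : E' ω
    · simp [h1, h2, h0]
    · simp [h1, h2]

theorem greedy_ex_mono (h : IsP s p) {f g : Ω → ℝ} (hfg : ∀ ω ∈ s, f ω ≤ g ω) :
    ex s p f ≤ ex s p g :=
  Finset.sum_le_sum fun ω hω => mul_le_mul_of_nonneg_left (hfg ω hω) (h.1 ω hω)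

theorem greedy_ex_const (h : IsP s p) (x : ℝ) : ex s p (fun _ => x) = x := by
  unfold ex
  rw [← Finset.sum_mul, h.2, one_mul]

theorem greedy_ex_sub (f g : Ω → ℝ) : ex s p (fun ω => f ω - g ω) = ex s p f - ex s p g := by
  unfold ex
  rw [← Finset.sum_sub_distrib]
  exact Finset.sum_congr rfl fun ω _ => by ring

theorem greedy_ex_congr {f g : Ω → ℝ} (hfg : ∀ ω ∈ s, f ω = g ω) : ex s p f = ex s p g :=
  Finset.sum_congr rfl fun ω hω => by rw [hfg ω hω]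

theorem greedy_vr_congr {f g : Ω → ℝ} (hfg : ∀ ω ∈ s, f ω = g ω) : vr s p f = vr s p g := by
  unfold vr
  rw [greedy_ex_congr hfg]
  exact greedy_ex_congr fun ω hω => by rw [hfg ω hω]

theorem greedy_ce_eq (h : IsP s p) (X : Ω → α) {Y : Ω → β} {Y' : Ω → β'} (h1 : Det s Y Y')
    (h2 : Det s Y' Y) : ce s p X Y = ce s p X Y' := by
  have hX : ∀ {δ : Type} (U : Ω → δ), Det s X (pj X U) := fun U ω _ ω' _ e => congrArg Prod.fst e
  exact le_antisymm (ce_mono h (hX _) h2) (ce_mono h (hX _) h1)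

theorem greedy_at_eq {X : Ω → α} {X' : Ω → α'} {ω ω' : Ω}
    (e : ∀ x ∈ s, X x = X ω ↔ X' x = X' ω') :
    atS s X ω = atS s X' ω' ∧ atP s p X ω = atP s p X' ω' := by
  classical
  constructor
  · ext x
    rw [mem_atS, mem_atS]
    exact ⟨fun h => ⟨h.1, (e x h.1).1 h.2⟩, fun h => ⟨h.1, (e x h.1).2 h.2⟩⟩
  · funext x
    unfold atP rp ms
    congr 1
    refine Finset.sum_congr ?_ fun _ _ => rfl
    ext y
    simp only [Finset.mem_filter]
    exact ⟨fun h => ⟨h.1, (e y h.1).1 h.2⟩, fun h => ⟨h.1, (e y h.1).2 h.2⟩⟩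

theorem greedy_stop_congr {G : Ω → β} {G' : Ω → β'} {W W' : Ω → Nrm} {sv fv : Ω → ℝ} {Z : Ω → γ}
    {ϱ τ0 : ℝ} {L2 : ℕ} {ω ω' : Ω}
    (e : ∀ x ∈ s, pj G W x = pj G W ω ↔ pj G' W' x = pj G' W' ω')
    (hW : ∀ x ∈ s, pj G W x = pj G W ω → W' x = W x) (hS : Stop s p G W sv fv Z ϱ τ0 L2 ω) :
    Stop s p G' W' sv fv Z ϱ τ0 L2 ω' := by
  obtain ⟨e1, e2⟩ := greedy_at_eq (p := p) e
  have hn : ∀ x ∈ atS s (pj G W) ω, nv W sv fv x = nv W' sv fv x := by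
    intro x hx
    rw [mem_atS] at hx
    unfold nv
    rw [hW x hx.1 hx.2]
  have hq : ∀ x ∈ atS s (pj G W) ω, qv L2 (nv W sv fv) x = qv L2 (nv W' sv fv) x := by
    intro x hx
    unfold qv
    rw [hn x hx]
  unfold Stop at hS ⊢
  rw [← e1, ← e2]
  refine ⟨fun η => ?_, ?_⟩
  · refine (hS.1 η).trans (le_of_eq (greedy_vr_congr fun x hx => ?_))
    rw [hn x hx]
  · rw [← ce_congr hq (fun _ _ => rfl : ∀ x ∈ atS s (pj G W) ω, nil Ω x = nil Ω x),
      ← ce_congr hq (fun _ _ => rfl : ∀ x ∈ atS s (pj G W) ω, Z x = Z x)]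
    exact hS.2

/-- the state after `k` rounds -/
structure GreedySt (s : Finset Ω) (p : Ω → ℝ) (F : Ω → β) (sv fv : Ω → ℝ) (Z : Ω → γ) (M L2 : ℕ)
    (ϱ τ0 a b C : ℝ) (k : ℕ) (H : Ω → List Nrm) (W : Ω → Nrm) : Prop where
  detH : Det s H (pj F (pj sv fv))
  detW : Det s W (pj F H)
  bd : ∀ ω ∈ s, ‖nv W sv fv ω‖ ≤ 1
  slope : ∀ ω ∈ s, |(W ω).b| ≤ 2 ^ (M + 3 + (W ω).l) * (1 - 1 / 2 ^ (W ω).y)
  hl : ∀ ω ∈ s, ((W ω).l : ℝ) ≤ a + L2
  hy : ∀ ω ∈ s, ((W ω).y : ℝ) ≤ b + L2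
  prog : ∀ ω ∈ s, 0 < p ω → (Stop s p (pj F H) W sv fv Z ϱ τ0 L2 ω ∨ b ≤ (W ω).y ∨ a ≤ (W ω).l) ∨
    k ≤ (W ω).l + (W ω).y
  cost : ce s p H F ≤ C + 10 / M * ex s p (fun ω => ((W ω).l + (W ω).y : ℝ)) +
    (2 * L2 + 4) / τ0 * (ce s p Z F - ce s p Z (pj F H))

theorem greedy_next (h : IsP s p) {F : Ω → β} {sv fv : Ω → ℝ} {Z : Ω → γ} {M L2 : ℕ}
    {ϱ τ0 a b C : ℝ} (hM : 1 ≤ M) (hL : 2 * M + 5 ≤ L2) (hϱ : 0 ≤ ϱ)
    (hϱ' : ϱ ≤ 1 / 2 ^ (2 * M + 4)) (hτ : 0 < τ0) {k : ℕ} {H : Ω → List Nrm} {W : Ω → Nrm}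
    (g : GreedySt s p F sv fv Z M L2 ϱ τ0 a b C k H W) :
    ∃ H' W', GreedySt s p F sv fv Z M L2 ϱ τ0 a b C (k + 1) H' W' := by
  have hI : Inv s (pj F H) W sv fv M :=
    ⟨fun ω hω ω' hω' e => g.detW ω hω ω' hω' (congrArg Prod.fst e), g.bd, g.slope⟩
  have hR' : ∀ ω ∈ s, ∀ ω' ∈ s, pj (pj F H) W ω = pj (pj F H) W ω' →
      (Stop s p (pj F H) W sv fv Z ϱ τ0 L2 ω ∨ b ≤ (W ω).y ∨ a ≤ (W ω).l) →
      (Stop s p (pj F H) W sv fv Z ϱ τ0 L2 ω' ∨ b ≤ (W ω').y ∨ a ≤ (W ω').l) := by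
    intro ω _ ω' _ e hr
    have eW : W ω = W ω' := congrArg Prod.snd e
    rcases hr with hr | hr
    · exact Or.inl (greedy_stop_congr (fun x _ => by rw [e]) (fun _ _ _ => rfl) hr)
    · exact Or.inr (eW ▸ hr)
  have hR : Det s (fun ω => Stop s p (pj F H) W sv fv Z ϱ τ0 L2 ω ∨ b ≤ (W ω).y ∨ a ≤ (W ω).l)
      (pj (pj F H) W) := fun ω hω ω' hω' e =>
    propext ⟨hR' ω hω ω' hω' e, hR' ω' hω' ω hω e.symm⟩
  obtain ⟨W', hI', hfix, hb, hgr, hc⟩ := greedy_step h (pj F H) W sv fv Z hM hL hϱ hϱ' hτ hI _ hR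
    (fun ω _ _ hS => Or.inl hS)
  have d1 : Det s (pj F H) (pj (pj F H) W) := fun ω _ ω' _ e => congrArg Prod.fst e
  have d2 : Det s (pj (pj F H) W) (pj F H) := fun ω hω ω' hω' e =>
    Prod.ext e (g.detW ω hω ω' hω' e)
  have d3 : Det s (pj (pj (pj F H) W) W') (pj F fun ω => W' ω :: H ω) := by
    intro ω hω ω' hω' e
    have e1 : F ω = F ω' := congrArg Prod.fst e
    have e2 : W' ω :: H ω = W' ω' :: H ω' := congrArg Prod.snd e
    rw [List.cons.injEq] at e2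
    exact Prod.ext (d2 ω hω ω' hω' (Prod.ext e1 e2.2)) e2.1
  have d4 : Det s (pj F fun ω => W' ω :: H ω) (pj (pj (pj F H) W) W') := by
    intro ω hω ω' hω' e
    have e1 : F ω = F ω' := congrArg (fun x => x.1.1.1) e
    have e2 : H ω = H ω' := congrArg (fun x => x.1.1.2) e
    have e3 : W' ω = W' ω' := congrArg Prod.snd e
    refine Prod.ext e1 ?_
    change W' ω :: H ω = W' ω' :: H ω'
    rw [e2, e3]
  refine ⟨fun ω => W' ω :: H ω, W', ?_, ?_, hI'.bd, hI'.slope, ?_, ?_, ?_, ?_⟩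
  · intro ω hω ω' hω' e
    have e1 : F ω = F ω' := congrArg Prod.fst e
    have e2 : H ω = H ω' := g.detH ω hω ω' hω' e
    have e4 : pj sv fv ω = pj sv fv ω' := congrArg Prod.snd e
    have e3 : W' ω = W' ω' := hI'.det ω hω ω' hω'
      (Prod.ext (d2 ω hω ω' hω' (Prod.ext e1 e2)) e4)
    change W' ω :: H ω = W' ω' :: H ω'
    rw [e2, e3]
  · intro ω hω ω' hω' e
    exact congrArg Prod.snd (d3 ω hω ω' hω' e)
  · intro ω hω
    by_cases hr : Stop s p (pj F H) W sv fv Z ϱ τ0 L2 ω ∨ b ≤ (W ω).y ∨ a ≤ (W ω).l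
    · rw [hfix ω hω hr]
      exact g.hl ω hω
    · have h1 : ((W ω).l : ℝ) < a := not_le.1 fun h1 => hr (Or.inr (Or.inr h1))
      have h2 : ((W' ω).l : ℝ) ≤ (W ω).l + L2 := by exact_mod_cast (hb ω hω).2.1
      linarith
  · intro ω hω
    by_cases hr : Stop s p (pj F H) W sv fv Z ϱ τ0 L2 ω ∨ b ≤ (W ω).y ∨ a ≤ (W ω).l
    · rw [hfix ω hω hr]
      exact g.hy ω hω
    · have h1 : ((W ω).y : ℝ) < b := not_le.1 fun h1 => hr (Or.inr (Or.inl h1))
      have h2 : ((W' ω).y : ℝ) ≤ (W ω).y + L2 := by exact_mod_cast (hb ω hω).2.2.2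
      linarith
  · intro ω hω hp
    by_cases hr : Stop s p (pj F H) W sv fv Z ϱ τ0 L2 ω ∨ b ≤ (W ω).y ∨ a ≤ (W ω).l
    · left
      have hW : ∀ x ∈ s, pj (pj F H) W x = pj (pj F H) W ω → W' x = W x := fun x hx e =>
        hfix x hx (hR' ω hω x hx e.symm hr)
      rcases hr with hr | hr
      · refine Or.inl (greedy_stop_congr (fun x hx => ⟨fun e => ?_, fun e => ?_⟩) hW hr)
        · have e3 : W' x = W' ω := by
            rw [hW x hx e, hW ω hω rfl]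
            exact congrArg Prod.snd e
          exact Prod.ext (d4 x hx ω hω (Prod.ext e e3)) e3
        · exact congrArg Prod.fst (d3 x hx ω hω (congrArg Prod.fst e))
      · right
        rw [hW ω hω rfl]
        exact hr
    · right
      have h1 := hgr ω hω hp hr
      have h2 := (g.prog ω hω hp).resolve_left hr
      omega
  · have c1 : ce s p (fun ω => W' ω :: H ω) F ≤ ce s p (pj H W') F := by
      refine ce_mono h (fun ω _ ω' _ e => ?_) (fun _ _ _ _ e => e)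
      have e2 : H ω = H ω' := congrArg (fun x => x.1.1) e
      have e3 : W' ω = W' ω' := congrArg (fun x => x.1.2) e
      change W' ω :: H ω = W' ω' :: H ω'
      rw [e2, e3]
    have c2 : ce s p W' (pj H F) = ce s p W' (pj (pj F H) W) := by
      refine greedy_ce_eq h W' (fun ω _ ω' _ e => ?_) (fun ω hω ω' hω' e => ?_)
      · exact Prod.ext (congrArg (fun x => x.1.2) e) (congrArg (fun x => x.1.1) e)
      · exact d2 ω hω ω' hω' (Prod.ext (congrArg Prod.snd e) (congrArg Prod.fst e))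
    rw [ce_chain, c2] at c1
    rw [greedy_ex_sub, ← greedy_ce_eq h Z d1 d2, greedy_ce_eq h Z d3 d4] at hc
    have c3 := g.cost
    linarith

theorem greedy_zero (h : IsP s p) (F : Ω → β) {sv fv : Ω → ℝ} (Z : Ω → γ) (M L2 : ℕ)
    (ϱ : ℝ) {τ0 a b x : ℝ} (hτ : 0 < τ0) (ha : 0 ≤ a) (hb : 0 ≤ b) (hx : 0 ≤ x)
    (hv : ∀ ω ∈ s, |sv ω| ≤ (2 : ℝ) ^ x ∧ |fv ω| ≤ (2 : ℝ) ^ x) :
    ∃ H W, GreedySt s p F sv fv Z M L2 ϱ τ0 a b (2 * x + 4) 0 H W := by
  refine ⟨fun ω => [⟨0, 0, ⌊sv ω⌋, ⌊fv ω⌋, 0⟩], fun ω => ⟨0, 0, ⌊sv ω⌋, ⌊fv ω⌋, 0⟩,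
    ?_, ?_, ?_, ?_, ?_, ?_, ?_, ?_⟩
  · intro ω _ ω' _ e
    have e1 : sv ω = sv ω' := congrArg (fun x => x.2.1) e
    have e2 : fv ω = fv ω' := congrArg (fun x => x.2.2) e
    simp only [e1, e2]
  · intro ω _ ω' _ e
    have e1 := congrArg Prod.snd e
    exact (List.cons.inj e1).1
  · intro ω _
    rw [pi_norm_le_iff_of_nonneg zero_le_one]
    intro i
    have h1 := Int.floor_le (sv ω)
    have h2 := Int.lt_floor_add_one (sv ω)
    have h3 := Int.floor_le (fv ω)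
    have h4 := Int.lt_floor_add_one (fv ω)
    fin_cases i
    · simp only [nv, Nrm.ap, Real.norm_eq_abs, Fin.zero_eta, Matrix.cons_val_zero, pow_zero,
        one_mul]
      rw [abs_le]
      constructor <;> linarith
    · simp only [nv, Nrm.ap, Real.norm_eq_abs, Fin.mk_one, Matrix.cons_val_one,
        Matrix.cons_val_zero, pow_zero, one_mul, zero_mul, sub_zero]
      rw [abs_le]
      constructor <;> linarith
  · intro ω _
    simp
  · intro ω _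
    have : (0 : ℝ) ≤ L2 := Nat.cast_nonneg _
    simp only [Nat.cast_zero]
    linarith
  · intro ω _
    have : (0 : ℝ) ≤ L2 := Nat.cast_nonneg _
    simp only [Nat.cast_zero]
    linarith
  · intro ω _ _
    exact Or.inr (Nat.zero_le _)
  · have c1 : ce s p (fun ω => [(⟨0, 0, ⌊sv ω⌋, ⌊fv ω⌋, 0⟩ : Nrm)]) F ≤
        ce s p (pj (qs 0 sv) (qs 0 fv)) F := by
      refine ce_mono h (fun ω _ ω' _ e => ?_) (fun _ _ _ _ e => e)
      have e1 : qs 0 sv ω = qs 0 sv ω' := congrArg (fun x => x.1.1) e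
      have e2 : qs 0 fv ω = qs 0 fv ω' := congrArg (fun x => x.1.2) e
      simp only [qs, pow_zero, one_mul] at e1 e2
      simp only [e1, e2]
    rw [ce_chain] at c1
    have c2 := ce_qs_bd h 0 sv F hx (fun ω hω => (hv ω hω).1)
    have c3 := ce_qs_bd h 0 fv (pj (qs 0 sv) F) hx (fun ω hω => (hv ω hω).2)
    have c4 : ce s p Z (pj F fun ω => [(⟨0, 0, ⌊sv ω⌋, ⌊fv ω⌋, 0⟩ : Nrm)]) ≤ ce s p Z F :=
      ce_mono h (fun ω _ ω' _ e => congrArg Prod.fst e) (fun ω _ ω' _ e => congrArg Prod.fst e)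
    have c5 : (0 : ℝ) ≤ (2 * L2 + 4) / τ0 := by positivity
    have c6 := mul_nonneg c5 (sub_nonneg.2 c4)
    simp only [Nat.cast_zero, add_zero, zero_add] at c2 c3 ⊢
    rw [greedy_ex_const h]
    linarith

theorem greedy_low (h : IsP s p) {G : Ω → β} {sv fv : Ω → ℝ} {W : Ω → Nrm} (hW : Det s W G)
    (hb : ∀ ω ∈ s, ‖nv W sv fv ω‖ ≤ 1) {n : ℕ} (hl : ∀ ω ∈ s, ((W ω).l : ℝ) ≤ n) :
    ce s p (qs n sv) G ≤ n + 2 - ex s p (fun ω => ((W ω).l : ℝ)) := by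
  classical
  have h1 := ce_cnt h (qs n sv) G (fun ω => (n + 2 : ℝ) - (W ω).l) (fun ω hω => by
    have h2 := cnt_near1 (s := s) n sv (fun ω => (W ω).sc) G (fun ω' => G ω' = G ω)
      (fun x hx x' hx' e => congrArg Nrm.sc (hW x hx x' hx' e)) (x := (n : ℝ) - (W ω).l)
      (sub_nonneg.2 (hl ω hω)) (fun x hx e => by
        have h3 := (norm_le_pi_norm (nv W sv fv x) 0).trans (hb x hx)
        simp only [nv, Nrm.ap, Real.norm_eq_abs, Matrix.cons_val_zero] at h3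
        rw [abs_mul, abs_of_pos (by positivity : (0 : ℝ) < 2 ^ (W x).l), hW x hx ω hω e] at h3
        rw [Real.rpow_sub two_pos, Real.rpow_natCast, Real.rpow_natCast, hW x hx ω hω e,
          le_div_iff₀ (by positivity), le_div_iff₀ (by positivity)]
        have h4 : (0 : ℝ) < 2 ^ n := by positivity
        nlinarith) hω
    have h5 : cnt s (qs n sv) G (fun _ => True) ω = cnt s (qs n sv) G (fun ω' => G ω' = G ω) ω := by
      unfold cnt
      congr 2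
      ext x
      simp
    rw [h5]
    refine h2.trans (le_of_eq ?_)
    congr 1
    ring)
  rwa [greedy_ex_sub, greedy_ex_const h] at h1

end aux

/-- Start with `l = y = 0`, `sc = ⌊sv⌋`, `fc = ⌊fv⌋`, `b = 0` (cost `2 η n + 4`). Iterate
`greedy_step` with `R = Stop ∨ c n ≤ y ∨ ε n / 2 ≤ l` (a history label `H : Ω → List Nrm` records
all rounds; state the induction for `pj F H`). After `2 (c + ε) n + 2 L2` rounds `R` holds at all
points of positive weight. The total cost is at most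
`2 η n + 4 + 10 / M * ex (l + y) + (2 L2 + 4) / τ0 * η n ≤ ε ^ 2 n / 10` for `M` large, `η` small.
Since `ce (qs n sv) (F, H) ≤ ex (n - l) + 2` (`ce_cnt`, `cnt_near1`), `ex l ≤ cost + η n + 2`,
so `ε n / 2 ≤ l` is rare. -/
theorem greedy {c ε : ℝ} (hc : 0 < c) (hε : 0 < ε) : ∃ ϱ : ℝ, 0 < ϱ ∧ ∃ L0 : ℕ, ∀ L2 ≥ L0,
    ∀ τ0 : ℝ, 0 < τ0 → ∃ η : ℝ, 0 < η ∧ ∃ n0 : ℕ, ∀ n ≥ n0,
    ∀ {Ω β γ : Type} (s : Finset Ω) (p : Ω → ℝ) (F : Ω → β) (sv fv : Ω → ℝ) (Z : Ω → γ),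
      IsP s p → (∀ ω ∈ s, |sv ω| ≤ (2 : ℝ) ^ (η * n) ∧ |fv ω| ≤ (2 : ℝ) ^ (η * n)) →
      n - η * n ≤ ce s p (qs n sv) F → ce s p Z F - ce s p Z (pj F (pj sv fv)) ≤ η * n →
      ∃ (H : Ω → List Nrm) (W : Ω → Nrm), Det s H (pj F (pj sv fv)) ∧ Det s W (pj F H) ∧
        ce s p H F ≤ ε * n ∧ (∀ ω ∈ s, ‖nv W sv fv ω‖ ≤ 1) ∧
        1 - ε ≤ ms s p (fun ω => ((W ω).l : ℝ) ≤ ε * n ∧ |(W ω).b| ≤ (2 : ℝ) ^ (ε * n) ∧
          ((W ω).y : ℝ) ≤ c * n + L2 ∧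
          (c * n ≤ (W ω).y ∨ Stop s p (pj F H) W sv fv Z ϱ τ0 L2 ω)) := by
  obtain ⟨e, he, he1, heε⟩ : ∃ e : ℝ, 0 < e ∧ e ≤ 1 ∧ e ≤ ε :=
    ⟨min ε 1, lt_min hε one_pos, min_le_right _ _, min_le_left _ _⟩
  obtain ⟨M, hM⟩ := exists_nat_ge (80 * (c + 1) / e ^ 2 + 10)
  have hq : 0 < 80 * (c + 1) / e ^ 2 := by positivity
  have hM0 : (10 : ℝ) ≤ M := by linarith
  have hM1 : 1 ≤ M := by exact_mod_cast (by linarith : (1 : ℝ) ≤ M)
  have hM2 : 10 / (M : ℝ) * (c + 1) ≤ e ^ 2 / 8 := by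
    have h1 : 80 * (c + 1) / e ^ 2 ≤ M := by linarith
    rw [div_le_iff₀ (by positivity)] at h1
    rw [div_mul_eq_mul_div, div_le_div_iff₀ (by linarith) (by norm_num)]
    linarith
  have hM3 : 10 / (M : ℝ) ≤ 1 := by
    rw [div_le_one (by linarith)]
    exact hM0
  refine ⟨1 / 2 ^ (2 * M + 4), by positivity, 2 * M + 5, fun L2 hL τ0 hτ => ?_⟩
  obtain ⟨A, hA⟩ : ∃ A : ℝ, A = (2 * L2 + 4) / τ0 := ⟨_, rfl⟩
  have hA0 : 0 < A := by rw [hA]; positivity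
  obtain ⟨η, hη⟩ : ∃ η : ℝ, η = e ^ 2 / 8 / (3 + A) := ⟨_, rfl⟩
  have hη0 : 0 < η := by rw [hη]; positivity
  have hη1 : (3 + A) * η = e ^ 2 / 8 := by rw [hη]; field_simp
  obtain ⟨n0, hn0⟩ := exists_nat_ge (8 * (6 + 2 * L2) / e ^ 2)
  refine ⟨η, hη0, n0, fun n hn Ω β γ s p F sv fv Z h hv hlow hZ => ?_⟩
  have hn1 : 8 * (6 + 2 * (L2 : ℝ)) ≤ n * e ^ 2 := by
    have h1 : (n0 : ℝ) ≤ n := by exact_mod_cast hn
    have h2 := hn0.trans h1
    rwa [div_le_iff₀ (by positivity)] at h2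
  have hnn : (0 : ℝ) ≤ n := Nat.cast_nonneg _
  have hL0 : (0 : ℝ) ≤ L2 := Nat.cast_nonneg _
  have hLM : 2 * (M : ℝ) + 5 ≤ L2 := by exact_mod_cast hL
  have hen : e * n ≤ n := mul_le_of_le_one_left hnn he1
  have hen0 : 0 ≤ e * n := by positivity
  have hee : n * e ^ 2 ≤ e * n := by
    have h1 := mul_le_of_le_one_left hen0 he1
    linarith
  have hεn : e * n ≤ ε * n := mul_le_mul_of_nonneg_right heε hnn
  have hall : ∀ k : ℕ, ∃ H W, GreedySt s p F sv fv Z M L2 (1 / 2 ^ (2 * M + 4)) τ0 (e * n / 2)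
      (c * n) (2 * (η * n) + 4) k H W := by
    intro k
    induction k with
    | zero =>
      exact greedy_zero h F Z M L2 _ hτ (by positivity) (by positivity) (by positivity) hv
    | succ k ih =>
      obtain ⟨H, W, g⟩ := ih
      exact greedy_next h hM1 hL (by positivity) le_rfl hτ g
  obtain ⟨K, hK⟩ := exists_nat_gt (e * n / 2 + L2 + (c * n + L2))
  obtain ⟨H, W, g⟩ := hall K
  have c1 : ex s p (fun ω => ((W ω).l + (W ω).y : ℝ)) ≤ (c + 1) * n + 2 * L2 := by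
    rw [← greedy_ex_const h ((c + 1) * n + 2 * L2)]
    refine greedy_ex_mono h fun ω hω => ?_
    have h1 := g.hl ω hω
    have h2 := g.hy ω hω
    linarith
  have c2 : ce s p Z (pj F (pj sv fv)) ≤ ce s p Z (pj F H) :=
    ce_mono h (fun ω _ ω' _ e => congrArg Prod.fst e)
      (fun ω hω ω' hω' e => Prod.ext (congrArg (fun x => x.1) e :) (g.detH ω hω ω' hω' e))
  have c3 : ce s p H F + η * n + 2 ≤ n * e ^ 2 / 2 := by
    have h1 := g.cost
    rw [← hA] at h1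
    have h2 : A * (ce s p Z F - ce s p Z (pj F H)) ≤ A * (η * n) :=
      mul_le_mul_of_nonneg_left (by linarith) hA0.le
    have h3 : 10 / (M : ℝ) * ex s p (fun ω => ((W ω).l + (W ω).y : ℝ)) ≤
        10 / (M : ℝ) * ((c + 1) * n + 2 * L2) := mul_le_mul_of_nonneg_left c1 (by positivity)
    have h4 : 10 / (M : ℝ) * (c + 1) * n ≤ e ^ 2 / 8 * n := mul_le_mul_of_nonneg_right hM2 hnn
    have h5 : 10 / (M : ℝ) * (2 * L2) ≤ 1 * (2 * L2) :=
      mul_le_mul_of_nonneg_right hM3 (by positivity)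
    have h6 : (3 + A) * η * n = e ^ 2 / 8 * n := by rw [hη1]
    linarith
  have c4 : ex s p (fun ω => ((W ω).l : ℝ)) ≤ n * e ^ 2 / 2 := by
    have h1 := greedy_low h (G := pj H F) (W := W) (sv := sv) (fv := fv)
      (fun ω hω ω' hω' e => g.detW ω hω ω' hω'
        (Prod.ext (congrArg Prod.snd e) (congrArg Prod.fst e))) g.bd (n := n) (fun ω hω => by
        have h2 := g.hl ω hω
        linarith)
    have h2 := ce_le_add h (qs n sv) H F
    linarith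
  have hn2 : 0 < e * n / 2 := by
    have : 0 < n * e ^ 2 := by linarith
    linarith
  have c5 : ms s p (fun ω => e * n / 2 ≤ ((W ω).l : ℝ)) ≤ e := by
    have h1 := markov h (f := fun ω => ((W ω).l : ℝ)) (fun ω _ _ => Nat.cast_nonneg _)
      (c := e * n / 2)
    refine le_of_mul_le_mul_right (h1.trans (c4.trans (le_of_eq ?_))) hn2
    ring
  refine ⟨H, W, g.detH, g.detW, ?_, g.bd, ?_⟩
  · have : 0 ≤ η * n := by positivity
    linarith
  · have h1 := ms_not h (fun ω => e * n / 2 ≤ ((W ω).l : ℝ))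
    refine le_trans (by linarith) (greedy_ms_imp h
      (E := fun ω => ¬ e * n / 2 ≤ ((W ω).l : ℝ)) fun ω hω hp hE => ?_)
    have h2 := not_le.1 hE
    refine ⟨by linarith, ?_, g.hy ω hω, ?_⟩
    · refine (g.slope ω hω).trans ?_
      have h3 : (0 : ℝ) < 1 / 2 ^ (W ω).y := by positivity
      have h4 : (0 : ℝ) < 2 ^ (M + 3 + (W ω).l) := by positivity
      have h5 : (2 : ℝ) ^ (M + 3 + (W ω).l) ≤ (2 : ℝ) ^ (ε * n) := by
        rw [← Real.rpow_natCast]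
        refine Real.rpow_le_rpow_of_exponent_le one_le_two ?_
        push_cast
        linarith only [h2, hLM, hn1, hee, hεn, hM0]
      exact (mul_le_of_le_one_right h4.le (by linarith only [h3])).trans h5
    · rcases g.prog ω hω hp with (h3 | h3 | h3) | h3
      · exact Or.inr h3
      · exact Or.inl h3
      · exact absurd h3 hE
      · have h4 : (K : ℝ) ≤ (W ω).l + (W ω).y := by exact_mod_cast h3
        have h5 := g.hl ω hω
        have h6 := g.hy ω hω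
        linarith

end Vale.Agent.P127S
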