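import Vale.Agent.P127S.Sys

/-! Greedy normalisation of a planar coefficient vector. -/

open Real Finset Vale.Agent.P118O

noncomputable section

namespace Vale.Agent.P127S

variable {Ω β γ : Type}

/-- normalisation data: zooms `l`, `y`, centres `sc`, `fc`, slope `b` -/
structure Nrm where
  l : ℕ
  y : ℕ
  sc : ℝ
  fc : ℝ
  b : ℝ

/-- the normalised coefficient vector -/
def Nrm.ap (z : Nrm) (sv fv : ℝ) : Fin 2 → ℝ :=
  ![2 ^ z.l * (sv - z.sc), 2 ^ z.y * (fv - z.fc - z.b * (sv - z.sc))]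

/-- the normalised vector variable -/
def nv (W : Ω → Nrm) (sv fv : Ω → ℝ) : Ω → Fin 2 → ℝ := fun ω => (W ω).ap (sv ω) (fv ω)

/-- on the atom through `ω` the top digits are spread and nearly independent of `Z` -/
def Stop (s : Finset Ω) (p : Ω → ℝ) (F : Ω → β) (W : Ω → Nrm) (sv fv : Ω → ℝ) (Z : Ω → γ)
    (ϱ τ0 : ℝ) (L2 : ℕ) (ω : Ω) : Prop :=
  (∀ η : Fin 2 → ℝ, ϱ ^ 2 * ∑ i, η i ^ 2 ≤ vr (atS s (pj F W) ω) (atP s p (pj F W) ω)
      (fun ω' => ∑ i, η i * dz L2 (nv W sv fv ω') i)) ∧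
    ce (atS s (pj F W) ω) (atP s p (pj F W) ω) (qv L2 (nv W sv fv)) (nil Ω) -
      ce (atS s (pj F W) ω) (atP s p (pj F W) ω) (qv L2 (nv W sv fv)) Z ≤ τ0

/-- invariants of the greedy process -/
structure Inv (s : Finset Ω) (F : Ω → β) (W : Ω → Nrm) (sv fv : Ω → ℝ) (M : ℕ) : Prop where
  det : Det s W (pj F (pj sv fv))
  bd : ∀ ω ∈ s, ‖nv W sv fv ω‖ ≤ 1
  slope : ∀ ω ∈ s, |(W ω).b| ≤ 2 ^ (M + 3 + (W ω).l) * (1 - 1 / 2 ^ (W ω).y)

/-- the updated data -/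
def GreedyA_upd (z : Nrm) (i j : ℕ) (b1 c0 c1 : ℝ) : Nrm :=
  ⟨z.l + i, z.y + j, z.sc + c0 / 2 ^ z.l,
    z.fc + (z.b + b1 * 2 ^ z.l / 2 ^ z.y) * (c0 / 2 ^ z.l) + c1 / 2 ^ z.y,
    z.b + b1 * 2 ^ z.l / 2 ^ z.y⟩

theorem GreedyA_ap (z : Nrm) (i j : ℕ) (b1 c0 c1 x y : ℝ) :
    (GreedyA_upd z i j b1 c0 c1).ap x y =
      ![2 ^ i * (z.ap x y 0 - c0), 2 ^ j * (z.ap x y 1 - b1 * z.ap x y 0 - c1)] := by
  funext k
  fin_cases k
  · simp only [GreedyA_upd, Nrm.ap, pow_add, Fin.zero_eta, Matrix.cons_val_zero]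
    field_simp
    ring
  · simp only [GreedyA_upd, Nrm.ap, pow_add, Fin.mk_one, Matrix.cons_val_one,
      Matrix.cons_val_zero]
    field_simp
    ring

theorem GreedyA_inj {z : Nrm} {i j : ℕ} {b1 c0 c1 d0 d1 : ℝ}
    (e : GreedyA_upd z i j b1 c0 c1 = GreedyA_upd z i j b1 d0 d1) : c0 = d0 ∧ c1 = d1 := by
  have h1 := congrArg Nrm.sc e
  have h2 := congrArg Nrm.fc e
  simp only [GreedyA_upd] at h1 h2
  have h3 : c0 = d0 := (div_left_inj' (by positivity)).1 (add_left_cancel h1)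
  rw [h3] at h2
  exact ⟨h3, (div_left_inj' (by positivity)).1 (add_left_cancel h2)⟩

theorem GreedyA_norm {u v : ℝ} (hu : |u| ≤ 1) (hv : |v| ≤ 1) : ‖(![u, v] : Fin 2 → ℝ)‖ ≤ 1 := by
  refine (pi_norm_le_iff_of_nonneg zero_le_one).2 fun i => ?_
  fin_cases i
  · exact hu
  · exact hv

theorem GreedyA_frac (j : ℕ) (x : ℝ) : |2 ^ j * (x - (⌊(2 : ℝ) ^ j * x⌋ : ℝ) / 2 ^ j)| ≤ 1 := by
  rw [mul_sub, mul_div_cancel₀ _ (by positivity), abs_le]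
  constructor <;> linarith [Int.floor_le ((2 : ℝ) ^ j * x), Int.lt_floor_add_one ((2 : ℝ) ^ j * x)]

theorem GreedyA_slope {z : Nrm} {M : ℕ} (i j : ℕ) (c0 c1 : ℝ)
    (hz : |z.b| ≤ 2 ^ (M + 3 + z.l) * (1 - 1 / 2 ^ z.y)) :
    |(GreedyA_upd z i j 0 c0 c1).b| ≤ 2 ^ (M + 3 + (GreedyA_upd z i j 0 c0 c1).l) *
      (1 - 1 / 2 ^ (GreedyA_upd z i j 0 c0 c1).y) := by
  simp only [GreedyA_upd, zero_mul, zero_div, add_zero]
  have h1 : (1 : ℝ) / 2 ^ z.y ≤ 1 := by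
    rw [div_le_one (by positivity)]
    exact one_le_pow₀ one_le_two
  refine hz.trans (mul_le_mul (pow_le_pow_right₀ one_le_two (by omega)) ?_ (by linarith)
    (by positivity))
  have h2 : (1 : ℝ) / 2 ^ (z.y + j) ≤ 1 / 2 ^ z.y :=
    one_div_le_one_div_of_le (by positivity) (pow_le_pow_right₀ one_le_two (by omega))
  linarith

theorem GreedyA_slope' {z : Nrm} {M : ℕ} (hM : 1 ≤ M) {b1 : ℝ} (c0 c1 : ℝ)
    (hb : |b1| ≤ 2 ^ (M + 2)) (hz : |z.b| ≤ 2 ^ (M + 3 + z.l) * (1 - 1 / 2 ^ z.y)) :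
    |(GreedyA_upd z 0 M b1 c0 c1).b| ≤ 2 ^ (M + 3 + (GreedyA_upd z 0 M b1 c0 c1).l) *
      (1 - 1 / 2 ^ (GreedyA_upd z 0 M b1 c0 c1).y) := by
  simp only [GreedyA_upd, add_zero]
  have h1 : |b1 * 2 ^ z.l / 2 ^ z.y| ≤ 2 ^ (M + 2) * 2 ^ z.l / 2 ^ z.y := by
    rw [abs_div, abs_mul, abs_of_pos (by positivity : (0 : ℝ) < 2 ^ z.l),
      abs_of_pos (by positivity : (0 : ℝ) < 2 ^ z.y)]
    gcongr
  have h2 : (1 : ℝ) / 2 ^ (z.y + M) ≤ 1 / 2 ^ (z.y + 1) :=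
    one_div_le_one_div_of_le (by positivity) (pow_le_pow_right₀ one_le_two (by omega))
  have h3 : (2 : ℝ) ^ (M + 3 + z.l) * (1 - 1 / 2 ^ z.y) + 2 ^ (M + 2) * 2 ^ z.l / 2 ^ z.y =
      2 ^ (M + 3 + z.l) * (1 - 1 / 2 ^ (z.y + 1)) := by
    simp only [pow_add]
    field_simp
    ring
  refine (abs_add_le _ _).trans ((add_le_add hz h1).trans (h3.trans_le ?_))
  exact mul_le_mul_of_nonneg_left (by linarith) (by positivity)

/-- a good update rule on one atom -/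
def GreedyA_Loc (t : Finset Ω) (q : Ω → ℝ) (z : Nrm) (sv fv : Ω → ℝ) (Z : Ω → γ) (M L2 : ℕ)
    (τ0 : ℝ) (u : ℝ → ℝ → Nrm) : Prop :=
  (∀ ω ∈ t, ‖(u (sv ω) (fv ω)).ap (sv ω) (fv ω)‖ ≤ 1) ∧
  (∀ x y, |(u x y).b| ≤ 2 ^ (M + 3 + (u x y).l) * (1 - 1 / 2 ^ (u x y).y)) ∧
  (∀ x y, z.l ≤ (u x y).l ∧ (u x y).l ≤ z.l + L2 ∧ z.y ≤ (u x y).y ∧ (u x y).y ≤ z.y + L2) ∧
  (∀ x y, z.l + z.y < (u x y).l + (u x y).y) ∧
  ce t q (fun ω => u (sv ω) (fv ω)) (nil Ω) ≤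
    10 / M * ex t q (fun ω => ((u (sv ω) (fv ω)).l + (u (sv ω) (fv ω)).y : ℝ) - (z.l + z.y)) +
      (2 * L2 + 4) / τ0 * (ce t q Z (nil Ω) - ce t q Z (fun ω => u (sv ω) (fv ω)))

theorem GreedyA_info {t : Finset Ω} {q : Ω → ℝ} (h : IsP t q) {z : Nrm} {sv fv : Ω → ℝ}
    {Z : Ω → γ} {M L2 : ℕ} {τ0 : ℝ} (hL : 1 ≤ L2) (hτ : 0 < τ0)
    (hb : ∀ ω ∈ t, ‖z.ap (sv ω) (fv ω)‖ ≤ 1)
    (hz : |z.b| ≤ 2 ^ (M + 3 + z.l) * (1 - 1 / 2 ^ z.y))
    (hi : τ0 < ce t q (qv L2 fun ω => z.ap (sv ω) (fv ω)) (nil Ω) -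
      ce t q (qv L2 fun ω => z.ap (sv ω) (fv ω)) Z) :
    ∃ u, GreedyA_Loc t q z sv fv Z M L2 τ0 u := by
  refine ⟨fun x y => GreedyA_upd z L2 L2 0 (dz L2 (z.ap x y) 0) (dz L2 (z.ap x y) 1),
    fun ω _ => ?_, fun x y => GreedyA_slope _ _ _ _ hz, fun x y => ?_, fun x y => ?_, ?_⟩
  · rw [GreedyA_ap, zero_mul, sub_zero]
    exact GreedyA_norm (GreedyA_frac _ _) (GreedyA_frac _ _)
  · simp only [GreedyA_upd]
    omega
  · simp only [GreedyA_upd]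
    omega
  set Q := qv L2 fun ω => z.ap (sv ω) (fv ω) with hQ
  set U := fun ω => GreedyA_upd z L2 L2 0 (dz L2 (z.ap (sv ω) (fv ω)) 0)
    (dz L2 (z.ap (sv ω) (fv ω)) 1) with hU
  have d1 : Det t U Q := fun a _ b _ e => by
    have e1 : qz L2 (z.ap (sv a) (fv a)) = qz L2 (z.ap (sv b) (fv b)) := e
    simp only [hU, dz, e1]
  have d2 : Det t Q U := fun a _ b _ e => by
    obtain ⟨e1, e2⟩ := GreedyA_inj e
    have e3 : dz L2 (z.ap (sv a) (fv a)) = dz L2 (z.ap (sv b) (fv b)) := by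
      funext k
      fin_cases k
      · exact e1
      · exact e2
    have e4 := congrArg (qz L2) e3
    rwa [qz_dz le_rfl, qz_dz le_rfl] at e4
  have h1 : ce t q U (nil Ω) ≤ ce t q Q (nil Ω) := ce_mono h (Sys_tr d1 Sys_fst) Sys_rfl
  have h2 : ce t q Q (nil Ω) ≤ Fintype.card (Fin 2) * ((L2 : ℝ) + 2) :=
    ce_near h L2 _ (fun _ => 0) _ (fun _ _ _ _ _ => rfl) (Nat.cast_nonneg _) fun ω hω => by
      rw [sub_zero, Real.rpow_natCast, div_self (by positivity)]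
      exact hb ω hω
  have h3 := ce_cond h Z Q (nil Ω)
  rw [(FinB_nil h _ _).2, (FinB_nil h _ _).2, ← Sys_eq h Z d1 d2] at h3
  have h4 : 0 ≤ ex t q (fun ω => ((U ω).l + (U ω).y : ℝ) - (z.l + z.y)) :=
    sum_nonneg fun ω hω => mul_nonneg (h.1 ω hω) (by
      simp only [hU, GreedyA_upd]
      push_cast
      linarith [Nat.cast_nonneg (α := ℝ) L2])
  have h5 : (2 * L2 + 4 : ℝ) ≤ (2 * L2 + 4) / τ0 * (ce t q Z (nil Ω) - ce t q Z U) := by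
    rw [div_mul_eq_mul_div, le_div_iff₀ hτ]
    exact mul_le_mul_of_nonneg_left (by linarith) (by positivity)
  have h6 : 0 ≤ 10 / (M : ℝ) * ex t q (fun ω => ((U ω).l + (U ω).y : ℝ) - (z.l + z.y)) :=
    mul_nonneg (by positivity) h4
  rw [Fintype.card_fin] at h2
  push_cast at h2
  refine le_trans ?_ (add_le_add h6 h5)
  linarith

theorem GreedyA_cost {t : Finset Ω} {q : Ω → ℝ} (h : IsP t q) {z : Nrm} (U : Ω → Nrm)
    (Z : Ω → γ) {M : ℕ} (L2 : ℕ) {τ0 : ℝ} (hM : 1 ≤ M) (hτ : 0 < τ0) (X : Ω → ℝ) (c : ℝ)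
    (hU : Det t U (qs M X)) (hl : ∀ ω, (U ω).l + (U ω).y = z.l + z.y + M)
    (hv : ex t q (fun ω => (X ω - c) ^ 2) ≤ 1 / 4 ^ M) :
    ce t q U (nil Ω) ≤ 10 / M * ex t q (fun ω => ((U ω).l + (U ω).y : ℝ) - (z.l + z.y)) +
      (2 * L2 + 4) / τ0 * (ce t q Z (nil Ω) - ce t q Z U) := by
  have h1 : ce t q U (nil Ω) ≤ ce t q (qs M X) (nil Ω) := ce_mono h (Sys_tr hU Sys_fst) Sys_rfl
  have h2 := ce_var h M X (fun _ => c) (nil Ω) (fun _ _ _ _ _ => rfl) hv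
  have h3 : (fun ω => ((U ω).l + (U ω).y : ℝ) - (z.l + z.y)) = fun _ => (M : ℝ) := by
    funext ω
    have h4 := congrArg (Nat.cast : ℕ → ℝ) (hl ω)
    push_cast at h4
    linarith
  have h5 : (0 : ℝ) < M := by exact_mod_cast hM
  have h6 : 0 ≤ (2 * L2 + 4) / τ0 * (ce t q Z (nil Ω) - ce t q Z U) :=
    mul_nonneg (by positivity) (sub_nonneg.2 (Sys_nil h _ _))
  rw [h3, Sys_ex_const h, div_mul_cancel₀ _ h5.ne']
  linarith

theorem GreedyA_ex_le {t : Finset Ω} {q : Ω → ℝ} (h : IsP t q) {f g : Ω → ℝ} {c d : ℝ}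
    (hf : ∀ ω ∈ t, f ω ≤ c * g ω + d) : ex t q f ≤ c * ex t q g + d := by
  have h1 : c * ex t q g + d = ex t q (fun ω => c * g ω + d) := by
    rw [Sys_ex_add, Sys_ex_const h, ex, ex, mul_sum]
    exact congrArg (· + d) (sum_congr rfl fun ω _ => by ring)
  rw [h1]
  exact sum_le_sum fun ω hω => mul_le_mul_of_nonneg_left (hf ω hω) (h.1 ω hω)

theorem GreedyA_var {t : Finset Ω} {q : Ω → ℝ} (h : IsP t q) {a : Ω → Fin 2 → ℝ}
    {M L2 : ℕ} {ϱ : ℝ} (hL : 2 * M + 5 ≤ L2) (hϱ : 0 ≤ ϱ) (hϱ' : ϱ ≤ 1 / 2 ^ (2 * M + 4))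
    {η : Fin 2 → ℝ} (hη : vr t q (fun ω => ∑ i, η i * dz L2 (a ω) i) < ϱ ^ 2 * ∑ i, η i ^ 2) :
    0 < η 0 ^ 2 + η 1 ^ 2 ∧ ∃ c, ex t q (fun ω => (η 0 * a ω 0 + η 1 * a ω 1 - c) ^ 2) ≤
      (η 0 ^ 2 + η 1 ^ 2) * (3 / 256 * (1 / 4 ^ M) ^ 2) := by
  simp only [Fin.sum_univ_two] at hη
  have h0 : 0 ≤ vr t q (fun ω => η 0 * dz L2 (a ω) 0 + η 1 * dz L2 (a ω) 1) :=
    sum_nonneg fun ω hω => mul_nonneg (h.1 ω hω) (sq_nonneg _)
  have h1 : 0 ≤ η 0 ^ 2 + η 1 ^ 2 := by positivity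
  refine ⟨lt_of_le_of_ne h1 fun e => ?_, ex t q fun ω => η 0 * dz L2 (a ω) 0 + η 1 * dz L2 (a ω) 1,
    ?_⟩
  · rw [← e, mul_zero] at hη
    linarith
  set c := ex t q fun ω => η 0 * dz L2 (a ω) 0 + η 1 * dz L2 (a ω) 1 with hc
  set r : ℝ := 1 / 4 ^ M with hr
  have h2 : (1 : ℝ) / 2 ^ L2 ≤ r / 32 := by
    refine (one_div_le_one_div_of_le (by positivity) (pow_le_pow_right₀ one_le_two hL)).trans_eq ?_
    rw [hr, pow_add, pow_mul]
    norm_num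
    ring
  have h3 : ϱ ≤ r / 16 := by
    refine hϱ'.trans_eq ?_
    rw [hr, pow_add, pow_mul]
    norm_num
    ring
  have h4 : ϱ ^ 2 ≤ (r / 16) ^ 2 := pow_le_pow_left₀ hϱ h3 2
  have h5 := GreedyA_ex_le h (f := fun ω => (η 0 * a ω 0 + η 1 * a ω 1 - c) ^ 2)
    (g := fun ω => (η 0 * dz L2 (a ω) 0 + η 1 * dz L2 (a ω) 1 - c) ^ 2) (c := 2)
    (d := (η 0 ^ 2 + η 1 ^ 2) * (4 * (r / 32) ^ 2)) fun ω _ => by
      have k := (dz_close L2 (a ω)).trans h2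
      have k0 := sq_le_sq' (abs_le.1 ((norm_le_pi_norm _ 0).trans k)).1
        (abs_le.1 ((norm_le_pi_norm _ 0).trans k)).2
      have k1 := sq_le_sq' (abs_le.1 ((norm_le_pi_norm _ 1).trans k)).1
        (abs_le.1 ((norm_le_pi_norm _ 1).trans k)).2
      rw [Pi.sub_apply] at k0 k1
      set e0 := a ω 0 - dz L2 (a ω) 0 with he0
      set e1 := a ω 1 - dz L2 (a ω) 1 with he1
      set w := η 0 * dz L2 (a ω) 0 + η 1 * dz L2 (a ω) 1 - c with hw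
      have k2 : η 0 * a ω 0 + η 1 * a ω 1 - c = w + (η 0 * e0 + η 1 * e1) := by
        rw [hw, he0, he1]
        ring
      have k3 : (η 0 * e0 + η 1 * e1) ^ 2 ≤ (η 0 ^ 2 + η 1 ^ 2) * (e0 ^ 2 + e1 ^ 2) := by
        nlinarith [sq_nonneg (η 0 * e1 - η 1 * e0)]
      have k4 := mul_le_mul_of_nonneg_left (add_le_add k0 k1) h1
      rw [k2]
      nlinarith [sq_nonneg (w - (η 0 * e0 + η 1 * e1))]
  have h6 := mul_le_mul_of_nonneg_right h4 h1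
  have h7 : ex t q (fun ω => (η 0 * dz L2 (a ω) 0 + η 1 * dz L2 (a ω) 1 - c) ^ 2) =
    vr t q (fun ω => η 0 * dz L2 (a ω) 0 + η 1 * dz L2 (a ω) 1) := rfl
  nlinarith

theorem GreedyA_loc {t : Finset Ω} {q : Ω → ℝ} (h : IsP t q) {z : Nrm} {sv fv : Ω → ℝ}
    {Z : Ω → γ} {M L2 : ℕ} {ϱ τ0 : ℝ} (hM : 1 ≤ M) (hL : 2 * M + 5 ≤ L2) (hϱ : 0 ≤ ϱ)
    (hϱ' : ϱ ≤ 1 / 2 ^ (2 * M + 4)) (hτ : 0 < τ0) (hb : ∀ ω ∈ t, ‖z.ap (sv ω) (fv ω)‖ ≤ 1)
    (hz : |z.b| ≤ 2 ^ (M + 3 + z.l) * (1 - 1 / 2 ^ z.y))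
    (hn : ¬ ((∀ η : Fin 2 → ℝ, ϱ ^ 2 * ∑ i, η i ^ 2 ≤
      vr t q (fun ω => ∑ i, η i * dz L2 (z.ap (sv ω) (fv ω)) i)) ∧
      ce t q (qv L2 fun ω => z.ap (sv ω) (fv ω)) (nil Ω) -
        ce t q (qv L2 fun ω => z.ap (sv ω) (fv ω)) Z ≤ τ0)) :
    ∃ u, GreedyA_Loc t q z sv fv Z M L2 τ0 u := by
  rw [not_and_or, not_forall, not_le] at hn
  rcases hn with ⟨η, hη⟩ | hi
  swap
  · exact GreedyA_info h (by omega) hτ hb hz hi
  obtain ⟨h1, c, h2⟩ := GreedyA_var h (a := fun ω => z.ap (sv ω) (fv ω)) hL hϱ hϱ' (not_le.1 hη)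
  have b0 : ∀ ω ∈ t, |z.ap (sv ω) (fv ω) 0| ≤ 1 := fun ω hω => (norm_le_pi_norm _ 0).trans (hb ω hω)
  have b1 : ∀ ω ∈ t, |z.ap (sv ω) (fv ω) 1| ≤ 1 := fun ω hω => (norm_le_pi_norm _ 1).trans (hb ω hω)
  set r : ℝ := 1 / 4 ^ M with hr
  have r0 : 0 < r := by positivity
  have r1 : r ≤ 1 := by
    rw [hr, div_le_one (by positivity)]
    exact one_le_pow₀ (by norm_num)
  have r2 : ((2 : ℝ) ^ (M + 2)) ^ 2 * r = 16 := by
    rw [hr, ← pow_mul, show (M + 2) * 2 = 2 * M + 4 by ring, pow_add, pow_mul]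
    norm_num
    field_simp
  rcases le_or_gt (η 1 ^ 2 * 16) (η 0 ^ 2 * r) with hc | hc
  · have k0 : 0 < η 0 ^ 2 := by
      by_contra k
      have k1 : η 0 ^ 2 = 0 := le_antisymm (not_lt.1 k) (sq_nonneg _)
      rw [k1] at hc h1
      linarith
    have k1 : η 0 ≠ 0 := fun e => by
      rw [e] at k0
      norm_num at k0
    refine ⟨fun x y => GreedyA_upd z M 0 0 ((⌊(2 : ℝ) ^ M * z.ap x y 0⌋ : ℝ) / 2 ^ M) 0,
      fun ω hω => ?_, fun x y => GreedyA_slope _ _ _ _ hz, fun x y => ?_, fun x y => ?_, ?_⟩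
    · rw [GreedyA_ap, zero_mul, sub_zero, sub_zero, pow_zero, one_mul]
      exact GreedyA_norm (GreedyA_frac _ _) (b1 ω hω)
    · simp only [GreedyA_upd]
      omega
    · simp only [GreedyA_upd]
      omega
    refine GreedyA_cost h _ Z L2 hM hτ (fun ω => z.ap (sv ω) (fv ω) 0) (c / η 0)
      (fun a _ b _ e => ?_) (fun ω => ?_) ?_
    · simp only [qs] at e
      simp only [e]
    · simp only [GreedyA_upd]
      omega
    refine (GreedyA_ex_le h (g := fun ω => (η 0 * z.ap (sv ω) (fv ω) 0 +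
      η 1 * z.ap (sv ω) (fv ω) 1 - c) ^ 2) (c := 2 / η 0 ^ 2) (d := r / 8) fun ω hω => ?_).trans ?_
    · have k2 := sq_le_sq' (abs_le.1 (b1 ω hω)).1 (abs_le.1 (b1 ω hω)).2
      set a0 := z.ap (sv ω) (fv ω) 0
      set a1 := z.ap (sv ω) (fv ω) 1
      have k3 : (a0 - c / η 0) ^ 2 = (η 0 * a0 + η 1 * a1 - c - η 1 * a1) ^ 2 / η 0 ^ 2 := by
        field_simp
        ring
      have k4 : 2 / η 0 ^ 2 * (η 0 * a0 + η 1 * a1 - c) ^ 2 + r / 8 =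
          (2 * (η 0 * a0 + η 1 * a1 - c) ^ 2 + η 0 ^ 2 * r / 8) / η 0 ^ 2 := by
        field_simp
      rw [k3, k4]
      refine div_le_div_of_nonneg_right ?_ k0.le
      have k5 := mul_le_mul_of_nonneg_left k2 (sq_nonneg (η 1))
      nlinarith [sq_nonneg (η 0 * a0 + η 1 * a1 - c + η 1 * a1)]
    · have k2 : η 1 ^ 2 ≤ η 0 ^ 2 := by nlinarith
      have k3 : (η 0 ^ 2 + η 1 ^ 2) * (3 / 256 * r ^ 2) ≤ η 0 ^ 2 * (r / 4) := by
        have k4 : 3 / 256 * r ^ 2 ≤ r / 8 := by nlinarith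
        nlinarith [mul_le_mul (add_le_add (le_refl (η 0 ^ 2)) k2) k4 (by positivity) (by positivity)]
      have k5 := mul_le_mul_of_nonneg_left (h2.trans k3) (by positivity : 0 ≤ 2 / η 0 ^ 2)
      have k6 : 2 / η 0 ^ 2 * (η 0 ^ 2 * (r / 4)) = r / 2 := by
        field_simp
        ring
      linarith
  · have k0 : 0 < η 1 ^ 2 := by nlinarith [mul_nonneg (sq_nonneg (η 0)) r0.le]
    have k1 : η 1 ≠ 0 := fun e => by
      rw [e] at k0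
      norm_num at k0
    have k7 : |-η 0 / η 1| ≤ 2 ^ (M + 2) := by
      refine abs_le_of_sq_le_sq ?_ (by positivity)
      rw [div_pow, div_le_iff₀ k0, neg_sq]
      refine le_of_mul_le_mul_right ?_ r0
      nlinarith
    refine ⟨fun x y => GreedyA_upd z 0 M (-η 0 / η 1) 0
      ((⌊(2 : ℝ) ^ M * (z.ap x y 1 - -η 0 / η 1 * z.ap x y 0)⌋ : ℝ) / 2 ^ M),
      fun ω hω => ?_, fun x y => GreedyA_slope' hM _ _ k7 hz, fun x y => ?_, fun x y => ?_, ?_⟩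
    · rw [GreedyA_ap, sub_zero, pow_zero, one_mul]
      exact GreedyA_norm (b0 ω hω) (GreedyA_frac _ _)
    · simp only [GreedyA_upd]
      omega
    · simp only [GreedyA_upd]
      omega
    refine GreedyA_cost h _ Z L2 hM hτ
      (fun ω => z.ap (sv ω) (fv ω) 1 - -η 0 / η 1 * z.ap (sv ω) (fv ω) 0) (c / η 1)
      (fun a _ b _ e => ?_) (fun ω => ?_) ?_
    · simp only [qs] at e
      simp only [e]
    · simp only [GreedyA_upd]
      omega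
    refine (GreedyA_ex_le h (g := fun ω => (η 0 * z.ap (sv ω) (fv ω) 0 +
      η 1 * z.ap (sv ω) (fv ω) 1 - c) ^ 2) (c := 1 / η 1 ^ 2) (d := 0) fun ω _ => ?_).trans ?_
    · refine le_of_eq ?_
      field_simp
      ring
    · have k3 : (η 0 ^ 2 + η 1 ^ 2) * (3 / 256 * r ^ 2) ≤ η 1 ^ 2 * r := by
        have k4 := mul_le_mul_of_nonneg_right hc.le r0.le
        have k5 := mul_le_mul_of_nonneg_left r1 (mul_nonneg k0.le r0.le)
        nlinarith [mul_nonneg k0.le r0.le]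
      have k5 := mul_le_mul_of_nonneg_left (h2.trans k3) (by positivity : 0 ≤ 1 / η 1 ^ 2)
      have k6 : 1 / η 1 ^ 2 * (η 1 ^ 2 * r) = r := by field_simp
      linarith

open Classical in
/-- One round. On an atom of `(F, W)` where `R` holds nothing changes. Otherwise `Stop` fails.
If the information exceeds `τ0`, reveal `qv L2 (nv ..)` (both zooms grow by `L2`, cost at most
`2 (L2 + 2)` bits, and `ce Z` drops by `τ0`, `ce_cond`). Else there is `η` of sup norm `1` with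
`vr (η · a) ≤ 2 ϱ ^ 2 * 2 + 8 / 4 ^ L2 ≤ 1 / 4 ^ (2 M + 2)`. If `vr (a 0) ≤ 1 / 4 ^ M` reveal
`qs M (a 0)` (`l` grows by `M`, cost `10` by `ce_var`, `fc` absorbs `b * (sc' - sc)`). Else
`|η 1| > 1 / 2 ^ (M + 2)`; with `b1 = -η 0 / η 1` reveal `qs M (a 1 - b1 * a 0)` (`y` grows by `M`,
`b' = b + b1 * 2 ^ l / 2 ^ y`, cost `10`). The new label determines the old one given `F` only
through the pair, so the statement is about `pj W' W`; the potential `l + y` strictly grows, hence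
old atoms of different potential may merge: to avoid this the label `F` is replaced by `pj F W`
in the next round, see `greedy`. -/
theorem greedy_step {s : Finset Ω} {p : Ω → ℝ} (h : IsP s p) (F : Ω → β) (W : Ω → Nrm)
    (sv fv : Ω → ℝ) (Z : Ω → γ) {M L2 : ℕ} {ϱ τ0 : ℝ} (hM : 1 ≤ M) (hL : 2 * M + 5 ≤ L2)
    (hϱ : 0 ≤ ϱ) (hϱ' : ϱ ≤ 1 / 2 ^ (2 * M + 4)) (hτ : 0 < τ0) (hI : Inv s F W sv fv M)
    (R : Ω → Prop) (hR : Det s R (pj F W))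
    (hS : ∀ ω ∈ s, 0 < p ω → Stop s p F W sv fv Z ϱ τ0 L2 ω → R ω) :
    ∃ W' : Ω → Nrm, Inv s (pj F W) W' sv fv M ∧ (∀ ω ∈ s, R ω → W' ω = W ω) ∧
      (∀ ω ∈ s, (W ω).l ≤ (W' ω).l ∧ (W' ω).l ≤ (W ω).l + L2 ∧
        (W ω).y ≤ (W' ω).y ∧ (W' ω).y ≤ (W ω).y + L2) ∧
      (∀ ω ∈ s, 0 < p ω → ¬ R ω → (W ω).l + (W ω).y < (W' ω).l + (W' ω).y) ∧
      ce s p W' (pj F W) ≤
        10 / M * ex s p (fun ω => ((W' ω).l + (W' ω).y : ℝ) - ((W ω).l + (W ω).y)) +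
          (2 * L2 + 4) / τ0 * (ce s p Z (pj F W) - ce s p Z (pj (pj F W) W')) := by
  have key : ∀ k : β × Nrm, ∃ u : ℝ → ℝ → Nrm,
      (∀ ω ∈ s, pj F W ω = k → 0 < p ω → ¬ R ω →
        GreedyA_Loc (atS s (pj F W) ω) (atP s p (pj F W) ω) (W ω) sv fv Z M L2 τ0 u) ∧
      ((¬ ∃ ω ∈ s, pj F W ω = k ∧ 0 < p ω ∧ ¬ R ω) → ∀ x y, u x y = k.2) := by
    intro k
    by_cases hk : ∃ ω ∈ s, pj F W ω = k ∧ 0 < p ω ∧ ¬ R ω
    swap
    · exact ⟨fun _ _ => k.2, fun ω hω e hp hr => absurd ⟨ω, hω, e, hp, hr⟩ hk, fun _ _ _ => rfl⟩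
    obtain ⟨ω, hω, e, hp, hr⟩ := hk
    have ha : ∀ a ∈ atS s (pj F W) ω, nv W sv fv a = (W ω).ap (sv a) (fv a) := fun a ha => by
      rw [nv, (Prod.mk.inj (mem_atS.1 ha).2).2]
    have hx : ∃ u, GreedyA_Loc (atS s (pj F W) ω) (atP s p (pj F W) ω) (W ω) sv fv Z M L2 τ0 u := by
      refine GreedyA_loc (at_isP h (pj F W) hω hp) (z := W ω) (sv := sv) (fv := fv)
        (Z := Z) hM hL hϱ hϱ' hτ (fun a ha' => ha a ha' ▸ hI.bd a (mem_atS.1 ha').1)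
        (hI.slope ω hω) fun hc => hr (hS ω hω hp ⟨fun η => (hc.1 η).trans_eq ?_, ?_⟩)
      · have e1 : ex (atS s (pj F W) ω) (atP s p (pj F W) ω)
            (fun a => ∑ i, η i * dz L2 ((W ω).ap (sv a) (fv a)) i) =
            ex (atS s (pj F W) ω) (atP s p (pj F W) ω)
            (fun a => ∑ i, η i * dz L2 (nv W sv fv a) i) :=
          sum_congr rfl fun a ha' => by simp only [ha a ha']
        unfold vr
        rw [e1]
        exact sum_congr rfl fun a ha' => by simp only [ha a ha']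
      · have e1 : ∀ a ∈ atS s (pj F W) ω, qv L2 (nv W sv fv) a =
            qv L2 (fun a => (W ω).ap (sv a) (fv a)) a := fun a ha' => by simp only [qv, ha a ha']
        rw [ce_congr e1 fun _ _ => rfl, ce_congr e1 (Y' := Z) fun _ _ => rfl]
        exact hc.2
    obtain ⟨u, hu⟩ := hx
    refine ⟨u, fun ω' _ e' _ _ => ?_, fun hn => absurd ⟨ω, hω, e, hp, hr⟩ hn⟩
    have e1 : pj F W ω' = pj F W ω := e'.trans e.symm
    have e2 : W ω' = W ω := (Prod.mk.inj e1).2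
    have e3 : atS s (pj F W) ω' = atS s (pj F W) ω := by simp only [atS, e1]
    have e4 : atP s p (pj F W) ω' = atP s p (pj F W) ω := by simp only [atP, e1]
    rw [e2, e3, e4]
    exact hu
  choose u hu1 hu2 using key
  set W' : Ω → Nrm := fun ω => u (pj F W ω) (sv ω) (fv ω) with hW'
  have alt : ∀ ω ∈ s, W' ω = W ω ∨ ∃ a ∈ s, ω ∈ atS s (pj F W) a ∧ W a = W ω ∧
      GreedyA_Loc (atS s (pj F W) a) (atP s p (pj F W) a) (W a) sv fv Z M L2 τ0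
        (u (pj F W ω)) := fun ω hω => by
    by_cases hk : ∃ a ∈ s, pj F W a = pj F W ω ∧ 0 < p a ∧ ¬ R a
    · obtain ⟨a, ha, e, hp, hr⟩ := hk
      exact Or.inr ⟨a, ha, mem_atS.2 ⟨hω, e.symm⟩, (Prod.mk.inj e).2, hu1 _ a ha e hp hr⟩
    · exact Or.inl (hu2 _ hk _ _)
  have fix : ∀ ω ∈ s, R ω → W' ω = W ω := fun ω hω hr =>
    hu2 _ (fun ⟨a, ha, e, _, hn⟩ => hn (hR a ha ω hω e ▸ hr)) _ _
  refine ⟨W', ⟨fun a _ b _ e => ?_, fun ω hω => ?_, fun ω hω => ?_⟩, fix, fun ω hω => ?_,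
    fun ω hω hp hr => (hu1 _ ω hω rfl hp hr).2.2.2.1 _ _, ?_⟩
  · have e1 : pj F W a = pj F W b := (Prod.mk.inj e).1
    have e2 : sv a = sv b := (Prod.mk.inj (Prod.mk.inj e).2).1
    have e3 : fv a = fv b := (Prod.mk.inj (Prod.mk.inj e).2).2
    simp only [hW', e1, e2, e3]
  · rcases alt ω hω with e | ⟨a, _, h1, _, h2⟩
    · rw [nv, e]
      exact hI.bd ω hω
    · exact h2.1 ω h1
  · rcases alt ω hω with e | ⟨a, _, _, _, h2⟩
    · rw [e]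
      exact hI.slope ω hω
    · exact h2.2.1 _ _
  · rcases alt ω hω with e | ⟨a, _, _, h1, h2⟩
    · rw [e]
      omega
    · exact h1 ▸ h2.2.2.1 _ _
  have loc : ∀ ω ∈ s, 0 < p ω → ce (atS s (pj F W) ω) (atP s p (pj F W) ω) W' (nil Ω) ≤
      10 / M * ex (atS s (pj F W) ω) (atP s p (pj F W) ω)
        (fun ω => ((W' ω).l + (W' ω).y : ℝ) - ((W ω).l + (W ω).y)) +
      (2 * L2 + 4) / τ0 * (ce (atS s (pj F W) ω) (atP s p (pj F W) ω) Z (nil Ω) -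
        ce (atS s (pj F W) ω) (atP s p (pj F W) ω) Z W') := fun ω hω hp => by
    have hP := at_isP h (pj F W) hω hp
    have e0 : ∀ a ∈ atS s (pj F W) ω, W a = W ω := fun a ha => (Prod.mk.inj (mem_atS.1 ha).2).2
    by_cases hr : R ω
    · have e1 : ∀ a ∈ atS s (pj F W) ω, W' a = W a := fun a ha =>
        fix a (mem_atS.1 ha).1 (hR ω hω a (mem_atS.1 ha).1 (mem_atS.1 ha).2.symm ▸ hr)
      have e2 : ex (atS s (pj F W) ω) (atP s p (pj F W) ω)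
          (fun ω => ((W' ω).l + (W' ω).y : ℝ) - ((W ω).l + (W ω).y)) = 0 :=
        sum_eq_zero fun a ha => by simp only [e1 a ha, sub_self, mul_zero]
      rw [e2, mul_zero, zero_add, ce_det hP fun a ha b hb _ => by
        rw [e1 a ha, e1 b hb, e0 a ha, e0 b hb]]
      exact mul_nonneg (by positivity) (sub_nonneg.2 (Sys_nil hP _ _))
    · have e1 : ∀ a ∈ atS s (pj F W) ω, W' a = u (pj F W ω) (sv a) (fv a) := fun a ha => by
        simp only [hW', (mem_atS.1 ha).2]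
      have e2 : ex (atS s (pj F W) ω) (atP s p (pj F W) ω)
          (fun ω => ((W' ω).l + (W' ω).y : ℝ) - ((W ω).l + (W ω).y)) =
          ex (atS s (pj F W) ω) (atP s p (pj F W) ω)
          (fun a => ((u (pj F W ω) (sv a) (fv a)).l + (u (pj F W ω) (sv a) (fv a)).y : ℝ) -
            ((W ω).l + (W ω).y)) :=
        sum_congr rfl fun a ha => by simp only [e1 a ha, e0 a ha]
      rw [e2, ce_congr e1 (Y' := nil Ω) fun _ _ => rfl, ce_congr (X' := Z) (fun _ _ => rfl) e1]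
      exact (hu1 _ ω hω rfl hp hr).2.2.2.2
  rw [← (FinB_nil h W' _).1, ← (FinB_nil h Z (pj F W)).1, Sys_swap h Z (pj F W), ← ce_at h,
    ← ce_at h, ← ce_at h, ← Sys_ex_sub,
    ← ex_at h (fun ω => ((W' ω).l + (W' ω).y : ℝ) - ((W ω).l + (W ω).y)) (pj F W)]
  simp only [ex.eq_1 s, mul_sum, ← sum_add_distrib]
  refine sum_le_sum fun ω hω => ?_
  rcases (h.1 ω hω).eq_or_lt with hp | hp
  · simp [← hp]
  · refine (mul_le_mul_of_nonneg_left (loc ω hω hp) hp.le).trans_eq ?_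
    ring

end Vale.Agent.P127S
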