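import Vale.Agent.P127S.K1A1

/-! The first order relation. -/

open Real Finset Filter Topology Vale.Agent.P118O

noncomputable section

namespace Vale.Agent.P127S

variable {N : ℕ → ℕ} {Ω Ω' γ δ : ℕ → Type} {S : Sp N Ω} {L : Ln Ω} {D D1 : RV Ω δ} {D2 : RV Ω γ}
  {P P1 P2 R B C0 : VV Ω M3} {I : Finset (Fin 3)} {σ : ℝ} {b l : ℕ → ℕ} {t2 : VV Ω ℝ}

/-- `pair_ex` with `b = n / 3`, `KnAll.pull` along both projections (`pair_eq`, `KnAll.eqs`),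
`lip`, `k1_lin`, `PairSt.ext`, `pair_lin` -/
theorem k1_rel {i : Fin 3} (h : St S L D P {i} σ) (hk : KnAll S L.n D L.x (ph P L.θ)) :
    Has σ 2 ∨ ∃ (Ω' δ1 δ2 : ℕ → Type) (S' : Sp N Ω') (L' : Ln Ω') (t2 : VV Ω' ℝ)
      (D1 : RV Ω' δ1) (D2 : RV Ω' δ2) (P1 P2 B C0 : VV Ω' M3) (b l : ℕ → ℕ),
      Rel1 S' L' t2 D1 D2 P1 P2 {i} σ b l B C0 := by
  have hb : ∀ k, 3 * (L.n k / 3) ≤ L.n k := fun k => Nat.mul_div_le _ _
  have hp := pair_ex h (b := fun k => L.n k / 3) fun k => Nat.div_le_self _ _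
  rcases lip hp with lp | hh
  swap
  · exact Or.inl hh
  obtain ⟨-, e1, e2⟩ := pair_eq h.cfg fun k => L.n k / 3
  have k1 := hk.pull (ext1 (prK L N fun k => L.n k / 3))
  have k2 := (hk.pull (ext2 (prK L N fun k => L.n k / 3))).eqs e2
    (W' := ph (pl (p2 Ω) P) (pl (p1 Ω) L.θ)) fun k ω hω => by
      have e3 : L.θ k ω.2 = L.θ k ω.1 := e1 k ω hω
      change L.θ k ω.2 - (fun a => ∑ c, P k ω.2 a c * L.θ k ω.2 c) =
        L.θ k ω.1 - fun a => ∑ c, P k ω.2 a c * L.θ k ω.1 c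
      rw [e3]
  have big : Big N fun k => ((L.n k / 3 : ℕ) : ℝ) :=
    h.cfg.big.mono (c := 1 / 3) (by norm_num) ((Le.refl fun _ => 0).linc S.big 1 fun k => by
      have h1 : L.n k ≤ 3 * (L.n k / 3) + 3 := by omega
      have h2 : (L.n k : ℝ) ≤ 3 * ((L.n k / 3 : ℕ) : ℝ) + 3 := by exact_mod_cast h1
      linarith)
  obtain ⟨l, B, C0, l1, l2, mB, mC, kw, sm1⟩ := k1_lin hp
    (fun k => le_trans (Nat.mul_le_mul_right _ (by norm_num)) (hb k)) big k1 k2 lp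
  obtain ⟨m1, m2, m3⟩ := pair_lin (K1A0_det hp).1 hp.dT_det mB mC sm1
  have k3 := (k1.pull (ext1 (J (pl (p1 Ω) D) (pl (p2 Ω) D)))).ext
    (DetS.refl _).left (D' := J _ (pl (p2 _) (J B C0)))
  have k4 := k2.pull (ext1 (J (pl (p1 Ω) D) (pl (p2 Ω) D)))
  have k5 := lp.pull (ext1 (J (pl (p1 Ω) D) (pl (p2 Ω) D)))
  exact Or.inr ⟨_, _, _, _, _, _, _, _, _, _, _, _, _, l,
    ⟨hp.ext kw, hb, l1, l2, k3, k4, k5, m1, m2, m3⟩⟩

end Vale.Agent.P127S
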