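import Vale.Agent.P127S.K1B
import Vale.Agent.P127S.K1A

/-! From one to two saturated directions. -/

open Real Finset Filter Topology Vale.Agent.P118O

noncomputable section

namespace Vale.Agent.P127S

variable {N : ℕ → ℕ} {Ω γ δ : ℕ → Type} {S : Sp N Ω} {L : Ln Ω} {D1 : RV Ω δ} {D2 : RV Ω γ}
  {P1 P2 B C0 : VV Ω M3} {σ : ℝ} {b l : ℕ → ℕ} {t2 : VV Ω ℝ}

theorem k1_core {i : Fin 3} {γ' : ℕ → Type} {D' : RV Ω γ'} {l0 : ℕ → ℕ}
    (h : Rel1 S L t2 D1 D2 P1 P2 {i} σ b l B C0) (hl0 : ∀ k, b k ≤ l0 k ∧ l0 k ≤ b k + l k)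
    (hbig : Big N fun k => ((b k + l k : ℕ) : ℝ) - l0 k) (hw : Cw S L D1 D' l0)
    (hk : Kn S (J (J D' (L.p N l0)) (Q N (fun k => 2 * b k) (ph P1 L.x)))
      (ph P1 L.θ + MV B L.x) fun k => b k + l k) : Has σ 2 := by
  have st := h.pair.st1
  have cf := st.cfg
  have hb := h.hb
  have hl := h.hl
  have lv : ∀ j : ℕ → ℕ, (∀ k, j k ≤ 3 * b k) → Lv N j := fun j hj =>
    cf.lev fun k => (hj k).trans (hb k)
  have mC : Mat S D1 (sm (tw Ω b) C0) {i} :=
    h.mC.smul (DetS.const fun k => (1 / 2 ^ b k : ℝ)) (small_tw S b).bdd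
  have sC : Small S (sm (tw Ω b) C0) fun k => b k + 0 := (small_tw S b).smul h.mC.bdd
  have kW : ∀ {α : ℕ → Type} {Z : RV Ω α} {j : ℕ → ℕ}, (∀ k, j k ≤ 3 * b k) → DetS S D1 Z →
      Kw S (L.p N j) Z → Kn S Z (ph P1 L.θ - MV B L.x) j := fun {α Z j} hj hD hp =>
    Kn.sub (lv j hj) ((cf.kn_θ hp).tr (lv j hj) (st.pj.det.trans hD) st.pj.bdd)
      ((cf.kn_x (fun k => (hj k).trans (hb k)) hD hp).mv (lv j hj) (h.mB.det.trans hD) h.mB.bdd
        fun k => le_rfl)
  let F := J (J D1 (L.p N l0)) (Q N (fun k => b k + l0 k) (ph P1 L.x))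
  have hDF : DetS S D1 F := (DetS.refl _).left.left
  have hpF : DetS S (L.p N l0) F := (DetS.refl _).right.left
  have n0 : ∀ k, l0 k ≤ L.n k := fun k => by have := hl0 k; have := hb k; have := hl k; omega
  have n1 : ∀ k, b k + l0 k ≤ 3 * b k := fun k => by have := hl0 k; have := hl k; omega
  have n2 : ∀ k, b k + l0 k + (b k + l k - l0 k) ≤ 3 * b k := fun k => by
    have := hl0 k; have := hl k; omega
  have h1 := ds2 (F := F) (W := ph P1 L.θ - MV B L.x) (s := dT L t2 b) (e := b) (i := l0)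
    (l := fun k => b k + l k - l0 k) h.pair (st.pj.add mC) (fun k => (n2 k).trans (hb k))
    (fun k ω a ha => by
      have e1 := st.pj.ph_supp L.θ k ω ha
      have e2 := h.mB.row k ω a ha
      simp only [Pi.sub_apply, e1, MV, e2, zero_mul, Finset.sum_const_zero, sub_zero])
    hDF
    (Kw.pair (Kw.pair (Kw.refl _).left (det_p fun k => Nat.le_add_left _ _).kw.right)
      (regb1_y st (fun k => (n1 k).trans (hb k)) (DetS.refl _).left (Kw.refl _).right).kw)
    (by
      have e : ph (P1 + sm (tw Ω b) C0) L.x = ph P1 L.x - MV (sm (tw Ω b) C0) L.x := by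
        funext k ω a
        simp only [ph, MV, Pi.sub_apply, Pi.add_apply, Fin.sum_univ_three]
        ring
      rw [e]
      exact Kn.sub (lv _ n1) ((Kn.self (regb1_by st) _).mono (Kw.refl _).right)
        ((cf.kn_x n0 hDF hpF.kw).mv (lv _ n1) (mC.det.trans hDF) sC fun k => by omega))
    (kW (fun k => by have := n1 k; omega) hDF hpF.kw)
    ((kW n1 (DetS.refl _).left (Kw.refl _).right).lev fun k => by
      have := hl0 k; have := hl k; omega)
    h.pair.dT_det h.pair.dT_bdd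
    (by
      have := h.pair.unif_pow (l := fun k => b k + l k - l0 k) (r := 1)
        (fun k => by have := n2 k; have := hb k; omega) le_rfl
      simp only [pow_one] at this
      exact this)
    (by
      have e : ph P2 (L.wt t2).x - ph (P1 + sm (tw Ω b) C0) L.x -
          sm (tw Ω b) (sm (dT L t2 b) (ph P1 L.θ - MV B L.x)) =
          -MV (P2 - P1 - sm (tw Ω b) (sm (dT L t2 b) B + C0)) L.x -
            MV (sm (t2 - L.t) (P2 - P1)) L.θ := by
        rw [wt_x, ← dT_eq L t2 b]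
        funext k ω a
        simp only [ph, MV, sm, Pi.sub_apply, Pi.add_apply, Pi.neg_apply, Pi.smul_apply,
          smul_eq_mul, Fin.sum_univ_three]
        ring
      rw [e]
      have d1 : DetS S D1 (J F D2) := hDF.left
      have d2 : DetS S (J D1 D2) (J F D2) := d1.pair (DetS.refl _).right
      have d3 : DetS S (P2 - P1) (J F D2) :=
        (h.pair.st2.pj.det.right.map2 (st.pj.det.trans d1) fun _ a c => a - c :)
      have d4 : DetS S (dT L t2 b) (J F D2) := h.pair.dT_det.trans d2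
      refine Kn.sub (lv _ n2) (Kn.neg (lv _ n2) ((cf.kn_x n0 d1 hpF.left.kw).mv (lv _ n2) ?_ h.lin
        fun k => by have := hl0 k; omega)) ((cf.kn_θ hpF.left.kw).mv (lv _ n2) ?_
        (h.pair.small.smul h.lip) fun k => by have := hl0 k; have := hl k; omega)
      · exact (d3.map2 ((d4.map2 (h.mB.det.trans d1) fun _ a c => a • c).map2
          (h.mC.det.trans d1) fun _ a c => a + c) fun k a c => a - (1 / 2 ^ b k : ℝ) • c :)
      · rw [← dT_eq L t2 b]
        exact (d4.map2 d3 fun k a c => ((1 / 2 ^ b k : ℝ) • a) • c :))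
  rcases h1 with h1 | h1
  swap
  · exact h1
  have n3 : ∀ k, b k + l k ≤ 3 * b k := fun k => by have := hl k; omega
  let Z := J (J D' (L.p N l0)) (Q N (fun k => 3 * b k) (ph P1 L.x))
  have h2 : Kn S Z (ph P1 L.θ - MV B L.x) fun k => b k + l k :=
    (h1.mono (DetS.pair (DetS.pair hw.det.left.left (DetS.refl _).right.left)
      (det_Q n1 _).right).kw).lev fun k => by have := hl0 k; omega
  have h3 : Kn S Z (ph P1 L.θ + MV B L.x) fun k => b k + l k :=
    hk.mono (DetS.pair (DetS.refl _).left (det_Q (fun k => by omega) _).right).kw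
  have h4 := (h2.add (lv _ n3) h3).smul (lv _ n3) (c := tw Ω fun _ => 1)
    (DetS.const fun _ => (1 / 2 ^ 1 : ℝ)) (small_tw S _).bdd fun k => le_rfl
  have e : sm (tw Ω fun _ => 1) (ph P1 L.θ - MV B L.x + (ph P1 L.θ + MV B L.x)) = ph P1 L.θ := by
    funext k ω a
    simp only [sm, tw, Pi.sub_apply, Pi.add_apply, Pi.smul_apply, smul_eq_mul]
    ring
  rw [e] at h4
  exact (st.flat hw (fun k => (hl0 k).2) n3 hb hbig h4).elim

/-- On the space of `k1_ds3` (`(h.pull (ext1 K)).res`) apply `ds2` with `e = b`, middle level `l0`,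
length `b + l - l0`, `P' = P1 + C0 / 2 ^ b`, `F = ((D1, p l0), y[b + l0])`, `W = γ - B x`,
`s = dT`; the remainder is `-R x - u (P2 - P1) θ` with `R` the matrix in `lin`. So `γ - B x` and
`γ + B x` are known at level `b + l` from `(D', p l0, y[3b])`; `St.flat`. -/
theorem k1_fin {i : Fin 3} (h : Rel1 S L t2 D1 D2 P1 P2 {i} σ b l B C0) : Has σ 2 := by
  obtain ⟨κ, γ', K, E, l0, D', hE, hl0, hbig, hw, hk⟩ := k1_ds3 h
  exact k1_core ((h.pull (ext1 K)).res hE) hl0 hbig hw hk

/-- `plan`, `k1_rel`, `k1_fin` -/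
theorem step1 (h : Has σ 1) : Has σ 2 := by
  obtain ⟨N, Ω, δ, S, L, D, P, I, h, hI⟩ := h
  obtain ⟨i, rfl⟩ := Finset.card_eq_one.1 hI
  rcases plan h with h1 | ⟨Ω', δ', S', L', D', P', h1, h2⟩
  · exact h1
  rcases k1_rel h1 h2 with h3 | ⟨_, _, _, _, _, _, _, _, _, _, _, _, _, _, h3⟩
  · exact h3
  · exact k1_fin h3

end Vale.Agent.P127S
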