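import Vale.Agent.P127S.AsyC

/-! Finite data for the first engine: definitions, pointwise facts, entropy estimates. -/

open Real Finset Filter Topology Vale.Agent.P118O

noncomputable section

namespace Vale.Agent.P127S

variable {N : ℕ → ℕ} {Ω α β γ δ : ℕ → Type} {S : Sp N Ω}

/-- the digits of `Y` between the levels `j0` and `j0 + n + 1` -/
def wpU (N j0 n : ℕ → ℕ) (Y : VV Ω (Fin 2 → ℝ)) : VV Ω (Fin 2 → ℤ) := fun k ω i =>
  Q N (fun k => j0 k + n k + 1) Y k ω i - 2 ^ (n k + 1) * Q N j0 Y k ω i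

/-- the rescaled and rounded target -/
def wpY (N j0 n : ℕ → ℕ) (Y : VV Ω (Fin 2 → ℝ)) : VV Ω (Fin 2 → ℝ) := fun k ω =>
  cor (n k + 1) (wpU N j0 n Y k ω)

/-- the last digit -/
def wpP (N j0 n : ℕ → ℕ) (Y : VV Ω (Fin 2 → ℝ)) (i : Fin 2) : VV Ω Prop := fun k ω =>
  wpU N j0 n Y k ω i % 2 = 0

/-- the enlarged base variable -/
def wpF (N j0 n : ℕ → ℕ) (F : RV Ω α) (Y : VV Ω (Fin 2 → ℝ)) :
    RV Ω fun k => (α k × (Fin 2 → ℤ)) × (Prop × Prop) :=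
  J (J F (Q N j0 Y)) (J (wpP N j0 n Y 0) (wpP N j0 n Y 1))

/-- the rounded scalar -/
def wpG (N l : ℕ → ℕ) (g : VV Ω ℝ) : VV Ω ℝ := fun k ω => dq N l (sc g) k ω ()

/-- the cell of the first coordinate of the target -/
def wpX (N j0 n : ℕ → ℕ) (Y : VV Ω (Fin 2 → ℝ)) : VV Ω ℤ := fun k =>
  qs (n k) fun ω => wpY N j0 n Y k ω 0

variable {j0 n l : ℕ → ℕ} {Y : VV Ω (Fin 2 → ℝ)} {g sv : VV Ω ℝ} {F : RV Ω α} {T : RV Ω β}
  {k : ℕ}

theorem wrapP_qz (ω : Ω k) (i : Fin 2) :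
    qz (n k) (wpY N j0 n Y k ω) i = wpU N j0 n Y k ω i / 2 := by
  have e : (2 : ℝ) ^ n k * ((wpU N j0 n Y k ω i : ℝ) / 2 ^ (n k + 1)) =
      (wpU N j0 n Y k ω i : ℝ) / ((2 : ℕ) : ℝ) := by
    rw [pow_succ]
    push_cast
    field_simp
  change ⌊(2 : ℝ) ^ n k * ((wpU N j0 n Y k ω i : ℝ) / 2 ^ (n k + 1))⌋ = _
  rw [e, Int.floor_div_natCast, Int.floor_intCast]
  rfl

theorem wrapP_Q (ω : Ω k) (i : Fin 2) : Q N (fun k => j0 k + n k) Y k ω i =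
    wpU N j0 n Y k ω i / 2 + 2 ^ n k * Q N j0 Y k ω i := by
  have h := Fin_floor (Nat.le_succ (j0 k + n k)) (cl (2 ^ N k) (Y k ω i))
  rw [Nat.succ_sub (le_refl _), Nat.sub_self] at h
  have h' : Q N (fun k => j0 k + n k) Y k ω i = Q N (fun k => j0 k + n k + 1) Y k ω i / 2 := h
  rw [h', wpU, pow_succ, mul_right_comm]
  omega

theorem wrapP_Ybd (ω : Ω k) : ‖wpY N j0 n Y k ω‖ ≤ 1 := by
  refine (pi_norm_le_iff_of_nonneg zero_le_one).2 fun i => ?_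
  have h := Fin_ico (j := j0 k) (j' := j0 k + n k + 1) (by omega)
    (x := cl (2 ^ N k) (Y k ω i)) (a := Q N j0 Y k ω i) rfl
  have e : j0 k + n k + 1 - j0 k = n k + 1 := by omega
  rw [e, mem_Ico] at h
  have h1 : (0 : ℤ) ≤ wpU N j0 n Y k ω i ∧ wpU N j0 n Y k ω i ≤ 2 ^ (n k + 1) := by
    have e2 : Q N (fun k => j0 k + n k + 1) Y k ω i =
      ⌊(2 : ℝ) ^ (j0 k + n k + 1) * cl (2 ^ N k) (Y k ω i)⌋ := rfl
    rw [wpU, e2]
    push_cast at h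
    constructor <;> linarith [h.1, h.2]
  have h2 : (0 : ℝ) ≤ wpU N j0 n Y k ω i := by exact_mod_cast h1.1
  have h3 : (wpU N j0 n Y k ω i : ℝ) ≤ 2 ^ (n k + 1) := by exact_mod_cast h1.2
  change ‖(wpU N j0 n Y k ω i : ℝ) / 2 ^ (n k + 1)‖ ≤ 1
  rw [Real.norm_of_nonneg (by positivity), div_le_one (by positivity)]
  exact h3

theorem wrapP_lat {ω ω' : Ω k} (e : qz (n k) (wpY N j0 n Y k ω) = qz (n k) (wpY N j0 n Y k ω'))
    (e' : wpF N j0 n F Y k ω = wpF N j0 n F Y k ω') : wpY N j0 n Y k ω = wpY N j0 n Y k ω' := by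
  have h0 : wpP N j0 n Y 0 k ω = wpP N j0 n Y 0 k ω' := (Prod.mk.inj (Prod.mk.inj e').2).1
  have h1 : wpP N j0 n Y 1 k ω = wpP N j0 n Y 1 k ω' := (Prod.mk.inj (Prod.mk.inj e').2).2
  have h2 : ∀ i, wpP N j0 n Y i k ω = wpP N j0 n Y i k ω' := Fin.forall_fin_two.2 ⟨h0, h1⟩
  refine congrArg (cor (n k + 1)) (funext fun i => ?_)
  have h3 := congrFun e i
  have h4 : wpU N j0 n Y k ω i % 2 = 0 ↔ wpU N j0 n Y k ω' i % 2 = 0 := (h2 i).to_iff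
  rw [wrapP_qz, wrapP_qz] at h3
  omega

theorem wrapP_F1 {ω ω' : Ω k} (e' : wpF N j0 n F Y k ω = wpF N j0 n F Y k ω') :
    F k ω = F k ω' ∧ Q N j0 Y k ω = Q N j0 Y k ω' := Prod.mk.inj (Prod.mk.inj e').1

theorem wrapP_gq (h : n k ≤ l k) (ω : Ω k) : qs (n k) (wpG N l g k) ω = Q N n (sc g) k ω () :=
  congrFun (qz_dz h fun i => cl (2 ^ N k) (sc g k ω i)) ()

theorem wrapP_one {x : ℝ} (h : |x| ≤ 1) (m : ℕ) : |x| ≤ 2 ^ m :=
  h.trans (one_le_pow₀ one_le_two)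

theorem wrapP_Qsc {ω : Ω k} (h : |g k ω| ≤ 2 ^ N k) :
    Q N l (sc g) k ω () = ⌊(2 : ℝ) ^ l k * g k ω⌋ :=
  congrFun (Q_of_le (X := sc g) (j := l) ((pi_norm_const (g k ω)).trans_le h)) ()

theorem wrapP_G {ω : Ω k} (h : |g k ω| ≤ 1) :
    wpG N l g k ω = (⌊(2 : ℝ) ^ l k * g k ω⌋ : ℝ) / 2 ^ l k := by
  rw [← wrapP_Qsc (N := N) (wrapP_one h _)]
  rfl

theorem wrapP_Gbd {ω : Ω k} (h : |g k ω| ≤ 1) : |wpG N l g k ω| ≤ 1 := by
  have hp : (0 : ℝ) < 2 ^ l k := by positivity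
  rw [wrapP_G h, abs_div, abs_of_pos hp, div_le_one hp, abs_le]
  rw [abs_le] at h
  constructor
  · have h1 : (-2 ^ l k : ℤ) ≤ ⌊(2 : ℝ) ^ l k * g k ω⌋ := by
      rw [Int.le_floor]
      push_cast
      nlinarith [h.1]
    exact_mod_cast h1
  · exact (Int.floor_le _).trans (by nlinarith [h.2])

theorem wrapP_detG : DetS S (wpG N l g) (Q N l (sc g)) :=
  (det_dq l (sc g)).map fun _ v => v ()

theorem wrapP_detG' : DetS S (Q N l (sc g)) (wpG N l g) := by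
  intro k ω _ ω' _ e
  funext u
  have e' : (Q N l (sc g) k ω () : ℝ) / 2 ^ l k = (Q N l (sc g) k ω' () : ℝ) / 2 ^ l k := e
  rw [div_left_inj' (by positivity)] at e'
  exact_mod_cast e'

theorem wrapP_kwF (hY : Kw S (Q N j0 Y) F) : Kw S (wpF N j0 n F Y) F :=
  ((Kw.refl F).pair hY).pair ((Kw.prop _ F).pair (Kw.prop _ F))

theorem wrapP_detF : DetS S F (wpF N j0 n F Y) := fun _ _ _ _ _ e => (wrapP_F1 e).1

theorem wrapP_detY (hn : ∀ k, n k ≤ l k) :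
    DetS S (wpY N j0 n Y) (J (Q N (fun k => j0 k + l k) Y) (wpF N j0 n F Y)) := by
  intro k ω hω ω' hω' e
  obtain ⟨e1, e2⟩ := Prod.mk.inj e
  refine wrapP_lat (funext fun i => ?_) e2
  have h1 := congrFun (det_Q (S := S) (j := fun k => j0 k + n k) (j' := fun k => j0 k + l k)
    (fun k => Nat.add_le_add_left (hn k) _) Y k ω hω ω' hω' e1) i
  rw [wrapP_Q, wrapP_Q, (wrapP_F1 e2).2] at h1
  rw [wrapP_qz, wrapP_qz]
  exact add_right_cancel h1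

theorem wrapP_detX : DetS S (Q N (fun k => j0 k + n k) (sc (co Y 0)))
    (J (wpX N j0 n Y) (Q N j0 Y)) := by
  intro k ω _ ω' _ e
  obtain ⟨e1, e2⟩ := Prod.mk.inj e
  funext u
  have e3 : qz (n k) (wpY N j0 n Y k ω) 0 = qz (n k) (wpY N j0 n Y k ω') 0 := e1
  rw [wrapP_qz, wrapP_qz] at e3
  change Q N (fun k => j0 k + n k) Y k ω 0 = Q N (fun k => j0 k + n k) Y k ω' 0
  rw [wrapP_Q, wrapP_Q, e2, e3]

theorem wrapP_lev {V : VV Ω ℝ} {Z : RV Ω γ} {j j' : ℕ → ℕ} {f f' : ℕ → ℝ} (hl : ∀ k, j' k ≤ j k)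
    (h : Le N f (H S (Q N j (sc V)) Z)) (e : ∀ k, f' k ≤ f k - ((j k : ℝ) - j' k)) :
    Le N f' (H S (Q N j' (sc V)) Z) :=
  (full_lev hl h).lin fun k => by
    rw [Fintype.card_unit, Nat.cast_one, one_mul]
    linarith [e k]

/-- the entropy estimates for the finite data -/
theorem wrapP_ent {A : RV Ω γ} {R : RV Ω δ} (hn : ∀ k, n k ≤ l k) (hY : Kw S (Q N j0 Y) F)
    (hr : Kw S R (J F T)) (h1 : Le N (H S A (J F T)) fun k => l k)
    (h2 : Le N (H S (Q N (fun k => j0 k + l k) Y) F) fun k => l k)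
    (h2' : Le N (fun k => l k)
      (H S (Q N (fun k => j0 k + l k) (sc (co Y 0))) (J (J F T) (Q N l (sc g)))))
    (h3 : Ind S (Q N l (sc g)) T F) (h4 : Le N (fun k => l k) (H S (Q N l (sc sv)) F)) :
    Le N (H S A (J (wpF N j0 n F Y) (J T R))) (fun k => l k) ∧
    Le N (fun k => n k) (H S (wpX N j0 n Y) (J (wpF N j0 n F Y) (J (J T R) (wpG N l g)))) ∧
    Le N (H S (wpY N j0 n Y) (wpF N j0 n F Y)) (fun k => l k) ∧
    Le N (H S (wpG N l g) (wpF N j0 n F Y)) (H S (wpG N l g) (J (wpF N j0 n F Y) (J T R))) ∧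
    Le N (fun k => n k) (H S (Q N n (sc sv)) (wpF N j0 n F Y)) := by
  have kF : Kw S (wpF N j0 n F Y) F := wrapP_kwF hY
  have kT : Kw S (J T R) (J F T) := (Kw.refl T).right.pair hr
  refine ⟨Le.trans (Le.of_le (H_mono (DetS.refl A).left
    (wrapP_detF.left.pair (DetS.refl T).left.right))) h1, ?_,
    Le.trans (Le.of_le (H_mono (wrapP_detY hn) wrapP_detF)) h2, ?_, ?_⟩
  · refine Le.trans (wrapP_lev (j' := fun k => j0 k + n k) (fun k => Nat.add_le_add_left (hn k) _)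
      h2' fun k => by push_cast; linarith) (H_kw ?_ ?_)
    · exact wrapP_detX.kw.trans ((Kw.refl _).left.pair hY.left.left.right)
    · exact kF.left.left.pair (kT.left.pair wrapP_detG.kw.right)
  · exact Le.trans (Le.of_le (H_mono wrapP_detG.left wrapP_detF))
      (Le.trans h3 (H_kw wrapP_detG'.kw.left (kF.left.pair kT)))
  · exact Le.trans (wrapP_lev hn h4 fun k => by linarith) (H_kw (Kw.refl _).left kF)

theorem wrapP_rel {j n w : ℕ} {a a' r r' y y' x x' v M : ℝ} (hM : |v| ≤ M) (hM1 : 1 ≤ M)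
    (hw : 8 * M ≤ 2 ^ w) (hr : r = a - y - 1 / 2 ^ j * (x * v))
    (hr' : r' = a' - y' - 1 / 2 ^ j * (x' * v))
    (ea : ⌊(2 : ℝ) ^ (j + (n + w)) * a⌋ = ⌊(2 : ℝ) ^ (j + (n + w)) * a'⌋)
    (er : ⌊(2 : ℝ) ^ (j + (n + w)) * r⌋ = ⌊(2 : ℝ) ^ (j + (n + w)) * r'⌋) :
    |((⌊(2 : ℝ) ^ (j + n + 1) * y'⌋ : ℝ) - ⌊(2 : ℝ) ^ (j + n + 1) * y⌋) / 2 ^ (n + 1) -
      v * ((⌊(2 : ℝ) ^ (n + w) * x⌋ : ℝ) / 2 ^ (n + w) -
        (⌊(2 : ℝ) ^ (n + w) * x'⌋ : ℝ) / 2 ^ (n + w))| ≤ 1 / 2 ^ n := by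
  have ha := Int.abs_sub_lt_one_of_floor_eq_floor ea
  have hb := Int.abs_sub_lt_one_of_floor_eq_floor er
  have fr : ∀ s t : ℝ, |Int.fract s - Int.fract t| ≤ 1 := fun s t => by
    rw [abs_le]
    constructor <;> linarith [Int.fract_nonneg s, Int.fract_nonneg t, Int.fract_lt_one s,
      Int.fract_lt_one t]
  have f1 := fr ((2 : ℝ) ^ (j + n + 1) * y) ((2 : ℝ) ^ (j + n + 1) * y')
  have f2 := fr ((2 : ℝ) ^ (n + w) * x) ((2 : ℝ) ^ (n + w) * x')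
  rw [← Int.self_sub_fract, ← Int.self_sub_fract, ← Int.self_sub_fract, ← Int.self_sub_fract]
  generalize Int.fract ((2 : ℝ) ^ (j + n + 1) * y) = t1 at f1 ⊢
  generalize Int.fract ((2 : ℝ) ^ (j + n + 1) * y') = t2 at f1 ⊢
  generalize Int.fract ((2 : ℝ) ^ (n + w) * x) = t3 at f2 ⊢
  generalize Int.fract ((2 : ℝ) ^ (n + w) * x') = t4 at f2 ⊢
  have e : ((2 : ℝ) ^ (j + n + 1) * y' - t2 - (2 ^ (j + n + 1) * y - t1)) / 2 ^ (n + 1) -
      v * ((2 ^ (n + w) * x - t3) / 2 ^ (n + w) - (2 ^ (n + w) * x' - t4) / 2 ^ (n + w)) =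
      (2 * ((2 ^ (j + (n + w)) * r - 2 ^ (j + (n + w)) * r') -
        (2 ^ (j + (n + w)) * a - 2 ^ (j + (n + w)) * a')) + 2 ^ w * (t1 - t2) +
        2 * (v * (t3 - t4))) / (2 * 2 ^ w * 2 ^ n) := by
    rw [hr, hr']
    simp only [pow_add, pow_one]
    field_simp
    ring
  have hW : (0 : ℝ) < 2 ^ w := by positivity
  have f3 : |v * (t3 - t4)| ≤ M := by
    rw [abs_mul]
    exact (mul_le_of_le_one_right (abs_nonneg _) f2).trans hM
  have f4 : |(2 : ℝ) ^ w * (t1 - t2)| ≤ 2 ^ w := by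
    rw [abs_mul, abs_of_pos hW]
    exact mul_le_of_le_one_right hW.le f1
  rw [e, abs_div, abs_of_pos (by positivity : (0 : ℝ) < 2 * 2 ^ w * 2 ^ n),
    div_le_div_iff₀ (by positivity) (by positivity), one_mul]
  refine mul_le_mul_of_nonneg_right ?_ (by positivity)
  rw [abs_lt] at ha hb
  rw [abs_le] at f3 f4 ⊢
  constructor <;> linarith [ha.1, ha.2, hb.1, hb.2, f3.1, f3.2, f4.1, f4.2]

theorem wrapP_dY {ω ω' : Ω k} (e : Q N j0 Y k ω = Q N j0 Y k ω') (h : ‖Y k ω‖ ≤ 2 ^ N k)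
    (h' : ‖Y k ω'‖ ≤ 2 ^ N k) (i : Fin 2) : wpY N j0 n Y k ω' i - wpY N j0 n Y k ω i =
      ((⌊(2 : ℝ) ^ (j0 k + n k + 1) * Y k ω' i⌋ : ℝ) -
        ⌊(2 : ℝ) ^ (j0 k + n k + 1) * Y k ω i⌋) / 2 ^ (n k + 1) := by
  simp only [wpY, cor, wpU, Q_of_le (j := fun k => j0 k + n k + 1) h,
    Q_of_le (j := fun k => j0 k + n k + 1) h', e, qz]
  push_cast
  ring

theorem wrapP_le_one {Ω : Type} {s : Finset Ω} {p : Ω → ℝ} (h : IsP s p) (B : Ω → Prop) :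
    ms s p B ≤ 1 := by
  linarith [ms_not h B, ms_ge_zero h fun ω => ¬ B ω]

theorem wrapP_bdd {E : Type} [Norm E] {X : VV Ω E} (h : Bdd S X) {c : ℝ} (hc : 0 < c) :
    whp S fun k ω => ‖X k ω‖ ≤ (2 : ℝ) ^ (c * N k) :=
  (h c hc).mono (Eventually.of_forall fun k ω _ h => by simpa only [Nat.cast_zero, sub_zero] using h)

/-- small masses pass to an event which has conditional mass at least one half -/
theorem wrapP_mass {Ω α β : Type} {s : Finset Ω} {p : Ω → ℝ} (h : IsP s p) {B0 B : Ω → Prop}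
    {X : Ω → α} {F : Ω → β} {x y : ℝ}
    (hB : ∀ ω, B ω ↔ B0 ω ∧ ms s p (fun ω' => F ω' = F ω) ≤
      2 * ms s p (fun ω' => B0 ω' ∧ F ω' = F ω)) {ω : Ω} (hω : B ω)
    (hm : ms s p (fun ω' => X ω' = X ω ∧ F ω' = F ω) ≤
      (2 : ℝ) ^ x * ms s p (fun ω' => F ω' = F ω)) (hxy : x + 1 ≤ y) :
    ms (rs s B) (rp s p B) (fun ω' => X ω' = X ω ∧ F ω' = F ω) ≤
      (2 : ℝ) ^ y * ms (rs s B) (rp s p B) (fun ω' => F ω' = F ω) := by
  rw [fin0_ms_rs, fin0_ms_rs, ← mul_div_assoc]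
  refine div_le_div_of_nonneg_right ?_ (ms_ge_zero h B)
  have h1 : ms s p (fun ω' => B ω' ∧ X ω' = X ω ∧ F ω' = F ω) ≤
      ms s p (fun ω' => X ω' = X ω ∧ F ω' = F ω) := ms_imp h fun _ _ e => e.2
  have h2 := ((hB ω).1 hω).2
  have h3 : ms s p (fun ω' => B0 ω' ∧ F ω' = F ω) ≤ ms s p (fun ω' => B ω' ∧ F ω' = F ω) :=
    ms_imp h fun ω' _ e => ⟨(hB ω').2 ⟨e.1, by rw [e.2]; exact h2⟩, e.2⟩
  have h4 : (2 : ℝ) ^ x * 2 ≤ 2 ^ y := by
    rw [← Real.rpow_add_one two_ne_zero]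
    exact Real.rpow_le_rpow_of_exponent_le one_le_two hxy
  have h5 : (0 : ℝ) ≤ 2 ^ x := by positivity
  have h6 := ms_ge_zero h fun ω' => B ω' ∧ F ω' = F ω
  calc _ ≤ (2 : ℝ) ^ x * (2 * ms s p (fun ω' => B ω' ∧ F ω' = F ω)) :=
        h1.trans (hm.trans (mul_le_mul_of_nonneg_left (by linarith) h5))
    _ ≤ _ := by rw [← mul_assoc]; exact mul_le_mul_of_nonneg_right h4 h6

open Classical in
/-- extension by zero off an event -/
theorem wrapP_ext {Ω α : Type} {s : Finset Ω} {p : Ω → ℝ} (h : IsP s p) {B : Ω → Prop}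
    (hB : 0 < ms s p B) (b c : Ω → ℝ) (F : Ω → α) :
    ce s p (pj (fun ω => if B ω then b ω else 0) fun ω => if B ω then c ω else 0) F ≤
      1 + ce (rs s B) (rp s p B) (pj b c) F := by
  set X := pj (fun ω => if B ω then b ω else 0) fun ω => if B ω then c ω else 0 with hX
  have h1 := ce_le_add h X B F
  have h2 := ce_prop h B F
  have h3 := ce_split h X F B
  have h4 : ce (rs s B) (rp s p B) X F = ce (rs s B) (rp s p B) (pj b c) F :=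
    ce_congr (fun ω hω => by simp only [hX, pj, if_pos (mem_rs.1 hω).2]) fun _ _ => rfl
  have h5 : ms s p (fun ω => ¬ B ω) *
      ce (rs s fun ω => ¬ B ω) (rp s p fun ω => ¬ B ω) X F = 0 := by
    rcases (ms_ge_zero h fun ω => ¬ B ω).eq_or_lt with h6 | h6
    · rw [← h6, zero_mul]
    · rw [ce_det (rs_isP h h6) fun ω hω ω' hω' _ => by
        simp only [hX, pj, if_neg (mem_rs.1 hω).2, if_neg (mem_rs.1 hω').2], mul_zero]
  have h6 := ce_nonneg (rs_isP h hB) (pj b c) F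
  have h7 : ms s p B ≤ 1 := wrapP_le_one h B
  rw [h4, h5] at h3
  nlinarith

end Vale.Agent.P127S
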