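import Vale.Agent.P127S.AsyC
import Vale.Agent.P127S.EngP
import Vale.Agent.P127S.WrapPA

/-! The first engine in asymptotic form. -/

open Real Finset Filter Topology Vale.Agent.P118O

noncomputable section

namespace Vale.Agent.P127S

variable {N : ℕ → ℕ} {Ω α β : ℕ → Type} {S : Sp N Ω}

/-- a planar vector variable -/
def v2 (f g : VV Ω ℝ) : VV Ω (Fin 2 → ℝ) := fun k ω => ![f k ω, g k ω]

theorem wrapP_num {c η σ : ℝ} (hc : 0 < c) (hη : 0 < η) (hσ : 0 < σ) :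
    ∃ δ : ℝ, 0 < δ ∧ δ ≤ 1 ∧ 4 * δ ≤ c ∧ 8 * δ ≤ η * c ∧ 8 * δ ≤ σ * c := by
  refine ⟨min (min 1 (c / 4)) (min (η * c / 8) (σ * c / 8)), by positivity, ?_, ?_, ?_, ?_⟩
  · exact (min_le_left _ _).trans (min_le_left _ _)
  · linarith [(min_le_left _ (min (η * c / 8) (σ * c / 8))).trans (min_le_right 1 (c / 4))]
  · linarith [(min_le_right (min 1 (c / 4)) _).trans (min_le_left (η * c / 8) (σ * c / 8))]
  · linarith [(min_le_right (min 1 (c / 4)) _).trans (min_le_right (η * c / 8) (σ * c / 8))]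

theorem wrapP_num2 {c η σ δ : ℝ} {M l n0 : ℕ} (hη : 0 < η) (hσ : 0 < σ) (hδ : 0 < δ)
    (d2 : 4 * δ ≤ c) (d3 : 8 * δ ≤ η * c) (d4 : 8 * δ ≤ σ * c) (h1 : c * M ≤ l)
    (h2 : 4 ≤ δ * M) (h3 : 2 * (n0 : ℝ) ≤ c * M) {w n : ℕ} (hw : w = ⌈δ * M⌉₊ + 3)
    (hn : n = l - w) : l = n + w ∧ n0 ≤ n ∧ (l : ℝ) ≤ 2 * n ∧ (l : ℝ) ≤ n + 2 * (δ * M) ∧
      4 * (δ * M) ≤ η * n ∧ 8 * (δ * M) ≤ σ * l ∧ 8 * (2 : ℝ) ^ (δ * M) ≤ 2 ^ w := by
  have hM : (0 : ℝ) ≤ M := Nat.cast_nonneg M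
  have a1 : (w : ℝ) ≤ 2 * (δ * M) := by
    have := Nat.ceil_lt_add_one (show 0 ≤ δ * M by positivity)
    rw [hw]
    push_cast
    linarith
  have a2 : 4 * (δ * M) ≤ l := by nlinarith
  have a3 : w ≤ l := by
    have : (w : ℝ) ≤ l := by linarith
    exact_mod_cast this
  have a4 : l = n + w := by omega
  have a5 : (l : ℝ) = n + w := by exact_mod_cast a4
  have a6 : 8 * (δ * M) ≤ η * l := by
    have := mul_le_mul_of_nonneg_left h1 hη.le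
    nlinarith
  have a7 : 8 * (δ * M) ≤ σ * l := by
    have := mul_le_mul_of_nonneg_left h1 hσ.le
    nlinarith
  have a8 : (l : ℝ) ≤ 2 * n := by linarith
  refine ⟨a4, ?_, a8, by linarith, by nlinarith, a7, ?_⟩
  · have : (n0 : ℝ) ≤ n := by linarith
    exact_mod_cast this
  · have b1 : (2 : ℝ) ^ (δ * M) ≤ 2 ^ ⌈δ * M⌉₊ := by
      rw [← Real.rpow_natCast]
      exact Real.rpow_le_rpow_of_exponent_le one_le_two (Nat.le_ceil _)
    rw [hw, pow_add]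
    linarith

theorem wrapP_bddA {A Y : VV Ω (Fin 2 → ℝ)} {g sv fv : VV Ω ℝ} {j0 : ℕ → ℕ} (hsb : Bdd S sv)
    (hfb : Bdd S fv) (hg : ∀ k, ∀ ω ∈ S.s k, |g k ω| ≤ 1) (hY : Bdd S Y)
    (hr : Bdd S (A - Y - sm (tw Ω j0) (sm g (v2 sv fv)))) : Bdd S A := by
  have h1 : Bdd S (v2 sv fv) := Small.pi (Fin.forall_fin_two.2 ⟨hsb, hfb⟩)
  have h2 : Bdd S (sm (tw Ω j0) (sm g (v2 sv fv))) := by
    refine Small.dom h1 1 fun k ω hω => ?_
    change ‖((1 : ℝ) / 2 ^ j0 k) • g k ω • v2 sv fv k ω‖ ≤ _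
    rw [norm_smul, norm_smul, ← mul_assoc]
    refine mul_le_mul_of_nonneg_right (mul_le_one₀ ?_ (norm_nonneg _) (hg k ω hω)) (norm_nonneg _)
    rw [Real.norm_of_nonneg (by positivity), div_le_one (by positivity)]
    exact one_le_pow₀ one_le_two
  have e : A = A - Y - sm (tw Ω j0) (sm g (v2 sv fv)) + sm (tw Ω j0) (sm g (v2 sv fv)) + Y := by
    abel
  rw [e]
  exact Small.add (Small.add hr h2) hY

/-- the output of the engine at the index `k` -/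
def wpOut (S : Sp N Ω) (F : RV Ω α) (sv fv : VV Ω ℝ) (l : ℕ → ℕ) (c ε : ℝ) (k : ℕ)
    (b : (Ω k → ℝ) × (Ω k → ℝ)) : Prop :=
  ce (S.s k) (S.P k) (pj b.1 b.2) (F k) ≤ 3 * ε * N k ∧
    (∀ ω ∈ S.s k, |b.1 ω| ≤ (2 : ℝ) ^ (ε * N k) ∧ |b.2 ω| ≤ (2 : ℝ) ^ (ε * N k)) ∧
    1 - 2 * ε ≤ ms (S.s k) (S.P k)
      (fun ω => |fv k ω - sv k ω * b.1 ω - b.2 ω| ≤ (2 : ℝ) ^ (-(c / 2 * l k)))

theorem wrapP_out {F : RV Ω α} {γ : ℕ → Type} {F' : RV Ω γ} {sv fv : VV Ω ℝ} {l : ℕ → ℕ}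
    {c ε : ℝ} {k n : ℕ} {B : Ω k → Prop} {b c0 : Ω k → ℝ} (hc : 0 < c) (hε : 0 < ε)
    (h0 : 0 < ms (S.s k) (S.P k) B) (h1 : 1 - ε < ms (S.s k) (S.P k) B) (hn : n ≤ N k)
    (hl : (l k : ℝ) ≤ 2 * n) (h2 : 1 ≤ ε * N k) (h3 : H S F' F k ≤ 0 + ε * N k)
    (o1 : ce (rs (S.s k) B) (rp (S.s k) (S.P k) B) (pj b c0) (F' k) ≤ ε * n)
    (o2 : ∀ ω ∈ rs (S.s k) B, |b ω| ≤ (2 : ℝ) ^ (ε * n) ∧ |c0 ω| ≤ (2 : ℝ) ^ (ε * n))
    (o3 : 1 - ε ≤ ms (rs (S.s k) B) (rp (S.s k) (S.P k) B)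
      (fun ω => |fv k ω - sv k ω * b ω - c0 ω| ≤ (2 : ℝ) ^ (-(c * n)))) :
    ∃ b, wpOut S F sv fv l c ε k b := by
  classical
  have hI := S.isP k
  have hn' : ε * n ≤ ε * N k := mul_le_mul_of_nonneg_left (Nat.cast_le.2 hn) hε.le
  refine ⟨(fun ω => if B ω then b ω else 0, fun ω => if B ω then c0 ω else 0), ?_,
    fun ω hω => ?_, ?_⟩
  · have a1 := wrapP_ext hI h0 b c0 (F' k)
    have a2 := ce_le_add hI (pj (fun ω => if B ω then b ω else 0)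
      fun ω => if B ω then c0 ω else 0) (F' k) (F k)
    have a3 : ce (S.s k) (S.P k) (pj (fun ω => if B ω then b ω else 0)
        fun ω => if B ω then c0 ω else 0) (pj (F' k) (F k)) ≤
        ce (S.s k) (S.P k) (pj (fun ω => if B ω then b ω else 0)
          fun ω => if B ω then c0 ω else 0) (F' k) :=
      ce_mono hI (fun _ _ _ _ e => (Prod.mk.inj e).1) fun _ _ _ _ e => (Prod.mk.inj e).1
    have a4 : ce (S.s k) (S.P k) (F' k) (F k) ≤ 0 + ε * N k := h3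
    linarith
  · by_cases hB : B ω
    · have a1 : (2 : ℝ) ^ (ε * n) ≤ 2 ^ (ε * N k) :=
        Real.rpow_le_rpow_of_exponent_le one_le_two hn'
      have a2 := o2 ω (mem_rs.2 ⟨hω, hB⟩)
      simp only [if_pos hB]
      exact ⟨a2.1.trans a1, a2.2.trans a1⟩
    · simp only [if_neg hB, abs_zero, and_self]
      positivity
  · have a1 := ms_rs hI B fun ω => |fv k ω - sv k ω * b ω - c0 ω| ≤ (2 : ℝ) ^ (-(c * n))
    have a2 := wrapP_le_one hI B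
    have a3 := wrapP_le_one (rs_isP hI h0)
      fun ω => |fv k ω - sv k ω * b ω - c0 ω| ≤ (2 : ℝ) ^ (-(c * n))
    have a4 : (2 : ℝ) ^ (-(c * n)) ≤ 2 ^ (-(c / 2 * l k)) :=
      Real.rpow_le_rpow_of_exponent_le one_le_two (by nlinarith)
    refine le_trans ?_ (ms_imp hI (E := fun ω => B ω ∧
      |fv k ω - sv k ω * b ω - c0 ω| ≤ (2 : ℝ) ^ (-(c * n))) fun ω _ e => ?_)
    · nlinarith [mul_nonneg (sub_nonneg.2 a2) (sub_nonneg.2 a3)]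
    · simp only [if_pos e.1]
      exact e.2.trans a4

theorem wrapP_fin {F : RV Ω α} {sv fv : VV Ω ℝ} {l : ℕ → ℕ} {c : ℝ} (hc : 0 < c)
    (hb : Big N fun k => l k) (h : ∀ ε : ℝ, 0 < ε → ∀ᶠ k in UF, ∃ b, wpOut S F sv fv l c ε k b) :
    ∃ (l' : ℕ → ℕ) (b c0 : VV Ω ℝ), (∀ k, l' k ≤ l k) ∧ Big N (fun k => l' k) ∧
      Kw S (J b c0) F ∧ Bdd S b ∧ Bdd S c0 ∧ Small S (fv - sv * b - c0) l' := by
  obtain ⟨u, -, hu, h1⟩ := diag h
  have h2 : ∀ k, ∃ b, (∃ b, wpOut S F sv fv l c (u k) k b) → wpOut S F sv fv l c (u k) k b :=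
    fun k => by
      by_cases e : ∃ b, wpOut S F sv fv l c (u k) k b
      · exact ⟨e.choose, fun _ => e.choose_spec⟩
      · exact ⟨0, fun e' => absurd e' e⟩
  choose b hb' using h2
  have h3 : ∀ᶠ k in UF, wpOut S F sv fv l c (u k) k (b k) := h1.mono fun k e => hb' k e
  have hκ : 0 < min 1 (c / 2) := by positivity
  have h4 : ∀ k, (⌊min 1 (c / 2) * l k⌋₊ : ℝ) ≤ min 1 (c / 2) * l k := fun k =>
    Nat.floor_le (by positivity)
  have h5 : ∀ ε : ℝ, 0 < ε → ∀ᶠ k in UF, (2 : ℝ) ^ (u k * N k) ≤ 2 ^ (ε * N k - (0 : ℕ)) :=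
    fun ε hε => (hu.eventually_lt_const hε).mono fun k e =>
      Real.rpow_le_rpow_of_exponent_le one_le_two (by
        rw [Nat.cast_zero, sub_zero]
        exact mul_le_mul_of_nonneg_right e.le (Nat.cast_nonneg _))
  refine ⟨fun k => ⌊min 1 (c / 2) * l k⌋₊, fun k => (b k).1, fun k => (b k).2, fun k => ?_,
    hb.mono hκ ((Le.refl fun _ => 0).linc S.big 1 fun k => ?_), fun ε hε => ?_,
    fun ε hε => whp.of_all ?_, fun ε hε => whp.of_all ?_, Small.of_whp ?_⟩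
  · have := (h4 k).trans (mul_le_of_le_one_left (Nat.cast_nonneg _) (min_le_left _ _))
    exact_mod_cast this
  · linarith [Nat.lt_floor_add_one (min 1 (c / 2) * l k)]
  · filter_upwards [h3, hu.eventually_lt_const (show 0 < ε / 3 by positivity)] with k a1 a2
    refine a1.1.trans ?_
    have := mul_le_mul_of_nonneg_right a2.le (Nat.cast_nonneg (N k))
    linarith
  · filter_upwards [h3, h5 ε hε] with k a1 a2 ω hω
    exact (a1.2.1 ω hω).1.trans a2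
  · filter_upwards [h3, h5 ε hε] with k a1 a2 ω hω
    exact (a1.2.1 ω hω).2.trans a2
  · have h6 : Tendsto (fun k => 1 - 2 * u k) UF (𝓝 1) := by
      simpa only [mul_zero, sub_zero] using (hu.const_mul 2).const_sub 1
    refine tendsto_of_tendsto_of_tendsto_of_le_of_le' h6 tendsto_const_nhds ?_
      (Eventually.of_forall fun k => wrapP_le_one (S.isP k) _)
    filter_upwards [h3] with k a1
    refine a1.2.2.trans (ms_imp (S.isP k) fun ω _ e => le_trans e ?_)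
    have a2 : (2 : ℝ) ^ (-(c / 2 * l k)) ≤ 2 ^ ((0 : ℝ) - (⌊min 1 (c / 2) * l k⌋₊ : ℕ)) :=
      Real.rpow_le_rpow_of_exponent_le one_le_two (by
        have := mul_le_mul_of_nonneg_right (min_le_right 1 (c / 2)) (Nat.cast_nonneg (l k))
        linarith [h4 k])
    rw [asyB_div, Real.rpow_zero] at a2
    exact a2.trans (div_le_div_of_nonneg_right (by norm_num) (by positivity))

theorem wrapP_rel2 {A Y r : VV Ω (Fin 2 → ℝ)} {g sv fv : VV Ω ℝ} {j0 l n : ℕ → ℕ} {k w : ℕ}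
    {M : ℝ} {ω ω' : Ω k} (hl : l k = n k + w) (hw : 8 * M ≤ 2 ^ w) (p0 : 1 ≤ M)
    (p1 : M ≤ 2 ^ N k) (hr : r = A - Y - sm (tw Ω j0) (sm g (v2 sv fv)))
    (h1 : ‖sv k ω‖ ≤ M ∧ ‖fv k ω‖ ≤ M) (h2 : ‖A k ω‖ ≤ M ∧ ‖Y k ω‖ ≤ M ∧ ‖r k ω‖ ≤ M)
    (h3 : ‖A k ω'‖ ≤ M ∧ ‖Y k ω'‖ ≤ M ∧ ‖r k ω'‖ ≤ M) (g1 : |g k ω| ≤ 1) (g2 : |g k ω'| ≤ 1)
    (es : sv k ω = sv k ω') (ef : fv k ω = fv k ω') (eY : Q N j0 Y k ω = Q N j0 Y k ω')
    (er : Q N (fun k => j0 k + l k) r k ω = Q N (fun k => j0 k + l k) r k ω')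
    (eA : Q N (fun k => j0 k + l k) A k ω = Q N (fun k => j0 k + l k) A k ω') :
    ‖wpY N j0 n Y k ω' - wpY N j0 n Y k ω -
      (sv k ω • ((![wpG N l g k ω, 0] : Fin 2 → ℝ) - ![wpG N l g k ω', 0]) +
        fv k ω • ((![0, wpG N l g k ω] : Fin 2 → ℝ) - ![0, wpG N l g k ω']))‖ ≤ 1 / 2 ^ n k := by
  rw [Q_of_le (h2.1.trans p1), Q_of_le (h3.1.trans p1), hl] at eA
  rw [Q_of_le (h2.2.2.trans p1), Q_of_le (h3.2.2.trans p1), hl] at er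
  have hd := wrapP_dY (n := n) eY (h2.2.1.trans p1) (h3.2.1.trans p1)
  have e1 : ∀ (x : Ω k) (i : Fin 2),
      r k x i = A k x i - Y k x i - 1 / 2 ^ j0 k * (g k x * v2 sv fv k x i) := fun x i => by
    rw [hr]
    rfl
  rw [wrapP_G g1, wrapP_G g2, hl]
  refine (pi_norm_le_iff_of_nonneg (by positivity)).2 (Fin.forall_fin_two.2 ⟨?_, ?_⟩)
  · simp only [Pi.sub_apply, Pi.add_apply, Pi.smul_apply, smul_eq_mul, Matrix.cons_val_zero,
      sub_self, mul_zero, add_zero, Real.norm_eq_abs, hd 0]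
    exact wrapP_rel h1.1 p0 hw (e1 ω 0) (es ▸ e1 ω' 0) (congrFun eA 0) (congrFun er 0)
  · simp only [Pi.sub_apply, Pi.add_apply, Pi.smul_apply, smul_eq_mul, Matrix.cons_val_one,
      Matrix.cons_val_fin_one, sub_self, mul_zero, zero_add, Real.norm_eq_abs, hd 1]
    exact wrapP_rel h1.2 p0 hw (e1 ω 1) (ef ▸ e1 ω' 1) (congrFun eA 1) (congrFun er 1)

/-- Let `c` come from `engP` with `σ / 2`. Fix `ε`, get `η, n0`; let `l ≥ c' N`, `w = ⌈δ N⌉` with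
`δ` small, `n = l - w`, `j = j0 + l`. Finite data: `Y^ = dz (n + 1) (2 ^ j0 • (Y - dq j0 Y))`,
`F^ = (F, Y[j0], parity of qz (n + 1) (..))` (known from `F`; makes `lat` true), `g^ = dq l g`,
`T^ = (T, r[j])`, `A^ = A[j]`, on the event `B` of high probability where the weight is positive,
`sv, fv, A, Y, r` are at most `2 ^ (δ N / 2)`, the masses of `g[n]` given `F^` are small (`pt_low`
for the variable `g[l - w]`, using `Kw.res`) and `whp.half` holds. All entropy hypotheses are first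
proved with `Le` on `S` (with these sequences), then moved by `res_whp`. Extend `b, c0` by `0` off
`B`. Finally `diag`. Take the constant `min 1 (c / 2)`. -/
theorem wrapP {σ : ℝ} (hσ : 0 < σ) {F : RV Ω α} {T : RV Ω β} {A Y : VV Ω (Fin 2 → ℝ)}
    {g sv fv : VV Ω ℝ} {j0 l : ℕ → ℕ} (hj : Lv N fun k => j0 k + l k) (hb : Big N fun k => l k)
    (hs : DetS S sv (J F T)) (hf : DetS S fv (J F T)) (hsb : Bdd S sv) (hfb : Bdd S fv)
    (hg : ∀ k, ∀ ω ∈ S.s k, |g k ω| ≤ 1) (hY : Kn S F Y j0)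
    (hr : Kn S (J F T) (A - Y - sm (tw Ω j0) (sm g (v2 sv fv))) fun k => j0 k + l k)
    (h1 : Le N (H S (Q N (fun k => j0 k + l k) A) (J F T)) fun k => l k)
    (h2 : Le N (H S (Q N (fun k => j0 k + l k) Y) F) fun k => l k)
    (h2' : Le N (fun k => l k)
      (H S (Q N (fun k => j0 k + l k) (sc (co Y 0))) (J (J F T) (Q N l (sc g)))))
    (h3 : Ind S (Q N l (sc g)) T F) (h4 : Le N (fun k => l k) (H S (Q N l (sc sv)) F))
    (h6 : ∀ E, pos S E → Le N (fun k => σ * l k) (H (S.res E) (Q N l (sc g)) F)) :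
    ∃ (l' : ℕ → ℕ) (b c0 : VV Ω ℝ), (∀ k, l' k ≤ l k) ∧ Big N (fun k => l' k) ∧
      Kw S (J b c0) F ∧ Bdd S b ∧ Bdd S c0 ∧ Small S (fv - sv * b - c0) l' := by
  obtain ⟨c, hc, hE⟩ := engP (half_pos hσ)
  refine wrapP_fin hc hb fun ε hε => ?_
  obtain ⟨η, hη, n0, hE⟩ := hE ε hε
  obtain ⟨c', hc', hb⟩ := hb
  obtain ⟨δ, hδ, d1, d2, d3, d4⟩ := wrapP_num hc' hη hσ
  obtain ⟨w, hw⟩ : ∃ w : ℕ → ℕ, ∀ k, w k = ⌈δ * N k⌉₊ + 3 := ⟨_, fun _ => rfl⟩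
  obtain ⟨n, hn⟩ : ∃ n : ℕ → ℕ, ∀ k, n k = l k - w k := ⟨_, fun _ => rfl⟩
  have hnl : ∀ k, n k ≤ l k := fun k => by rw [hn]; exact Nat.sub_le _ _
  have hl : Lv N l := fun k => (Nat.le_add_left _ _).trans (hj k)
  have hA : Bdd S A := wrapP_bddA hsb hfb hg hY.1 hr.1
  obtain ⟨r, hre⟩ : ∃ r, r = A - Y - sm (tw Ω j0) (sm g (v2 sv fv)) := ⟨_, rfl⟩
  rw [← hre] at hr
  have kF : Kw S (wpF N j0 n F Y) F := wrapP_kwF hY.2
  have hlow := pt_low (S := S) (X := fun k => qs (n k) (wpG N l g k)) (Y := wpF N j0 n F Y)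
    (f := fun k => σ * l k - ((l k : ℝ) - n k)) (fun E hE' =>
      Le.trans (wrapP_lev hnl (h6 E hE') fun k => le_rfl) (H_kw (DetS.kw fun k ω _ ω' _ e =>
        funext fun _ => ((wrapP_gq (hnl k) ω).symm.trans e).trans (wrapP_gq (hnl k) ω')).left
        (kF.res hE'))) hδ
  obtain ⟨B0, hB0, hB0'⟩ : ∃ B0 : VV Ω Prop, whp S B0 ∧ ∀ k ω, B0 k ω → 0 < S.P k ω ∧
      (‖sv k ω‖ ≤ (2 : ℝ) ^ (δ * N k) ∧ ‖fv k ω‖ ≤ (2 : ℝ) ^ (δ * N k)) ∧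
      (‖A k ω‖ ≤ (2 : ℝ) ^ (δ * N k) ∧ ‖Y k ω‖ ≤ (2 : ℝ) ^ (δ * N k) ∧
        ‖r k ω‖ ≤ (2 : ℝ) ^ (δ * N k)) ∧
      ms (S.s k) (S.P k) (fun ω' => qs (n k) (wpG N l g k) ω' = qs (n k) (wpG N l g k) ω ∧
        wpF N j0 n F Y k ω' = wpF N j0 n F Y k ω) ≤
      (2 : ℝ) ^ (δ * N k - (σ * l k - ((l k : ℝ) - n k))) *
        ms (S.s k) (S.P k) (fun ω' => wpF N j0 n F Y k ω' = wpF N j0 n F Y k ω) :=
    ⟨_, (whp_weight S).and (((wrapP_bdd hsb hδ).and (wrapP_bdd hfb hδ)).and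
      (((wrapP_bdd hA hδ).and ((wrapP_bdd hY.1 hδ).and (wrapP_bdd hr.1 hδ))).and hlow)),
      fun _ _ h => h⟩
  obtain ⟨B, hB, hB'⟩ : ∃ B : VV Ω Prop, whp S B ∧ ∀ k ω, B k ω ↔ B0 k ω ∧
      ms (S.s k) (S.P k) (fun ω' => wpF N j0 n F Y k ω' = wpF N j0 n F Y k ω) ≤
      2 * ms (S.s k) (S.P k) (fun ω' => B0 k ω' ∧ wpF N j0 n F Y k ω' = wpF N j0 n F Y k ω) :=
    ⟨_, hB0.half (wpF N j0 n F Y), fun _ _ => Iff.rfl⟩
  have hp := hB.toPos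
  obtain ⟨e1, e2, e3, e4, e5⟩ := wrapP_ent (S := S.res B) hnl (hY.2.res hp) (hr.2.res hp)
    (Le.trans (res_whp hB (tame_Q hj A) (J F T)).1 h1)
    (Le.trans (res_whp hB (tame_Q hj Y) F).1 h2)
    (Le.trans h2' (res_whp hB (tame_Q hj _) _).2) (h3.res hp)
    (Le.trans h4 (res_whp hB (tame_Q hl _) F).2)
  filter_upwards [e1 δ hδ, e2 δ hδ, e3 δ hδ, e4 δ hδ, e5 δ hδ, res_ev hp, hb, asyB_ev S hδ 4,
    asyB_ev S hc' (2 * n0), asyB_ev S hε 1, kF ε hε, Tendsto.eventually_const_lt one_pos hB,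
    Tendsto.eventually_const_lt (sub_lt_self 1 hε) hB] with k a1 a2 a3 a4 a5 hk b1 b2 b3 b4 b5
    b6 b7
  obtain ⟨n1, n2, n3, n4, n5, n6, n7⟩ := wrapP_num2 hη hσ hδ d2 d3 d4 b1 b2 b3 (hw k) (hn k)
  have hI := (S.res B).isP k
  have hm : ∀ ω ∈ (S.res B).s k, ω ∈ S.s k ∧ B k ω := fun ω hω => by
    rw [hk.1] at hω
    exact mem_rs.1 hω
  have hm0 := fun ω hω => hB0' k ω ((hB' k ω).1 (hm ω hω).2).1
  have p0 : (1 : ℝ) ≤ 2 ^ (δ * N k) := Real.one_le_rpow one_le_two (by positivity)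
  have p1 : (2 : ℝ) ^ (δ * N k) ≤ 2 ^ N k := by
    rw [← Real.rpow_natCast]
    exact Real.rpow_le_rpow_of_exponent_le one_le_two
      (mul_le_of_le_one_left (Nat.cast_nonneg _) d1)
  have p2 : (2 : ℝ) ^ (δ * N k) ≤ 2 ^ (η * n k) :=
    Real.rpow_le_rpow_of_exponent_le one_le_two (by linarith)
  have hFT : ∀ ω ω', wpF N j0 n F Y k ω = wpF N j0 n F Y k ω' →
      J T (Q N (fun k => j0 k + l k) r) k ω = J T (Q N (fun k => j0 k + l k) r) k ω' →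
      J F T k ω = J F T k ω' := fun ω ω' e e' => Prod.ext (wrapP_F1 e).1 (Prod.mk.inj e').1
  have x1 : H (S.res B) (wpX N j0 n Y) (J (wpF N j0 n F Y)
      (J (J T (Q N (fun k => j0 k + l k) r)) (wpG N l g))) k ≤ H (S.res B) (wpY N j0 n Y)
      (J (wpF N j0 n F Y) (J (J T (Q N (fun k => j0 k + l k) r)) (wpG N l g))) k :=
    ce_mono hI (fun ω _ ω' _ e => congrArg (fun v : Fin 2 → ℝ => ⌊(2 : ℝ) ^ n k * v 0⌋)
      (Prod.mk.inj e).1) fun _ _ _ _ e => e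
  have x2 := AsyA0_left (S := S.res B) (wpX N j0 n Y) (wpF N j0 n F Y)
    (J (J T (Q N (fun k => j0 k + l k) r)) (wpG N l g)) k
  have x3 : H (S.res B) (Q N n (sc sv)) (wpF N j0 n F Y) k ≤
      ce ((S.res B).s k) ((S.res B).P k) (qs (n k) (sv k)) (wpF N j0 n F Y k) :=
    ce_mono hI (fun ω hω ω' hω' e => funext fun _ =>
      ((wrapP_Qsc ((hm0 ω hω).2.1.1.trans p1)).trans (Prod.mk.inj e).1).trans
        (wrapP_Qsc ((hm0 ω' hω').2.1.1.trans p1)).symm) fun _ _ _ _ e => e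
  obtain ⟨b, c0, o1, o2, o3⟩ := hE (n k) n2 ((S.res B).s k) ((S.res B).P k) (wpF N j0 n F Y k)
    (J T (Q N (fun k => j0 k + l k) r) k) (Q N (fun k => j0 k + l k) A k) (wpY N j0 n Y k)
    (wpG N l g k) (sv k) (fv k)
    ⟨hI, fun ω hω => by rw [hk.2]; exact div_pos (hm0 ω hω).1 b6,
      fun ω hω ω' hω' e => hs k ω (hm ω hω).1 ω' (hm ω' hω').1
        (hFT ω ω' (Prod.mk.inj e).1 (Prod.mk.inj e).2),
      fun ω hω ω' hω' e => hf k ω (hm ω hω).1 ω' (hm ω' hω').1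
        (hFT ω ω' (Prod.mk.inj e).1 (Prod.mk.inj e).2),
      fun ω _ ω' _ e => wrapP_lat (Prod.mk.inj e).1 (Prod.mk.inj e).2,
      fun ω hω ω' hω' eF eT eA => wrapP_rel2 n1 n7 p0 p1 hre (hm0 ω hω).2.1 (hm0 ω hω).2.2.1
        (hm0 ω' hω').2.2.1 (hg k ω (hm ω hω).1) (hg k ω' (hm ω' hω').1)
        (hs k ω (hm ω hω).1 ω' (hm ω' hω').1 (hFT ω ω' eF eT))
        (hf k ω (hm ω hω).1 ω' (hm ω' hω').1 (hFT ω ω' eF eT)) (wrapP_F1 eF).2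
        (Prod.mk.inj eT).2 eA,
      fun ω hω => ⟨(hm0 ω hω).2.1.1.trans p2, (hm0 ω hω).2.1.2.trans p2⟩,
      le_trans a1 (le_trans (by linarith) (add_le_add_left x1 _)),
      le_trans a3 (le_trans (by linarith) (add_le_add_left x1 _)),
      le_trans a4 (add_le_add_right (by linarith) _), le_trans (by linarith) x3⟩
    (fun ω hω => ⟨wrapP_Gbd (hg k ω (hm ω hω).1), (wrapP_Ybd ω).trans (p0.trans p2)⟩)
    (le_trans a3 (by linarith)) (le_trans (by linarith) x2) fun ω hω => by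
      rw [hk.1, hk.2]
      refine wrapP_mass (S.isP k) (hB' k) (hm ω hω).2 (hm0 ω hω).2.2.2 ?_
      have := mul_le_mul_of_nonneg_left (Nat.cast_le (α := ℝ).2 (hnl k)) hσ.le
      linarith
  rw [hk.1, hk.2] at o1 o3
  rw [hk.1] at o2
  exact wrapP_out hc hε b6 b7 ((hnl k).trans (hl k)) n3 b4 b5 o1 o2 o3

end Vale.Agent.P127S
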