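import Vale.Agent.P127S.DS2
import Vale.Agent.P127S.WrapP

/-! One saturated direction: the first order relation. -/

open Real Finset Filter Topology Vale.Agent.P118O

noncomputable section

namespace Vale.Agent.P127S

variable {N : ℕ → ℕ} {Ω Ω' γ δ : ℕ → Type} {S : Sp N Ω} {L : Ln Ω} {D D1 : RV Ω δ} {D2 : RV Ω γ}
  {P P1 P2 R B C0 : VV Ω M3} {I : Finset (Fin 3)} {σ : ℝ} {b l : ℕ → ℕ} {t2 : VV Ω ℝ}

/-- transport of a linear relation to the extension `PairSt.ext` (`Small.pull` along `p2`,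
`glue_eq`) -/
theorem pair_lin {s : VV Ω ℝ} {e f : ℕ → ℕ} (hR : DetS S R (J D1 D2)) (hs : DetS S s (J D1 D2))
    (hB : Mat S (J B C0) B I) (hC : Mat S (J B C0) C0 I)
    (h : Small S (R - sm (tw Ω e) (sm s B + C0)) f) :
    Mat (S.glue (J D1 D2)) (J (pl (p1 Ω) D1) (pl (p2 Ω) (J B C0))) (pl (p2 Ω) B) I ∧
      Mat (S.glue (J D1 D2)) (J (pl (p1 Ω) D1) (pl (p2 Ω) (J B C0))) (pl (p2 Ω) C0) I ∧
      Small (S.glue (J D1 D2)) (pl (p1 Ω) R -
        sm (tw _ e) (sm (pl (p1 Ω) s) (pl (p2 Ω) B) + pl (p2 Ω) C0)) f := by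
  refine ⟨(hB.pull (ext2 _)).mono (DetS.refl _).right, (hC.pull (ext2 _)).mono (DetS.refl _).right,
    (h.pull (ext2 (J D1 D2))).congr (whp.of_all (Eventually.of_forall fun k ω hω => ?_))⟩
  have e1 : R k ω.1 = R k ω.2 := glue_eq hR k ω hω
  have e2 : s k ω.1 = s k ω.2 := glue_eq hs k ω hω
  change R k ω.2 - tw Ω e k ω.2 • (s k ω.2 • B k ω.2 + C0 k ω.2) =
    R k ω.1 - tw Ω e k ω.2 • (s k ω.1 • B k ω.2 + C0 k ω.2)
  rw [e1, e2]

/-- a pair of plany states with a first order relation -/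
structure Rel1 (S : Sp N Ω) (L : Ln Ω) (t2 : VV Ω ℝ) (D1 : RV Ω δ) (D2 : RV Ω γ)
    (P1 P2 : VV Ω M3) (I : Finset (Fin 3)) (σ : ℝ) (b l : ℕ → ℕ) (B C0 : VV Ω M3) : Prop where
  pair : PairSt S L t2 D1 D2 P1 P2 I σ b
  hb : ∀ k, 3 * b k ≤ L.n k
  hl : ∀ k, l k ≤ b k
  big : Big N fun k => l k
  k1 : KnAll S L.n D1 L.x (ph P1 L.θ)
  k2 : KnAll S L.n D2 (L.wt t2).x (ph P2 L.θ)
  lip : Small S (P2 - P1) b
  mB : Mat S D1 B I
  mC : Mat S D1 C0 I
  lin : Small S (P2 - P1 - sm (tw Ω b) (sm (dT L t2 b) B + C0)) fun k => b k + l k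

theorem Rel1.res (h : Rel1 S L t2 D1 D2 P1 P2 I σ b l B C0) {A : VV Ω Prop} (hA : pos S A) :
    Rel1 (S.res A) L t2 D1 D2 P1 P2 I σ b l B C0 := by
  exact ⟨h.pair.res hA, h.hb, h.hl, h.big, h.k1.res hA, h.k2.res hA, h.lip.res hA, h.mB.res hA,
    h.mC.res hA, h.lin.res hA⟩

theorem Rel1.pull (h : Rel1 S L t2 D1 D2 P1 P2 I σ b l B C0) {S' : Sp N Ω'} {m : RV Ω' Ω}
    (e : Ext S S' m) : Rel1 S' (L.pull m) (pl m t2) (pl m D1) (pl m D2) (pl m P1) (pl m P2) I σ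
      b l (pl m B) (pl m C0) := by
  have h1 := h.k1.pull e
  have h2 := h.k2.pull e
  have h3 := h.lip.pull e
  have h4 := h.lin.pull e
  exact ⟨h.pair.pull e, h.hb, h.hl, h.big, h1, h2, h3, h.mB.pull e, h.mC.pull e, h4⟩

/-- the conditioning used for one saturated direction -/
def k1F (N : ℕ → ℕ) (L : Ln Ω) (D1 : RV Ω δ) (P1 : VV Ω M3) (b : ℕ → ℕ) :
    RV Ω fun k => (δ k × (Fin 3 → ℤ)) × (Fin 3 → ℤ) :=
  J (J D1 (Q N b L.x)) (Q N (fun k => 2 * b k) (ph P1 L.x))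

theorem K1A0_up {α : ℕ → Type} {Z : RV Ω α} {i : Fin 3} {x W : VV Ω V3} (hP : Pj S D P {i})
    (hD : DetS S D Z) (hj : Lv N fun k => b k + l k) (hy : Kn S Z (ph P x) fun k => b k + l k)
    (hx : Kn S Z x b) (hk : Kn S (J D (Q N (fun k => b k + l k) x)) W fun k => b k + l k) :
    Le N (H S (J (Q N (fun k => b k + l k) x) (Q N (fun k => b k + l k) W)) Z) fun k => l k := by
  have h1 := (hx.mask {i}).H_le_supp (j := fun k => b k + l k) (fun k => Nat.le_add_right _ _) {i}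
    fun k ω a ha => if_neg ha
  have h2 : Kn S (J (Q N (fun k => b k + l k) (msk {i} x)) Z) x fun k => b k + l k :=
    hP.kn hD.right hj (hy.mono (Kw.refl _).right)
      ((Kn.self (hx.mask {i}).bdd _).mono (Kw.refl _).left)
  have h3 := hk.mono (hD.right.kw.pair h2.kw)
  refine ((H_kw (h2.kw.pair h3.kw) (Kw.refl Z)).trans h1).lin fun k => ?_
  simp

theorem K1A0_det (h : PairSt S L t2 D1 D2 P1 P2 I σ b) :
    DetS S (P2 - P1) (J D1 D2) ∧ DetS S (t2 - L.t) (J D1 D2) :=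
  ⟨DetS.map2 (h.st2.pj.det.right (Y := D1)) (h.st1.pj.det.left (Z := D2)) fun _ u v => u - v,
    DetS.map2 (h.st2.cfg.dt.right (Y := D1)) (h.st1.cfg.dt.left (Z := D2)) fun _ u v => u - v⟩

/-- Given `k1F` and `D2`: `y2` is known at level `2 b` (`pair_id`, `k1`, `lip`) and `x2` at level
`b`. So `x2`, hence `γ2` (`k2`), is known at level `b + l` from `(msk I x2)[b+l]` (`Pj.kn`), which
has entropy `≲ l` (`Kn.H_le_supp`). The same for the first state. -/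
theorem k1_up {i : Fin 3} (h : PairSt S L t2 D1 D2 P1 P2 {i} σ b) (hb : ∀ k, 2 * b k ≤ L.n k)
    (hl : ∀ k, l k ≤ b k) (k1 : KnAll S L.n D1 L.x (ph P1 L.θ))
    (k2 : KnAll S L.n D2 (L.wt t2).x (ph P2 L.θ)) (lip : Small S (P2 - P1) b) :
    Le N (H S (J (Q N (fun k => b k + l k) (L.wt t2).x) (Q N (fun k => b k + l k) (ph P2 L.θ)))
        (J (k1F N L D1 P1 b) D2)) (fun k => l k) ∧
      Le N (H S (J (Q N (fun k => b k + l k) L.x) (Q N (fun k => b k + l k) (ph P1 L.θ)))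
        (k1F N L D1 P1 b)) fun k => l k := by
  have c1 := h.st1.cfg
  have hn : ∀ k, b k + l k ≤ L.n k := fun k => by linarith [hb k, hl k]
  have hj : Lv N fun k => b k + l k := c1.lev hn
  have hb' : Lv N b := c1.lev h.hb
  have h2 : ∀ k, b k + l k ≤ b k + b k := fun k => Nat.add_le_add_left (hl k) _
  obtain ⟨-, bθ, -, bx⟩ := c1.bdd
  have dF : DetS S D1 (k1F N L D1 P1 b) := (DetS.refl _).left.left
  have x1 : Kn S (k1F N L D1 P1 b) L.x b := (Kn.self bx b).mono (Kw.refl _).right.left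
  have y1 : Kn S (k1F N L D1 P1 b) (ph P1 L.x) fun k => b k + l k :=
    ((Kn.self (h.st1.pj.bdd.tr bx) _).mono (Kw.refl _).right).lev fun k => by linarith [hl k]
  refine ⟨K1A0_up h.st2.pj (DetS.refl _).right hj ?_ ?_ (k2 _ hn),
    K1A0_up h.st1.pj dF hj y1 x1 (k1 _ hn)⟩
  · have dZ : DetS S (J D1 D2) (J (k1F N L D1 P1 b) D2) := dF.left.pair (DetS.refl _).right
    have a1 := Kn.mv hj ((K1A0_det h).1.trans dZ) lip (x1.mono (Kw.refl _).left) h2
    have a2 := Kn.smul hj ((K1A0_det h).2.trans dZ) h.small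
      ((k1 b h.hb).mono (Kw.refl _).left.left) h2
    have a3 := Kn.of_small hj ((h.small.smul (lip.mv bθ)).mono (b' := fun k => b k + l k)
      (Le.of_le fun k => by exact_mod_cast h2 k)) (J (k1F N L D1 P1 b) D2)
    have a4 := ((y1.mono (Kw.refl _).left).sub hj a1).add hj (a2.sub hj a3)
    rw [← pair_id] at a4
    exact a4.eqs fun k ω _ => by
      simp only [Pi.add_apply, Pi.sub_apply]
      abel
  · refine (x1.mono (Kw.refl _).left).near hb' ?_
    rw [wt_x, add_sub_cancel_left]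
    exact (h.small.smul bθ).mono (Le.of_le fun k => by simp)

end Vale.Agent.P127S
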