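import Vale.Agent.P127S.K1A0

/-! The first engine applied to a pair. -/

open Real Finset Filter Topology Vale.Agent.P118O

noncomputable section

namespace Vale.Agent.P127S

variable {N : ℕ → ℕ} {Ω Ω' γ δ : ℕ → Type} {S : Sp N Ω} {L : Ln Ω} {D D1 : RV Ω δ} {D2 : RV Ω γ}
  {P P1 P2 R B C0 : VV Ω M3} {I : Finset (Fin 3)} {σ : ℝ} {b l : ℕ → ℕ} {t2 : VV Ω ℝ}

theorem K1A1_detQ (j : ℕ → ℕ) (X Y : VV Ω V3) (i m : Fin 3) :
    DetS S (Q N j (v2 (co X i) (co Y m))) (J (Q N j X) (Q N j Y)) := by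
  intro k a _ c _ e
  funext r
  have e1 := congrFun (Prod.mk.inj e).1 i
  have e2 := congrFun (Prod.mk.inj e).2 m
  fin_cases r
  · exact e1
  · exact e2

theorem K1A1_zero {E : Type} [NormedAddCommGroup E] (S : Sp N Ω) (j : ℕ → ℕ) :
    Small S (0 : VV Ω E) j :=
  Small.of_le (Eventually.of_forall fun k ω _ => by
    rw [show (0 : VV Ω E) k ω = 0 from rfl, norm_zero]
    positivity)

theorem K1A1_kn2 {α : ℕ → Type} {Z : RV Ω α} {f g : VV Ω ℝ} {j : ℕ → ℕ} (h1 : Kn S Z (sc f) j)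
    (h2 : Kn S Z (sc g) j) : Kn S Z (v2 f g) j := by
  refine Kn.pi fun r => ?_
  fin_cases r
  · exact h1
  · exact h2

theorem K1A1_msk {α : ℕ → Type} {Z : RV Ω α} {X : VV Ω V3} {j : ℕ → ℕ} {i : Fin 3} (hj : Lv N j)
    (h1 : Kn S Z (sc (co X i)) j) : Kn S Z (msk {i} X) j := by
  refine Kn.pi fun r => ?_
  by_cases e : r = i
  · have e1 : sc (co (msk {i} X) r) = sc (co X i) := by
      funext k ω u
      simp [sc, co, msk, e]
    rw [e1]
    exact h1
  · have e1 : sc (co (msk {i} X) r) = 0 := by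
      funext k ω u
      simp [sc, co, msk, e]
    rw [e1]
    exact Kn.of_small hj (K1A1_zero (E := Unit → ℝ) S j) Z

theorem K1A1_F {α : ℕ → Type} {Z : RV Ω α} (h : St S L D1 P1 I σ) (hb : ∀ k, 2 * b k ≤ L.n k)
    (hD : DetS S D1 Z) (hx : Kn S Z L.x fun k => 2 * b k) : Kw S (k1F N L D1 P1 b) Z :=
  (hD.kw.pair (hx.lev fun k => by omega).kw).pair
    (Kn.tr (h.cfg.lev hb) (h.pj.det.trans hD) h.pj.bdd hx).kw

theorem K1A1_h6 {i : Fin 3} (h : St S L D1 P1 {i} σ) (hb : ∀ k, 2 * b k ≤ L.n k)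
    (k1 : KnAll S L.n D1 L.x (ph P1 L.θ)) :
    Le N (fun k => σ * b k) (H S (Q N b (sc (co L.θ i))) (k1F N L D1 P1 b)) := by
  have hb1 : ∀ k, b k ≤ L.n k := fun k => by have := hb k; omega
  have h1 := h.r6 (j1 := fun _ => 0) (j2 := b) (j3 := fun k => 2 * b k)
    (h.cfg.cw_self fun _ => Nat.zero_le _) (fun _ => Nat.zero_le _) (fun k => by omega) hb
  have hx : Kn S (J (J D1 (L.p N fun _ => 0)) (Q N (fun k => 2 * b k) L.x)) L.x
      fun k => 2 * b k := (Kn.self h.cfg.bdd.2.2.2 _).mono (Kw.refl _).right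
  have h2 := K1A1_F h hb (DetS.refl D1).left.left hx
  have h3 : Kn S (J (Q N b (sc (co L.θ i)))
      (J (J D1 (L.p N fun _ => 0)) (Q N (fun k => 2 * b k) L.x))) L.θ b :=
    h.pj.kn (DetS.refl D1).left.left.right (h.cfg.lev hb1)
      ((k1 b hb1).mono ((Kw.refl D1).left.left.pair (hx.lev fun k => by omega).kw).right)
      (K1A1_msk (h.cfg.lev hb1)
        ((Kn.self (small_sc.2 (Small.coord h.cfg.bdd.2.1 i)) b).mono (Kw.refl _).left))
  exact (h1.trans (H_kw h3.kw h2)).lin fun k => by simp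

theorem K1A1_h2 {i : Fin 3} (h : PairSt S L t2 D1 D2 P1 P2 {i} σ b) (hb : ∀ k, 2 * b k ≤ L.n k) :
    Le N (fun k => b k) (H S (Q N (fun k => b k + b k) (sc (co L.x i)))
      (J (J (k1F N L D1 P1 b) D2) (Q N b (sc (co L.θ i))))) := by
  have hc := h.st1.cfg
  have h1 := h.st1.r5' (j1 := b) (j2 := fun k => b k + b k) (j3 := fun k => 2 * b k)
    (h.cw h.hb) (fun k => by omega) (fun k => by omega) hb (Finset.mem_singleton_self i)
  have hp : Kw S (L.p N b) (J (J D1 D2) (L.p N b)) := (Kw.refl _).right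
  have h2 : Kw S (J (J (k1F N L D1 P1 b) D2) (Q N b (sc (co L.θ i))))
      (J (J (J D1 D2) (L.p N b)) (Q N (fun k => 2 * b k) (ph P1 L.x))) :=
    ((((Kw.refl D1).left.left.left.pair
      (hc.kn_x h.hb (DetS.refl D1).left.left hp).kw.left).pair (Kw.refl _).right).pair
      (Kw.refl D2).right.left.left).pair ((hc.kn_θ hp).coord i).kw.left
  exact (h1.trans (H_kw (Kw.refl _).left h2.left)).lin fun k => by
    push_cast
    linarith

theorem K1A1_top (h : St S L D1 P1 I σ) (hb : ∀ k, 2 * b k ≤ L.n k) :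
    Kw S (k1F N L D1 P1 b) (J D1 (L.p N L.n)) :=
  K1A1_F h hb (DetS.refl D1).left (h.cfg.kn_x hb (DetS.refl D1).left (det_p hb).kw.right)

theorem K1A1_one {i : Fin 3} (h : PairSt S L t2 D1 D2 P1 P2 {i} σ b) (hb : ∀ k, 2 * b k ≤ L.n k)
    (big : Big N fun k => b k) (k1 : KnAll S L.n D1 L.x (ph P1 L.θ))
    (k2 : KnAll S L.n D2 (L.wt t2).x (ph P2 L.θ)) (lip : Small S (P2 - P1) b) (m : Fin 3) :
    ∃ (l : ℕ → ℕ) (u c : VV Ω ℝ), (∀ k, l k ≤ b k) ∧ Big N (fun k => l k) ∧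
      Kw S (J u c) (k1F N L D1 P1 b) ∧ Bdd S u ∧ Bdd S c ∧
      Small S ((fun k ω => -(sm (up Ω b) (P2 - P1) k ω m i)) - dT L t2 b * u - c) l := by
  have hc := h.st1.cfg
  have hj : Lv N fun k => b k + b k := hc.lev fun k => by have := hb k; omega
  have d1 : DetS S D1 (J (k1F N L D1 P1 b) D2) := (DetS.refl D1).left.left.left
  have d2 : DetS S D2 (J (k1F N L D1 P1 b) D2) := (DetS.refl D2).right
  have hup := k1_up (l := b) h hb (fun _ => le_rfl) k1 k2 lip
  have kx : Kn S (k1F N L D1 P1 b) L.x b :=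
    (Kn.self hc.bdd.2.2.2 b).mono (Kw.refl _).right.left
  have kg : Kn S (k1F N L D1 P1 b) (ph P1 L.θ) b := (k1 b h.hb).mono (Kw.refl _).left
  have e0 : v2 (co (L.wt t2).x i) (co (ph P2 L.θ) m) - v2 (co L.x i) (co (ph P1 L.θ) m) -
      sm (tw Ω b) (sm (co L.θ i) (v2 (dT L t2 b)
        fun k ω => -(sm (up Ω b) (P2 - P1) k ω m i))) = 0 := by
    funext k ω r
    have z1 := h.st1.pj.col k ω m
    have z2 := h.st2.pj.col k ω m
    have s1 : ∑ j, P1 k ω m j * L.θ k ω j = P1 k ω m i * L.θ k ω i :=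
      Finset.sum_eq_single i (fun j _ e => by rw [z1 j (by simpa using e), zero_mul]) (by simp)
    have s2 : ∑ j, P2 k ω m j * L.θ k ω j = P2 k ω m i * L.θ k ω i :=
      Finset.sum_eq_single i (fun j _ e => by rw [z2 j (by simpa using e), zero_mul]) (by simp)
    have p2 : (2 : ℝ) ^ b k ≠ 0 := by positivity
    fin_cases r
    · simp [v2, co, sm, tw, dT, Ln.x, Ln.wt]
      field_simp
      ring
    · simp [v2, co, sm, tw, up, ph, MV, s1, s2]
      field_simp
      ring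
  refine wrapP (σ := σ) (F := k1F N L D1 P1 b) (T := D2) (j0 := b) (l := b)
    (A := v2 (co (L.wt t2).x i) (co (ph P2 L.θ) m)) (Y := v2 (co L.x i) (co (ph P1 L.θ) m))
    (g := co L.θ i) h.st1.hσ hj big (h.dT_det.trans (d1.pair d2)) ?_ h.dT_bdd ?_ ?_
    (K1A1_kn2 (kx.coord i) (kg.coord m)) ?_ ?_ ?_ (K1A1_h2 h hb) ?_ ?_
    fun E hE => K1A1_h6 (h.st1.res hE) hb (k1.res hE)
  · exact (h.st1.pj.det.trans d1).map2 (h.st2.pj.det.trans d2)
      fun k u v => -(((2 : ℝ) ^ b k • (v - u)) m i)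
  · have h1 := Small.zoom (E := M3) (U := P2 - P1) (b := b) (b' := fun _ => 0) lip
    exact ((h1.coord m).coord i).neg
  · exact fun k ω hω => (norm_le_pi_norm (L.θ k ω) i).trans (hc.bd k ω hω).2.1
  · rw [e0]
    exact Kn.of_small hj (K1A1_zero (E := Fin 2 → ℝ) S _) _
  · exact Le.trans (Le.of_le (H_mono (K1A1_detQ _ _ _ i m).left (DetS.refl _))) hup.1
  · exact Le.trans (Le.of_le (H_mono (K1A1_detQ _ _ _ i m).left (DetS.refl _))) hup.2
  · exact h.ind (Kw.refl D1).left.left (K1A1_top h.st1 hb)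
      ((hc.kn_θ (det_p h.hb).kw.right).coord i).kw
  · have h1 := h.unif_pow (l := b) (fun k => by have := hb k; omega) (le_refl 1)
    simp only [pow_one] at h1
    exact h1.trans (H_kw (Kw.refl _).left ((K1A1_top h.st1 hb).trans
      ((Kw.refl D1).right.pair (Kw.refl _).left)))

theorem K1A1_mat {α : ℕ → Type} {Z : RV Ω α} (i : Fin 3) {u : Fin 3 → VV Ω ℝ}
    (hu : ∀ m, Bdd S (u m))
    (hd : DetS S (fun k ω m j => if j = i ∧ m ≠ i then -u m k ω else 0 : VV Ω M3) Z) :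
    Mat S Z (fun k ω m j => if j = i ∧ m ≠ i then -u m k ω else 0) {i} := by
  refine ⟨hd, Small.pi fun m => Small.pi fun j => ?_, fun k ω m j hj => ?_, fun k ω m hm j => ?_⟩
  · by_cases e : j = i ∧ m ≠ i
    · simp only [if_pos e]
      exact (hu m).neg
    · simp only [if_neg e]
      exact K1A1_zero S _
  · exact if_neg fun e => hj (Finset.mem_singleton.2 e.1)
  · exact if_neg fun e => e.2 (Finset.mem_singleton.1 hm)

/-- For each `m ≠ i` apply `wrapP` with `F = k1F`, `T = D2`, `j0 = l = b`,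
`Y = v2 (x i) (γ1 m)`, `A = v2 (x2 i) (γ2 m)`, `g = θ i`, `sv = dT`,
`fv = -2 ^ b * (P2 - P1) m i` (`Small.zoom`); `A - Y - g (sv, fv) / 2 ^ b = 0`. `h1, h2` by `k1_up`,
`h2'` by `St.r5`, `h3` by `PairSt.ind`, `h4` by `PairSt.unif_pow`, `h6` by `St.r6` for
`PairSt.res` (`θ[b]` is known from `θ i [b]` and `(D1, x[2b])` by `k1` and `Pj.kn`). Put
`B m i = -b_m`, `C0 m i = -c0_m`, other entries `0`, and take the minimum of the two levels. -/
theorem k1_lin {i : Fin 3} (h : PairSt S L t2 D1 D2 P1 P2 {i} σ b) (hb : ∀ k, 2 * b k ≤ L.n k)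
    (big : Big N fun k => b k) (k1 : KnAll S L.n D1 L.x (ph P1 L.θ))
    (k2 : KnAll S L.n D2 (L.wt t2).x (ph P2 L.θ)) (lip : Small S (P2 - P1) b) :
    ∃ (l : ℕ → ℕ) (B C0 : VV Ω M3), (∀ k, l k ≤ b k) ∧ Big N (fun k => l k) ∧
      Mat S (J B C0) B {i} ∧ Mat S (J B C0) C0 {i} ∧ Kw S (J B C0) (J D1 (L.p N L.n)) ∧
      Small S (P2 - P1 - sm (tw Ω b) (sm (dT L t2 b) B + C0)) fun k => b k + l k := by
  choose l u c h1 h2 h3 h4 h5 h6 using K1A1_one h hb big k1 k2 lip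
  choose d hd h7 using h2
  have hl : ∀ m k, min (l 0 k) (min (l 1 k) (l 2 k)) ≤ l m k := fun m k => by
    fin_cases m
    · exact min_le_left _ _
    · exact (min_le_right _ _).trans (min_le_left _ _)
    · exact (min_le_right _ _).trans (min_le_right _ _)
  refine ⟨fun k => min (l 0 k) (min (l 1 k) (l 2 k)),
    fun k ω m j => if j = i ∧ m ≠ i then -u m k ω else 0,
    fun k ω m j => if j = i ∧ m ≠ i then -c m k ω else 0, fun k => (hl 0 k).trans (h1 0 k),
    ⟨min (d 0) (min (d 1) (d 2)), lt_min (hd 0) (lt_min (hd 1) (hd 2)), ?_⟩,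
    K1A1_mat i h4 (DetS.refl _).left, K1A1_mat i h5 (DetS.refl _).right, ?_,
    Small.pi fun m => Small.pi fun j => ?_⟩
  · filter_upwards [h7 0, h7 1, h7 2] with k a0 a1 a2
    have n0 : (0 : ℝ) ≤ N k := Nat.cast_nonneg _
    push_cast
    exact le_min ((mul_le_mul_of_nonneg_right (min_le_left _ _) n0).trans a0) (le_min
      ((mul_le_mul_of_nonneg_right ((min_le_right _ _).trans (min_le_left _ _)) n0).trans a1)
      ((mul_le_mul_of_nonneg_right ((min_le_right _ _).trans (min_le_right _ _)) n0).trans a2))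
  · refine Kw.trans (DetS.kw ?_) ((((h3 0).pair (h3 1)).pair (h3 2)).trans (K1A1_top h.st1 hb))
    intro k a _ a' _ e
    have e1 : ∀ m, u m k a = u m k a' ∧ c m k a = c m k a' := fun m => by
      fin_cases m
      · exact Prod.mk.inj (Prod.mk.inj (Prod.mk.inj e).1).1
      · exact Prod.mk.inj (Prod.mk.inj (Prod.mk.inj e).1).2
      · exact Prod.mk.inj (Prod.mk.inj e).2
    simp only [J, pj, fun m => (e1 m).1, fun m => (e1 m).2]
  · by_cases e : j = i ∧ m ≠ i
    · have h8 := ((small_tw S b).smul ((h6 m).mono (Le.of_le fun k =>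
        Nat.cast_le.2 (hl m k)))).neg
      refine h8.congr (whp.of_all (Eventually.of_forall fun k ω _ => ?_))
      have p2 : (2 : ℝ) ^ b k ≠ 0 := by positivity
      simp [sm, tw, up, e.1, e.2]
      field_simp
      ring
    · refine (K1A1_zero S _).congr (whp.of_all (Eventually.of_forall fun k ω _ => ?_))
      have e1 : P2 k ω m j = P1 k ω m j := by
        by_cases e2 : j = i
        · have e3 : m = i := by_contra fun e3 => e ⟨e2, e3⟩
          rw [h.st1.pj.one k ω m (by simp [e3]) j (by simp [e2]),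
            h.st2.pj.one k ω m (by simp [e3]) j (by simp [e2])]
        · rw [h.st1.pj.col k ω m j (by simpa using e2), h.st2.pj.col k ω m j (by simpa using e2)]
      simp [sm, e, e1]

end Vale.Agent.P127S
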