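import Vale.Agent.P127S.K1A0

/-! One saturated direction: the relation `γ + B x`. -/

open Real Finset Filter Topology Vale.Agent.P118O

noncomputable section

namespace Vale.Agent.P127S

variable {N : ℕ → ℕ} {Ω γ δ : ℕ → Type} {S : Sp N Ω} {L : Ln Ω} {D1 : RV Ω δ} {D2 : RV Ω γ}
  {P1 P2 B C0 : VV Ω M3} {σ : ℝ} {b l : ℕ → ℕ} {t2 : VV Ω ℝ}

/-- the target at the first time -/
def k1Y (L : Ln Ω) (P1 C0 : VV Ω M3) (i : Fin 3) (b : ℕ → ℕ) : VV Ω V3 :=
  ph P1 L.θ - sm (tw Ω b) (MV C0 L.θ) + msk {i} L.x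

/-- the target at the second time -/
def k1T (L : Ln Ω) (t2 : VV Ω ℝ) (P2 : VV Ω M3) (i : Fin 3) : VV Ω V3 :=
  ph P2 L.θ + msk {i} (L.wt t2).x

/-- the slope -/
def k1W (L : Ln Ω) (B : VV Ω M3) (i : Fin 3) : VV Ω V3 := msk {i} L.θ - MV B L.θ

theorem k1b_id (L : Ln Ω) (t2 : VV Ω ℝ) (P1 P2 B C0 : VV Ω M3) (i : Fin 3) (b : ℕ → ℕ) :
    k1T L t2 P2 i - k1Y L P1 C0 i b - sm (tw Ω b) (sm (dT L t2 b) (k1W L B i)) =
      -MV (P2 - P1 - sm (tw Ω b) (sm (dT L t2 b) B + C0)) L.θ := by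
  funext k ω a
  simp only [k1T, k1Y, k1W, ph, MV, msk, sm, tw, dT, Ln.x, Ln.wt, Pi.sub_apply, Pi.add_apply,
    Pi.neg_apply, Pi.smul_apply, smul_eq_mul, Fin.sum_univ_three]
  split_ifs <;> field_simp <;> ring

variable {i : Fin 3}

theorem k1b_lv (h : Rel1 S L t2 D1 D2 P1 P2 {i} σ b l B C0) {j : ℕ → ℕ}
    (hj : ∀ k, j k ≤ 3 * b k) : Lv N j :=
  h.pair.st1.cfg.lev fun k => (hj k).trans (h.hb k)

theorem k1b_bdd (h : Rel1 S L t2 D1 D2 P1 P2 {i} σ b l B C0) :
    Bdd S (k1Y L P1 C0 i b) ∧ Bdd S (k1W L B i) := by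
  obtain ⟨-, hθ, -, hx⟩ := h.pair.st1.cfg.bdd
  have h1 : Bdd S (ph P1 L.θ) := h.pair.st1.pj.bdd.tr hθ
  have h2 : Bdd S (MV C0 L.θ) := h.mC.bdd.mv hθ
  have h3 : Bdd S (sm (tw Ω b) (MV C0 L.θ)) := ((small_tw S b).smul h2).bdd
  have h4 : Bdd S (msk {i} L.x) := ((Kn.zero hx D1).mask _).bdd
  have h5 : Bdd S (msk {i} L.θ) := ((Kn.zero hθ D1).mask _).bdd
  have h6 : Bdd S (MV B L.θ) := h.mB.bdd.mv hθ
  exact ⟨(Small.sub h1 h3).add h4, Small.sub h5 h6⟩

theorem k1b_up (h : Rel1 S L t2 D1 D2 P1 P2 {i} σ b l B C0) :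
    Le N (H S (Q N (fun k => b k + l k) (k1T L t2 P2 i)) (J (k1F N L D1 P1 b) D2)) fun k => l k := by
  have hj : Lv N fun k => b k + l k := k1b_lv h fun k => by have := h.hl k; omega
  obtain ⟨-, hθ, -, hx⟩ := h.pair.st2.cfg.bdd
  have h1 : Bdd S (ph P2 L.θ) := h.pair.st2.pj.bdd.tr hθ
  refine (H_kw ?_ (Kw.refl _)).trans
    (k1_up h.pair (fun k => by have := h.hb k; omega) h.hl h.k1 h.k2 h.lip).1
  exact (Kn.add hj ((Kn.self h1 _).mono (DetS.refl _).right.left.kw)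
    (((Kn.self hx _).mono (DetS.refl _).left.left.kw).mask _)).kw

theorem k1b_low {α β : ℕ → Type} (h : Rel1 S L t2 D1 D2 P1 P2 {i} σ b l B C0) {D' : RV Ω α}
    {Z : RV Ω β} {j : ℕ → ℕ} (hw : Cw S L D1 D' b) (h1 : ∀ k, b k ≤ j k) (h2 : ∀ k, j k ≤ 2 * b k)
    (hZ : Kw S Z (J (J D' (L.p N b)) (Q N (fun k => 2 * b k) (ph P1 L.x)))) :
    Le N (fun k => (j k : ℝ) - b k) (H S (Q N j (k1Y L P1 C0 i b)) Z) := by
  have h3 := h.pair.st1.r5 hw h1 h2 fun k => by have := h.hb k; omega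
  have e : msk {i} (k1Y L P1 C0 i b) = msk {i} L.x := by
    funext k ω a
    by_cases ha : a ∈ ({i} : Finset (Fin 3))
    · have e1 := h.pair.st1.pj.ph_supp L.θ k ω ha
      simp only [msk, k1Y, Pi.add_apply, Pi.sub_apply, if_pos ha, e1, sm, MV, Pi.smul_apply,
        h.mC.row k ω a ha]
      simp
    · simp only [msk, if_neg ha]
  have h4 : Kn S (J (Q N j (k1Y L P1 C0 i b)) (J (J D' (L.p N b)) (Q N (fun k => 2 * b k)
      (ph P1 L.x)))) (msk {i} L.x) j := by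
    rw [← e]; exact ((Kn.self (k1b_bdd h).1 j).mono (DetS.refl _).left.kw).mask _
  exact ((h3.lin fun k => by simp).trans (H_kw h4.kw hZ))

theorem k1b_knW {α : ℕ → Type} (h : Rel1 S L t2 D1 D2 P1 P2 {i} σ b l B C0) {Z : RV Ω α}
    {j : ℕ → ℕ} (hj : ∀ k, j k ≤ 3 * b k) (hD : DetS S D1 Z) (hθ : Kn S Z L.θ j) :
    Kn S Z (k1W L B i) j :=
  Kn.sub (k1b_lv h hj) (hθ.mask _)
    (Kn.mv (k1b_lv h hj) (h.mB.det.trans hD) h.mB.bdd hθ fun k => by simp)

theorem k1b_knY {α : ℕ → Type} (h : Rel1 S L t2 D1 D2 P1 P2 {i} σ b l B C0) {Z : RV Ω α}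
    {j : ℕ → ℕ} (hj : ∀ k, j k ≤ 3 * b k) (hD : DetS S D1 Z) (hp : Kw S (L.p N j) Z) :
    Kn S Z (k1Y L P1 C0 i b) j := by
  have hl := k1b_lv h hj
  have c := h.pair.st1.cfg
  have hθ := c.kn_θ hp
  have hx := c.kn_x (fun k => (hj k).trans (h.hb k)) hD hp
  refine Kn.add hl (Kn.sub hl (Kn.tr hl (h.pair.st1.pj.det.trans hD) h.pair.st1.pj.bdd hθ) ?_)
    (hx.mask _)
  exact Kn.smul hl (DetS.const fun k => (1 / 2 ^ b k : ℝ)) (small_tw S b)
    (Kn.mv hl (h.mC.det.trans hD) h.mC.bdd hθ fun k => by simp) fun k => by omega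

theorem k1b_kwF (h : Rel1 S L t2 D1 D2 P1 P2 {i} σ b l B C0) {j : ℕ → ℕ}
    (h1 : ∀ k, 2 * b k ≤ j k) (h2 : ∀ k, j k ≤ L.n k) :
    Kw S (k1F N L D1 P1 b) (J D1 (Q N j L.x)) := by
  have hx := h.pair.st1.cfg.bdd.2.2.2
  have h3 : Kn S (J D1 (Q N j L.x)) L.x j := (Kn.self hx j).mono (DetS.refl _).right.kw
  exact ((DetS.refl D1).left.kw.pair (h3.lev fun k => by have := h1 k; omega).kw).pair
    ((Kn.tr (h.pair.st1.cfg.lev h2) h.pair.st1.pj.det.left h.pair.st1.pj.bdd h3).lev h1).kw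

theorem k1b_left (h : Rel1 S L t2 D1 D2 P1 P2 {i} σ b l B C0)
    (hk : Kn S (k1F N L D1 P1 b) (k1W L B i) l) : False := by
  have c := h.pair.st1.cfg
  have h2 : ∀ k, 2 * b k ≤ L.n k := fun k => by have := h.hb k; omega
  have hl2 : ∀ k, l k ≤ 2 * b k := fun k => by have := h.hl k; omega
  have h1 := (hk.mono (k1b_kwF h (fun _ => le_rfl) h2)).mask {i}
  have e : msk {i} (k1W L B i) = msk {i} L.θ := by
    funext k ω a
    by_cases ha : a ∈ ({i} : Finset (Fin 3))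
    · simp only [msk, k1W, Pi.sub_apply, if_pos ha, MV, h.mB.row k ω a ha]
      simp
    · simp only [msk, if_neg ha]
  rw [e] at h1
  have h3 := h.pair.st1.pj.kn (DetS.refl D1).left (c.lev fun k => (hl2 k).trans (h2 k))
    ((h.k1 _ h2).lev hl2) h1
  have h4 := h.pair.st1.r6 (c.cw_self (j := fun _ => 0) fun k => Nat.zero_le _)
    (fun k => Nat.zero_le _) hl2 h2
  have h5 := h3.mono (Z' := J (J D1 (L.p N fun _ => 0)) (Q N (fun k => 2 * b k) L.x))
    ((DetS.refl D1).left.left.pair (DetS.refl _).right).kw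
  exact h.big.not_le S.big h.pair.st1.hσ ((h4.trans h5.kw).lin fun k => by simp)

/-- the slope is independent of the conditioning given the coarse point -/
theorem k1b_ind (h : Rel1 S L t2 D1 D2 P1 P2 {i} σ b l B C0) {j : ℕ → ℕ} (hj : ∀ k, j k ≤ b k) :
    Ind S (Q N j (k1W L B i)) (J (k1F N L D1 P1 b) D2) (J (J D1 D2) (Q N b L.x)) := by
  have c := h.pair.st1.cfg
  have h2 : ∀ k, 2 * b k ≤ L.n k := fun k => by have := h.hb k; omega
  have hbn : ∀ k, b k ≤ L.n k := fun k => by have := h.hb k; omega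
  have hx := c.bdd.2.2.2
  have h1 := h.pair.st1.zero.drop (Z := J (J D1 D2) (Q N b L.x)) (h.pair.cw hbn)
    (j3 := fun k => 2 * b k) (fun k => by omega) h2 (DetS.refl D1).left.left.kw
    ((DetS.refl _).left.kw.pair (c.kn_x hbn (DetS.refl D1).left.left (DetS.refl _).right.kw).kw)
    (by rw [ph_zero]; exact (Kn.self hx b).mono (DetS.refl _).right.kw)
  rw [ph_zero] at h1
  have h3 := h1.mono (W := Q N j (k1W L B i)) (k1b_knW h (fun k => by have := hj k; omega)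
    (DetS.refl D1).left.left.left
    ((c.kn_θ (DetS.refl (L.p N b)).right.right.kw).lev hj)).kw
  refine (h3.symm.mono ?_).symm
  exact ((k1b_kwF h (fun _ => le_rfl) h2).trans
    ((DetS.refl D1).left.left.left.pair (DetS.refl _).right).kw).pair
      (DetS.refl D2).right.left.left.kw

/-- the matrix of `u ↦ u i • (e_i - B e_i)` -/
def k1M (B : VV Ω M3) (i : Fin 3) : VV Ω M3 :=
  fun k ω a a' => if a' = i then (if a = i then 1 else 0) - B k ω a i else 0

theorem k1b_mv (B : VV Ω M3) (i : Fin 3) (U : VV Ω V3) (k : ℕ) (ω : Ω k) (a : Fin 3) :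
    MV (k1M B i) U k ω a = ((if a = i then 1 else 0) - B k ω a i) * U k ω i := by
  simp [MV, k1M]

theorem k1b_mvB {B : VV Ω M3} (hB : ∀ k ω a, ∀ j ∉ ({i} : Finset (Fin 3)), B k ω a j = 0)
    (U : VV Ω V3) (k : ℕ) (ω : Ω k) (a : Fin 3) : MV B U k ω a = B k ω a i * U k ω i := by
  unfold MV
  refine Finset.sum_eq_single i (fun j _ hj => ?_) fun h => absurd (mem_univ _) h
  rw [hB k ω a j (by simpa using hj), zero_mul]

theorem k1b_Mbdd (hB : Bdd S B) (i : Fin 3) : Bdd S (k1M B i) := by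
  refine Small.pi fun a => Small.pi fun a' => ?_
  have h1 : Small S (fun k (_ : Ω k) => if a = i then (1 : ℝ) else 0) fun _ => 0 :=
    Small.of_le (Eventually.of_forall fun k ω _ => by split_ifs <;> norm_num)
  refine (h1.sub ((hB.coord a).coord i)).dom 1 fun k ω _ => ?_
  simp only [k1M, Pi.sub_apply, one_mul]
  split_ifs <;> simp

theorem k1b_dom {E E' : Type} [NormedAddCommGroup E] [NormedAddCommGroup E'] {U : VV Ω E}
    {U' : VV Ω E'} {j : ℕ → ℕ} (h : Small S U j) (e : whp S fun k ω => ‖U' k ω‖ ≤ ‖U k ω‖) :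
    Small S U' j := fun c hc =>
  ((h c hc).and e).mono (Eventually.of_forall fun _ _ _ h => h.2.trans h.1)

theorem k1b_fin {α : ℕ → Type} (h : Rel1 S L t2 D1 D2 P1 P2 {i} σ b l B C0) {Z : RV Ω α}
    {v : VV Ω V3} {l0 : ℕ → ℕ} (h0 : ∀ k, b k ≤ l0 k ∧ l0 k ≤ b k + l k) (hD : DetS S D1 Z)
    (hp : Kw S (L.p N l0) Z) (hv : DetS S v Z)
    (hlow : whp S fun k ω => 1 / (2 : ℝ) ^ l0 k ≤ ‖v k ω‖)
    (hsm : Small S (ph (k1M B i) v) fun k => b k + l k)
    (hk : Kn S Z (PV v (k1Y L P1 C0 i b)) fun k => b k + l k) :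
    Kn S Z (ph P1 L.θ + MV B L.x) fun k => b k + l k := by
  have hj : Lv N fun k => b k + l k := k1b_lv h fun k => by have := h.hl k; omega
  have c := h.pair.st1.cfg
  have dM : DetS S (k1M B i) Z := (h.mB.det.trans hD).map
    fun _ M a a' => if a' = i then (if a = i then 1 else 0) - M a i else 0
  obtain ⟨Mz, hMz⟩ : ∃ Mz : VV Ω M3, Mz = fun k ω a a' => if a' = amax (v k ω) then
    ph (k1M B i) v k ω a / v k ω (amax (v k ω)) else 0 := ⟨_, rfl⟩
  have dz : DetS S Mz Z := by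
    intro k ω hω ω' hω' e
    have e1 := hv k ω hω ω' hω' e
    have e2 := dM k ω hω ω' hω' e
    simp only [hMz, ph, MV, Pi.sub_apply, e1, e2]
  have sz : Small S Mz fun k => b k + l k - l0 k := by
    have h1 : Small S (sm (up Ω l0) (ph (k1M B i) v)) fun k => b k + l k - l0 k :=
      Small.zoom (hsm.mono (Le.of_le fun k => by
        have := h0 k; exact_mod_cast (by omega : l0 k + (b k + l k - l0 k) ≤ b k + l k)))
    refine k1b_dom h1 (hlow.mono (Eventually.of_forall fun k ω _ hv => ?_))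
    refine (pi_norm_le_iff_of_nonneg (norm_nonneg _)).2 fun a =>
      (pi_norm_le_iff_of_nonneg (norm_nonneg _)).2 fun a' => ?_
    have h2 : (0 : ℝ) < 2 ^ l0 k := by positivity
    have h3 : 0 < ‖v k ω‖ := lt_of_lt_of_le (by positivity) hv
    simp only [hMz, sm, up]
    split_ifs
    · rw [norm_div, Real.norm_eq_abs (v k ω _), amax_spec, norm_smul, Real.norm_of_nonneg h2.le,
        div_le_iff₀ h3]
      have h4 := norm_le_pi_norm (ph (k1M B i) v k ω) a
      rw [div_le_iff₀ h2] at hv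
      nlinarith [norm_nonneg (ph (k1M B i) v k ω), norm_nonneg (ph (k1M B i) v k ω a)]
    · rw [norm_zero]; exact norm_nonneg _
  have t1 := Kn.tr hj dM (k1b_Mbdd h.mB.bdd i) hk
  have t2 := Kn.mv hj dz sz (k1b_knY h (j := l0) (fun k => by have := h0 k; have := h.hl k; omega)
    hD hp) fun k => by have := h0 k; omega
  have t3 : Kn S Z (sm (tw Ω b) (MV C0 L.θ)) fun k => b k + l k :=
    Kn.smul hj (DetS.const fun k => (1 / 2 ^ b k : ℝ)) (small_tw S b)
      (Kn.mv (k1b_lv h (j := l0) fun k => by have := h0 k; have := h.hl k; omega)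
        (h.mC.det.trans hD) h.mC.bdd (c.kn_θ hp) fun k => by simp)
      fun k => by have := h0 k; have := h.hl k; omega
  refine (Kn.add hj (Kn.add hj t1 t2) t3).eqs fun k ω _ => ?_
  funext a
  have e1 : MV Mz (k1Y L P1 C0 i b) k ω a = ph (k1M B i) v k ω a / v k ω (amax (v k ω)) *
      k1Y L P1 C0 i b k ω (amax (v k ω)) := by simp [MV, hMz]
  have e2 : k1Y L P1 C0 i b k ω i = L.x k ω i := by
    have e3 := h.pair.st1.pj.ph_supp L.θ k ω (mem_singleton_self i)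
    simp only [k1Y, Pi.add_apply, Pi.sub_apply, e3, sm, Pi.smul_apply, k1b_mvB h.mC.col,
      h.mC.row k ω i (mem_singleton_self i), msk, mem_singleton]
    simp
  have e4 : k1Y L P1 C0 i b k ω a = ph P1 L.θ k ω a - sm (tw Ω b) (MV C0 L.θ) k ω a +
      (if a = i then 1 else 0) * L.x k ω i := by
    simp only [k1Y, Pi.add_apply, Pi.sub_apply, msk, mem_singleton]
    split_ifs with ha
    · rw [ha, one_mul]
    · rw [zero_mul]
  have e5 : ∀ U : VV Ω V3, ph (k1M B i) U k ω a =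
      U k ω a - ((if a = i then 1 else 0) - B k ω a i) * U k ω i := fun U => by
    rw [← k1b_mv]; rfl
  simp only [Pi.add_apply, e1, e5, PV, Pi.sub_apply, Pi.smul_apply, smul_eq_mul, e2, e4,
    k1b_mvB h.mB.col]
  ring

theorem k1b_par (h : Rel1 S L t2 D1 D2 P1 P2 {i} σ b l B C0) {κ : ℕ → Type} {K : RV Ω κ}
    (hK : DetS S D1 K) {j : ℕ → ℕ} :
    Small (S.glue K) (ph (k1M (pl (p1 Ω) B) i) (dsV N (k1W L B i) b j)) fun k => b k + j k := by
  have hW := (k1b_bdd h).2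
  have hq1 := (small_dq hW j).pull (ext1 K)
  have hq2 := (small_dq hW j).pull (ext2 K)
  have h1 : Small (S.glue K) (pl (p2 Ω) (k1W L B i - dq N j (k1W L B i)) -
    pl (p1 Ω) (k1W L B i - dq N j (k1W L B i))) j := hq2.sub hq1
  have h2 := Bdd.tr (k1b_Mbdd (Small.pull (ext1 K) h.mB.bdd) i) h1
  have eB := glue_eq (h.mB.det.trans hK)
  refine ((small_tw _ b).smul h2).congr (whp.of_all (Eventually.of_forall fun k x hx => ?_))
  have e : B k x.1 = B k x.2 := eB k x hx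
  funext a
  have e5 : ∀ U : VV (fun k => Ω k × Ω k) V3, ph (k1M (pl (p1 Ω) B) i) U k x a =
      U k x a - ((if a = i then 1 else 0) - B k x.1 a i) * U k x i := fun U =>
    congrArg (U k x a - ·) (k1b_mv (pl (p1 Ω) B) i U k x a)
  have e6 : ∀ ω a, k1W L B i k ω a = ((if a = i then 1 else 0) - B k ω a i) * L.θ k ω i :=
    fun ω a => by
      simp only [k1W, Pi.sub_apply, k1b_mvB h.mB.col, msk, mem_singleton]
      split_ifs with ha
      · rw [ha]; ring
      · ring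
  have e7 : B k x.1 i i = 0 := h.mB.row k _ i (mem_singleton_self i) i
  simp only [sm, Pi.smul_apply, e5, dsV, pl, p1, p2, tw, Pi.sub_apply, smul_eq_mul, e6, ← e, e7,
    if_true]
  ring

theorem k1b_cw {α : ℕ → Type} (h : Rel1 S L t2 D1 D2 P1 P2 {i} σ b l B C0) {W2 : RV Ω α}
    (i2 : Ind S (L.p N L.n) W2 (J (J D1 D2) (Q N b L.x))) : Cw S L D1 (J (J D1 D2) W2) b := by
  have c := h.pair.st1.cfg
  have hbn : ∀ k, b k ≤ L.n k := fun k => by have := h.hb k; omega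
  have cw0 := h.pair.cw hbn
  have kx : Kw S (J (J D1 D2) (Q N b L.x)) (J (J D1 D2) (L.p N b)) :=
    (DetS.refl _).left.kw.pair (c.kn_x hbn (DetS.refl _).left.left (DetS.refl _).right.kw).kw
  refine ⟨(DetS.refl _).left.left, hbn, cw0.c2.trans ?_⟩
  have h1 := (i2.cond (W := L.p N b) (det_p hbn).right.kw).congr (W := J (J D1 D2) (L.p N b))
    ((DetS.refl _).left.left.pair (DetS.refl _).right).kw (kx.pair (DetS.refl _).right.kw)
  have h2 := h1.mono (W := Q N L.n L.θ) (DetS.refl _).right.right.kw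
  exact Le.trans h2 (H_kw (Kw.refl _).left ((((DetS.refl _).left.left.pair
    (DetS.refl _).right).pair (DetS.refl _).right.left).kw))

theorem k1b_abs {α : ℕ → Type} (h : Rel1 S L t2 D1 D2 P1 P2 {i} σ b l B C0) {W2 : RV Ω α}
    (cw1 : Cw S L D1 (J (J D1 D2) W2) b) {v : VV Ω V3} {l0 : ℕ → ℕ}
    (h0 : ∀ k, b k ≤ l0 k ∧ l0 k ≤ b k + l k)
    (dv : DetS S v (J (Q N (fun k => 0 + l k) (k1W L B i)) W2))
    (hlow : whp S fun k ω => 1 / (2 : ℝ) ^ l0 k ≤ ‖v k ω‖)
    (hpar : Small S (ph (k1M B i) v) fun k => b k + l k)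
    (hds : Le N (fun k => H S (Q N l0 (k1Y L P1 C0 i b))
          (J (J (k1F N L D1 P1 b) (J (Q N (fun k => 0 + l k) (k1W L B i)) W2))
            (Q N l (sc (dT L t2 b)))) k +
        H S (Q N (fun k => b k + l k) (PV v (k1Y L P1 C0 i b)))
          (J (J (J (k1F N L D1 P1 b) (J (Q N (fun k => 0 + l k) (k1W L B i)) W2))
            (Q N l (sc (dT L t2 b)))) (Q N l0 (k1Y L P1 C0 i b))) k +
          (((b k + l k : ℕ) : ℝ) - l0 k))
      (H S (Q N (fun k => b k + l k) (k1T L t2 P2 i)) (J (k1F N L D1 P1 b) D2))) :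
    Cw S L D1 (J (J (J D1 D2) W2) (Q N (fun k => 0 + l k) (k1W L B i))) l0 ∧
      Kn S (J (J (J (J (J D1 D2) W2) (Q N (fun k => 0 + l k) (k1W L B i))) (L.p N l0))
          (Q N (fun k => 2 * b k) (ph P1 L.x))) (ph P1 L.θ + MV B L.x) fun k => b k + l k := by
  have c := h.pair.st1.cfg
  have hbn : ∀ k, b k ≤ L.n k := fun k => by have := h.hb k; omega
  have hj : Lv N fun k => b k + l k := k1b_lv h fun k => by have := h.hl k; omega
  have cw2 := cw1.add (Z := Q N (fun k => 0 + l k) (k1W L B i))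
    (k1b_knW h (fun k => by have := h.hl k; omega) (DetS.refl D1).left.left.left
      ((c.kn_θ (DetS.refl _).right.kw).lev fun k => by have := h.hl k; omega)).kw
  obtain ⟨D', hD'⟩ : ∃ D', D' = J (J (J D1 D2) W2) (Q N (fun k => 0 + l k) (k1W L B i)) :=
    ⟨_, rfl⟩
  have d1 : DetS S (J D1 D2) D' := hD' ▸ (DetS.refl _).left.left
  have d2 : DetS S (J (Q N (fun k => 0 + l k) (k1W L B i)) W2) D' :=
    hD' ▸ (DetS.refl _).right.pair (DetS.refl _).right.left
  rw [← hD'] at cw2 ⊢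
  have d0 : DetS S D1 D' := cw2.det
  have kZ : ∀ j : ℕ → ℕ, (∀ k, b k ≤ j k) → Kw S
      (J (J (k1F N L D1 P1 b) (J (Q N (fun k => 0 + l k) (k1W L B i)) W2))
        (Q N l (sc (dT L t2 b)))) (J (J D' (L.p N j)) (Q N (fun k => 2 * b k) (ph P1 L.x))) :=
    fun j hj' => (((d0.left.left.kw.pair (c.kn_x hbn d0.left.left
      (det_p hj').right.left.kw).kw).pair (DetS.refl _).right.kw).pair d2.left.left.kw).pair
      (((h.pair.dT_det.trans d1).map fun k u (_ : Unit) =>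
        ⌊(2 : ℝ) ^ l k * cl (2 ^ N k) u⌋).left.left.kw)
  have t1 := k1b_low h cw2 (fun k => (h0 k).1) (fun k => by have := h0 k; have := h.hl k; omega)
    (kZ b fun _ => le_rfl)
  have t2 : Kw S (Q N (fun k => b k + l k) (PV v (k1Y L P1 C0 i b)))
      (J (J (J (k1F N L D1 P1 b) (J (Q N (fun k => 0 + l k) (k1W L B i)) W2))
        (Q N l (sc (dT L t2 b)))) (Q N l0 (k1Y L P1 C0 i b))) :=
    (t1.add (hds.trans (k1b_up h))).lin fun k => by push_cast; linarith
  have hl0 : ∀ k, l0 k ≤ 3 * b k := fun k => by have := h0 k; have := h.hl k; omega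
  refine ⟨cw2.mono c (fun k => (h0 k).1) fun k => (hl0 k).trans (h.hb k), ?_⟩
  refine k1b_fin h h0 d0.left.left (DetS.refl _).right.left.kw (dv.trans d2).left.left hlow hpar
    ⟨(Kn.pv (j := fun _ => 0) (fun k => Nat.zero_le _) (DetS.refl v)
      (Kn.zero (k1b_bdd h).1 v)).bdd, t2.trans ((kZ l0 fun k => (h0 k).1).pair ?_)⟩
  exact (k1b_knY h hl0 d0.left.left (DetS.refl _).right.left.kw).kw

theorem k1b_right (h : Rel1 S L t2 D1 D2 P1 P2 {i} σ b l B C0) {κ : ℕ → Type} {K : RV Ω κ}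
    {E : VV (fun k => Ω k × Ω k) Prop} {l0 : ℕ → ℕ} (hE : pos (S.glue K) E)
    (dK : DetS S (J (k1F N L D1 P1 b) D2) K) (h0 : ∀ k, b k ≤ l0 k ∧ l0 k ≤ b k + l k)
    (hlow : whp ((S.glue K).res E)
      (fun k x => 1 / (2 : ℝ) ^ l0 k ≤ ‖dsV N (k1W L B i) b (fun k => 0 + l k) k x‖))
    (hind : Ind ((S.glue K).res E) (p1 Ω) (pl (p2 Ω) (Q N (fun k => 0 + l k) (k1W L B i)))
      (pl (p1 Ω) (J (k1F N L D1 P1 b) D2)))
    (hds : Le N (fun k => H ((S.glue K).res E) (pl (p1 Ω) (Q N l0 (k1Y L P1 C0 i b)))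
          (J (dsZ N (k1F N L D1 P1 b) (k1W L B i) fun k => 0 + l k)
            (pl (p1 Ω) (Q N l (sc (dT L t2 b))))) k +
        H ((S.glue K).res E) (Q N (fun k => b k + l k)
            (PV (dsV N (k1W L B i) b fun k => 0 + l k) (pl (p1 Ω) (k1Y L P1 C0 i b))))
          (J (J (dsZ N (k1F N L D1 P1 b) (k1W L B i) fun k => 0 + l k)
            (pl (p1 Ω) (Q N l (sc (dT L t2 b))))) (pl (p1 Ω) (Q N l0 (k1Y L P1 C0 i b)))) k +
          (((b k + l k : ℕ) : ℝ) - l0 k))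
      (H ((S.glue K).res E) (pl (p1 Ω) (Q N (fun k => b k + l k) (k1T L t2 P2 i)))
        (pl (p1 Ω) (J (k1F N L D1 P1 b) D2)))) :
    Cw ((S.glue K).res E) (L.pull (p1 Ω)) (pl (p1 Ω) D1)
        (J (J (pl (p1 Ω) (J D1 D2)) (pl (p2 Ω) (Q N (fun k => 0 + l k) (k1W L B i))))
          (pl (p1 Ω) (Q N (fun k => 0 + l k) (k1W L B i)))) l0 ∧
      Kn ((S.glue K).res E)
        (J (J (J (J (pl (p1 Ω) (J D1 D2)) (pl (p2 Ω) (Q N (fun k => 0 + l k) (k1W L B i))))
          (pl (p1 Ω) (Q N (fun k => 0 + l k) (k1W L B i)))) ((L.pull (p1 Ω)).p N l0))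
          (pl (p1 Ω) (Q N (fun k => 2 * b k) (ph P1 L.x))))
        (pl (p1 Ω) (ph P1 L.θ + MV B L.x)) fun k => b k + l k := by
  have h' := (h.pull (ext1 K)).res hE
  have c' := h'.pair.st1.cfg
  have hbn : ∀ k, b k ≤ L.n k := fun k => by have := h.hb k; omega
  have hj : Lv N fun k => b k + l k := k1b_lv h fun k => by have := h.hl k; omega
  obtain ⟨W2, hW2⟩ : ∃ W2, W2 = pl (p2 Ω) (Q N (fun k => 0 + l k) (k1W L B i)) := ⟨_, rfl⟩
  have dp : ∀ {ε : ℕ → Type} (X : RV Ω ε), DetS ((S.glue K).res E) (pl (p1 Ω) X) (p1 Ω) :=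
    fun X k x _ x' _ e => congrArg (X k) e
  have dX : DetS S (J (J D1 D2) (Q N b L.x)) (J (k1F N L D1 P1 b) D2) :=
    ((DetS.refl D1).left.left.left.pair (DetS.refl D2).right).pair (DetS.refl _).right.left.left
  have i1 : Ind ((S.glue K).res E) W2 (pl (p1 Ω) (J (k1F N L D1 P1 b) D2))
      (pl (p1 Ω) (J (J D1 D2) (Q N b L.x))) := by
    have h1 := ((k1b_ind h (j := fun k => 0 + l k) fun k => by have := h.hl k; omega).pull
      (ext2 K)).res hE
    have e1 := (glue_eq (dX.trans dK)).res E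
    have e2 := (glue_eq ((dX.trans dK).pair dK)).res E
    unfold Ind at h1 ⊢
    rw [hW2, H_congr (fun _ _ _ => rfl) e1]
    exact h1.trans (Le.of_le fun k => (congrFun (H_congr (fun _ _ _ => rfl) e2) k).ge)
  have i2 : Ind ((S.glue K).res E) W2 (p1 Ω) (pl (p1 Ω) (J (J D1 D2) (Q N b L.x))) := by
    have h1 : Ind ((S.glue K).res E) W2 (p1 Ω) (J (pl (p1 Ω) (J (J D1 D2) (Q N b L.x)))
        (pl (p1 Ω) (J (k1F N L D1 P1 b) D2))) := by
      rw [hW2]
      exact hind.symm.congr ((((dX.pull (ext1 K)).res E).pair (DetS.refl _)).kw)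
        (DetS.refl _).right.kw
    exact ((i1.chain h1).symm.mono (DetS.refl _).right.right.kw).symm
  have i3 : Ind ((S.glue K).res E) (pl (p1 Ω) (L.p N L.n)) W2
      (pl (p1 Ω) (J (J D1 D2) (Q N b L.x))) := i2.symm.mono (dp (L.p N L.n)).right.kw
  have cw1 := k1b_cw h' (W2 := W2) i3
  have hpar : Small ((S.glue K).res E) (ph (k1M (pl (p1 Ω) B) i)
      (dsV N (k1W L B i) b fun k => 0 + l k)) fun k => b k + l k :=
    ((k1b_par h ((DetS.refl D1).left.left.left.trans dK)).res hE).mono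
      (Le.of_le fun k => by simp)
  have dv : DetS ((S.glue K).res E) (dsV N (k1W L B i) b fun k => 0 + l k)
      (J (pl (p1 Ω) (Q N (fun k => 0 + l k) (k1W L B i))) W2) := by
    rw [hW2]
    exact DetS.map2 (DetS.refl _).left (DetS.refl _).right
      fun k z z' => (1 / 2 ^ b k : ℝ) • (cor (0 + l k) z - cor (0 + l k) z')
  have key := k1b_abs h' (W2 := W2) cw1 h0 dv hlow hpar (by rw [hW2]; exact hds)
  rw [hW2] at key
  exact key

/-- `dsa` with `F = k1F`, `T = D2`, `G = p b`, `Z = p n`, middle level `0`, `s = dT`,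
`Y = γ1 - C0 θ / 2 ^ b + msk {i} x`, `A = γ2 + msk {i} x2`, `W = msk {i} θ - B θ`; `h3` from
`k1_up` and `St.r5` (`Y i = x i`). The left alternative makes `θ[l]` known from `(D1, x[2b])`,
against `St.r6`. In the right alternative let `D' = (((D1, D2), W'[l]), W[l])`. `W'[l]` is
independent of the first copy given `((D1, D2), x[b])`: `Ind.chain` of `St.drop` (for `St.zero`,
second copy, where `k1F` and `D2` agree) and the independence given by `dsa`; this gives `Cw` at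
level `b` (`Cw.add`, `Cw.mono`). First term `≳ l0 - b` (`St.r5`), right side `≲ l` (`k1_up` for
`(h.pull _).res`), so `π = PV v Y` is known at level `b + l`. With `d = e_i - B e_i`:
`Y - Y i • d = π - π i • d + Y i0 • ((v - v i • d) / v i0)`, `i0 = amax v`; the last vector is read
off from `D'`; it is small at level `b + l - l0` since `1 / 2 ^ l0 ≤ ‖v‖` and `v - v i • d` is
small at level `b + l` (`B` agrees on the two copies, `glue_eq`). Finally
`Y - Y i • d = γ1 - C0 θ / 2 ^ b + B x`. -/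
theorem k1_ds3 {i : Fin 3} (h : Rel1 S L t2 D1 D2 P1 P2 {i} σ b l B C0) :
    ∃ (κ γ' : ℕ → Type) (K : RV Ω κ) (E : VV (fun k => Ω k × Ω k) Prop) (l0 : ℕ → ℕ)
      (D' : RV (fun k => Ω k × Ω k) γ'), pos (S.glue K) E ∧
      (∀ k, b k ≤ l0 k ∧ l0 k ≤ b k + l k) ∧ Big N (fun k => ((b k + l k : ℕ) : ℝ) - l0 k) ∧
      Cw ((S.glue K).res E) (L.pull (p1 Ω)) (pl (p1 Ω) D1) D' l0 ∧
      Kn ((S.glue K).res E)
        (J (J D' ((L.pull (p1 Ω)).p N l0)) (pl (p1 Ω) (Q N (fun k => 2 * b k) (ph P1 L.x))))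
        (pl (p1 Ω) (ph P1 L.θ + MV B L.x)) fun k => b k + l k := by
  have c := h.pair.st1.cfg
  have hbn : ∀ k, b k ≤ L.n k := fun k => by have := h.hb k; omega
  have h2n : ∀ k, 2 * b k ≤ L.n k := fun k => by have := h.hb k; omega
  have hj : Lv N fun k => b k + l k := k1b_lv h fun k => by have := h.hl k; omega
  have dF : DetS S D1 (k1F N L D1 P1 b) := (DetS.refl D1).left.left
  have kF : Kw S (k1F N L D1 P1 b) (J D1 (L.p N L.n)) :=
    (k1b_kwF h h2n fun _ => le_rfl).trans ((DetS.refl D1).left.kw.pair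
      (c.kn_x (fun _ => le_rfl) (DetS.refl D1).left (DetS.refl _).right.kw).kw)
  have kFb : Kw S (k1F N L D1 P1 b)
      (J (J (J D1 D2) (L.p N b)) (Q N (fun k => 2 * b k) (ph P1 L.x))) :=
    ((DetS.refl D1).left.left.left.kw.pair (c.kn_x hbn (DetS.refl D1).left.left.left
      (DetS.refl _).right.left.kw).kw).pair (DetS.refl _).right.kw
  have hr : Small S (k1T L t2 P2 i - k1Y L P1 C0 i b -
      sm (tw Ω b) (sm (dT L t2 b) (k1W L B i))) fun k => b k + l k := by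
    rw [k1b_id]; exact (h.lin.mv c.bdd.2.1).neg
  have h3 : Le N (H S (Q N (fun k => b k + l k) (k1T L t2 P2 i)) (J (k1F N L D1 P1 b) D2))
      (H S (Q N (fun k => b k + l k) (k1Y L P1 C0 i b))
        (J (J (k1F N L D1 P1 b) D2) (L.p N b))) :=
    (k1b_up h).trans ((k1b_low h (h.pair.cw hbn) (j := fun k => b k + l k) (fun k => by omega)
      (fun k => by have := h.hl k; omega) ((kFb.pair (DetS.refl D2).right.left.left.kw).pair
        (DetS.refl _).right.left.kw)).lin fun k => by push_cast; linarith)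
  have h5 : Le N (fun k => l k) (H S (Q N l (sc (dT L t2 b)))
      (J (k1F N L D1 P1 b) (L.p N L.n))) := by
    have h6 := h.pair.unif_pow (l := l) (fun k => by have := h.hl k; have := h.hb k; omega)
      (le_refl 1)
    simp only [pow_one] at h6
    exact h6.trans (H_kw (Kw.refl _).left ((kF.trans ((DetS.refl D1).right.pair
      (DetS.refl _).left).kw).pair (DetS.refl _).left.kw))
  rcases dsa (F := k1F N L D1 P1 b) (T := D2) (G := L.p N b) (Z := L.p N L.n)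
    (Y := k1Y L P1 C0 i b) (A := k1T L t2 P2 i) (W := k1W L B i) (s := dT L t2 b) (b := b)
    (i := fun _ => 0) (l := l) hj (Kn.zero (k1b_bdd h).2 _)
    (k1b_knW h (fun k => by have := h.hl k; omega) dF.left
      ((c.kn_θ (DetS.refl _).right.kw).lev fun k => by have := h.hl k; omega))
    (h.pair.dT_det.trans (dF.left.pair (DetS.refl D2).right)) h.pair.dT_bdd (k1b_bdd h).1
    (Kn.of_small hj hr _) h3 (h.pair.ind dF.kw kF (DetS.refl _).right.kw)
    (det_p hbn).right.kw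
    (k1b_knY h (fun k => by have := h.hl k; omega) dF.left
      (det_p fun k => by have := h.hl k; have := h.hb k; omega).right.kw).kw h5 with hk | hk
  · exact (k1b_left h (hk.lev fun k => by omega)).elim
  obtain ⟨κ, K, E, l0, hE, dK, h0, hbig, hlow, hind, hds⟩ := hk
  exact ⟨κ, _, K, E, l0, _, hE, h0, hbig, k1b_right h hE dK h0 hlow hind hds⟩

end Vale.Agent.P127S
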