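import Vale.Agent.P127S.K2A0

/-! The engine step. -/

open Real Finset Filter Topology Vale.Agent.P118O

noncomputable section

namespace Vale.Agent.P127S

variable {N : ℕ → ℕ} {Ω γ δ : ℕ → Type} {S : Sp N Ω} {L : Ln Ω} {D1 : RV Ω δ} {D2 : RV Ω γ}
  {P1 P2 R : VV Ω M3} {I : Finset (Fin 3)} {σ : ℝ} {b e : ℕ → ℕ} {t2 s : VV Ω ℝ} {W : VV Ω V3}

theorem k2a_det (h : PairSt S L t2 D1 D2 P1 P2 I σ b) (r : ℕ) :
    DetS S (fun k ω => dT L t2 b k ω ^ r) (J D1 D2) := h.dT_det.map fun _ x => x ^ r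

theorem k2a_bdd (h : PairSt S L t2 D1 D2 P1 P2 I σ b) (r : ℕ) :
    Bdd S (fun k ω => dT L t2 b k ω ^ r) := by
  refine Small.of_le (Eventually.of_forall fun k ω hω => ?_)
  have h1 : |dT L t2 b k ω| ≤ 1 := by
    have h2 := h.close k ω hω
    have h3 : (0 : ℝ) < 2 ^ b k := by positivity
    rw [le_div_iff₀ h3] at h2
    rwa [dT, abs_mul, abs_of_pos h3, mul_comm]
  rw [norm_pow, Real.norm_eq_abs]
  exact (pow_le_one₀ (abs_nonneg _) h1).trans (by norm_num)

/-- the step once the coefficients are read off from `D1` -/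
theorem k2a_core (h : PairSt S L t2 D1 D2 P1 P2 I σ b) (hI : I.card = 2)
    (hn : ∀ k, e k + b k ≤ L.n k) (hbe : ∀ k, b k ≤ e k) {l : ℕ → ℕ} (hl : ∀ k, l k ≤ b k)
    (hW : Kn S (J D1 (L.p N b)) W b) (hWI : ∀ k ω, ∀ a ∈ I, W k ω a = 0) {r : ℕ} (hr1 : 1 ≤ r)
    (hr : Kn S (J (J D1 (Q N e (ph P1 L.x))) D2)
      (ph P2 (L.wt t2).x - ph P1 L.x + MV R L.x -
        sm (tw Ω e) (sm (fun k ω => dT L t2 b k ω ^ r) W)) fun k => e k + b k)
    {B C0 : VV Ω M3} (hB : Mat S D1 B I) (hC : Mat S D1 C0 I)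
    (hs : Small S (R - sm (tw Ω e) (sm (fun k ω => dT L t2 b k ω ^ r) B + C0))
      fun k => e k + l k) :
    Kn S (J D1 (Q N e (ph P1 L.x))) (W - MV B L.x) l := by
  have hc := h.st1.cfg
  have hx : Bdd S L.x := hc.bdd.2.2.2
  have he : ∀ k, e k ≤ L.n k := fun k => (Nat.le_add_right _ _).trans (hn k)
  have hel : ∀ k, e k + 0 + l k ≤ L.n k := fun k => by have := hn k; have := hl k; omega
  have h0l : ∀ k, 0 + l k ≤ b k := fun k => by have := hl k; omega
  have lv0 : Lv N fun k => 0 + l k := hc.lev fun k => (h0l k).trans (h.hb k)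
  have h1 := ds2 (e := e) (i := fun _ => 0) (l := l) (F := J D1 (Q N e (ph P1 L.x)))
    (W := W - MV B L.x) (P' := P1 + sm (tw Ω e) C0) h
    (h.st1.pj.add (hC.smul (c := tw Ω e) (DetS.const _) (small_tw S e).bdd)) hel
    (fun k ω a ha => by simp [MV, hWI k ω a ha, hB.row k ω a ha]) (DetS.refl _).left
    ((Kw.refl _).left.pair (regb1_y h.st1 he (DetS.refl _).left (Kw.refl _).right).kw) ?_
    (Kn.zero (hW.bdd.sub (hB.bdd.mv hx)) _) ?_ (k2a_det h r) (k2a_bdd h r)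
    (h.unif_pow (fun k => by have := hn k; have := hl k; have := hbe k; omega) hr1) ?_
  · rcases h1 with h1 | h1
    · exact h1.lev fun k => (zero_add _).ge
    · rw [hI] at h1
      exact absurd h1 (not_has3 σ)
  · refine ((Kn.self (regb1_by h.st1) e).mono (Kw.refl _).right).near (hc.lev he) ?_
    have h2 := (((small_tw S e).smul hC.bdd).mv hx).neg
    refine h2.congr (whp.of_all (Eventually.of_forall fun k ω _ => funext fun i => ?_))
    simp [MV, ph, sm, add_mul, sum_add_distrib]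
  · refine Kn.sub lv0 ((hW.lev h0l).mono ((Kw.refl _).left.pair (det_p hbe).kw.right)) ?_
    exact Kn.mv lv0 hB.det.left hB.bdd (hc.kn_x he (DetS.refl _).left (Kw.refl _).right)
      fun k => (h0l k).trans (hbe k)
  · refine (hr.lev fun k => Nat.add_le_add_left (hl k) _).near (hc.lev hel) ?_
    refine (hs.mv hx).neg.congr (whp.of_all (Eventually.of_forall fun k ω _ => funext fun i => ?_))
    simp only [MV, ph, sm, Pi.neg_apply, Pi.sub_apply, Pi.add_apply, Pi.smul_apply, smul_eq_mul,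
      Fin.sum_univ_three]
    ring

/-- `k2_lin`, `PairSt.ext`, `pair_lin`, then `ds2` on the extension with middle level `0`,
`P' = P1 + C0 / 2 ^ e`, `F = (D1', y1[e])`, slope `W - B x` (`hu` passes to the extension as in
`PairSt.ext`; `full_lev`), `not_has3`. -/
theorem k2_step (h : PairSt S L t2 D1 D2 P1 P2 I σ b) (hI : I.card = 2)
    (hn : ∀ k, e k + b k ≤ L.n k) (hbe : ∀ k, b k ≤ e k) (big : Big N fun k => b k)
    (hR : Mat S (J D1 D2) R I) (hRs : Small S R e) (hW : Kn S (J D1 (L.p N b)) W b)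
    (hWI : ∀ k ω, ∀ a ∈ I, W k ω a = 0) {r : ℕ} (hr1 : 1 ≤ r)
    (hr : Kn S (J (J D1 (Q N e (ph P1 L.x))) D2)
      (ph P2 (L.wt t2).x - ph P1 L.x + MV R L.x -
        sm (tw Ω e) (sm (fun k ω => dT L t2 b k ω ^ r) W)) fun k => e k + b k) :
    ∃ (Ω' δ' : ℕ → Type) (S' : Sp N Ω') (m : RV Ω' Ω) (D' : RV Ω' δ') (B : VV Ω' M3) (l : ℕ → ℕ),
      Ext S S' m ∧ St S' (L.pull m) D' (pl m P1) I σ ∧ DetS S' (pl m D1) D' ∧ Mat S' D' B I ∧
      (∀ k, l k ≤ b k) ∧ Big N (fun k => l k) ∧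
      Kn S' (J D' (Q N e (pl m (ph P1 L.x)))) (pl m W - MV B (pl m L.x)) l := by
  obtain ⟨l, B, C0, hl, hbig, hB, hC, hk, hs⟩ := k2_lin h hI hn hbe big hR hRs hW (k2a_det h r)
    (k2a_bdd h r) (h.unif_pow (fun k => by have := hn k; have := hbe k; omega) hr1) hr
  have h' := h.ext hk
  obtain ⟨hB', hC', hs'⟩ := pair_lin hR.det (k2a_det h r) hB hC hs
  have ex := ext1 (S := S) (J D1 D2)
  refine ⟨_, _, _, _, _, _, l, ex, h'.st1, (DetS.refl _).left, hB', hl, hbig, ?_⟩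
  exact k2a_core h' hI hn hbe hl
    ((hW.pull ex).mono ((Kw.refl _).left.left.pair (Kw.refl _).right))
    (fun k ω => hWI k _) hr1 ((hr.pull ex).mono
      (((Kw.refl _).left.left.left.pair (Kw.refl _).right.left).pair (Kw.refl _).right))
    hB' hC' hs'

end Vale.Agent.P127S
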