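import Vale.Agent.P127S.AsyC
import Vale.Agent.P127S.EngQ

/-! The second engine in asymptotic form. -/

open Real Finset Filter Topology Vale.Agent.P118O

noncomputable section

namespace Vale.Agent.P127S

variable {N : ℕ → ℕ} {Ω α β : ℕ → Type} {S : Sp N Ω}

theorem wrapQ_rel {a a' r r' y y' s f g0 g0' g1 g1' G0 G0' G1 G1' U : ℝ} {j0 l n : ℕ}
    (ha : |a - a'| ≤ 1 / 2 ^ (j0 + l)) (hr : |r - r'| ≤ 1 / 2 ^ (j0 + l))
    (e : r = a - y - 1 / 2 ^ j0 * (s * g0 + f * g1))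
    (e' : r' = a' - y' - 1 / 2 ^ j0 * (s * g0' + f * g1'))
    (h0 : |g0 - G0| ≤ 1 / 2 ^ l) (h0' : |g0' - G0'| ≤ 1 / 2 ^ l) (h1 : |g1 - G1| ≤ 1 / 2 ^ l)
    (h1' : |g1' - G1'| ≤ 1 / 2 ^ l) (hs : |s| ≤ U) (hf : |f| ≤ U) (hU : 1 ≤ U)
    (hl : 12 * U * 2 ^ n ≤ 2 ^ l)
    (hP : (Int.fract ((2 : ℝ) ^ (j0 + n) * y) < 1 / 2) = (Int.fract ((2 : ℝ) ^ (j0 + n) * y') < 1 / 2)) :
    |(⌊(2 : ℝ) ^ (j0 + n) * y'⌋ : ℝ) / 2 ^ n - (⌊(2 : ℝ) ^ (j0 + n) * y⌋ : ℝ) / 2 ^ n -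
      (s * (G0 - G0') + f * (G1 - G1'))| ≤ 1 / 2 ^ n := by
  have hfr : |Int.fract ((2 : ℝ) ^ (j0 + n) * y) - Int.fract ((2 : ℝ) ^ (j0 + n) * y')| ≤ 1 / 2 := by
    have a1 := Int.fract_nonneg ((2 : ℝ) ^ (j0 + n) * y)
    have a2 := Int.fract_nonneg ((2 : ℝ) ^ (j0 + n) * y')
    have a3 := Int.fract_lt_one ((2 : ℝ) ^ (j0 + n) * y)
    have a4 := Int.fract_lt_one ((2 : ℝ) ^ (j0 + n) * y')
    rw [abs_le]
    by_cases h : Int.fract ((2 : ℝ) ^ (j0 + n) * y) < 1 / 2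
    · have h' := hP ▸ h
      constructor <;> linarith
    · have h' := hP ▸ h
      constructor <;> linarith [not_lt.1 h, not_lt.1 h']
  have key : (⌊(2 : ℝ) ^ (j0 + n) * y'⌋ : ℝ) / 2 ^ n - (⌊(2 : ℝ) ^ (j0 + n) * y⌋ : ℝ) / 2 ^ n -
      (s * (G0 - G0') + f * (G1 - G1')) =
      (Int.fract ((2 : ℝ) ^ (j0 + n) * y) - Int.fract ((2 : ℝ) ^ (j0 + n) * y')) * (1 / 2 ^ n) +
        (2 ^ j0 * (r - r') - 2 ^ j0 * (a - a')) + (s * ((g0 - G0) - (g0' - G0')) +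
          f * ((g1 - G1) - (g1' - G1'))) := by
    rw [e, e', Int.fract, Int.fract, pow_add]
    field_simp
    ring
  have hE : (2 : ℝ) ^ j0 * (1 / 2 ^ (j0 + l)) = 1 / 2 ^ l := by
    rw [pow_add]
    field_simp
  have hD : 12 * U * (1 / 2 ^ l) ≤ (1 : ℝ) / 2 ^ n := by
    rw [mul_one_div, div_le_div_iff₀ (by positivity) (by positivity)]
    linarith
  have b1 : |(2 : ℝ) ^ j0 * (r - r')| ≤ 1 / 2 ^ l := by
    rw [abs_mul, abs_of_nonneg (by positivity), ← hE]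
    exact mul_le_mul_of_nonneg_left hr (by positivity)
  have b2 : |(2 : ℝ) ^ j0 * (a - a')| ≤ 1 / 2 ^ l := by
    rw [abs_mul, abs_of_nonneg (by positivity), ← hE]
    exact mul_le_mul_of_nonneg_left ha (by positivity)
  have b3 : |s * ((g0 - G0) - (g0' - G0'))| ≤ U * (1 / 2 ^ l + 1 / 2 ^ l) := by
    rw [abs_mul]
    exact mul_le_mul hs ((abs_sub _ _).trans (add_le_add h0 h0')) (abs_nonneg _) (by linarith)
  have b4 : |f * ((g1 - G1) - (g1' - G1'))| ≤ U * (1 / 2 ^ l + 1 / 2 ^ l) := by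
    rw [abs_mul]
    exact mul_le_mul hf ((abs_sub _ _).trans (add_le_add h1 h1')) (abs_nonneg _) (by linarith)
  have b5 : |(Int.fract ((2 : ℝ) ^ (j0 + n) * y) - Int.fract ((2 : ℝ) ^ (j0 + n) * y')) *
      (1 / 2 ^ n)| ≤ 1 / 2 * (1 / 2 ^ n) := by
    rw [abs_mul, abs_of_nonneg (a := (1 : ℝ) / 2 ^ n) (by positivity)]
    exact mul_le_mul_of_nonneg_right hfr (by positivity)
  have b6 : (1 : ℝ) / 2 ^ l ≤ U * (1 / 2 ^ l) := le_mul_of_one_le_left (by positivity) hU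
  rw [key]
  refine (abs_add_le _ _).trans ((add_le_add ((abs_add_le _ _).trans (add_le_add b5
    ((abs_sub _ _).trans (add_le_add b1 b2)))) ((abs_add_le _ _).trans (add_le_add b3 b4))).trans ?_)
  linarith

theorem wrapQ_le_one {Ω : Type} {s : Finset Ω} {p : Ω → ℝ} (h : IsP s p) (E : Ω → Prop) :
    ms s p E ≤ 1 := by
  have h1 := ms_not h E
  have h2 := ms_ge_zero h fun ω => ¬ E ω
  linarith

theorem wrapQ_ext {Ω β : Type} {s : Finset Ω} {p : Ω → ℝ} (h : IsP s p) {B P : Ω → Prop}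
    (hB : 0 < ms s p B) {F : Ω → β} {b c0 sv fv : Ω → ℝ} {x M t ε : ℝ} (hM : 0 ≤ M)
    (h1 : ce (rs s B) (rp s p B) (pj b c0) (pj F P) ≤ x)
    (h2 : ∀ ω ∈ rs s B, |b ω| ≤ M ∧ |c0 ω| ≤ M) (h3 : 1 - ε ≤ ms s p B)
    (h4 : 1 - ε ≤ ms (rs s B) (rp s p B) fun ω => |fv ω - sv ω * b ω - c0 ω| ≤ t) :
    ∃ b' c' : Ω → ℝ, ce s p (pj b' c') F ≤ x + 2 ∧ (∀ ω ∈ s, |b' ω| ≤ M ∧ |c' ω| ≤ M) ∧
      1 - 2 * ε ≤ ms s p fun ω => |fv ω - sv ω * b' ω - c' ω| ≤ t := by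
  classical
  have hR := rs_isP h hB
  refine ⟨fun ω => if B ω then b ω else 0, fun ω => if B ω then c0 ω else 0, ?_, fun ω hω => ?_, ?_⟩
  · have a1 := ce_le_add h (pj (fun ω => if B ω then b ω else 0) fun ω => if B ω then c0 ω else 0)
      B F
    have a2 := ce_prop h B F
    rw [ce_split h] at a1
    have a3 : ce (rs s B) (rp s p B) (pj (fun ω => if B ω then b ω else 0)
        fun ω => if B ω then c0 ω else 0) F = ce (rs s B) (rp s p B) (pj b c0) F :=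
      ce_congr (fun ω hω => by simp only [pj, if_pos (mem_rs.1 hω).2]) fun _ _ => rfl
    have a4 := ce_le_add hR (pj b c0) P F
    have a5 := ce_prop hR P F
    have a6 : ce (rs s B) (rp s p B) (pj b c0) (pj P F) ≤
        ce (rs s B) (rp s p B) (pj b c0) (pj F P) :=
      ce_mono hR (fun _ _ _ _ e => (Prod.mk.inj e).1) fun _ _ _ _ e =>
        Prod.ext (Prod.mk.inj e).2 (Prod.mk.inj e).1
    have a7 : ms s p (fun ω => ¬ B ω) * ce (rs s fun ω => ¬ B ω) (rp s p fun ω => ¬ B ω)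
        (pj (fun ω => if B ω then b ω else 0) fun ω => if B ω then c0 ω else 0) F = 0 := by
      rcases (ms_ge_zero h fun ω => ¬ B ω).eq_or_lt with h0 | h0
      · rw [← h0, zero_mul]
      · rw [ce_det (rs_isP h h0) fun ω hω ω' hω' _ => by
          simp only [pj, if_neg (mem_rs.1 hω).2, if_neg (mem_rs.1 hω').2], mul_zero]
    have a8 := mul_le_of_le_one_left (ce_nonneg hR (pj b c0) F) (wrapQ_le_one h B)
    rw [a3, a7] at a1
    linarith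
  · by_cases hb : B ω
    · simp only [if_pos hb]
      exact h2 ω (mem_rs.2 ⟨hω, hb⟩)
    · simp only [if_neg hb, abs_zero, hM, and_self]
  · have a1 := ms_rs h B fun ω => |fv ω - sv ω * b ω - c0 ω| ≤ t
    have a2 := mul_nonneg (sub_nonneg.2 (wrapQ_le_one h B))
      (sub_nonneg.2 (wrapQ_le_one hR fun ω => |fv ω - sv ω * b ω - c0 ω| ≤ t))
    refine le_trans ?_ (ms_imp h (E := fun ω => B ω ∧ |fv ω - sv ω * b ω - c0 ω| ≤ t)
      fun ω _ hω => by simp only [if_pos hω.1]; exact hω.2)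
    nlinarith

theorem wrapQ_cnt {Ω α β γ : Type} {s : Finset Ω} {B B1 : Ω → Prop} (hB : ∀ ω, B ω → B1 ω)
    (X : Ω → α) {Y : Ω → β} {Y' : Ω → γ} (hY : ∀ ω ω', Y' ω = Y' ω' → Y ω = Y ω') (ω : Ω) :
    cnt (rs s B) X Y' (fun _ => True) ω ≤ cnt s X Y B1 ω :=
  FinB_cnt fun a ha e _ => ⟨a, (mem_rs.1 ha).1, hY _ _ e, hB _ (mem_rs.1 ha).2, rfl⟩

theorem wrapQ_bdd {E : Type} [Norm E] {X : VV Ω E} (h : Bdd S X) {c : ℝ} (hc : 0 < c) :
    whp S fun k ω => ‖X k ω‖ ≤ (2 : ℝ) ^ (c * N k) := by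
  simpa only [Nat.cast_zero, sub_zero] using h c hc

theorem wrapQ_cor {ι : Type} (j : ℕ) (z : ι → ℤ) : qz j (cor j z) = z := by
  funext i
  simp only [qz, cor]
  rw [mul_div_cancel₀ _ (by positivity), Int.floor_intCast]

/-- the planar variable -/
def wrapQ_G (N l : ℕ → ℕ) (g0 g1 : VV Ω ℝ) : VV Ω (Fin 2 → ℝ) :=
  fun k ω => ![dq N l (sc g0) k ω (), dq N l (sc g1) k ω ()]

/-- the target -/
def wrapQ_Y (N j0 n : ℕ → ℕ) (Y : VV Ω ℝ) : VV Ω (Unit → ℝ) :=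
  fun k ω => cor (n k) (Q N (fun k => j0 k + n k) (sc Y) k ω)

theorem wrapQ_G1 (l : ℕ → ℕ) (g0 g1 : VV Ω ℝ) :
    DetS S (wrapQ_G N l g0 g1) (J (Q N l (sc g0)) (Q N l (sc g1))) := fun k ω _ ω' _ e => by
  simp only [wrapQ_G, dq, (Prod.mk.inj e).1, (Prod.mk.inj e).2]

theorem wrapQ_G2 (l : ℕ → ℕ) (g0 g1 : VV Ω ℝ) :
    DetS S (J (Q N l (sc g0)) (Q N l (sc g1))) (wrapQ_G N l g0 g1) := fun k ω _ ω' _ e => by
  have e0 : dq N l (sc g0) k ω = dq N l (sc g0) k ω' := funext fun _ => congrFun e 0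
  have e1 : dq N l (sc g1) k ω = dq N l (sc g1) k ω' := funext fun _ => congrFun e 1
  have a0 := congrArg (qz (l k)) e0
  have a1 := congrArg (qz (l k)) e1
  simp only [dq, wrapQ_cor] at a0 a1
  exact Prod.ext a0 a1

theorem wrapQ_Y1 (j0 n : ℕ → ℕ) (Y : VV Ω ℝ) :
    DetS S (wrapQ_Y N j0 n Y) (Q N (fun k => j0 k + n k) (sc Y)) := fun k ω _ ω' _ e => by
  simp only [wrapQ_Y, e]

theorem wrapQ_Y2 (j0 n : ℕ → ℕ) (Y : VV Ω ℝ) :
    DetS S (Q N (fun k => j0 k + n k) (sc Y)) (wrapQ_Y N j0 n Y) := fun k ω _ ω' _ e => by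
  have a0 := congrArg (qz (n k)) e
  simpa only [wrapQ_Y, wrapQ_cor] using a0

theorem wrapQ_ent {F : RV Ω α} {T : RV Ω β} {A Y g0 g1 sv : VV Ω ℝ} {R : VV Ω (Unit → ℤ)}
    {j0 l n : ℕ → ℕ} (hn : ∀ k, n k ≤ l k) (P : VV Ω Prop) (hr : Kw S R (J F T))
    (h1 : Le N (H S (Q N (fun k => j0 k + l k) (sc A)) (J F T))
      (H S (Q N (fun k => j0 k + l k) (sc Y)) (J (J F T) (J (Q N l (sc g0)) (Q N l (sc g1))))))
    (h2 : Le N (H S (Q N (fun k => j0 k + l k) (sc Y)) F)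
      (H S (Q N (fun k => j0 k + l k) (sc Y)) (J (J F T) (J (Q N l (sc g0)) (Q N l (sc g1))))))
    (h3 : Ind S (J (Q N l (sc g0)) (Q N l (sc g1))) T F)
    (h4 : Le N (fun k => l k) (H S (Q N l (sc sv)) F))
    (h5 : Le N (fun k => l k) (H S (Q N l (sc g1)) F)) :
    Le N (H S (Q N (fun k => j0 k + l k) (sc A)) (J (J F P) (J T R)))
      (fun k => H S (wrapQ_Y N j0 n Y) (J (J F P) (J (J T R) (wrapQ_G N l g0 g1))) k +
        ((l k : ℝ) - n k)) ∧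
    Le N (H S (wrapQ_Y N j0 n Y) (J F P))
      (fun k => H S (wrapQ_Y N j0 n Y) (J (J F P) (J (J T R) (wrapQ_G N l g0 g1))) k +
        ((l k : ℝ) - n k)) ∧
    Le N (H S (wrapQ_G N l g0 g1) (J F P)) (H S (wrapQ_G N l g0 g1) (J (J F P) (J T R))) ∧
    Le N (fun k => n k) (H S (Q N n (sc sv)) (J F P)) ∧
    Le N (fun k => n k) (H S (Q N n (sc g1)) (J F P)) := by
  have kF : Kw S (J F P) F := (Kw.refl F).pair (Kw.prop P F)
  have kT : Kw S (J T R) (J F T) := (Kw.refl T).right.pair hr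
  have a1 : Le N
      (H S (Q N (fun k => j0 k + n k) (sc Y)) (J (J F T) (J (Q N l (sc g0)) (Q N l (sc g1)))))
      (H S (wrapQ_Y N j0 n Y) (J (J F P) (J (J T R) (wrapQ_G N l g0 g1)))) :=
    H_kw (wrapQ_Y2 j0 n Y).left.kw (kF.left.left.pair (kT.left.pair (wrapQ_G1 l g0 g1).right.kw))
  have a2 : ∀ k,
      H S (Q N (fun k => j0 k + l k) (sc Y)) (J (J F T) (J (Q N l (sc g0)) (Q N l (sc g1)))) k ≤
      H S (Q N (fun k => j0 k + n k) (sc Y)) (J (J F T) (J (Q N l (sc g0)) (Q N l (sc g1)))) k +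
        ((l k : ℝ) - n k) := fun k => by
    have b1 := H_le_add (S := S) (Q N (fun k => j0 k + l k) (sc Y))
      (Q N (fun k => j0 k + n k) (sc Y)) (J (J F T) (J (Q N l (sc g0)) (Q N l (sc g1)))) k
    have b2 := AsyA0_right (S := S) (Q N (fun k => j0 k + l k) (sc Y))
      (J (J F T) (J (Q N l (sc g0)) (Q N l (sc g1)))) (Q N (fun k => j0 k + n k) (sc Y)) k
    have b3 := H_Q (S := S) (j := fun k => j0 k + n k) (j' := fun k => j0 k + l k)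
      (fun k => Nat.add_le_add_left (hn k) _) (sc Y) k
    simp only [Fintype.card_unit] at b3
    push_cast at b3
    linarith
  have full : ∀ u : VV Ω ℝ, Le N (fun k => l k) (H S (Q N l (sc u)) F) →
      Le N (fun k => n k) (H S (Q N n (sc u)) (J F P)) := fun u hu =>
    ((full_lev hn hu).trans (H_kw (Kw.refl _).left kF)).lin fun k => by
      simp only [Fintype.card_unit]
      push_cast
      linarith
  refine ⟨(h1.add a1).lin fun k => ?_, (h2.add a1).lin fun k => ?_, ?_, full sv h4, full g1 h5⟩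
  · have b1 : H S (Q N (fun k => j0 k + l k) (sc A)) (J (J F P) (J T R)) k ≤
        H S (Q N (fun k => j0 k + l k) (sc A)) (J F T) k :=
      H_mono (DetS.refl _).left ((DetS.refl F).left.left.pair (DetS.refl T).left.right) k
    linarith [a2 k]
  · have b1 : H S (wrapQ_Y N j0 n Y) (J F P) k ≤ H S (Q N (fun k => j0 k + l k) (sc Y)) F k :=
      H_mono ((wrapQ_Y1 j0 n Y).trans
        (det_Q (fun k => Nat.add_le_add_left (hn k) _) (sc Y))).left (DetS.refl F).left k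
    linarith [a2 k]
  · exact ((Le.of_le (H_mono (wrapQ_G1 l g0 g1).left (DetS.refl F).left)).trans h3).trans
      (H_kw (wrapQ_G2 l g0 g1).left.kw (kF.left.pair kT))

/-- the parity bit -/
def wrapQ_P (j0 n : ℕ → ℕ) (Y : VV Ω ℝ) : VV Ω Prop :=
  fun k ω => Int.fract ((2 : ℝ) ^ (j0 k + n k) * Y k ω) < 1 / 2

theorem wrapQ_Q {u : VV Ω ℝ} {k : ℕ} {ω : Ω k} (h : |u k ω| ≤ 2 ^ N k) (j : ℕ → ℕ) :
    Q N j (sc u) k ω = qz (j k) (sc u k ω) :=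
  Q_of_le ((pi_norm_le_iff_of_nonneg (by positivity)).2 fun _ => h)

theorem wrapQ_q {u : VV Ω ℝ} {k : ℕ} {ω ω' : Ω k} (h : |u k ω| ≤ 2 ^ N k)
    (h' : |u k ω'| ≤ 2 ^ N k) {j : ℕ → ℕ} (e : Q N j (sc u) k ω = Q N j (sc u) k ω') :
    |u k ω - u k ω'| ≤ 1 / 2 ^ j k := by
  rw [wrapQ_Q h, wrapQ_Q h'] at e
  exact (norm_le_pi_norm (sc u k ω - sc u k ω') ()).trans (qz_close e)

theorem wrapQ_d {u : VV Ω ℝ} {k : ℕ} {ω : Ω k} (h : |u k ω| ≤ 2 ^ N k) (j : ℕ → ℕ) :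
    |u k ω - dq N j (sc u) k ω ()| ≤ 1 / 2 ^ j k := by
  have := (norm_le_pi_norm (sc u k ω - dz (j k) (sc u k ω)) ()).trans (dz_close (j k) (sc u k ω))
  simp only [dq]
  rw [wrapQ_Q h]
  exact this

theorem wrapQ_eng {F : RV Ω α} {T : RV Ω β} {A Y g0 g1 sv fv r : VV Ω ℝ} {j0 l n : ℕ → ℕ}
    {k : ℕ} {e U : ℝ} (er : r = A - Y - tw Ω j0 * (sv * g0 + fv * g1))
    (hs : DetS S sv (J F T)) (hf : DetS S fv (J F T)) (hp : ∀ ω ∈ S.s k, 0 < S.P k ω)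
    (hU : ∀ ω ∈ S.s k, |A k ω| ≤ U ∧ |r k ω| ≤ U ∧ |Y k ω| ≤ U ∧ |g0 k ω| ≤ U ∧ |g1 k ω| ≤ U ∧
      |sv k ω| ≤ U ∧ |fv k ω| ≤ U)
    (h1U : 1 ≤ U) (hUN : U ≤ 2 ^ N k) (hl : 12 * U * 2 ^ n k ≤ 2 ^ l k) (hUe : 2 * U ≤ 2 ^ e)
    (hn : ∀ k, n k ≤ l k) {F' : RV Ω fun k => α k × Prop} {T' : RV Ω fun k => β k × (Unit → ℤ)}
    (eF : F' = J F (wrapQ_P j0 n Y)) (eT : T' = J T (Q N (fun k => j0 k + l k) (sc r)))
    (h1 : H S (Q N (fun k => j0 k + l k) (sc A)) (J F' T') k ≤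
      H S (wrapQ_Y N j0 n Y) (J F' (J T' (wrapQ_G N l g0 g1))) k + e)
    (h2 : H S (wrapQ_Y N j0 n Y) F' k ≤
      H S (wrapQ_Y N j0 n Y) (J F' (J T' (wrapQ_G N l g0 g1))) k + e)
    (h3 : H S (wrapQ_G N l g0 g1) F' k ≤ H S (wrapQ_G N l g0 g1) (J F' T') k + e)
    (h4 : n k - e ≤ H S (Q N n (sc sv)) F' k) (h5 : n k - e ≤ H S (Q N n (sc g1)) F' k) :
    Eng (S.s k) (S.P k) (n k) e (F' k) (T' k) (Q N (fun k => j0 k + l k) (sc A) k)
      (wrapQ_Y N j0 n Y k) (wrapQ_G N l g0 g1 k) (fun G _ => G 0) (fun G _ => G 1) (sv k) (fv k) ∧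
    (∀ ω ∈ S.s k, ‖wrapQ_G N l g0 g1 k ω‖ ≤ (2 : ℝ) ^ e) ∧
    n k - e ≤ ce (S.s k) (S.P k) (qs (n k) fun ω => wrapQ_G N l g0 g1 k ω 1) (F' k) := by
  subst eF eT
  have dd : DetS S (J F T) (J (J F (wrapQ_P j0 n Y)) (J T (Q N (fun k => j0 k + l k) (sc r)))) :=
    (DetS.refl F).left.left.pair (DetS.refl T).left.right
  have hG : ∀ u : VV Ω ℝ, ∀ ω, |u k ω| ≤ U → |dq N l (sc u) k ω ()| ≤ (2 : ℝ) ^ e :=
    fun u ω hu => by
      have a1 := wrapQ_d (hu.trans hUN) l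
      have a2 : (1 : ℝ) / 2 ^ l k ≤ 1 := by
        rw [div_le_one (by positivity)]
        exact one_le_pow₀ one_le_two
      have a3 := abs_sub_abs_le_abs_sub (dq N l (sc u) k ω ()) (u k ω)
      rw [abs_sub_comm] at a3
      linarith
  refine ⟨⟨S.isP k, hp, hs.trans dd k, hf.trans dd k, fun ω _ ω' _ e => ?_,
    fun ω hω ω' hω' eF eT eA => ?_, fun ω hω => ?_, h1, h2, h3, h4.trans ?_⟩, fun ω hω => ?_,
    h5.trans ?_⟩
  · have a1 := (Prod.mk.inj e).1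
    simp only [qv, wrapQ_Y, wrapQ_cor] at a1
    simp only [wrapQ_Y, a1]
  · obtain ⟨a1, a2, a3, a4, a5, a6, a7⟩ := hU ω hω
    obtain ⟨b1, b2, b3, b4, b5, -, -⟩ := hU ω' hω'
    have eFT : J F T k ω = J F T k ω' := Prod.ext (Prod.mk.inj eF).1 (Prod.mk.inj eT).1
    have es := hs k ω hω ω' hω' eFT
    have ef := hf k ω hω ω' hω' eFT
    refine (pi_norm_le_iff_of_nonneg (by positivity)).2 fun i => ?_
    have key := wrapQ_rel (a := A k ω) (a' := A k ω') (r := r k ω) (r' := r k ω') (y := Y k ω)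
      (y' := Y k ω') (s := sv k ω) (f := fv k ω) (j0 := j0 k) (l := l k) (n := n k)
      (wrapQ_q (a1.trans hUN) (b1.trans hUN) eA)
      (wrapQ_q (a2.trans hUN) (b2.trans hUN) (Prod.mk.inj eT).2) (by rw [er]; rfl)
      (by rw [er, es, ef]; rfl) (wrapQ_d (a4.trans hUN) l) (wrapQ_d (b4.trans hUN) l)
      (wrapQ_d (a5.trans hUN) l) (wrapQ_d (b5.trans hUN) l) a6 a7 h1U hl (Prod.mk.inj eF).2
    simp only [wrapQ_Y]
    rw [wrapQ_Q (a3.trans hUN), wrapQ_Q (b3.trans hUN)]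
    exact key
  · obtain ⟨-, -, -, -, -, a6, a7⟩ := hU ω hω
    constructor <;> linarith
  · refine ce_mono (S.isP k) (fun ω hω ω' hω' e => ?_) fun _ _ _ _ e => e
    rw [wrapQ_Q ((hU ω hω).2.2.2.2.2.1.trans hUN), wrapQ_Q ((hU ω' hω').2.2.2.2.2.1.trans hUN)]
    exact funext fun _ => (Prod.mk.inj e).1
  · refine (pi_norm_le_iff_of_nonneg (by positivity)).2 (Fin.forall_fin_two.2 ⟨?_, ?_⟩)
    · exact hG g0 ω (hU ω hω).2.2.2.1
    · exact hG g1 ω (hU ω hω).2.2.2.2.1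
  · refine ce_mono (S.isP k) (fun ω hω ω' hω' e => ?_) fun _ _ _ _ e => e
    have a1 := (hU ω hω).2.2.2.2.1.trans hUN
    have a2 := (hU ω' hω').2.2.2.2.1.trans hUN
    have a3 : qz (n k) (dq N l (sc g1) k ω) = qz (n k) (dq N l (sc g1) k ω') :=
      funext fun _ => (Prod.mk.inj e).1
    simp only [dq] at a3
    rw [wrapQ_Q a1, wrapQ_Q a2] at a3 ⊢
    exact ((qz_dz (hn k) _).symm.trans a3).trans (qz_dz (hn k) _)

theorem wrapQ_num {δ η σ c M : ℝ} {l w : ℕ} (hσ : 0 < σ) (hη : 0 < η) (hM : 0 ≤ M)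
    (h1 : δ ≤ η * c / 6) (h2 : δ ≤ σ * c / 6) (h3 : δ ≤ c / 4) (hl : c * M ≤ l) (h8 : 8 ≤ δ * M)
    (hw : w = ⌈δ * M⌉₊) :
    (l : ℝ) ≤ 2 * (l - w : ℕ) ∧ (l : ℝ) - (l - w : ℕ) + δ * M ≤ η * (l - w : ℕ) ∧
      δ * M ≤ η * (l - w : ℕ) ∧ (1 - σ) * l + δ * M ≤ (1 - σ / 2) * (l - w : ℕ) ∧
      12 * (2 : ℝ) ^ (δ / 2 * M) * 2 ^ (l - w) ≤ 2 ^ l ∧
      2 * (2 : ℝ) ^ (δ / 2 * M) ≤ 2 ^ (η * (l - w : ℕ)) := by
  have a1 : δ * M ≤ w := hw ▸ Nat.le_ceil _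
  have a2 : (w : ℝ) < δ * M + 1 := hw ▸ Nat.ceil_lt_add_one (by linarith)
  have b1 := mul_le_mul_of_nonneg_right h1 hM
  have b2 := mul_le_mul_of_nonneg_right h2 hM
  have b3 := mul_le_mul_of_nonneg_right h3 hM
  have a3 : w ≤ l := by
    have : (w : ℝ) ≤ l := by linarith
    exact_mod_cast this
  have b4 := mul_le_mul_of_nonneg_left hl hσ.le
  have b5 := mul_le_mul_of_nonneg_left (show c * M ≤ 2 * ((l : ℝ) - w) by linarith) hη.le
  have b6 : 0 ≤ σ * w := by positivity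
  rw [Nat.cast_sub a3]
  refine ⟨by linarith, by linarith, by linarith, by linarith, ?_, ?_⟩
  · have e1 : (2 : ℝ) ^ l = 2 ^ w * 2 ^ (l - w) := by rw [← pow_add, Nat.add_sub_cancel' a3]
    have e2 : (2 : ℝ) ^ (4 + δ / 2 * M) ≤ 2 ^ (w : ℝ) :=
      Real.rpow_le_rpow_of_exponent_le one_le_two (by linarith)
    rw [Real.rpow_add two_pos, Real.rpow_natCast, show (2 : ℝ) ^ (4 : ℝ) = 16 by norm_num] at e2
    rw [e1]
    refine mul_le_mul_of_nonneg_right ?_ (by positivity)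
    linarith [Real.rpow_pos_of_pos two_pos (δ / 2 * M)]
  · have e2 : (2 : ℝ) ^ (1 + δ / 2 * M) ≤ 2 ^ (η * ((l : ℝ) - w)) :=
      Real.rpow_le_rpow_of_exponent_le one_le_two (by linarith)
    rwa [Real.rpow_add two_pos, Real.rpow_one] at e2

theorem wrapQ_mul {u v : VV Ω ℝ} (hu : Small S u fun _ => 0) (hv : Small S v fun _ => 0) :
    Small S (u * v) fun _ => 0 :=
  (Small.dom2 (U'' := u * v) hu hv 1 fun k ω _ => by
    rw [one_mul]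
    exact norm_mul_le (u k ω) (v k ω)).bdd

theorem wrapQ_bA {A Y g0 g1 sv fv r : VV Ω ℝ} {j0 : ℕ → ℕ}
    (er : r = A - Y - tw Ω j0 * (sv * g0 + fv * g1)) (br : Bdd S r) (bY : Bdd S Y)
    (hsb : Bdd S sv) (hfb : Bdd S fv) (hg0 : Bdd S g0) (hg1 : Bdd S g1) : Bdd S A := by
  have e : A = r + Y + tw Ω j0 * (sv * g0 + fv * g1) := by
    rw [er]
    ring
  rw [e]
  exact Small.add (Small.add br bY) (wrapQ_mul (small_tw S j0).bdd
    ((wrapQ_mul hsb hg0).add (wrapQ_mul hfb hg1)))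

/-- Let `c` come from `engQ` with `σ / 2`. Fix `ε`, get `η, n0`; let `l ≥ c' N`, `w = ⌈δ N⌉` with
`δ` small, `n = l - w`, `j = j0 + l`. Finite data: `Y^ = dz (n + 1) (2 ^ j0 • (Y - dq j0 Y))`,
`F^ = (F, Y[j0], parity of qz (n + 1) (..))` (known from `F`; makes `lat` true),
`G^ = ![dq l g0, dq l g1]`, `T^ = (T, r[j])`, `A^ = A[j]`, on the event `B` of high probability
where the weight is positive, `sv, fv, g0, g1, A, Y, r` are at most `2 ^ (δ N / 2)` and the event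
of `pt_cnt` holds. All entropy hypotheses are first proved with `Le` on `S` (with these
sequences), then moved by `res_whp`. Extend `b, c0` by `0` off `B`. Finally `diag`. -/
theorem wrapQ {σ : ℝ} (hσ : 0 < σ) {F : RV Ω α} {T : RV Ω β} {A Y g0 g1 sv fv : VV Ω ℝ}
    {j0 l : ℕ → ℕ} (hj : Lv N fun k => j0 k + l k) (hb : Big N fun k => l k)
    (hs : DetS S sv (J F T)) (hf : DetS S fv (J F T)) (hsb : Bdd S sv) (hfb : Bdd S fv)
    (hg0 : Bdd S g0) (hg1 : Bdd S g1) (hY : Kn S F (sc Y) j0)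
    (hr : Kn S (J F T) (sc (A - Y - tw Ω j0 * (sv * g0 + fv * g1))) fun k => j0 k + l k)
    (h1 : Le N (H S (Q N (fun k => j0 k + l k) (sc A)) (J F T))
      (H S (Q N (fun k => j0 k + l k) (sc Y)) (J (J F T) (J (Q N l (sc g0)) (Q N l (sc g1))))))
    (h2 : Le N (H S (Q N (fun k => j0 k + l k) (sc Y)) F)
      (H S (Q N (fun k => j0 k + l k) (sc Y)) (J (J F T) (J (Q N l (sc g0)) (Q N l (sc g1))))))
    (h3 : Ind S (J (Q N l (sc g0)) (Q N l (sc g1))) T F)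
    (h4 : Le N (fun k => l k) (H S (Q N l (sc sv)) F))
    (h5 : Le N (fun k => l k) (H S (Q N l (sc g1)) F))
    (h6 : ∀ E, pos S E → Le N (H (S.res E) (Q N (fun k => j0 k + l k) (sc A)) (J F T))
      fun k => (1 - σ) * l k) :
    ∃ (l' : ℕ → ℕ) (b c0 : VV Ω ℝ), (∀ k, l' k ≤ l k) ∧ Big N (fun k => l' k) ∧
      Kw S (J b c0) F ∧ Bdd S b ∧ Bdd S c0 ∧ Small S (fv - sv * b - c0) l' := by
  obtain ⟨c, hc, heng⟩ := engQ (half_pos hσ)
  obtain ⟨c', hc', hb⟩ := hb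
  obtain ⟨r, er⟩ : ∃ r, r = A - Y - tw Ω j0 * (sv * g0 + fv * g1) := ⟨_, rfl⟩
  rw [← er] at hr
  have hl : Lv N l := fun k => (Nat.le_add_left _ _).trans (hj k)
  have br : Bdd S r := small_sc.1 hr.bdd
  have bY : Bdd S Y := small_sc.1 hY.bdd
  have bA : Bdd S A := wrapQ_bA er br bY hsb hfb hg0 hg1
  have key : ∀ ε : ℝ, 0 < ε → ∀ᶠ k in UF, ∃ b c0 : Ω k → ℝ,
      ce (S.s k) (S.P k) (pj b c0) (F k) ≤ ε * N k + 2 ∧
      (∀ ω ∈ S.s k, |b ω| ≤ (2 : ℝ) ^ (ε * N k) ∧ |c0 ω| ≤ (2 : ℝ) ^ (ε * N k)) ∧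
      1 - 2 * ε ≤ ms (S.s k) (S.P k) fun ω =>
        |fv k ω - sv k ω * b ω - c0 ω| ≤ (2 : ℝ) ^ (-(c / 2 * l k)) := fun ε hε => by
    obtain ⟨η, hη, n0, heng⟩ := heng ε hε
    obtain ⟨δ, hδ, d1, d2, d3, d4⟩ : ∃ δ : ℝ, 0 < δ ∧ δ ≤ η * c' / 6 ∧ δ ≤ σ * c' / 6 ∧
        δ ≤ c' / 4 ∧ δ ≤ 1 :=
      ⟨min (min (η * c' / 6) (σ * c' / 6)) (min (c' / 4) 1), by positivity,
        (min_le_left _ _).trans (min_le_left _ _), (min_le_left _ _).trans (min_le_right _ _),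
        (min_le_right _ _).trans (min_le_left _ _), (min_le_right _ _).trans (min_le_right _ _)⟩
    obtain ⟨n, en⟩ : ∃ n : ℕ → ℕ, ∀ k, n k = l k - ⌈δ * N k⌉₊ := ⟨_, fun _ => rfl⟩
    have hn : ∀ k, n k ≤ l k := fun k => en k ▸ Nat.sub_le _ _
    obtain ⟨B1, hB1, hcnt⟩ := pt_cnt h6 hδ
    have hδ2 := half_pos hδ
    obtain ⟨B, hB, eB⟩ : ∃ B : VV Ω Prop, whp S B ∧ ∀ k ω, B k ω → 0 < S.P k ω ∧ B1 k ω ∧
        |A k ω| ≤ (2 : ℝ) ^ (δ / 2 * N k) ∧ |r k ω| ≤ (2 : ℝ) ^ (δ / 2 * N k) ∧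
        |Y k ω| ≤ (2 : ℝ) ^ (δ / 2 * N k) ∧ |g0 k ω| ≤ (2 : ℝ) ^ (δ / 2 * N k) ∧
        |g1 k ω| ≤ (2 : ℝ) ^ (δ / 2 * N k) ∧ |sv k ω| ≤ (2 : ℝ) ^ (δ / 2 * N k) ∧
        |fv k ω| ≤ (2 : ℝ) ^ (δ / 2 * N k) :=
      ⟨_, (whp_weight S).and (hB1.and ((wrapQ_bdd bA hδ2).and ((wrapQ_bdd br hδ2).and
        ((wrapQ_bdd bY hδ2).and ((wrapQ_bdd hg0 hδ2).and ((wrapQ_bdd hg1 hδ2).and
        ((wrapQ_bdd hsb hδ2).and (wrapQ_bdd hfb hδ2)))))))), fun _ _ h => h⟩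
    obtain ⟨e1, e2, e3, e4, e5⟩ := wrapQ_ent (S := S.res B) hn (wrapQ_P j0 n Y)
      (hr.kw.res hB.toPos)
      ((res_whp hB (tame_Q hj _) _).1.trans (h1.trans (res_whp hB (tame_Q hj _) _).2))
      ((res_whp hB (tame_Q hj _) _).1.trans (h2.trans (res_whp hB (tame_Q hj _) _).2))
      (h3.res hB.toPos) (h4.trans (res_whp hB (tame_Q hl _) _).2)
      (h5.trans (res_whp hB (tame_Q hl _) _).2)
    filter_upwards [e1 δ hδ, e2 δ hδ, e3 δ hδ, e4 δ hδ, e5 δ hδ, res_ev hB.toPos, hb,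
      asyB_ev S hδ 8, asyB_ev S hc' (2 * n0), hB.eventually (lt_mem_nhds one_pos),
      hB.eventually (lt_mem_nhds (sub_lt_self 1 hε))] with k e1 e2 e3 e4 e5 ⟨es, ep⟩ hb h8 hn0 hB0
      hB1
    obtain ⟨m1, m2, m3, m4, m5, m6⟩ := wrapQ_num hσ hη (Nat.cast_nonneg (N k)) d1 d2 d3 hb h8 rfl
    rw [← en k] at m1 m2 m3 m4 m5 m6
    have hN : (0 : ℝ) ≤ N k := Nat.cast_nonneg _
    have hnN : (n k : ℝ) ≤ N k := by exact_mod_cast (hn k).trans (hl k)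
    have hmem : ∀ ω ∈ (S.res B).s k, B k ω := fun ω hω => (mem_rs.1 (es ▸ hω)).2
    obtain ⟨E1, E2, E3⟩ := wrapQ_eng (S := S.res B) (k := k) (e := η * n k) er (hs.res B) (hf.res B)
      (fun ω hω => by rw [ep]; exact div_pos (eB k ω (hmem ω hω)).1 hB0)
      (fun ω hω => (eB k ω (hmem ω hω)).2.2) (Real.one_le_rpow one_le_two (by positivity))
      (by
        rw [← Real.rpow_natCast]
        exact Real.rpow_le_rpow_of_exponent_le one_le_two (by nlinarith))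
      m5 m6 hn rfl rfl (by linarith) (by linarith) (by linarith) (by linarith) (by linarith)
    obtain ⟨b, c0, r1, r2, r3⟩ := heng (n k) (by
      have : (n0 : ℝ) ≤ n k := by linarith
      exact_mod_cast this) _ _ _ _ _ _ _ _ _ E1 E2 E3 fun ω hω => by
        rw [es] at hω ⊢
        refine le_trans ?_ ((hcnt k ω (mem_rs.1 hω).1).trans
          (Real.rpow_le_rpow_of_exponent_le one_le_two m4))
        refine Nat.cast_le.2 (wrapQ_cnt (fun ω h => (eB k ω h).2.1) _ (fun ω ω' e => ?_) ω)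
        exact Prod.ext (Prod.mk.inj (Prod.mk.inj e).1).1 (Prod.mk.inj (Prod.mk.inj e).2).1
    have hεN : ε * n k ≤ ε * N k := mul_le_mul_of_nonneg_left hnN hε.le
    have hpw := Real.rpow_le_rpow_of_exponent_le one_le_two hεN
    have hR := (S.res B).isP k
    rw [es] at r2
    rw [es, ep] at r1 r3 hR
    refine wrapQ_ext (S.isP k) hB0 (by positivity) (r1.trans hεN)
      (fun ω hω => ⟨(r2 ω hω).1.trans hpw, (r2 ω hω).2.trans hpw⟩) hB1.le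
      (r3.trans (ms_imp hR fun ω _ h => h.trans ?_))
    exact Real.rpow_le_rpow_of_exponent_le one_le_two (by nlinarith)
  obtain ⟨u, -, hu, hk⟩ := diag key
  have hch : ∀ k, ∃ b c0 : Ω k → ℝ, (∃ b c0 : Ω k → ℝ,
      ce (S.s k) (S.P k) (pj b c0) (F k) ≤ u k * N k + 2 ∧
      (∀ ω ∈ S.s k, |b ω| ≤ (2 : ℝ) ^ (u k * N k) ∧ |c0 ω| ≤ (2 : ℝ) ^ (u k * N k)) ∧
      1 - 2 * u k ≤ ms (S.s k) (S.P k) fun ω =>
        |fv k ω - sv k ω * b ω - c0 ω| ≤ (2 : ℝ) ^ (-(c / 2 * l k))) →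
      ce (S.s k) (S.P k) (pj b c0) (F k) ≤ u k * N k + 2 ∧
      (∀ ω ∈ S.s k, |b ω| ≤ (2 : ℝ) ^ (u k * N k) ∧ |c0 ω| ≤ (2 : ℝ) ^ (u k * N k)) ∧
      1 - 2 * u k ≤ ms (S.s k) (S.P k) fun ω =>
        |fv k ω - sv k ω * b ω - c0 ω| ≤ (2 : ℝ) ^ (-(c / 2 * l k)) := fun k => by
    by_cases h : ∃ b c0 : Ω k → ℝ, ce (S.s k) (S.P k) (pj b c0) (F k) ≤ u k * N k + 2 ∧
        (∀ ω ∈ S.s k, |b ω| ≤ (2 : ℝ) ^ (u k * N k) ∧ |c0 ω| ≤ (2 : ℝ) ^ (u k * N k)) ∧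
        1 - 2 * u k ≤ ms (S.s k) (S.P k) fun ω =>
          |fv k ω - sv k ω * b ω - c0 ω| ≤ (2 : ℝ) ^ (-(c / 2 * l k))
    · obtain ⟨b, c0, h⟩ := h
      exact ⟨b, c0, fun _ => h⟩
    · exact ⟨0, 0, fun h' => (h h').elim⟩
  choose b c0 hbc using hch
  replace hk := hk.mono hbc
  have hm : 0 < min 1 (c / 2) := by positivity
  have hpw : ∀ ε : ℝ, 0 < ε → ∀ᶠ k in UF, ∀ ω ∈ S.s k,
      ‖b k ω‖ ≤ (2 : ℝ) ^ (ε * N k - (0 : ℕ)) ∧ ‖c0 k ω‖ ≤ (2 : ℝ) ^ (ε * N k - (0 : ℕ)) :=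
    fun ε hε => by
      filter_upwards [hk, hu.eventually (gt_mem_nhds hε)] with k h1 h2 ω hω
      have : (2 : ℝ) ^ (u k * N k) ≤ 2 ^ (ε * N k - (0 : ℕ)) :=
        Real.rpow_le_rpow_of_exponent_le one_le_two (by
          rw [Nat.cast_zero, sub_zero]
          exact mul_le_mul_of_nonneg_right h2.le (Nat.cast_nonneg _))
      exact ⟨(h1.2.1 ω hω).1.trans this, (h1.2.1 ω hω).2.trans this⟩
  refine ⟨fun k => ⌊min 1 (c / 2) * l k⌋₊, b, c0, fun k => ?_, ⟨min 1 (c / 2) * c' / 2,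
    by positivity, ?_⟩, fun ε hε => ?_,
    fun ε hε => whp.of_all ((hpw ε hε).mono fun k h ω hω => (h ω hω).1),
    fun ε hε => whp.of_all ((hpw ε hε).mono fun k h ω hω => (h ω hω).2), Small.of_whp ?_⟩
  · exact Nat.floor_le_of_le (mul_le_of_le_one_left (Nat.cast_nonneg _) (min_le_left _ _))
  · filter_upwards [hb, asyB_ev S (mul_pos hm hc') 2] with k h1 h2
    have a1 := Nat.lt_floor_add_one (min 1 (c / 2) * l k)
    have a2 := mul_le_mul_of_nonneg_left h1 hm.le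
    linarith
  · filter_upwards [hk, hu.eventually (gt_mem_nhds (half_pos hε)), asyB_ev S (half_pos hε) 2]
      with k h1 h2 h3
    have a1 := mul_le_mul_of_nonneg_right h2.le (Nat.cast_nonneg (α := ℝ) (N k))
    have a2 : H S (J b c0) F k ≤ u k * N k + 2 := h1.1
    linarith
  · have ht : Tendsto (fun k => 1 - 2 * u k) UF (𝓝 1) := by
      simpa using (hu.const_mul 2).const_sub 1
    refine tendsto_of_tendsto_of_tendsto_of_le_of_le' ht tendsto_const_nhds ?_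
      (Eventually.of_forall fun k => wrapQ_le_one (S.isP k) _)
    filter_upwards [hk] with k h1
    refine h1.2.2.trans (ms_imp (S.isP k) fun ω _ h => h.trans ?_)
    have a1 : (⌊min 1 (c / 2) * l k⌋₊ : ℝ) ≤ c / 2 * l k :=
      (Nat.floor_le (by positivity)).trans
        (mul_le_mul_of_nonneg_right (min_le_right _ _) (Nat.cast_nonneg _))
    refine (Real.rpow_le_rpow_of_exponent_le one_le_two (neg_le_neg a1)).trans ?_
    rw [Real.rpow_neg zero_le_two, Real.rpow_natCast, ← one_div]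
    gcongr
    norm_num

end Vale.Agent.P127S
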