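import Vale.Agent.P127S.K1A0
import Vale.Agent.P127S.WrapQ

/-! Two saturated directions: the engine step. -/

open Real Finset Filter Topology Vale.Agent.P118O

noncomputable section

namespace Vale.Agent.P127S

variable {N : ℕ → ℕ} {Ω γ δ : ℕ → Type} {S : Sp N Ω} {L : Ln Ω} {D1 : RV Ω δ} {D2 : RV Ω γ}
  {P1 P2 R : VV Ω M3} {I : Finset (Fin 3)} {σ : ℝ} {b e : ℕ → ℕ} {t2 s : VV Ω ℝ} {W : VV Ω V3}

theorem k2a0_idx (hI : I.card = 2) : ∃ m : Fin 3, m ∉ I ∧ ∀ l, l ≠ m → l ∈ I := by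
  revert I
  decide

theorem k2a0_min {f g : ℕ → ℕ} (hf : Big N fun k => f k) (hg : Big N fun k => g k) :
    Big N fun k => (min (f k) (g k) : ℕ) := by
  obtain ⟨c, hc, h1⟩ := hf
  obtain ⟨c', hc', h2⟩ := hg
  refine ⟨min c c', lt_min hc hc', ?_⟩
  filter_upwards [h1, h2] with k a1 a2
  have hN : (0 : ℝ) ≤ N k := Nat.cast_nonneg _
  push_cast
  exact le_min ((mul_le_mul_of_nonneg_right (min_le_left _ _) hN).trans a1)
    ((mul_le_mul_of_nonneg_right (min_le_right _ _) hN).trans a2)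

theorem k2a0_zero {E : Type} [NormedAddCommGroup E] {U : VV Ω E} (j : ℕ → ℕ)
    (h : ∀ k ω, U k ω = 0) : Small S U j :=
  Small.of_le (Eventually.of_forall fun k ω _ => by rw [h, norm_zero]; positivity)

/-- a vector supported at one coordinate is known from it -/
theorem k2a0_supp {α : ℕ → Type} {Z : RV Ω α} {X : VV Ω V3} {j : ℕ → ℕ} {m : Fin 3} (hj : Lv N j)
    (h0 : ∀ k ω l, l ≠ m → X k ω l = 0) (h : Kn S Z (sc (co X m)) j) : Kn S Z X j := by
  refine Kn.pi fun l => ?_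
  by_cases hl : l = m
  · rwa [hl]
  · have a1 : Small S (sc (co X l)) j := k2a0_zero j fun k ω => funext fun _ => h0 k ω l hl
    exact Kn.of_small hj a1 Z

theorem k2a0_one (h : PairSt S L t2 D1 D2 P1 P2 I σ b) (hI : I.card = 2)
    (hn : ∀ k, e k + b k ≤ L.n k) (hbe : ∀ k, b k ≤ e k) (big : Big N fun k => b k)
    (hR : Mat S (J D1 D2) R I) (hRs : Small S R e) (hW : Kn S (J D1 (L.p N b)) W b)
    (hs : DetS S s (J D1 D2)) (hsb : Bdd S s)
    (hu : Le N (fun k => b k) (H S (Q N b (sc s)) (J (L.p N L.n) D1)))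
    (hr : Kn S (J (J D1 (Q N e (ph P1 L.x))) D2)
      (ph P2 (L.wt t2).x - ph P1 L.x + MV R L.x - sm (tw Ω e) (sm s W)) fun k => e k + b k)
    {m i : Fin 3} (hm : ∀ l, l ≠ m → l ∈ I) (hi : i ∈ I) :
    ∃ (l' : ℕ → ℕ) (u c0 : VV Ω ℝ), (∀ k, l' k ≤ b k) ∧ Big N (fun k => l' k) ∧
      Kw S (J u c0) (J D1 (L.p N L.n)) ∧ Bdd S u ∧ Bdd S c0 ∧
      Small S ((fun k ω => -(2 ^ e k * R k ω m i)) - s * u - c0) l' := by
  have s1 := h.st1
  have c1 := s1.cfg
  have hj : Lv N fun k => e k + b k := c1.lev hn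
  have hej : ∀ k, e k ≤ e k + b k := fun k => Nat.le_add_right _ _
  have hen : ∀ k, e k ≤ L.n k := fun k => (hej k).trans (hn k)
  have hbn : ∀ k, b k ≤ L.n k := h.hb
  have he : Lv N e := c1.lev hen
  have hx : Bdd S L.x := c1.bdd.2.2.2
  have hy1 : Bdd S (ph P1 L.x) := regb1_by s1
  have hq : qd σ I = 1 - σ := by
    rw [qd, hI]
    push_cast
    ring
  generalize hF : J (J D1 (Q N e (ph P1 L.x))) (Q N b (msk (I.erase i) L.x)) = F
  have f1 : DetS S (J D1 (Q N e (ph P1 L.x))) F := hF ▸ (DetS.refl _).left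
  have f2 : DetS S (Q N b (msk (I.erase i) L.x)) F := hF ▸ (DetS.refl _).right
  have fD : DetS S D1 F := (DetS.refl D1).left.trans f1
  have fy : Kn S F (ph P1 L.x) e := (Kn.self hy1 e).mono ((DetS.refl _).right.trans f1).kw
  have fT : DetS S (J D1 D2) (J F D2) := fD.left.pair (DetS.refl D2).right
  have hr' := hr.mono (Z' := J F D2) (f1.left.pair (DetS.refl D2).right).kw
  have gF : ∀ {α : ℕ → Type} {Z : RV Ω α} {j : ℕ → ℕ}, (∀ k, e k ≤ j k) → DetS S D1 Z →
      DetS S (L.p N j) Z → Kw S F Z ∧ Kw S (J (Q N b (sc (co W m))) (Q N b (sc (co L.x i)))) Z := by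
    intro α Z j h1 h2 h3
    have pe : Kw S (L.p N e) Z := ((det_p h1).trans h3).kw
    have pb : Kw S (L.p N b) Z := ((det_p fun k => (hbe k).trans (h1 k)).trans h3).kw
    have kx : Kn S Z L.x b := c1.kn_x hbn h2 pb
    refine ⟨?_, ((hW.mono (h2.kw.pair pb)).coord m).kw.pair (kx.coord i).kw⟩
    rw [← hF]
    exact (h2.kw.pair (regb1_y s1 hen h2 pe).kw).pair (kx.mask _).kw
  obtain ⟨gn1, gn2⟩ := gF (Z := J D1 (L.p N L.n)) hen (DetS.refl _).left (DetS.refl _).right
  obtain ⟨ge1, ge2⟩ := gF (Z := J (J D1 D2) (L.p N e)) (fun k => le_rfl) (DetS.refl _).left.left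
    (DetS.refl _).right
  have ky2 : Kn S (J F D2) (ph P2 (L.wt t2).x) e := by
    have a1 : Small S (MV R L.x) fun k => e k + 0 := Small.mv (j := fun _ => 0) hRs hx
    have a0 : Small S (sm s W) fun _ => 0 + 0 :=
      Small.smul (b := fun _ => 0) (b' := fun _ => 0) hsb hW.bdd
    have a2 : Small S (sm (tw Ω e) (sm s W)) fun k => e k + (0 + 0) :=
      Small.smul (b' := fun _ => 0 + 0) (small_tw S e) a0
    have a3 := (((hr'.lev hej).add he (fy.mono (Kw.refl F).left)).sub he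
      (Kn.of_small (j := e) he a1 _)).add he (Kn.of_small (j := e) he a2 _)
    refine a3.eqs fun k ω _ => ?_
    simp only [Pi.add_apply, Pi.sub_apply]
    abel
  have low : Le N (fun k => (1 - σ) * b k) (H S (Q N (fun k => e k + b k) (sc (co (ph P1 L.x) m)))
      (J (J F D2) (J (Q N b (sc (co W m))) (Q N b (sc (co L.x i)))))) := by
    have a1 := r2w c1 s1.lb (h.cw hen) (s1.pj.mono (DetS.refl D1).left) hej hn
    have a2 := k2a0_supp hj (fun k ω l hl => s1.pj.ph_supp L.x k ω (hm l hl))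
      (Kn.self ((Kn.zero hy1 D1).coord m).bdd fun k => e k + b k)
    have a3 := H_kw (W := J (J D1 D2) (L.p N e)) a2.kw.left
      ((ge1.pair (DetS.refl D2).right.left.kw).pair ge2)
    refine (a1.trans a3).lin fun k => ?_
    rw [hq]
    push_cast
    linarith
  have h6 : ∀ {S' : Sp N Ω}, St S' (L.wt t2) D2 P2 I σ → Kn S' (J F D2) (ph P2 (L.wt t2).x) e →
      Le N (H S' (Q N (fun k => e k + b k) (sc (co (ph P2 (L.wt t2).x) m))) (J F D2))
        fun k => (1 - σ) * b k := by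
    intro S' s2 k2
    refine (s2.r3' hej hn (Kw.refl D2).right k2).lin fun k => ?_
    have := H_mono (S := S') (det_Q_co (fun k => e k + b k) (ph P2 (L.wt t2).x) m).left
      (DetS.refl (J F D2)) k
    rw [hq]
    push_cast
    linarith
  have hfb : Bdd S fun k ω => -(2 ^ e k * R k ω m i) :=
    (((Small.zoom (b := e) (b' := fun _ => 0) hRs).coord m).coord i).neg
  refine (wrapQ s1.hσ (F := F) (T := D2)
    (A := co (ph P2 (L.wt t2).x) m) (Y := co (ph P1 L.x) m) (g0 := co W m) (g1 := co L.x i)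
    (sv := s) (fv := fun k ω => -(2 ^ e k * R k ω m i)) (j0 := e) (l := b) hj big (hs.trans fT)
    ((hR.det.trans fT).map fun k M => -(2 ^ e k * M m i)) hsb hfb (hW.bdd.coord m) (hx.coord i)
    (fy.coord m) ?_ ((h6 h.st2 ky2).trans low) ?_ (h.ind fD.kw gn1 gn2) ?_ ?_
    fun E hE => h6 (h.res hE).st2 (ky2.res hE)).imp fun l' => Exists.imp fun u => Exists.imp
      fun c0 r => ⟨r.1, r.2.1, r.2.2.1.trans gn1, r.2.2.2⟩
  · have a1 : Kn S (J F D2) (MV R (msk (I.erase i) L.x)) fun k => e k + b k :=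
      Kn.mv hj (hR.det.trans fT) hRs ((Kn.self (regb1_bm s1 _) b).mono f2.left.kw)
        fun k => (Nat.add_comm _ _).le
    refine ((hr'.sub hj a1).coord m).eqs fun k ω _ => funext fun _ => ?_
    have e1 : MV R L.x k ω m - MV R (msk (I.erase i) L.x) k ω m = R k ω m i * L.x k ω i := by
      simp only [MV, msk, ← Finset.sum_sub_distrib]
      rw [Finset.sum_eq_single i (fun l _ hl => ?_) (by simp)]
      · simp
      · by_cases hlI : l ∈ I
        · simp [hl, hlI]
        · simp [hR.col k ω m l hlI]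
    have e2 : (2 : ℝ) ^ e k ≠ 0 := by positivity
    simp only [sc, co, sm, tw, Pi.sub_apply, Pi.add_apply, Pi.mul_apply, Pi.smul_apply,
      smul_eq_mul]
    rw [eq_add_of_sub_eq e1]
    field_simp
    ring
  · refine Le.trans ?_ low
    refine (s1.r3' hej hn fD.kw fy).lin fun k => ?_
    have := H_mono (S := S) (det_Q_co (fun k => e k + b k) (ph P1 L.x) m).left (DetS.refl F) k
    rw [hq]
    push_cast
    linarith
  · exact hu.trans (H_kw (Kw.refl _).left
      (gn1.trans ((DetS.refl D1).right.pair (DetS.refl _).left).kw))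
  · have a1 := s1.r5' (c1.cw_self (j := fun _ => 0) fun k => Nat.zero_le _)
      (fun k => Nat.zero_le _) hbe hen hi
    refine a1.lin fun k => ?_
    have := H_mono (S := S) (DetS.refl (Q N b (sc (co L.x i)))).left (Y := F)
      (W := J (J (J D1 (L.p N fun _ => 0)) (Q N e (ph P1 L.x))) (Q N b (msk (I.erase i) L.x)))
      (hF ▸ ((DetS.refl D1).left.left.left.pair (DetS.refl _).right.left).pair
        (DetS.refl _).right) k
    push_cast
    linarith

/-- Let `m` be the index outside `I`. For each `i ∈ I` apply `wrapQ` with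
`F = ((D1, y1[e]), (msk (I.erase i) x)[b])`, `T = D2`, `j0 = e`, `l = b`, `A = y2 m`, `Y = y1 m`,
`g0 = W m`, `g1 = x i`, `fv = -2 ^ e * R m i`. `h1, h2, h6` by `St.r3'` (`y2` is known at level `e`
from `F, D2` by `hr`) and `r2w` with `PairSt.cw` at level `e` (`qd σ I = 1 - σ`; `y1`, `y2` are
supported at `m`), `h3` by `PairSt.ind`, `h5` by `St.r5'` with `j1 = 0`. Put `B m i = -b_i`,
`C0 m i = -c0_i`. -/
theorem k2_lin (h : PairSt S L t2 D1 D2 P1 P2 I σ b) (hI : I.card = 2)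
    (hn : ∀ k, e k + b k ≤ L.n k) (hbe : ∀ k, b k ≤ e k) (big : Big N fun k => b k)
    (hR : Mat S (J D1 D2) R I) (hRs : Small S R e) (hW : Kn S (J D1 (L.p N b)) W b)
    (hs : DetS S s (J D1 D2)) (hsb : Bdd S s)
    (hu : Le N (fun k => b k) (H S (Q N b (sc s)) (J (L.p N L.n) D1)))
    (hr : Kn S (J (J D1 (Q N e (ph P1 L.x))) D2)
      (ph P2 (L.wt t2).x - ph P1 L.x + MV R L.x - sm (tw Ω e) (sm s W)) fun k => e k + b k) :
    ∃ (l : ℕ → ℕ) (B C0 : VV Ω M3), (∀ k, l k ≤ b k) ∧ Big N (fun k => l k) ∧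
      Mat S (J B C0) B I ∧ Mat S (J B C0) C0 I ∧ Kw S (J B C0) (J D1 (L.p N L.n)) ∧
      Small S (R - sm (tw Ω e) (sm s B + C0)) fun k => e k + l k := by
  obtain ⟨m, hmI, hm⟩ := k2a0_idx hI
  have key : ∀ i : Fin 3, ∃ (l' : ℕ → ℕ) (u c0 : VV Ω ℝ), ((∀ k, l' k ≤ b k) ∧
      Big N (fun k => l' k) ∧ Kw S (J u c0) (J D1 (L.p N L.n)) ∧ Bdd S u ∧ Bdd S c0 ∧
      Small S ((fun k ω => -(2 ^ e k * R k ω m i)) - s * u - c0) l') ∧
      (i ∉ I → u = 0 ∧ c0 = 0) := by
    intro i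
    by_cases hi : i ∈ I
    · obtain ⟨l', u, c0, r⟩ := k2a0_one h hI hn hbe big hR hRs hW hs hsb hu hr hm hi
      exact ⟨l', u, c0, r, fun h => absurd hi h⟩
    · refine ⟨b, 0, 0, ⟨fun k => le_rfl, big, (DetS.const fun _ => ((0 : ℝ), (0 : ℝ))).kw,
        k2a0_zero _ fun _ _ => rfl, k2a0_zero _ fun _ _ => rfl, k2a0_zero _ fun k ω => ?_⟩,
        fun _ => ⟨rfl, rfl⟩⟩
      simp [hR.col k ω m i hi]
  choose l u c0 hk h0 using key
  have mat : ∀ {α : ℕ → Type} {Z : RV Ω α} (v : Fin 3 → VV Ω ℝ), (∀ i, Bdd S (v i)) →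
      (∀ i ∉ I, v i = 0) → DetS S (fun k ω r i => if r = m then -v i k ω else 0) Z →
      Mat S Z (fun k ω r i => if r = m then -v i k ω else 0) I := by
    intro α Z v h1 h2 h3
    refine ⟨h3, Small.pi fun r => Small.pi fun i => ?_, fun k ω r i hi => ?_,
      fun k ω r hr i => if_neg fun hrm : r = m => hmI (hrm ▸ hr)⟩
    · by_cases hr : r = m
      · simp only [if_pos hr]
        exact (h1 i).neg
      · exact k2a0_zero _ fun k ω => if_neg hr
    · simp [h2 i hi]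
  refine ⟨fun k => min (l 0 k) (min (l 1 k) (l 2 k)),
    fun k ω r i => if r = m then -u i k ω else 0, fun k ω r i => if r = m then -c0 i k ω else 0,
    fun k => (min_le_left _ _).trans ((hk 0).1 k),
    k2a0_min (hk 0).2.1 (k2a0_min (hk 1).2.1 (hk 2).2.1),
    mat u (fun i => (hk i).2.2.2.1) (fun i hi => (h0 i hi).1) (DetS.refl _).left,
    mat c0 (fun i => (hk i).2.2.2.2.1) (fun i hi => (h0 i hi).2) (DetS.refl _).right, ?_,
    Small.pi fun r => Small.pi fun i => ?_⟩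
  · refine Kw.trans (DetS.kw fun k ω hω ω' hω' hh => ?_)
      ((hk 0).2.2.1.pair ((hk 1).2.2.1.pair (hk 2).2.2.1))
    simp only [J, pj, Prod.mk.injEq] at hh ⊢
    obtain ⟨⟨a0, b0⟩, ⟨a1, b1⟩, a2, b2⟩ := hh
    refine ⟨funext fun r => funext fun i => ?_, funext fun r => funext fun i => ?_⟩
    · fin_cases i <;> simp [a0, a1, a2]
    · fin_cases i <;> simp [b0, b1, b2]
  · by_cases hr : r = m
    · have hl : Le N (fun k => ((min (l 0 k) (min (l 1 k) (l 2 k)) : ℕ) : ℝ)) fun k => l i k := by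
        refine Le.of_le fun k => Nat.cast_le.2 ?_
        fin_cases i <;> simp
      refine ((small_tw S e).smul ((hk i).2.2.2.2.2.mono hl)).neg.congr
        (whp.of_all (Eventually.of_forall fun k ω _ => ?_))
      have e2 : (2 : ℝ) ^ e k ≠ 0 := by positivity
      simp only [sm, tw, Pi.sub_apply, Pi.add_apply, Pi.mul_apply, Pi.smul_apply, Pi.neg_apply,
        smul_eq_mul, hr, if_true]
      field_simp
      ring
    · refine k2a0_zero _ fun k ω => ?_
      simp [sm, hr, hR.row k ω r (hm r hr) i]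

end Vale.Agent.P127S
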