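import Vale.Agent.P127S.K2A

/-! Two saturated directions: first and second order relations. -/

open Real Finset Filter Topology Vale.Agent.P118O

noncomputable section

namespace Vale.Agent.P127S

variable {N : ℕ → ℕ} {Ω δ : ℕ → Type} {S : Sp N Ω} {L : Ln Ω} {D : RV Ω δ} {P B : VV Ω M3}
  {I : Finset (Fin 3)} {σ : ℝ}

theorem k2b_big (hN : Tendsto N UF atTop) {n : ℕ → ℕ} (h : Big N fun k => n k) {d : ℕ}
    (hd : 0 < d) : Big N fun k => (n k / d : ℕ) := by
  have hd' : (0 : ℝ) < d := Nat.cast_pos.2 hd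
  refine h.mono (c := 1 / d) (by positivity) ((Le.refl fun _ => 0).linc hN 1 fun k => ?_)
  have h1 : n k < d * (n k / d + 1) := Nat.lt_mul_div_succ _ hd
  have h2 : (n k : ℝ) < d * ((n k / d : ℕ) + 1) := by exact_mod_cast h1
  have h3 : 1 / (d : ℝ) * n k ≤ (n k / d : ℕ) + 1 := by
    rw [one_div, inv_mul_le_iff₀ hd']
    exact h2.le
  linarith

theorem k2b_one {γ : ℕ → Type} {D2 : RV Ω γ} {t2 : VV Ω ℝ} {P2 : VV Ω M3} {b : ℕ → ℕ}
    (h : PairSt S L t2 D D2 P P2 I σ b) (hI : I.card = 2) (hn : ∀ k, b k + b k ≤ L.n k)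
    (big : Big N fun k => b k) :
    ∃ (Ω' δ' : ℕ → Type) (S' : Sp N Ω') (L' : Ln Ω') (D' : RV Ω' δ') (P' B' : VV Ω' M3),
      St2 S' L' D' P' I σ B' := by
  have c := h.st1.cfg
  have hRs := (lip h).resolve_right (by rw [hI]; exact not_has3 σ)
  have hR : Mat S (J D D2) (P2 - P) I :=
    (h.st2.pj.mono (DetS.refl _).right).sub (h.st1.pj.mono (DetS.refl _).left)
  have hW : Kn S (J D (L.p N b)) (ph P L.θ) b :=
    (c.kn_θ (Kw.refl _).right).tr (c.lev h.hb) h.st1.pj.det.left h.st1.pj.bdd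
  have e1 : ph P2 (L.wt t2).x - ph P L.x + MV (P2 - P) L.x -
      sm (tw Ω b) (sm (fun k ω => dT L t2 b k ω ^ 1) (ph P L.θ)) =
      -sm (t2 - L.t) (MV (P2 - P) L.θ) := by
    have e2 : sm (tw Ω b) (sm (fun k ω => dT L t2 b k ω ^ 1) (ph P L.θ)) =
        sm (t2 - L.t) (ph P L.θ) := by
      rw [← dT_eq L t2 b]
      funext k ω
      simp only [sm, pow_one, smul_smul, smul_eq_mul]
    rw [pair_id, e2]
    abel
  have hs : Small S (-sm (t2 - L.t) (MV (P2 - P) L.θ)) fun k => b k + b k :=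
    (h.small.smul (hRs.mv c.bdd.2.1)).neg
  obtain ⟨Ω', δ', S', m, D', B', l, -, st, -, mat, hl, bigl, kn⟩ :=
    k2_step h hI hn (fun _ => le_rfl) big hR hRs hW (fun k ω a ha => h.st1.pj.ph_supp _ k ω ha)
      (r := 1) le_rfl (by rw [e1]; exact Kn.of_small (c.lev hn) hs _)
  have hln : ∀ k, l k ≤ (L.pull m).n k := fun k => (hl k).trans (h.hb k)
  refine ⟨Ω', δ', S', _, D', _, B', St2.cut st hln bigl mat (st.knall hl h.hb (fun i hi => ?_) kn)⟩
  have hin : ∀ k, i k ≤ (L.pull m).n k := fun k => (hi k).trans (hln k)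
  have lv := st.cfg.lev hin
  exact ((st.cfg.kn_θ (Kw.refl _).right).tr lv st.pj.det.left st.pj.bdd).sub lv
    ((st.cfg.kn_x hin (DetS.refl _).left (Kw.refl _).right).mv lv mat.det.left mat.bdd
      fun _ => le_rfl)

theorem k2b_two {γ : ℕ → Type} {D2 : RV Ω γ} {t2 : VV Ω ℝ} {P2 : VV Ω M3} {b : ℕ → ℕ}
    (h : PairSt S L t2 D D2 P P2 I σ b) (h2 : St2 S L D P I σ B) (hI : I.card = 2)
    (hn : ∀ k, 2 * b k + b k ≤ L.n k) (big : Big N fun k => b k) :
    ∃ (Ω' δ' : ℕ → Type) (S' : Sp N Ω') (L' : Ln Ω') (D' : RV Ω' δ') (P' B' B2 : VV Ω' M3),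
      St3 S' L' D' P' I σ B' B2 := by
  have c := h.st1.cfg
  have hn2 : ∀ k, 2 * b k ≤ L.n k := fun k => (Nat.le_add_right _ _).trans (hn k)
  have hRs := (c11 h h2 hn2).resolve_right (by rw [hI]; exact not_has3 σ)
  have hu : DetS S (t2 - L.t) (J D D2) :=
    DetS.map2 (X := t2) (Y := L.t) h.st2.cfg.dt.right c.dt.left fun _ (a b : ℝ) => a - b
  have hR : Mat S (J D D2) (P2 - P - sm (t2 - L.t) B) I :=
    ((h.st2.pj.mono (DetS.refl _).right).sub (h.st1.pj.mono (DetS.refl _).left)).sub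
      ((h2.mat.mono (DetS.refl _).left).smul hu h.small.bdd)
  have hW : Kn S (J D (L.p N b)) (-MV B L.θ) b :=
    ((c.kn_θ (Kw.refl _).right).mv (c.lev h.hb) h2.mat.det.left h2.mat.bdd fun _ => le_rfl).neg
      (c.lev h.hb)
  have e1 : ph P2 (L.wt t2).x - ph P L.x + MV (P2 - P - sm (t2 - L.t) B) L.x -
      sm (tw Ω fun k => 2 * b k) (sm (fun k ω => dT L t2 b k ω ^ 2) (-MV B L.θ)) =
      sm (t2 - L.t) (ph P L.θ - MV B L.x) -
        sm (t2 - L.t) (MV (P2 - P - sm (t2 - L.t) B) L.θ) := by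
    have e2 : sm (tw Ω fun k => 2 * b k) (sm (fun k ω => dT L t2 b k ω ^ 2) (-MV B L.θ)) =
        sm (t2 - L.t) (sm (t2 - L.t) (-MV B L.θ)) := by
      funext k ω
      simp only [sm, tw, dT, smul_smul, Pi.sub_apply]
      congr 1
      rw [mul_comm 2, pow_mul]
      field_simp
    rw [e2, wt_x]
    funext k ω i
    simp only [MV, ph, sm, Pi.sub_apply, Pi.add_apply, Pi.neg_apply, Pi.smul_apply, smul_eq_mul,
      Fin.sum_univ_three]
    ring
  have hs : Small S (sm (t2 - L.t) (MV (P2 - P - sm (t2 - L.t) B) L.θ)) fun k => 2 * b k + b k :=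
    asyc_lev (h.small.smul (hRs.mv c.bdd.2.1)) fun k => by omega
  have hu' : DetS S (t2 - L.t) (J (J D (Q N (fun k => 2 * b k) (ph P L.x))) D2) :=
    hu.trans ((DetS.refl _).left.left.pair (DetS.refl _).right)
  have hk := (Kn.smul (c.lev hn) hu' h.small ((h2.rel _ hn2).mono (Kw.refl _).left)
    fun _ => le_rfl).sub (c.lev hn) (Kn.of_small (c.lev hn) hs _)
  obtain ⟨Ω', δ', S', m, D', B', l, ex, st, hD, mat, hl, bigl, kn⟩ :=
    k2_step h hI (e := fun k => 2 * b k) hn (fun _ => by omega) big hR hRs hW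
      (fun k ω a ha => by simp [MV, h2.mat.row k ω a ha]) (r := 2) one_le_two
      (by rw [e1]; exact hk)
  have hln : ∀ k, l k ≤ (L.pull m).n k := fun k => (hl k).trans (h.hb k)
  have mB : Mat S' D' (pl m B) I := (h2.mat.pull ex).mono hD
  have st2 : St2 S' (L.pull m) D' (pl m P) I σ (pl m B) := ⟨st, mB, (h2.rel.pull ex).ext hD⟩
  have e3 : MV (pl m B) (L.pull m).θ + MV B' (L.pull m).x =
      -(pl m (-MV B L.θ) - MV B' (pl m L.x)) := by
    rw [neg_sub, sub_eq_add_neg, add_comm]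
    congr 1
    exact (neg_neg _).symm
  refine ⟨Ω', δ', S', _, D', _, _, B', St3.cut st2 hln bigl mat
    (st.knall (j3 := fun k => 2 * b k) (fun k => (hl k).trans (by omega)) hn2 (fun i hi => ?_)
      (by rw [e3]; exact kn.neg (st.cfg.lev hln)))⟩
  have hin : ∀ k, i k ≤ (L.pull m).n k := fun k => (hi k).trans (hln k)
  have lv := st.cfg.lev hin
  exact ((st.cfg.kn_θ (Kw.refl _).right).mv lv mB.det.left mB.bdd fun _ => le_rfl).add lv
    ((st.cfg.kn_x hin (DetS.refl _).left (Kw.refl _).right).mv lv mat.det.left mat.bdd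
      fun _ => le_rfl)

/-- `pair_ex` with `b = n / 2`, `lip`, `k2_step` with `e = b`, `R = P2 - P1`, `W = ph P1 θ`,
`r = 1` (`pair_id`); `St.knall`, `St2.cut`. -/
theorem k2a (h : St S L D P I σ) (hI : I.card = 2) :
    ∃ (Ω' δ' : ℕ → Type) (S' : Sp N Ω') (L' : Ln Ω') (D' : RV Ω' δ') (P' B' : VV Ω' M3),
      St2 S' L' D' P' I σ B' := by
  exact k2b_one (pair_ex (b := fun k => L.n k / 2) h fun k => Nat.div_le_self _ _) hI
    (fun k => show L.n k / 2 + L.n k / 2 ≤ L.n k by omega) (k2b_big S.big h.cfg.big two_pos)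

/-- `pair_ex` with `b = n / 3`, `St2.pull`, `c11`, `k2_step` with `e = 2 b`, `R = P2 - P1 - u B`,
`W = -B θ`, `r = 2`: the remainder is `u ψ - u R θ`. Then `St.knall` for `B θ + B2 x`
(`Kn.neg`), `KnAll.pull`, `KnAll.ext`, `St3.cut`. -/
theorem k2b (h : St2 S L D P I σ B) (hI : I.card = 2) :
    ∃ (Ω' δ' : ℕ → Type) (S' : Sp N Ω') (L' : Ln Ω') (D' : RV Ω' δ') (P' B' B2 : VV Ω' M3),
      St3 S' L' D' P' I σ B' B2 := by
  exact k2b_two (pair_ex (b := fun k => L.n k / 3) h.st fun k => Nat.div_le_self _ _)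
    (h.pull (ext1 _)) hI (fun k => show 2 * (L.n k / 3) + L.n k / 3 ≤ L.n k by omega)
    (k2b_big S.big h.st.cfg.big three_pos)

end Vale.Agent.P127S
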