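import Vale.Agent.P127S.K2C0

/-! The contradiction. -/

open Real Finset Filter Topology Vale.Agent.P118O

noncomputable section

namespace Vale.Agent.P127S

variable {N : ℕ → ℕ} {Ω δ : ℕ → Type} {S : Sp N Ω} {L : Ln Ω} {D : RV Ω δ} {P B B2 : VV Ω M3}
  {I : Finset (Fin 3)} {σ : ℝ} {b : ℕ → ℕ}

/-- the three indices -/
structure K2cIdx (I : Finset (Fin 3)) (m i i' : Fin 3) : Prop where
  hm : m ∉ I
  hi : i ∈ I
  hi' : i' ∈ I
  ne : i ≠ i'
  all : ∀ a, a = m ∨ a = i ∨ a = i'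

theorem K2cIdx.swap {m i i' : Fin 3} (h : K2cIdx I m i i') : K2cIdx I m i' i :=
  ⟨h.hm, h.hi', h.hi, h.ne.symm, fun a => by rcases h.all a with e | e | e <;> simp [e]⟩

theorem k2c_idx (hI : I.card = 2) : ∃ m i i', K2cIdx I m i i' := by
  obtain ⟨i, i', hne, rfl⟩ := Finset.card_eq_two.1 hI
  have : ∀ i i' : Fin 3, i ≠ i' → ∃ m : Fin 3, m ≠ i ∧ m ≠ i' ∧ ∀ a, a = m ∨ a = i ∨ a = i' := by
    decide
  obtain ⟨m, h1, h2, h3⟩ := this i i' hne
  exact ⟨m, i, i', by simp [h1, h2], by simp, by simp, hne, h3⟩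

theorem K2cIdx.sum {m i i' : Fin 3} (h : K2cIdx I m i i') (f : Fin 3 → ℝ) :
    ∑ a, f a = f m + f i + f i' := by
  have e : (univ : Finset (Fin 3)) = {m, i, i'} := by
    ext a
    simpa using h.all a
  have h1 : m ≠ i := fun e => h.hm (e ▸ h.hi)
  have h2 : m ≠ i' := fun e => h.hm (e ▸ h.hi')
  rw [e, Finset.sum_insert (by simp [h1, h2]), Finset.sum_pair h.ne, add_assoc]

theorem K2cIdx.mv {m i i' : Fin 3} (h : K2cIdx I m i i') {R : VV Ω M3} (hR : Mat S D R I)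
    (z : VV Ω V3) (k : ℕ) (ω : Ω k) :
    MV R z k ω m = R k ω m i * z k ω i + R k ω m i' * z k ω i' := by
  simp only [MV]
  rw [h.sum, hR.col k ω m m h.hm, zero_mul, zero_add]

theorem k2c_kn0 {α : ℕ → Type} {Z : RV Ω α} {j : ℕ → ℕ} (hj : Lv N j) {X : VV Ω (Unit → ℝ)}
    (hX : ∀ k ω, X k ω = 0) : Kn S Z X j := by
  have h : Small S X j := Small.of_le (Eventually.of_forall fun k ω _ => by
    rw [hX, norm_zero]
    positivity)
  exact Kn.of_small hj h Z

theorem k2c_ent_det {α : ℕ → Type} {Z : RV Ω α} {R : VV Ω M3} (hR : Mat S D R I)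
    (hD : DetS S D Z) (a c : Fin 3) : DetS S (fun k ω => R k ω a c) Z :=
  (hR.det.trans hD).map fun _ M => M a c

theorem k2c_ent_bdd {R : VV Ω M3} (hR : Mat S D R I) (a c : Fin 3) :
    Small S (fun k ω => R k ω a c) fun _ => 0 :=
  (Small.coord hR.bdd a).coord c

theorem k2c_bdd_co {X : VV Ω V3} (hX : Bdd S X) (a : Fin 3) : Bdd S (sc (co X a)) :=
  small_sc.2 (Small.coord hX a)

/-- the image of `B` is known from its only nonzero coordinate -/
theorem k2c_vec {α : ℕ → Type} {Z : RV Ω α} {j : ℕ → ℕ} {m i i' : Fin 3} (hx : K2cIdx I m i i')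
    {R : VV Ω M3} (hR : Mat S D R I) (hj : Lv N j) {z : VV Ω V3}
    (h : Kn S Z (sc (co (MV R z) m)) j) : Kn S Z (MV R z) j := by
  refine Kn.pi fun a => ?_
  have h0 : ∀ c ∈ I, Kn S Z (sc (co (MV R z) c)) j := fun c hc => k2c_kn0 hj fun k ω => by
    funext u
    simp [sc, co, MV, hR.row k ω c hc]
  rcases hx.all a with rfl | rfl | rfl
  · exact h
  · exact h0 _ hx.hi
  · exact h0 _ hx.hi'

/-- the direction is known from `γ`, `B θ` and one coordinate -/
theorem k2c_theta {α : ℕ → Type} {Z : RV Ω α} {j : ℕ → ℕ} {m i i' : Fin 3}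
    (h : St2 S L D P I σ B) (hx : K2cIdx I m i i')
    (hβ : ∀ ε : ℝ, 0 < ε → whp S fun k ω => (2 : ℝ) ^ (-(ε * N k)) ≤ |B k ω m i|)
    (hD : DetS S D Z) (hj : Lv N j) (h1 : Kn S Z (ph P L.θ) j)
    (h2 : Kn S Z (sc (co (MV B L.θ) m)) j) (h3 : Kn S Z (sc (co L.θ i')) j) : Kn S Z L.θ j := by
  have h4 : Kn S Z (sm (fun k ω => B k ω m i') (sc (co L.θ i'))) j :=
    Kn.smul hj (k2c_ent_det h.mat hD m i') (k2c_ent_bdd h.mat m i') h3 fun k => le_rfl
  have h5 := h2.sub hj h4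
  have e : sc (co (MV B L.θ) m) - sm (fun k ω => B k ω m i') (sc (co L.θ i'))
      = sm (fun k ω => B k ω m i) (sc (co L.θ i)) := by
    funext k ω u
    simp only [sc, co, sm, Pi.sub_apply, Pi.smul_apply, smul_eq_mul, hx.mv h.mat]
    ring
  rw [e] at h5
  have h6 : Kn S Z (sc (co L.θ i)) j :=
    Kn.div (e := fun _ => 0) hj (k2c_ent_det h.mat hD m i)
      (fun ε hε => (hβ ε hε).mono (Eventually.of_forall fun k ω _ a => by simpa using a))
      (k2c_bdd_co h.st.cfg.bdd.2.1 i) h5 fun k => le_rfl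
  refine h.st.pj.kn hD hj h1 (Kn.pi fun a => ?_)
  have h7 : ∀ c ∈ I, sc (co (msk I L.θ) c) = sc (co L.θ c) := fun c hc => by
    funext k ω u
    simp [sc, co, msk, hc]
  rcases hx.all a with rfl | rfl | rfl
  · exact k2c_kn0 hj fun k ω => by
      funext u
      simp [sc, co, msk, hx.hm]
  · rw [h7 _ hx.hi]
    exact h6
  · rw [h7 _ hx.hi']
    exact h3

/-- the ratio of the leading entries -/
def k2cA (B B2 : VV Ω M3) (m i : Fin 3) : VV Ω ℝ := fun k ω => B2 k ω m i / B k ω m i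

/-- the defect of proportionality -/
def k2cD (B B2 : VV Ω M3) (m i i' : Fin 3) : VV Ω ℝ :=
  fun k ω => B2 k ω m i' - k2cA B B2 m i k ω * B k ω m i'

theorem k2cA_det {α : ℕ → Type} {Z : RV Ω α} (h : St3 S L D P I σ B B2) (hD : DetS S D Z)
    (m i : Fin 3) : DetS S (k2cA B B2 m i) Z :=
  (k2c_ent_det h.mat hD m i).map2 (k2c_ent_det h.st2.mat hD m i) fun _ x y => x / y

theorem k2cD_det {α : ℕ → Type} {Z : RV Ω α} (h : St3 S L D P I σ B B2) (hD : DetS S D Z)
    (m i i' : Fin 3) : DetS S (k2cD B B2 m i i') Z :=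
  (k2c_ent_det h.mat hD m i').map2
    ((k2cA_det h hD m i).map2 (k2c_ent_det h.st2.mat hD m i') fun _ x y => x * y)
    fun _ x y => x - y

theorem k2cA_bdd (h : St3 S L D P I σ B B2) {m i : Fin 3}
    (hβ : ∀ ε : ℝ, 0 < ε → whp S fun k ω => (2 : ℝ) ^ (-(ε * N k)) ≤ |B k ω m i|) :
    Small S (k2cA B B2 m i) fun _ => 0 := by
  intro c hc
  refine ((k2c_ent_bdd h.mat m i (c / 2) (half_pos hc)).and (hβ (c / 2) (half_pos hc))).mono
    (Eventually.of_forall fun k ω _ a => ?_)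
  obtain ⟨a1, a2⟩ := a
  have p : (0 : ℝ) < 2 ^ (-(c / 2 * N k)) := by positivity
  simp only [Nat.cast_zero, sub_zero, Real.norm_eq_abs] at a1 ⊢
  rw [k2cA, abs_div, div_le_iff₀ (p.trans_le a2)]
  refine a1.trans (le_trans (le_of_eq ?_) (mul_le_mul_of_nonneg_left a2 (by positivity)))
  rw [← Real.rpow_add two_pos]
  exact congrArg _ (by ring)

theorem k2c_id (h : St3 S L D P I σ B B2) {m i i' : Fin 3} (hx : K2cIdx I m i i')
    (hβ : ∀ ε : ℝ, 0 < ε → whp S fun k ω => (2 : ℝ) ^ (-(ε * N k)) ≤ |B k ω m i|)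
    (z : VV Ω V3) : whp S fun k ω => MV B2 z k ω m =
      k2cA B B2 m i k ω * MV B z k ω m + k2cD B B2 m i i' k ω * z k ω i' := by
  refine (hβ 1 one_pos).mono (Eventually.of_forall fun k ω _ a => ?_)
  have p : (0 : ℝ) < 2 ^ (-(1 * (N k : ℝ))) := by positivity
  have hne : B k ω m i ≠ 0 := abs_pos.1 (p.trans_le a)
  rw [hx.mv h.mat, hx.mv h.st2.mat, k2cD, k2cA]
  field_simp
  ring

theorem k2c_big_min (hN : Tendsto N UF atTop) (big : Big N fun k => b k) {c : ℝ} (hc : 0 < c) :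
    Big N fun k => ((min (b k) ⌊c * N k⌋₊ : ℕ) : ℝ) := by
  obtain ⟨c', hc', e⟩ := big
  refine ⟨min c' (c / 2), lt_min hc' (half_pos hc), ?_⟩
  have h2 := (tendsto_natCast_atTop_atTop (R := ℝ)).comp hN |>.eventually
    (eventually_ge_atTop (2 / c))
  filter_upwards [e, h2] with k a1 a2
  have p : (0 : ℝ) ≤ N k := Nat.cast_nonneg _
  have a3 : 2 ≤ (N k : ℝ) * c := (div_le_iff₀ hc).1 a2
  rw [Nat.cast_min]
  refine le_min ((mul_le_mul_of_nonneg_right (min_le_left _ _) p).trans a1)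
    ((mul_le_mul_of_nonneg_right (min_le_right _ _) p).trans ?_)
  have := Nat.lt_floor_add_one (c * N k)
  linarith

/-- what is known from any variable that knows `D`, `y` and `B x` -/
theorem k2c_rel {α : ℕ → Type} {Z : RV Ω α} (h : St3 S L D P I σ B B2) (hb : ∀ k, b k ≤ L.n k)
    (hD : DetS S D Z) (hy : Kn S Z (ph P L.x) b) (hB : Kn S Z (MV B L.x) b) :
    Kn S Z (ph P L.θ) b ∧ Kn S Z (MV B L.θ + MV B2 L.x) b := by
  have hl := h.st2.st.cfg.lev hb
  have hw : Kw S (J D (Q N b (ph P L.x))) Z := hD.kw.pair hy.kw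
  refine ⟨?_, (h.rel b hb).mono hw⟩
  have := ((h.st2.rel b hb).mono hw).add hl hB
  rwa [sub_add_cancel] at this

/-- the case of a large defect -/
theorem k2c_case1 (h : St3 S L D P I σ B B2) {m i i' : Fin 3} (hx : K2cIdx I m i i')
    (hβ : ∀ ε : ℝ, 0 < ε → whp S fun k ω => (2 : ℝ) ^ (-(ε * N k)) ≤ |B k ω m i|)
    (hb : ∀ k, b k ≤ L.n k) (big : Big N fun k => b k)
    (hk : Kn S (J D (Q N b L.x)) (MV B2 L.θ) b) {c : ℝ} (hc : 0 < c)
    (hd : whp S fun k ω => (2 : ℝ) ^ (c * N k - b k) < ‖k2cD B B2 m i i' k ω‖) : False := by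
  have cfg := h.st2.st.cfg
  have hl := cfg.lev hb
  have hD : DetS S D (J D (Q N b L.x)) := (DetS.refl D).left
  have kx : Kn S (J D (Q N b L.x)) L.x b := (Kn.self cfg.bdd.2.2.2 b).mono (Kw.refl _).right
  have ky := Kn.tr hl (h.st2.st.pj.det.trans hD) h.st2.st.pj.bdd kx
  have kB := Kn.mv hl (h.st2.mat.det.trans hD) h.st2.mat.bdd kx fun k => le_rfl
  have kB2 := Kn.mv hl (h.mat.det.trans hD) h.mat.bdd kx fun k => le_rfl
  obtain ⟨kγ, kχ⟩ := k2c_rel h hb hD ky kB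
  have kθ : Kn S (J D (Q N b L.x)) (MV B L.θ) b := by
    have := kχ.sub hl kB2
    rwa [add_sub_cancel_right] at this
  have k1 := (hk.coord m).sub hl (Kn.smul hl (k2cA_det h hD m i) (k2cA_bdd h hβ) (kθ.coord m)
    fun k => le_rfl)
  have k2 : Kn S (J D (Q N b L.x)) (sm (k2cD B B2 m i i') (sc (co L.θ i'))) b := by
    refine k1.congr hl ((k2c_id h hx hβ L.θ).mono (Eventually.of_forall fun k ω _ a => ?_))
    funext u
    simp only [sc, co, sm, Pi.sub_apply, Pi.smul_apply, smul_eq_mul]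
    linarith
  obtain ⟨j, hj⟩ : ∃ j : ℕ → ℕ, ∀ k, j k = min (b k) ⌊c * N k⌋₊ := ⟨_, fun _ => rfl⟩
  have hjb : ∀ k, j k ≤ b k := fun k => by rw [hj]; exact min_le_left _ _
  have hjc : ∀ k, (j k : ℝ) ≤ c * N k := fun k => by
    have h1 : j k ≤ ⌊c * N k⌋₊ := by rw [hj]; exact min_le_right _ _
    exact (Nat.cast_le.2 h1).trans (Nat.floor_le (by positivity))
  have bj : Big N fun k => j k := by
    have := k2c_big_min S.big big hc
    simpa only [← hj] using this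
  have hlj : Lv N j := fun k => (hjb k).trans (hl k)
  have k3 : Kn S (J D (Q N b L.x)) (sc (co L.θ i')) j := by
    refine Kn.div (e := fun k => b k - j k) hl (k2cD_det h hD m i i') (fun ε hε => ?_)
      (k2c_bdd_co cfg.bdd.2.1 i') k2 fun k => by have := hjb k; omega
    refine hd.mono (Eventually.of_forall fun k ω _ a => ?_)
    refine le_trans (Real.rpow_le_rpow_of_exponent_le one_le_two ?_) a.le
    rw [Nat.cast_sub (hjb k)]
    have : 0 ≤ ε * N k := by positivity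
    linarith [hjc k]
  have k4 := k2c_theta h.st2 hx hβ hD hlj (kγ.lev hjb) ((kθ.coord m).lev hjb) k3
  have r := h.st2.st.r6 (j1 := fun _ => 0) (cfg.cw_self fun k => Nat.zero_le _)
    (fun k => Nat.zero_le _) hjb hb
  have k5 : Kw S (Q N j L.θ) (J (J D (L.p N fun _ => 0)) (Q N b L.x)) :=
    k4.kw.trans (((Kw.refl D).left.left).pair (Kw.refl _).right)
  refine bj.not_le S.big h.st2.st.hσ ((r.trans k5).lin fun k => ?_)
  simp

/-- the case of a small defect -/
theorem k2c_case2 (h : St3 S L D P I σ B B2) (hI : I.card = 2) {m i i' : Fin 3}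
    (hx : K2cIdx I m i i')
    (hβ : ∀ ε : ℝ, 0 < ε → whp S fun k ω => (2 : ℝ) ^ (-(ε * N k)) ≤ |B k ω m i|)
    (hb : ∀ k, b k ≤ L.n k) (big : Big N fun k => b k)
    (hd : Small S (k2cD B B2 m i i') b) : False := by
  have cfg := h.st2.st.cfg
  have hl := cfg.lev hb
  have by1 : Bdd S (ph P L.x) := Bdd.tr h.st2.st.pj.bdd cfg.bdd.2.2.2
  have bB : Bdd S (sc (co (MV B L.x) m)) := k2c_bdd_co (Bdd.mv h.st2.mat.bdd cfg.bdd.2.2.2) m
  have bθ : Bdd S (sc (co L.θ i')) := k2c_bdd_co cfg.bdd.2.1 i'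
  have key : Kw S (Q N b L.θ) (J (J (J (J D (L.p N fun _ => 0)) (Q N b (ph P L.x)))
      (Q N b (sc (co (MV B L.x) m)))) (Q N b (sc (co L.θ i')))) := by
    have hD : DetS S D (J (J (J (J D (L.p N fun _ => 0)) (Q N b (ph P L.x)))
        (Q N b (sc (co (MV B L.x) m)))) (Q N b (sc (co L.θ i')))) :=
      (DetS.refl D).left.left.left.left
    have ky := (Kn.self by1 b).mono (Z' := J (J (J (J D (L.p N fun _ => 0)) (Q N b (ph P L.x)))
      (Q N b (sc (co (MV B L.x) m)))) (Q N b (sc (co L.θ i')))) (Kw.refl _).right.left.left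
    have kB := (Kn.self bB b).mono (Z' := J (J (J (J D (L.p N fun _ => 0)) (Q N b (ph P L.x)))
      (Q N b (sc (co (MV B L.x) m)))) (Q N b (sc (co L.θ i')))) (Kw.refl _).right.left
    have kθ := (Kn.self bθ b).mono (Z' := J (J (J (J D (L.p N fun _ => 0)) (Q N b (ph P L.x)))
      (Q N b (sc (co (MV B L.x) m)))) (Q N b (sc (co L.θ i')))) (Kw.refl _).right
    obtain ⟨kγ, kχ⟩ := k2c_rel h hb hD ky (k2c_vec hx h.st2.mat hl kB)
    have sd0 := Small.smul (b' := fun _ => 0) hd (k2c_bdd_co cfg.bdd.2.2.2 i')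
    have sd : Small S (sm (k2cD B B2 m i i') (sc (co L.x i'))) b :=
      Small.mono sd0 (Le.of_le fun k => by simp)
    have k1 := ((kχ.coord m).sub hl (Kn.smul hl (k2cA_det h hD m i) (k2cA_bdd h hβ) kB
      fun k => le_rfl)).sub hl (Kn.of_small hl sd _)
    refine (k2c_theta h.st2 hx hβ hD hl kγ (k1.congr hl ?_) kθ).kw
    refine (k2c_id h hx hβ L.x).mono (Eventually.of_forall fun k ω _ a => ?_)
    funext u
    simp only [sc, co, sm, Pi.sub_apply, Pi.add_apply, Pi.smul_apply, smul_eq_mul]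
    linarith
  have r0 := (cfg.cw_self (j := fun _ => 0) fun k => Nat.zero_le _).lo cfg
    (fun k => Nat.zero_le _) hb
  have r1 := h.st2.st.r3' (j1 := fun _ => 0) (Z := J D (L.p N fun _ => 0))
    (fun k => Nat.zero_le _) hb (Kw.refl D).left (Kn.zero by1 _)
  have r2 := (Kn.zero bB (J (J D (L.p N fun _ => 0)) (Q N b (ph P L.x)))).H_le (j := b)
    fun k => Nat.zero_le _
  have r3 := (Kn.zero bθ (J (J (J D (L.p N fun _ => 0)) (Q N b (ph P L.x)))
    (Q N b (sc (co (MV B L.x) m))))).H_le (j := b) fun k => Nat.zero_le _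
  refine big.not_le S.big h.st2.st.hσ (((((r0.add r1).add r2).add r3).add key).lin fun k => ?_)
  have e1 := H_le_add (S := S) (Q N b L.θ) (Q N b (ph P L.x)) (J D (L.p N fun _ => 0)) k
  have e2 := H_le_add (S := S) (Q N b L.θ) (Q N b (sc (co (MV B L.x) m)))
    (J (J D (L.p N fun _ => 0)) (Q N b (ph P L.x))) k
  have e3 := H_le_add (S := S) (Q N b L.θ) (Q N b (sc (co L.θ i')))
    (J (J (J D (L.p N fun _ => 0)) (Q N b (ph P L.x))) (Q N b (sc (co (MV B L.x) m)))) k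
  simp only [qd, hI, Fintype.card_unit, Nat.cast_zero, Nat.cast_one, Nat.cast_ofNat]
  linarith

theorem k2c_core (h : St3 S L D P I σ B B2) (hI : I.card = 2) {m i i' : Fin 3}
    (hx : K2cIdx I m i i') (hb : ∀ k, b k ≤ L.n k) (big : Big N fun k => b k)
    (hk : Kn S (J D (Q N b L.x)) (MV B2 L.θ) b)
    (hmax : whp S fun k ω => |B k ω m i'| ≤ |B k ω m i|) : False := by
  have hβ : ∀ ε : ℝ, 0 < ε → whp S fun k ω => (2 : ℝ) ^ (-(ε * N k)) ≤ |B k ω m i| := by
    intro ε hε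
    refine ((k2c_large h.st2 hε).and hmax).mono (Eventually.of_forall fun k ω _ a => a.1.trans ?_)
    refine (pi_norm_le_iff_of_nonneg (abs_nonneg _)).2 fun r =>
      (pi_norm_le_iff_of_nonneg (abs_nonneg _)).2 fun q => ?_
    rw [Real.norm_eq_abs]
    have h0 : ∀ r ∈ I, |B k ω r q| ≤ |B k ω m i| := fun r hr => by
      rw [h.st2.mat.row k ω r hr, abs_zero]
      exact abs_nonneg _
    rcases hx.all r with e | e | e
    · rw [e]
      rcases hx.all q with e' | e' | e'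
      · rw [e', h.st2.mat.col k ω m m hx.hm, abs_zero]
        exact abs_nonneg _
      · rw [e']
      · rw [e']
        exact a.2
    · exact h0 r (e ▸ hx.hi)
    · exact h0 r (e ▸ hx.hi')
  rcases small_or S (k2cD B B2 m i i') b with hd | ⟨c, hc, hA⟩
  · exact k2c_case2 h hI hx hβ hb big hd
  · exact k2c_case1 (h.res hA) hx (fun ε hε => (hβ ε hε).res hA) hb big (hk.res hA) hc
      (res_whp_self hA)

/-- `I = {i, i'}`, `m` the third index; on a positive event (`pos_fin`, `St3.res`, `Kn.res`)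
`‖B‖ = |B m i|`. Let `α = B2 m i / B m i` (bounded by `k2c_large`) and
`d = B2 m i' - α * B m i'`, so `(B2 z) m = α * (B z) m + d * z i'`. From `(D, x[b])` one knows
`γ`, `B θ`, `B2 θ` at level `b`. If `d` is not small at level `b` (`small_or`), then on a positive
event `θ i'`, `θ i` (`Kn.div`) and `θ` (`Pj.kn`) are known at level `min b ⌊c N⌋`, against
`St.r6` with `j1 = 0`. If `d` is small, then `γ = ψ + B x` and `B θ = χ - α B x - d x i'` are known
at level `b` from `(D, y[b], (B x) m [b])`, and `θ` is known from these and `θ i' [b]`, so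
`3 b ≲ (1 - σ) b + b + b` (`Cw.lo`, `St.r3'`). -/
theorem k2c (h : St3 S L D P I σ B B2) (hI : I.card = 2) (hb : ∀ k, b k ≤ L.n k)
    (big : Big N fun k => b k) (hk : Kn S (J D (Q N b L.x)) (MV B2 L.θ) b) : False := by
  obtain ⟨m, i, i', hx⟩ := k2c_idx hI
  rcases pos_or_whp S fun k ω => |B k ω m i'| ≤ |B k ω m i| with hA | hA
  · exact k2c_core (h.res hA) hI hx hb big (hk.res hA) (res_whp_self hA)
  · exact k2c_core h hI hx.swap hb big hk
      (hA.mono (Eventually.of_forall fun k ω _ a => (not_le.1 a).le))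

/-- `k2a`, `k2b`, `k2c_third`, `k2c` -/
theorem step2 (h : Has σ 2) : False := by
  obtain ⟨N, Ω, δ, S, L, D, P, I, h, hI⟩ := h
  obtain ⟨Ω1, δ1, S1, L1, D1, P1, B1, h1⟩ := k2a h hI
  obtain ⟨Ω2, δ2, S2, L2, D2, P2, B, B2, h2⟩ := k2b h1 hI
  refine k2c h2 hI (fun k => Nat.div_le_self _ _) ?_ (k2c_third h2 hI)
  refine h2.st2.st.cfg.big.mono (c := 1 / 4) (by norm_num) ?_
  refine (Le.refl (N := N) fun _ => 0).linc S2.big 1 fun k => ?_
  have h4 : L2.n k ≤ 4 * (L2.n k / 4) + 4 := by omega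
  have h5 : (L2.n k : ℝ) ≤ 4 * ((L2.n k / 4 : ℕ) : ℝ) + 4 := by exact_mod_cast h4
  linarith

end Vale.Agent.P127S
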