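import Vale.Agent.P127S.K2B

/-! Two saturated directions: the third order relation and the contradiction. -/

open Real Finset Filter Topology Vale.Agent.P118O

noncomputable section

namespace Vale.Agent.P127S

variable {N : ℕ → ℕ} {Ω δ : ℕ → Type} {S : Sp N Ω} {L : Ln Ω} {D : RV Ω δ} {P B B2 : VV Ω M3}
  {I : Finset (Fin 3)} {σ : ℝ} {b : ℕ → ℕ}

theorem k2c0_cube (b : ℕ) (u w : ℝ) :
    1 / (2 : ℝ) ^ (3 * b) * ((2 ^ b * u) ^ 3 * w) = u * (u * (u * w)) := by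
  rw [mul_comm 3 b, pow_mul]
  field_simp

theorem k2c0_id (L : Ln Ω) (t2 : VV Ω ℝ) (P1 P2 B B2 : VV Ω M3) (b : ℕ → ℕ) :
    ph P2 (L.wt t2).x - ph P1 L.x -
        sm (tw Ω fun k => 3 * b k) (sm (fun k ω => dT L t2 b k ω ^ 3) (-MV B2 L.θ)) =
      sm (t2 - L.t) (ph P1 L.θ - MV B L.x) -
        sm (t2 - L.t) (sm (t2 - L.t) (MV B L.θ + MV B2 L.x)) -
        MV (P2 - P1 - sm (t2 - L.t) B - sm ((t2 - L.t) * (t2 - L.t)) B2) L.x -
        sm (t2 - L.t)
          (MV (P2 - P1 - sm (t2 - L.t) B - sm ((t2 - L.t) * (t2 - L.t)) B2) L.θ) := by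
  funext k w i
  simp only [MV, ph, sm, tw, dT, Ln.x, Ln.wt, Pi.sub_apply, Pi.add_apply, Pi.neg_apply,
    Pi.mul_apply, Pi.smul_apply, smul_eq_mul, Fin.sum_univ_three, k2c0_cube]
  ring

theorem k2c0_rem {α γ : ℕ → Type} {D2 : RV Ω γ} {P2 : VV Ω M3} {t2 : VV Ω ℝ} {Z : RV Ω α}
    (h : PairSt S L t2 D D2 P P2 I σ b) (h3 : St3 S L D P I σ B B2) (hI : I.card = 2)
    (hb : ∀ k, 4 * b k ≤ L.n k) (dJ : DetS S (J D D2) Z)
    (hy : Kw S (J D (Q N (fun k => 3 * b k) (ph P L.x))) Z) (hx : Kw S (Q N b L.x) Z) :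
    Kn S Z (ph P2 (L.wt t2).x - ph P L.x -
      sm (tw Ω fun k => 3 * b k) (sm (fun k ω => dT L t2 b k ω ^ 3) (-MV B2 L.θ)))
      fun k => 3 * b k + 0 + b k := by
  have hc := h.st1.cfg
  have n3 : ¬ Has σ (I.card + 1) := by
    rw [hI]
    exact not_has3 σ
  have l3 : ∀ k, 3 * b k ≤ L.n k := fun k => by have := hb k; omega
  have l4 : ∀ k, 3 * b k + 0 + b k ≤ L.n k := fun k => by have := hb k; omega
  have v4 := hc.lev l4
  have hR := (c21 h h3 l3).resolve_right n3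
  have du0 : DetS S (t2 - L.t) (J D D2) :=
    (h.st2.cfg.dt.right (Y := D)).map2 hc.dt.left fun _ a c => a - c
  have du := du0.trans dJ
  have dR : DetS S (P2 - P - sm (t2 - L.t) B - sm ((t2 - L.t) * (t2 - L.t)) B2) (J D D2) :=
    ((((h.st2.pj.det.right (Y := D)).map2 h.st1.pj.det.left fun _ a c => a - c).map2
      (du0.map2 h3.st2.mat.det.left fun _ a c => a • c) fun _ a c => a - c).map2
      (du0.map2 h3.mat.det.left fun _ a c => (a * a) • c) fun _ a c => a - c)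
  have k1 := ((h3.st2.rel _ l3).mono hy).smul v4 du h.small fun k => by omega
  have k2 := (((h3.rel _ l3).mono hy).smul (hc.lev l3) du h.small
    fun k => by omega).smul v4 du h.small fun k => by omega
  have k3 := Kn.mv v4 (dR.trans dJ) hR ((Kn.self hc.bdd.2.2.2 b).mono hx) fun k => by omega
  have k4 := Kn.of_small v4 ((h.small.smul (hR.mv hc.bdd.2.1)).mono
    (Le.of_le fun k => by push_cast; linarith)) Z
  rw [k2c0_id L t2 P P2 B B2 b]
  exact ((k1.sub v4 k2).sub v4 k3).sub v4 k4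

theorem k2c0_W {α : ℕ → Type} {Z : RV Ω α} {j : ℕ → ℕ} (hc : Cfg S L D) (hB : Mat S D B2 I)
    (l1 : ∀ k, b k ≤ L.n k) (hD : DetS S D Z) (hp : Kw S (L.p N j) Z) (hj : ∀ k, b k ≤ j k) :
    Kn S Z (MV B2 L.θ) b :=
  Kn.mv (hc.lev l1) (hB.det.trans hD) hB.bdd (hc.kn_θ hp) hj

theorem k2c0_ds {γ : ℕ → Type} {D2 : RV Ω γ} {P2 : VV Ω M3} {t2 : VV Ω ℝ}
    (h : PairSt S L t2 D D2 P P2 I σ b) (h3 : St3 S L D P I σ B B2) (hI : I.card = 2)
    (hb : ∀ k, 4 * b k ≤ L.n k) :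
    Kn S (J (J D (Q N (fun k => 3 * b k) (ph P L.x))) (Q N b L.x)) (MV B2 L.θ) b := by
  have hc := h.st1.cfg
  have n3 : ¬ Has σ (I.card + 1) := by
    rw [hI]
    exact not_has3 σ
  have l1 : ∀ k, b k ≤ L.n k := fun k => by have := hb k; omega
  have l30 : ∀ k, 3 * b k + 0 ≤ L.n k := fun k => by have := hb k; omega
  have l4 : ∀ k, 3 * b k + 0 + b k ≤ L.n k := fun k => by have := hb k; omega
  have by1 : Bdd S (ph P L.x) := h.st1.pj.bdd.tr hc.bdd.2.2.2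
  have bW : Bdd S (-MV B2 L.θ) := Small.neg (h3.mat.bdd.mv hc.bdd.2.1)
  have k5 := k2c0_rem (Z := J (J (J D (Q N (fun k => 3 * b k) (ph P L.x))) (Q N b L.x)) D2)
    h h3 hI hb ((DetS.refl D).left.left.left.pair (DetS.refl D2).right) (Kw.refl _).left.left
    (Kw.refl _).right.left
  have kx : Kn S (J D (L.p N fun k => 3 * b k + 0)) L.x fun k => 3 * b k + 0 :=
    hc.kn_x l30 (DetS.refl _).left (Kw.refl _).right
  have hsb : Bdd S fun k ω => dT L t2 b k ω ^ 3 := by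
    have e : (fun k ω => dT L t2 b k ω ^ 3) =
        sm (dT L t2 b) (sm (dT L t2 b) (dT L t2 b)) := by
      funext k w
      simp only [sm, smul_eq_mul]
      ring
    rw [e]
    have e1 := Small.smul h.dT_bdd (Small.smul h.dT_bdd h.dT_bdd)
    exact e1.bdd
  have a1 : ∀ k ω, ∀ a ∈ I, (-MV B2 L.θ) k ω a = 0 := fun k ω a ha => by
    simp [MV, h3.mat.row k ω a ha]
  have a2 : DetS S D (J (J D (Q N (fun k => 3 * b k) (ph P L.x))) (Q N b L.x)) :=
    (DetS.refl _).left.left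
  have a30 : Kn S (J D (L.p N fun k => 3 * b k + 0)) (ph P L.x) fun k => 3 * b k :=
    kx.tr (hc.lev l30) h.st1.pj.det.left h.st1.pj.bdd
  have a31 : Kn S (J D (L.p N fun k => 3 * b k + 0)) L.x b := kx.lev fun k => by omega
  have a3 : Kw S (J (J D (Q N (fun k => 3 * b k) (ph P L.x))) (Q N b L.x))
      (J D (L.p N fun k => 3 * b k + 0)) := ((Kw.refl D).left.pair a30.kw).pair a31.kw
  have a40 : Kw S (Q N (fun k => 3 * b k) (ph P L.x))
      (J (J D (Q N (fun k => 3 * b k) (ph P L.x))) (Q N b L.x)) := (Kw.refl _).right.left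
  have a4 : Kn S (J (J D (Q N (fun k => 3 * b k) (ph P L.x))) (Q N b L.x)) (ph P L.x)
      fun k => 3 * b k + 0 := ⟨by1, a40⟩
  have a50 : Kn S (J D (L.p N fun k => 3 * b k + 0)) (MV B2 L.θ) b :=
    k2c0_W hc h3.mat l1 (DetS.refl _).left (Kw.refl _).right fun k => by omega
  have a5 : Kn S (J D (L.p N fun k => 3 * b k + 0)) (-MV B2 L.θ) fun k => 0 + b k :=
    (a50.neg (hc.lev l1)).lev fun k => by omega
  have a6 : DetS S (fun k ω => dT L t2 b k ω ^ 3) (J D D2) := h.dT_det.map fun _ a => a ^ 3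
  have a7 := h.unif_pow (l := b) (r := 3) (fun k => by have := hb k; omega) (by norm_num)
  have k6 := (ds2 (e := fun k => 3 * b k) (i := fun _ => 0) (l := b) h h.st1.pj l4 a1 a2 a3 a4
    (Kn.zero bW _) a5 a6 hsb a7 k5).resolve_right n3
  have k8 := (k6.lev (j' := b) fun k => by omega).neg (hc.lev l1)
  rwa [neg_neg] at k8

theorem k2c0_pair {γ : ℕ → Type} {D2 : RV Ω γ} {P2 : VV Ω M3} {t2 : VV Ω ℝ}
    (h : PairSt S L t2 D D2 P P2 I σ b) (h3 : St3 S L D P I σ B B2) (hI : I.card = 2)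
    (hb : ∀ k, 4 * b k ≤ L.n k) : Kn S (J D (Q N b L.x)) (MV B2 L.θ) b := by
  have hc := h.st1.cfg
  have l1 : ∀ k, b k ≤ L.n k := fun k => by have := hb k; omega
  have l3 : ∀ k, 3 * b k ≤ L.n k := fun k => by have := hb k; omega
  have k7 := k2c0_ds h h3 hI hb
  have kx1 : Kn S (J D (Q N b L.x)) L.x b := ⟨hc.bdd.2.2.2, (Kw.refl _).right⟩
  have kx2 : Kn S (J D (L.p N b)) L.x b := hc.kn_x l1 (DetS.refl _).left (Kw.refl _).right
  have a1 : Kw S (J D (Q N b L.x)) (J D (L.p N b)) := (Kw.refl D).left.pair kx2.kw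
  have i1 := h.st1.drop (hc.cw_self l1) (j3 := fun k => 3 * b k) (fun k => by omega) l3
    (Kw.refl D).left a1 (kx1.tr (hc.lev l1) h.st1.pj.det.left h.st1.pj.bdd)
  have a2 : Kn S (J (J D (Q N b L.x)) (J D (L.p N b))) (MV B2 L.θ) b :=
    k2c0_W hc h3.mat l1 (DetS.refl _).left.left (Kw.refl _).right.right fun _ => le_rfl
  have a3 : Kw S (J (J D (Q N (fun k => 3 * b k) (ph P L.x))) (Q N b L.x))
      (J (J D (Q N b L.x)) (Q N (fun k => 3 * b k) (ph P L.x))) :=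
    ((Kw.refl D).left.left.pair (Kw.refl _).right).pair (Kw.refl _).right.left
  exact ⟨k7.bdd, (i1.mono a2.kw).kw (k7.kw.trans a3)⟩

/-- `pair_ex` with `b = n / 4`, `St3.pull`, `c11`, `c21`, `ds2` with `e = 3 b`, middle level `0`,
length `b`, `P' = P1`, `F = ((D1, y[3b]), x[b])`, `W = -B2 θ`, `s = dT ^ 3`: with
`R = P2 - P1 - u B`, `R3 = R - u ^ 2 B2` the remainder is `u ψ - u ^ 2 χ - R3 x - u R3 θ`.
Remove `y[3b]` by `St.drop` and `Ind.mono`, `Ind.kw`; go back to `S` with `Ext.ent`. -/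
theorem k2c_third (h : St3 S L D P I σ B B2) (hI : I.card = 2) :
    Kn S (J D (Q N (fun k => L.n k / 4) L.x)) (MV B2 L.θ) fun k => L.n k / 4 := by
  have e := ext1 (S := S) (prK L N fun k => L.n k / 4)
  have k1 := k2c0_pair (pair_ex h.st2.st fun k => Nat.div_le_self _ _) (h.pull e) hI
    fun k => Nat.mul_div_le (L.n k) 4
  refine ⟨h.mat.bdd.mv h.st2.st.cfg.bdd.2.1, ?_⟩
  have k2 := e.ent (Q N (fun k => L.n k / 4) (MV B2 L.θ)) (J D (Q N (fun k => L.n k / 4) L.x))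
  unfold Kw
  rw [← k2]
  exact k1.kw

theorem k2c0_big {n : ℕ → ℕ} (hN : Tendsto N UF atTop) (hn : Big N fun k => n k) {c : ℝ}
    (hc : 0 < c) : Big N fun k => ((min (n k) ⌊c * N k⌋₊ : ℕ) : ℝ) - (0 : ℕ) := by
  obtain ⟨c0, h0, h1⟩ := hn
  refine ⟨min c0 (c / 2), lt_min h0 (half_pos hc), ?_⟩
  filter_upwards [h1, (tendsto_natCast_atTop_atTop (R := ℝ) |>.comp hN).eventually_ge_atTop
    (2 / c)] with k k1 k2
  have k3 : 2 ≤ (N k : ℝ) * c := (div_le_iff₀ hc).1 k2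
  have k4 := Nat.lt_floor_add_one (c * N k)
  have k5 : (0 : ℝ) ≤ N k := Nat.cast_nonneg _
  rw [Nat.cast_min, Nat.cast_zero, sub_zero]
  refine le_min ((mul_le_mul_of_nonneg_right (min_le_left _ _) k5).trans k1)
    ((mul_le_mul_of_nonneg_right (min_le_right _ _) k5).trans ?_)
  linarith

/-- On the event `‖B‖ ≤ 2 ^ (-c N)` the matrix is small at level `e = min n ⌊c N⌋`, so `γ` is known
from `y` at level `e`; `St.flat` with `j1 = 0`. -/
theorem k2c_large (h : St2 S L D P I σ B) {c : ℝ} (hc : 0 < c) :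
    whp S fun k ω => (2 : ℝ) ^ (-(c * N k)) ≤ ‖B k ω‖ := by
  rcases pos_or_whp S fun k ω => ‖B k ω‖ < (2 : ℝ) ^ (-(c * N k)) with hA | hA
  · exfalso
    have h' := h.res hA
    have hc' := h'.st.cfg
    have l1 : ∀ k, min (L.n k) ⌊c * N k⌋₊ ≤ L.n k := fun k => min_le_left _ _
    have v1 := hc'.lev l1
    have hs : Small (S.res fun k ω => ‖B k ω‖ < (2 : ℝ) ^ (-(c * N k))) B
        fun k => min (L.n k) ⌊c * N k⌋₊ := by
      refine Small.of_whp ((res_whp_self hA).mono (Eventually.of_forall fun k ω _ k1 => ?_))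
      have k2 : ((min (L.n k) ⌊c * N k⌋₊ : ℕ) : ℝ) ≤ c * N k :=
        (Nat.cast_le.2 (min_le_right _ _)).trans (Nat.floor_le (by positivity))
      have k3 : (2 : ℝ) ^ (-(c * N k)) ≤ 1 / 2 ^ min (L.n k) ⌊c * N k⌋₊ := by
        rw [← Real.rpow_natCast, one_div, ← Real.rpow_neg zero_le_two]
        exact Real.rpow_le_rpow_of_exponent_le one_le_two (neg_le_neg k2)
      exact k1.le.trans (k3.trans (div_le_div_of_nonneg_right (by norm_num) (by positivity)))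
    have h0 : ∀ k, (fun _ => 0 : ℕ → ℕ) k ≤ L.n k := fun _ => Nat.zero_le _
    refine h'.st.flat (hc'.cw_self h0) (fun _ => Nat.zero_le _) (fun _ => le_rfl) l1
      (k2c0_big S.big hc'.big hc) ?_
    have k0 : Kw (S.res fun k ω => ‖B k ω‖ < (2 : ℝ) ^ (-(c * N k)))
        (J D (Q N (fun k => min (L.n k) ⌊c * N k⌋₊) (ph P L.x)))
        (J (J D (L.p N fun _ => 0)) (Q N (fun k => min (L.n k) ⌊c * N k⌋₊) (ph P L.x))) :=
      (Kw.refl D).left.left.pair (Kw.refl _).right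
    have k2 := (hs.mv hc'.bdd.2.2.2).mono (b' := fun k => min (L.n k) ⌊c * N k⌋₊)
      (Le.of_le fun k => by simp)
    have k1 := ((h'.rel _ l1).mono k0).add v1 (Kn.of_small v1 k2 _)
    rwa [sub_add_cancel] at k1
  · exact hA.mono (Eventually.of_forall fun k ω _ k1 => not_lt.1 k1)

end Vale.Agent.P127S
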