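import Vale.Agent.P127S.Defs
import Vale.Agent.P127S.FinB

/-! Reduction of the sticky Kakeya problem to an entropy inequality. -/

open Real Finset Vale.Agent.P118O MeasureTheory
open scoped ENNReal

noncomputable section

namespace Vale.Agent.P127S

/-- the entropy form of the sticky Kakeya estimate -/
def KLB : Prop := ∀ κ : ℝ, 0 < κ → ∃ η : ℝ, 0 < η ∧ ∃ n0 : ℕ, ∀ n ≥ n0,
  ∀ {Ω : Type} (s : Finset Ω) (p : Ω → ℝ) (a θ : Ω → Fin 3 → ℝ) (t : Ω → ℝ), IsP s p →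
    (∀ ω ∈ s, ‖a ω‖ ≤ 1 ∧ ‖θ ω‖ ≤ 1 ∧ 0 ≤ t ω ∧ t ω < 1) →
    Det s (pj a θ) (pj (qv n a) (qv n θ)) →
    (∀ i ≤ n, ce s p (pj (qv i a) (qv i θ)) (nil Ω) ≤ 3 * i + η * n) →
    3 * n - η * n ≤ ce s p (qv n θ) t →
    n - η * n ≤ ce s p (qs n t) (pj (qv n a) (qv n θ)) →
    (3 - κ) * n ≤ ce s p (qv n fun ω => a ω + t ω • θ ω) t

/-- a set whose separated subsets are not too large -/
def FewSep {X : Type} [PseudoMetricSpace X] (S : Set X) (C d : ℝ) : Prop :=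
  ∀ δ : ℝ, 0 < δ → δ ≤ 1 → ∀ T : Finset X, (T : Set X) ⊆ S →
    (T : Set X).Pairwise (fun x y => δ ≤ dist x y) → (T.card : ℝ) ≤ C / δ ^ d

/-- From `dimP A ≤ 3 < d` get `s < d` with `packMeas s A = 0`, a cover `B i` with
`packPre s (B i) < ⊤`, hence `δ0` with `packAt s (B i) δ0 < ⊤`; a `δ`-separated set gives disjoint
closed balls of radius `min δ δ0 / 3`. -/
theorem red_pack {X : Type} [PseudoMetricSpace X] {A : Set X} (hA : dimP A ≤ 3) {d : ℝ}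
    (hd : 3 < d) : ∃ B : ℕ → Set X, A ⊆ ⋃ i, B i ∧ ∀ i, ∃ C, FewSep (B i) C d := by
  classical
  have h3 : (3 : ℝ≥0∞) < ENNReal.ofReal d := by
    rw [show (3 : ℝ≥0∞) = ENNReal.ofReal 3 by simp]
    exact (ENNReal.ofReal_lt_ofReal_iff (by linarith)).2 hd
  have h1 := hA.trans_lt h3
  simp only [dimP, iInf_lt_iff] at h1
  obtain ⟨s, hs0, hs, hsd⟩ := h1
  have hsd' : s ≤ d := ((ENNReal.ofReal_lt_ofReal_iff (by linarith)).1 hsd).le
  have h2 : packMeas s A < ⊤ := by rw [hs]; exact ENNReal.zero_lt_top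
  simp only [packMeas, iInf_lt_iff] at h2
  obtain ⟨B, hB, hsum⟩ := h2
  refine ⟨B, hB, fun i => ?_⟩
  have h4 : packPre s (B i) < ⊤ := (ENNReal.le_tsum (f := fun i => packPre s (B i)) i).trans_lt hsum
  simp only [packPre, iInf_lt_iff] at h4
  obtain ⟨δ0, hδ0, hM⟩ := h4
  set c : ℝ := min 1 δ0 / 3 with hc
  have hm1 : min 1 δ0 ≤ 1 := min_le_left _ _
  have hm2 : min 1 δ0 ≤ δ0 := min_le_right _ _
  have hm0 : 0 < min 1 δ0 := lt_min one_pos hδ0
  have hc0 : 0 < c := by positivity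
  refine ⟨(packAt s (B i) δ0).toReal / (2 * c) ^ s, fun δ hδ hδ1 T hT hsep => ?_⟩
  have hinj : Function.Injective fun x : X => (x, δ * c) := fun x y h => (Prod.ext_iff.1 h).1
  have h5 : ∑ z ∈ T.map ⟨_, hinj⟩, ENNReal.ofReal ((2 * z.2) ^ s) ≤ packAt s (B i) δ0 := by
    refine le_iSup_of_le (T.map ⟨_, hinj⟩) (le_iSup_of_le ?_ (le_iSup_of_le ?_ le_rfl))
    · intro z hz
      obtain ⟨x, hx, rfl⟩ := mem_map.1 hz
      refine ⟨hT hx, mul_pos hδ hc0, ?_⟩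
      show δ * c ≤ δ0
      nlinarith
    · intro z hz w hw hne
      obtain ⟨x, hx, rfl⟩ := mem_map.1 hz
      obtain ⟨y, hy, rfl⟩ := mem_map.1 hw
      have hxy : x ≠ y := fun h => hne (by rw [h])
      have h6 : δ ≤ dist x y := hsep hx hy hxy
      refine Metric.closedBall_disjoint_closedBall ?_
      show δ * c + δ * c < dist x y
      nlinarith
  rw [sum_map] at h5
  simp only [Function.Embedding.coeFn_mk, sum_const, nsmul_eq_mul] at h5
  have h6 := ENNReal.toReal_mono hM.ne h5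
  rw [ENNReal.toReal_mul, ENNReal.toReal_natCast, ENNReal.toReal_ofReal (by positivity),
    show 2 * (δ * c) = δ * (2 * c) by ring, mul_rpow hδ.le (by positivity)] at h6
  have h7 : δ ^ d ≤ δ ^ s := rpow_le_rpow_of_exponent_ge hδ hδ1 hsd'
  have h8 : 0 < (2 * c) ^ s := by positivity
  rw [le_div_iff₀ (by positivity), le_div_iff₀ h8]
  refine le_trans ?_ h6
  rw [mul_assoc]
  exact mul_le_mul_of_nonneg_left (mul_le_mul_of_nonneg_right h7 h8.le) (Nat.cast_nonneg _)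

theorem redA_level {D e d : ℝ} (hd : 0 < d) (he : 0 < e) (k0 : ℕ) (hD0 : 0 ≤ D)
    (hD : D ≤ (1 / 2) ^ k0) :
    ∃ k, k0 ≤ k ∧ D ≤ (1 / 2) ^ k ∧ ((1 / 2 : ℝ) ^ k) ^ d ≤ 2 ^ d * D ^ d + e := by
  classical
  have hex : ∃ j : ℕ, ((1 / 2 : ℝ) ^ (k0 + j)) ^ d ≤ e ∨ (1 / 2 : ℝ) ^ (k0 + j + 1) < D := by
    obtain ⟨j, hj⟩ := exists_pow_lt_of_lt_one (show 0 < e ^ (1 / d) by positivity)
      (show (1 / 2 : ℝ) < 1 by norm_num)
    refine ⟨j, Or.inl ?_⟩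
    have h1 : (1 / 2 : ℝ) ^ (k0 + j) ≤ e ^ (1 / d) :=
      (pow_le_pow_of_le_one (by norm_num) (by norm_num) (Nat.le_add_left j k0)).trans hj.le
    have h2 := rpow_le_rpow (by positivity) h1 hd.le
    rwa [← rpow_mul he.le, one_div_mul_cancel hd.ne', rpow_one] at h2
  refine ⟨k0 + Nat.find hex, Nat.le_add_right _ _, ?_, ?_⟩
  · rcases Nat.eq_zero_or_eq_succ_pred (Nat.find hex) with h | h
    · rw [h]; exact hD
    · have h1 := Nat.find_min hex (m := (Nat.find hex).pred) (by omega)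
      rw [h]
      exact not_lt.1 fun h2 => h1 (Or.inr h2)
  · have h0 : 0 ≤ 2 ^ d * D ^ d := by positivity
    rcases Nat.find_spec hex with h | h
    · linarith
    · have h1 : (1 / 2 : ℝ) ^ (k0 + Nat.find hex) ≤ 2 * D := by
        rw [pow_succ] at h
        linarith
      have h2 := rpow_le_rpow (by positivity) h1 hd.le
      rw [mul_rpow (by norm_num) hD0] at h2
      linarith

theorem redA_floor {x y : ℝ} {k : ℕ} (h : dist x y ≤ (1 / 2) ^ k) :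
    ⌊(2 : ℝ) ^ k * x⌋ ∈ Icc (⌊(2 : ℝ) ^ k * y⌋ - 1) (⌊(2 : ℝ) ^ k * y⌋ + 1) := by
  rw [Real.dist_eq, abs_le] at h
  have hp : (0 : ℝ) < 2 ^ k := by positivity
  have e : (2 : ℝ) ^ k * (1 / 2) ^ k = 1 := by rw [← mul_pow]; norm_num
  have h1 := mul_le_mul_of_nonneg_left h.1 hp.le
  have h2 := mul_le_mul_of_nonneg_left h.2 hp.le
  rw [mem_Icc, ← Int.floor_sub_one, ← Int.floor_add_one]
  exact ⟨Int.floor_mono (by linarith), Int.floor_mono (by linarith)⟩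

/-- the cells of level `k` next to the cell of a point -/
def redA_nb (k : ℕ) (c : ℝ × (Fin 3 → ℝ)) : Finset (ℤ × (Fin 3 → ℤ)) :=
  Icc (⌊(2 : ℝ) ^ k * c.1⌋ - 1) (⌊(2 : ℝ) ^ k * c.1⌋ + 1) ×ˢ
    Fintype.piFinset fun i => Icc (⌊(2 : ℝ) ^ k * c.2 i⌋ - 1) (⌊(2 : ℝ) ^ k * c.2 i⌋ + 1)

theorem redA_card (k : ℕ) (c : ℝ × (Fin 3 → ℝ)) : (redA_nb k c).card = 81 := by
  have h : ∀ a : ℤ, (Icc (a - 1) (a + 1)).card = 3 := fun a => by
    rw [Int.card_Icc]; omega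
  simp only [redA_nb, card_product, Fintype.card_piFinset, h]
  simp

theorem redA_mem {k : ℕ} {z c : ℝ × (Fin 3 → ℝ)} (h : dist z c ≤ (1 / 2) ^ k) :
    (⌊(2 : ℝ) ^ k * z.1⌋, qz k z.2) ∈ redA_nb k c := by
  rw [Prod.dist_eq, max_le_iff] at h
  exact mem_product.2 ⟨redA_floor h.1,
    Fintype.mem_piFinset.2 fun i => redA_floor ((dist_le_pi_dist _ _ i).trans h.2)⟩

/-- A null set for `μH[d]` is covered by dyadic cells, few at each level. Cover by sets `U j` with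
`∑ diam ^ d` small (`Measure.hausdorffMeasure_apply`), put `r j = max (diam) (ε / 2 ^ j)`, give
`U j` the level `k` with `1 / 2 ^ (k + 1) < r j ≤ 1 / 2 ^ k`; it meets at most `3 ^ 4` cells of
that level. -/
theorem red_cover {K' : Set (ℝ × (Fin 3 → ℝ))} {d : ℝ} (hd : 0 < d) (h0 : μH[d] K' = 0) (k0 : ℕ) :
    ∃ C : ℕ → Finset (ℤ × (Fin 3 → ℤ)), (∀ k, ((C k).card : ℝ) ≤ (2 : ℝ) ^ (d * k)) ∧
      ∀ z ∈ K', ∃ k, k0 ≤ k ∧ (⌊(2 : ℝ) ^ k * z.1⌋, qz k z.2) ∈ C k := by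
  classical
  set ε : ℝ := 1 / (81 * (2 ^ d + 2)) with hε
  have hε0 : 0 < ε := by positivity
  have hr : (0 : ℝ≥0∞) < ENNReal.ofReal ((1 / 2) ^ k0) := ENNReal.ofReal_pos.2 (by positivity)
  rw [Measure.hausdorffMeasure_apply] at h0
  have h1 := ((le_iSup₂_of_le (f := fun (r : ℝ≥0∞) (_ : 0 < r) =>
      ⨅ (t : ℕ → Set (ℝ × (Fin 3 → ℝ))) (_ : K' ⊆ ⋃ n, t n) (_ : ∀ n, Metric.ediam (t n) ≤ r),
        ∑' n, ⨆ _ : (t n).Nonempty, Metric.ediam (t n) ^ d) _ hr le_rfl).trans h0.le).trans_lt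
    (ENNReal.ofReal_pos.2 hε0)
  simp only [iInf_lt_iff] at h1
  obtain ⟨U, hU, hUr, hsum⟩ := h1
  have hfin : ∀ n, Metric.ediam (U n) ≠ ⊤ := fun n =>
    ne_top_of_le_ne_top ENNReal.ofReal_ne_top (hUr n)
  have hD : ∀ n, Metric.diam (U n) ≤ (1 / 2) ^ k0 := fun n =>
    ENNReal.toReal_le_of_le_ofReal (by positivity) (hUr n)
  have hS : ∀ S : Finset ℕ, ∑ n ∈ S, Metric.diam (U n) ^ d ≤ ε := by
    intro S
    rw [← ENNReal.ofReal_le_ofReal_iff hε0.le,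
      ENNReal.ofReal_sum_of_nonneg fun n _ => rpow_nonneg Metric.diam_nonneg _]
    refine le_trans (sum_le_sum fun n _ => ?_) ((ENNReal.sum_le_tsum S).trans hsum.le)
    rw [← ENNReal.ofReal_rpow_of_nonneg Metric.diam_nonneg hd.le, Metric.diam,
      ENNReal.ofReal_toReal (hfin n)]
    rcases (U n).eq_empty_or_nonempty with h | h
    · rw [h, Metric.ediam_empty, ENNReal.zero_rpow_of_pos hd]
      exact zero_le
    · exact le_iSup (fun _ : (U n).Nonempty => Metric.ediam (U n) ^ d) h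
  choose lv hlv0 hlv1 hlv2 using fun n => redA_level (e := ε * (1 / 2) ^ n) hd (by positivity) k0
    Metric.diam_nonneg (hD n)
  have hcnt : ∀ (k : ℕ) (S : Finset ℕ), (∀ n ∈ S, lv n = k) →
      81 * (S.card : ℝ) ≤ (2 : ℝ) ^ (d * k) := by
    intro k S hk
    have g1 : ∑ n ∈ S, ((1 / 2 : ℝ) ^ k) ^ d ≤
        ∑ n ∈ S, (2 ^ d * Metric.diam (U n) ^ d + ε * (1 / 2) ^ n) :=
      sum_le_sum fun n hn => by rw [← hk n hn]; exact hlv2 n
    have g2 : ∑ n ∈ S, (1 / 2 : ℝ) ^ n ≤ 2 :=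
      (summable_geometric_two.sum_le_tsum S fun n _ => by positivity).trans tsum_geometric_two.le
    rw [sum_const, nsmul_eq_mul, sum_add_distrib, ← mul_sum, ← mul_sum] at g1
    have g3 := mul_le_mul_of_nonneg_left (hS S) (show (0 : ℝ) ≤ 2 ^ d by positivity)
    have g4 := mul_le_mul_of_nonneg_left g2 hε0.le
    have g5 : 81 * (2 ^ d * ε + ε * 2) = 1 := by rw [hε]; field_simp
    have g6 : ((1 / 2 : ℝ) ^ k) ^ d * (2 : ℝ) ^ (d * k) = 1 := by
      rw [mul_comm d, rpow_natCast_mul (by norm_num), ← mul_rpow (by positivity) (by positivity),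
        ← mul_pow]
      norm_num
    have g7 : 81 * (S.card : ℝ) * ((1 / 2 : ℝ) ^ k) ^ d ≤ 1 := by linarith
    have g8 := mul_le_mul_of_nonneg_right g7 (show (0 : ℝ) ≤ 2 ^ (d * k) by positivity)
    rwa [mul_assoc, g6, mul_one, one_mul] at g8
  have hF : ∀ k : ℕ, {n | lv n = k}.Finite := by
    intro k
    by_contra hinf
    obtain ⟨m, hm⟩ := exists_nat_gt ((2 : ℝ) ^ (d * k))
    obtain ⟨S, hS1, hS2⟩ := Set.Infinite.exists_subset_card_eq hinf m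
    have g1 := hcnt k S fun n hn => hS1 hn
    rw [hS2] at g1
    have : (0 : ℝ) ≤ m := Nat.cast_nonneg m
    linarith
  have hpt : ∀ n, ∃ c : ℝ × (Fin 3 → ℝ), ∀ z ∈ U n, dist z c ≤ Metric.diam (U n) := by
    intro n
    rcases (U n).eq_empty_or_nonempty with h | ⟨c, hc⟩
    · exact ⟨0, fun z hz => by rw [h] at hz; exact hz.elim⟩
    · exact ⟨c, fun z hz => Metric.dist_le_diam_of_mem' (hfin n) hz hc⟩
  choose c hc using hpt
  refine ⟨fun k => (hF k).toFinset.biUnion fun n => redA_nb k (c n), fun k => ?_, fun z hz => ?_⟩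
  · refine le_trans ?_ (hcnt k (hF k).toFinset fun n hn => (hF k).mem_toFinset.1 hn)
    have g1 := card_biUnion_le (s := (hF k).toFinset) (t := fun n => redA_nb k (c n))
    simp only [redA_card, sum_const, smul_eq_mul] at g1
    rw [mul_comm]
    exact_mod_cast g1
  · obtain ⟨n, hn⟩ := Set.mem_iUnion.1 (hU hz)
    exact ⟨lv n, hlv0 n, mem_biUnion.2
      ⟨n, (hF _).mem_toFinset.2 rfl, redA_mem ((hc n z hn).trans (hlv1 n))⟩⟩

end Vale.Agent.P127S
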