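import Vale.Agent.P127S.Cfg
import Vale.Agent.P127S.RedA

/-! Existence of an extremal configuration. -/

open Real Finset Filter Topology Vale.Agent.P118O

noncomputable section

namespace Vale.Agent.P127S

/-- a single configuration with error `η n` -/
structure M0F {Ω κ δ : Type} (n : ℕ) (η : ℝ) (s : Finset Ω) (p : Ω → ℝ) (C : Ω → κ) (D : Ω → δ)
    (a θ : Ω → V3) (t : Ω → ℝ) : Prop where
  isP : IsP s p
  bd : ∀ ω ∈ s, ‖a ω‖ ≤ 1 ∧ ‖θ ω‖ ≤ 1 ∧ 0 ≤ t ω ∧ t ω < 1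
  lat : Det s (pj a θ) (pj (qv n a) (qv n θ))
  dC : Det s C D
  dt : Det s t D
  c1 : ∀ i ≤ n, ce s p (pj (qv i a) (qv i θ)) C ≤ 3 * i + η * n
  c2 : 3 * n - η * n ≤ ce s p (qv n θ) D
  c3 : n - η * n ≤ ce s p (qv n fun ω (_ : Unit) => t ω) (pj (pj (qv n a) (qv n θ)) C)

theorem m0_le {N : ℕ → ℕ} {f g : ℕ → ℝ} (e : ∀ k, f k ≤ g k + 1 / ((k : ℝ) + 1) * N k) :
    Le N f g := fun ε hε =>
  (((tendsto_one_div_add_atTop_nhds_zero_nat (𝕜 := ℝ)).eventually_le_const hε).filter_mono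
    Nat.hyperfilter_le_atTop).mono fun k hk => (e k).trans (by gcongr)

theorem m0_eq {N : ℕ → ℕ} {Ω δ : ℕ → Type} (S : Sp N Ω) (L : Ln Ω) (D : RV Ω δ) (k : ℕ)
    (bd : ∀ ω ∈ S.s k, ‖L.a k ω‖ ≤ 1 ∧ ‖L.θ k ω‖ ≤ 1 ∧ 0 ≤ L.t k ω ∧ L.t k ω < 1) :
    (∀ i : ℕ → ℕ, H S (L.p N i) L.C k =
      ce (S.s k) (S.P k) (pj (qv (i k) (L.a k)) (qv (i k) (L.θ k))) (L.C k)) ∧
    H S (Q N L.n L.θ) D k = ce (S.s k) (S.P k) (qv (L.n k) (L.θ k)) (D k) ∧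
    H S (Q N L.n (sc L.t)) (J (L.p N L.n) L.C) k =
      ce (S.s k) (S.P k) (qv (L.n k) fun ω (_ : Unit) => L.t k ω)
        (pj (pj (qv (L.n k) (L.a k)) (qv (L.n k) (L.θ k))) (L.C k)) ∧
    (1 ≤ N k → H S (Q N L.n L.x) D k =
      ce (S.s k) (S.P k) (qv (L.n k) fun ω => L.a k ω + L.t k ω • L.θ k ω) (D k)) ∧
    (Det (S.s k) (J L.a L.θ k) (L.p N L.n k) ↔ Det (S.s k) (pj (L.a k) (L.θ k))
      (pj (qv (L.n k) (L.a k)) (qv (L.n k) (L.θ k)))) := by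
  have h1 : (1 : ℝ) ≤ 2 ^ N k := one_le_pow₀ one_le_two
  have hp : ∀ i : ℕ → ℕ, ∀ ω ∈ S.s k,
      L.p N i k ω = pj (qv (i k) (L.a k)) (qv (i k) (L.θ k)) ω := fun i ω hω =>
    Prod.ext (Q_of_le ((bd ω hω).1.trans h1)) (Q_of_le ((bd ω hω).2.1.trans h1))
  have ht : ∀ ω ∈ S.s k, ‖L.t k ω‖ ≤ 1 := fun ω hω =>
    (Real.norm_of_nonneg (bd ω hω).2.2.1).trans_le (bd ω hω).2.2.2.le
  refine ⟨fun i => ce_congr (hp i) fun _ _ => rfl,
    ce_congr (fun ω hω => Q_of_le ((bd ω hω).2.1.trans h1)) fun _ _ => rfl,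
    ce_congr (fun ω hω => Q_of_le ((pi_norm_const_le _).trans ((ht ω hω).trans h1)))
      fun ω hω => Prod.ext (hp _ ω hω) rfl,
    fun hN => ce_congr (fun ω hω => Q_of_le ?_) fun _ _ => rfl,
    forall₄_congr fun ω hω ω' hω' => by rw [hp _ ω hω, hp _ ω' hω']; rfl⟩
  refine (norm_add_le (L.a k ω) (L.t k ω • L.θ k ω)).trans
    (le_trans ?_ (le_self_pow₀ one_le_two (by omega)))
  rw [norm_smul]
  linarith [(bd ω hω).1, mul_le_one₀ (ht ω hω) (norm_nonneg _) (bd ω hω).2.1]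

theorem m0_mk {Ω κ δ : ℕ → Type} {n : ℕ → ℕ} (hn : ∀ k, k + 1 ≤ n k) {s : ∀ k, Finset (Ω k)}
    {p : ∀ k, Ω k → ℝ} {C : RV Ω κ} {D : RV Ω δ} {a θ : VV Ω V3} {t : VV Ω ℝ}
    (h : ∀ k, M0F (n k) (1 / ((k : ℝ) + 1)) (s k) (p k) (C k) (D k) (a k) (θ k) (t k)) :
    ∃ S : Sp n Ω, Cfg S ⟨n, κ, C, a, θ, t⟩ D ∧ ∀ k, H S (Q n n (Ln.x ⟨n, κ, C, a, θ, t⟩)) D k =
      ce (s k) (p k) (qv (n k) fun ω => a k ω + t k ω • θ k ω) (D k) := by
  let S : Sp n Ω := ⟨s, p, fun k => (h k).isP, (tendsto_atTop_mono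
    (fun k => (Nat.le_succ k).trans (hn k)) tendsto_id).mono_left Nat.hyperfilter_le_atTop⟩
  have e := fun k => m0_eq S ⟨n, κ, C, a, θ, t⟩ D k (h k).bd
  exact ⟨S, ⟨fun _ => le_rfl, ⟨1, one_pos, Eventually.of_forall fun k => (one_mul _).le⟩,
    fun k => (h k).bd, fun k => (e k).2.2.2.2.2 (h k).lat, fun k => (h k).dC, fun k => (h k).dt,
    fun i hi => m0_le fun k => ((e k).1 i).trans_le ((h k).c1 _ (hi k)),
    m0_le fun k => sub_le_iff_le_add.1 ((h k).c2.trans_eq (e k).2.1.symm),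
    m0_le fun k => sub_le_iff_le_add.1 ((h k).c3.trans_eq (e k).2.2.1.symm)⟩,
    fun k => (e k).2.2.2.1 ((Nat.le_add_left 1 k).trans (hn k))⟩

theorem m0_ex {σ η : ℝ} (h : ¬ LB σ) (hη : 0 < η) (m : ℕ) :
    ∃ (Ω κ δ : Type) (n : ℕ) (s : Finset Ω) (p : Ω → ℝ) (C : Ω → κ) (D : Ω → δ) (a θ : Ω → V3)
      (t : Ω → ℝ), m + 1 ≤ n ∧ M0F n η s p C D a θ t ∧
      ce s p (qv n fun ω => a ω + t ω • θ ω) D ≤ (3 - σ) * n := by
  unfold LB at h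
  push Not at h
  obtain ⟨N, Ω, δ, S, L, D, hC, h⟩ := h
  obtain ⟨ε, h⟩ := not_forall.1 h
  obtain ⟨hε, h⟩ := Classical.not_imp.1 h
  obtain ⟨c, hc, hb⟩ := hC.big
  have e := fun k => m0_eq S L D k (hC.bd k)
  have h1 := le_unif (N := N) (n := L.n) (F := fun k i => ce (S.s k) (S.P k)
    (pj (qv i (L.a k)) (qv i (L.θ k))) (L.C k)) (G := fun _ i => 3 * i)
    (fun i hi => (hC.c1 i hi).lin fun k => by rw [(e k).1 i]) (mul_pos hη hc)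
  obtain ⟨k, k0, k1, k2, k3, k4, k5⟩ := ((Ultrafilter.eventually_not.2 h).and (h1.and
    ((hC.c2 _ (mul_pos hη hc)).and ((hC.c3 _ (mul_pos hη hc)).and
      (hb.and (asyB_ev S hc (m + 1 : ℕ))))))).exists
  have k6 : m + 1 ≤ L.n k := Nat.cast_le.1 (k5.trans k4)
  have k7 : η * c * N k ≤ η * L.n k := by
    rw [mul_assoc]
    gcongr
  rw [(e k).2.2.2.1 (((Nat.le_add_left 1 m).trans k6).trans (hC.lv k))] at k0
  rw [(e k).2.1] at k2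
  rw [(e k).2.2.1] at k3
  exact ⟨_, _, _, L.n k, S.s k, S.P k, L.C k, D k, L.a k, L.θ k, L.t k, k6,
    ⟨S.isP k, hC.bd k, (e k).2.2.2.2.1 (hC.lat k), hC.dC k, hC.dt k,
      fun i hi => by linarith [k1 i hi], by linarith, by linarith⟩,
    by linarith [mul_nonneg hε.le (Nat.cast_nonneg (α := ℝ) (N k))]⟩

/-- Take counterexamples with `η = 1 / (k + 1)`, `n0 = k + 1`; `N = n`, `C` trivial, `D = t`
(`Q_of_le`: no truncation). They violate `LB (κ / 2)`. -/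
theorem m0a (h : ¬ KLB) : ∃ κ : ℝ, 0 < κ ∧ ¬ LB κ := by
  unfold KLB at h
  push Not at h
  obtain ⟨κ, hκ, h⟩ := h
  choose n hn Ω s p a θ t h1 h2 h3 h4 h5 h6 h7 using
    fun k : ℕ => h (1 / ((k : ℝ) + 1)) Nat.one_div_pos_of_nat (k + 1)
  obtain ⟨S, hS, e⟩ := m0_mk hn (C := fun k => nil (Ω k)) (D := t) fun k =>
    ⟨h1 k, h2 k, h3 k, fun _ _ _ _ _ => rfl, fun _ _ _ _ e => e, h4 k, h5 k,
      (h6 k).trans (ce_mono (h1 k) (fun _ _ _ _ e => congrFun (Prod.mk.inj e).1 ())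
        fun _ _ _ _ e => Prod.ext e rfl)⟩
  refine ⟨κ / 2, half_pos hκ, fun lb => ?_⟩
  obtain ⟨k, hk⟩ := (lb _ _ _ S _ _ hS (κ / 2) (half_pos hκ)).exists
  rw [e] at hk
  linarith [h7 k]

theorem LB.mono {σ σ' : ℝ} (h : LB σ) (e : σ ≤ σ') : LB σ' := by
  refine fun N Ω δ S L D hC => (h N Ω δ S L D hC).lin fun k => ?_
  linarith [mul_le_mul_of_nonneg_right e (Nat.cast_nonneg (α := ℝ) (L.n k))]

theorem lb_three : LB 3 := by
  refine fun N Ω δ S L D _ => Le.of_le fun k => ?_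
  rw [sub_self, zero_mul]
  exact H_nonneg _ _ _

theorem lb_closed {σ : ℝ} (h : ∀ σ', σ < σ' → LB σ') : LB σ := by
  refine fun N Ω δ S L D hC => Le.of_forall fun c hc =>
    (h (σ + c) (by linarith) N Ω δ S L D hC).lin fun k => ?_
  linarith [mul_le_mul_of_nonneg_left (Nat.cast_le (α := ℝ).2 (hC.lv k)) hc.le]

/-- For each `m` take a configuration violating `LB (σ - 1 / (m + 1))` and an index `k m` where
`n ≥ m + 1`, the violation holds (ultrafilter: `Ultrafilter.eventually_not`), and `c1` (for all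
levels, `le_unif`), `c2`, `c3` hold with error `n / (m + 1)` (use `big`). The new scale is
`N m = n (k m)`; `P = 0`, `I = ∅`. -/
theorem m0b {σ : ℝ} (hσ : 0 < σ) (lb : LB σ) (h : ∀ σ', σ' < σ → ¬ LB σ') : Has σ 0 := by
  choose Ω κ δ n s p C D a θ t hn hF hx using fun m : ℕ =>
    m0_ex (h (σ - 1 / ((m : ℝ) + 1)) (sub_lt_self _ Nat.one_div_pos_of_nat))
      (Nat.one_div_pos_of_nat (n := m)) m
  obtain ⟨S, hS, e⟩ := m0_mk hn hF
  refine ⟨n, Ω, δ, S, _, D, fun _ _ => 0, ∅, ⟨hS, ⟨fun _ _ _ _ _ _ => rfl,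
    Small.of_le (Eventually.of_forall fun k ω _ => norm_zero.trans_le (by positivity)),
    fun _ _ _ _ _ => rfl, fun _ _ i hi => absurd hi (notMem_empty i)⟩, lb, hσ, ?_⟩, rfl⟩
  have e0 : ∀ X : VV Ω V3, ph (fun _ _ => 0) X = X := fun X => by
    funext k ω i
    simp [ph, MV]
  rw [e0]
  refine m0_le fun k => ((e k).trans_le (hx k)).trans_eq ?_
  simp only [qd, card_empty, Nat.cast_zero]
  ring

/-- `σ` is the infimum of the set where `LB` holds -/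
theorem m0 (h : ¬ KLB) : ∃ σ : ℝ, Has σ 0 := by
  obtain ⟨κ, hκ, hl⟩ := m0a h
  have hb : κ ∈ lowerBounds {σ | LB σ} := fun σ hσ => not_lt.1 fun c => hl (LB.mono hσ c.le)
  have hne : {σ | LB σ}.Nonempty := ⟨3, lb_three⟩
  refine ⟨sInf {σ | LB σ}, m0b (hκ.trans_le (le_csInf hne hb)) (lb_closed fun σ' h' => ?_)
    fun σ' h' c => (csInf_le ⟨κ, hb⟩ c).not_gt h'⟩
  obtain ⟨a, ha, e⟩ := exists_lt_of_csInf_lt hne h'
  exact LB.mono ha e.le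

end Vale.Agent.P127S
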