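import Vale.Agent.P127S.RedA

/-! Pigeonholing. -/

open Real Finset Vale.Agent.P118O MeasureTheory
open scoped ENNReal

noncomputable section

namespace Vale.Agent.P127S

theorem redc_sum (n : ℕ) :
    ∑ k ∈ range (n + 1), (if k = 0 then (0 : ℝ) else 1 / ((k : ℝ) + 1) ^ 2) ≤
      2 / 3 - 1 / ((n : ℝ) + 3 / 2) := by
  induction n with
  | zero => norm_num
  | succ n ih =>
    rw [sum_range_succ, if_neg (Nat.succ_ne_zero n)]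
    push_cast
    have h1 : 1 / ((n : ℝ) + 1 + 1) ^ 2 ≤ 1 / (n + 3 / 2) - 1 / (n + 1 + 3 / 2) := by
      rw [div_sub_div _ _ (by positivity) (by positivity), div_le_div_iff₀ (by positivity)
        (by positivity)]
      nlinarith
    linarith

theorem redc_pig {X : Type} [MeasurableSpace X] (μ : Measure X) {A : Set X} (A' : ℕ → Set X)
    (hA : A ⊆ ⋃ k, A' k) (h0 : A' 0 = ∅) {v : ℝ} (hv : 0 < v) (hvA : ENNReal.ofReal v ≤ μ A) :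
    ∃ k : ℕ, ENNReal.ofReal (v / (k + 1) ^ 2) ≤ μ (A' k) := by
  by_contra hc
  push Not at hc
  have h1 : ∑' k, μ (A' k) ≤ ENNReal.ofReal (v * (2 / 3)) := by
    refine ENNReal.tsum_le_of_sum_range_le fun n => ?_
    have h2 : ∑ k ∈ range n, μ (A' k) ≤ ∑ k ∈ range (n + 1),
        ENNReal.ofReal (v * if k = 0 then 0 else 1 / ((k : ℝ) + 1) ^ 2) := by
      refine (sum_le_sum_of_subset (range_subset_range.2 n.le_succ)).trans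
        (sum_le_sum fun k _ => ?_)
      split_ifs with hk
      · rw [hk, h0, measure_empty]
        exact zero_le
      · rw [mul_one_div]
        exact (hc k).le
    refine h2.trans ?_
    rw [← ENNReal.ofReal_sum_of_nonneg fun k _ => by split_ifs <;> positivity, ← mul_sum]
    refine ENNReal.ofReal_le_ofReal (mul_le_mul_of_nonneg_left ((redc_sum n).trans ?_) hv.le)
    have : (0 : ℝ) ≤ 1 / (n + 3 / 2) := by positivity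
    linarith
  have h3 := (hvA.trans ((measure_mono hA).trans (measure_iUnion_le A'))).trans h1
  rw [ENNReal.ofReal_le_ofReal_iff (by positivity)] at h3
  linarith

theorem redc_cells {X β : Type} [MeasurableSpace X] (μ : Measure X) (f : X → β) (I : Finset β)
    {A : Set X} (hA : ∀ x ∈ A, f x ∈ I) {c u : ℝ} (hc0 : 0 ≤ c)
    (hc : ∀ b, μ {x | f x = b} ≤ ENNReal.ofReal c) (hu : ENNReal.ofReal u ≤ μ A) :
    u ≤ I.card * c := by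
  have h1 : A ⊆ ⋃ b ∈ I, {x | f x = b} := fun x hx => Set.mem_biUnion (hA x hx) rfl
  have h2 := (hu.trans ((measure_mono h1).trans (measure_biUnion_finset_le I _))).trans
    (sum_le_sum fun b _ => hc b)
  rwa [sum_const, nsmul_eq_mul, ← ENNReal.ofReal_natCast, ← ENNReal.ofReal_mul (Nat.cast_nonneg _),
    ENNReal.ofReal_le_ofReal_iff (by positivity)] at h2

theorem redc_one (k : ℕ) (z : ℤ) :
    volume {t : ℝ | ⌊(2 : ℝ) ^ k * t⌋ = z} = ENNReal.ofReal (1 / 2 ^ k) := by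
  have h1 : {t : ℝ | ⌊(2 : ℝ) ^ k * t⌋ = z} = Set.Ico ((z : ℝ) / 2 ^ k) ((z + 1) / 2 ^ k) := by
    ext t
    rw [Set.mem_ofPred_eq, Int.floor_eq_iff, Set.mem_Ico, div_le_iff₀' (by positivity),
      lt_div_iff₀' (by positivity)]
  rw [h1, Real.volume_Ico]
  congr 1
  ring

theorem redc_three (k : ℕ) (z : Fin 3 → ℤ) :
    volume {θ : Fin 3 → ℝ | qz k θ = z} = ENNReal.ofReal (1 / 8 ^ k) := by
  have h1 : {θ : Fin 3 → ℝ | qz k θ = z} =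
      Set.univ.pi fun i => {t : ℝ | ⌊(2 : ℝ) ^ k * t⌋ = z i} := by
    ext θ
    simp only [Set.mem_ofPred_eq, Set.mem_pi, Set.mem_univ, true_imp_iff, funext_iff, qz]
  rw [h1, volume_pi_pi]
  simp only [redc_one, prod_const, card_univ, Fintype.card_fin]
  rw [← ENNReal.ofReal_pow (by positivity), div_pow, one_pow, ← pow_mul, mul_comm, pow_mul]
  norm_num

theorem redc_fin (k : ℕ) {A : Set (Fin 3 → ℝ)} (hb : ∀ θ ∈ A, ‖θ‖ ≤ 1) : (qz k '' A).Finite := by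
  refine (Set.finite_Icc (fun _ : Fin 3 => ⌊(2 : ℝ) ^ k * (-1)⌋)
    (fun _ : Fin 3 => ⌊(2 : ℝ) ^ k * 1⌋)).subset ?_
  rintro _ ⟨θ, hθ, rfl⟩
  have h1 : ∀ i, |θ i| ≤ 1 := fun i => (norm_le_pi_norm θ i).trans (hb θ hθ)
  exact ⟨fun i => Int.floor_le_floor (mul_le_mul_of_nonneg_left (abs_le.1 (h1 i)).1 (by positivity)),
    fun i => Int.floor_le_floor (mul_le_mul_of_nonneg_left (abs_le.1 (h1 i)).2 (by positivity))⟩

theorem redc_time (P : ℕ → ℝ → Prop) {k0 : ℕ} (hk0 : 1 ≤ k0)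
    (hP : ∀ t : ℝ, 0 ≤ t → t < 1 → ∃ k, k0 ≤ k ∧ P k t) :
    ∃ k, k0 ≤ k ∧ ∃ T : Finset ℕ, T.card = ⌈(2 : ℝ) ^ k / (k + 1) ^ 2⌉₊ ∧
      ∀ τ ∈ T, τ < 2 ^ k ∧ ∃ t : ℝ, ⌊(2 : ℝ) ^ k * t⌋ = τ ∧ P k t := by
  classical
  obtain ⟨k, hk⟩ := redc_pig volume (A := Set.Ico (0 : ℝ) 1)
    (fun k => {t | t ∈ Set.Ico (0 : ℝ) 1 ∧ k0 ≤ k ∧ P k t})
    (fun t ht => Set.mem_iUnion.2 ((hP t ht.1 ht.2).imp fun k hk => ⟨ht, hk⟩))
    (Set.eq_empty_of_forall_notMem fun t ht => by have := ht.2.1; omega) one_pos (by simp)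
  obtain ⟨t0, ht0⟩ := nonempty_of_measure_ne_zero
    ((ENNReal.ofReal_pos.2 (by positivity)).trans_le hk).ne'
  refine ⟨k, ht0.2.1, ?_⟩
  set S := (range (2 ^ k)).filter fun τ : ℕ => ∃ t : ℝ, ⌊(2 : ℝ) ^ k * t⌋ = τ ∧ P k t with hS
  have h1 := redc_cells volume (fun t : ℝ => ⌊(2 : ℝ) ^ k * t⌋) (S.image fun τ : ℕ => (τ : ℤ))
    (fun t ht => by
      have h2 : 0 ≤ ⌊(2 : ℝ) ^ k * t⌋ := Int.floor_nonneg.2 (mul_nonneg (by positivity) ht.1.1)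
      have h3 : ⌊(2 : ℝ) ^ k * t⌋ < 2 ^ k := Int.floor_lt.2 (by
        push_cast
        exact mul_lt_of_lt_one_right (by positivity) ht.1.2)
      obtain ⟨τ, hτ⟩ := Int.eq_ofNat_of_zero_le h2
      refine mem_image.2 ⟨τ, mem_filter.2 ⟨mem_range.2 ?_, t, hτ, ht.2.2⟩, hτ.symm⟩
      rw [hτ] at h3
      exact_mod_cast h3) (by positivity) (fun z => (redc_one k z).le) hk
  rw [card_image_of_injective _ Nat.cast_injective, mul_one_div, le_div_iff₀ (by positivity)] at h1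
  have h4 : ⌈(2 : ℝ) ^ k / (k + 1) ^ 2⌉₊ ≤ S.card := Nat.ceil_le.2 (by
    rw [div_eq_mul_one_div, mul_comm]
    exact h1)
  obtain ⟨T, hT, hT'⟩ := exists_subset_card_eq h4
  exact ⟨T, hT', fun τ hτ => ⟨mem_range.1 (mem_filter.1 (hT hτ)).1, (mem_filter.1 (hT hτ)).2⟩⟩

/-- Pigeonholing with the weights `1 / (k + 1) ^ 2` (their sum over `k ≥ 1` is below `1`): for each
`θ` some level `k ≥ k0` carries more than `2 ^ k / (k + 1) ^ 2` time cells, and for some level the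
set of such `θ` has outer measure above `v / (k + 1) ^ 2`, so it meets at least
`v 8 ^ k / (k + 1) ^ 2` cells. Choose one `θ` in each cell and exactly `M` time cells for it. -/
theorem red_pig {K' : Set (ℝ × (Fin 3 → ℝ))} {Θ : Set (Fin 3 → ℝ)}
    {a0 : (Fin 3 → ℝ) → Fin 3 → ℝ} (hΘ : volume Θ ≠ 0) (hb : ∀ θ ∈ Θ, ‖θ‖ ≤ 1)
    (hK : ∀ θ ∈ Θ, ∀ t : ℝ, 0 ≤ t → t < 1 → (t, a0 θ + t • θ) ∈ K') :
    ∃ v : ℝ, 0 < v ∧ ∀ k0 : ℕ, 1 ≤ k0 → ∀ C : ℕ → Finset (ℤ × (Fin 3 → ℤ)),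
      (∀ z ∈ K', ∃ k, k0 ≤ k ∧ (⌊(2 : ℝ) ^ k * z.1⌋, qz k z.2) ∈ C k) →
      ∃ (k M : ℕ) (Λ : Finset (Fin 3 → ℝ)) (T : (Fin 3 → ℝ) → Finset ℕ), k0 ≤ k ∧
        (Λ : Set (Fin 3 → ℝ)) ⊆ Θ ∧ (∀ θ ∈ Λ, ∀ θ' ∈ Λ, qz k θ = qz k θ' → θ = θ') ∧
        v * 8 ^ k / (k + 1) ^ 2 ≤ Λ.card ∧ (2 : ℝ) ^ k / (k + 1) ^ 2 ≤ M ∧
        ∀ θ ∈ Λ, (T θ).card = M ∧ ∀ τ ∈ T θ, τ < 2 ^ k ∧ ∃ t : ℝ, ⌊(2 : ℝ) ^ k * t⌋ = τ ∧
          ((τ : ℤ), qz k (a0 θ + t • θ)) ∈ C k := by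
  classical
  have hfin : volume Θ ≠ ⊤ :=
    ((measure_mono fun θ hθ => mem_closedBall_zero_iff.2 (hb θ hθ)).trans_lt
      measure_closedBall_lt_top).ne
  have hv := ENNReal.toReal_pos hΘ hfin
  refine ⟨(volume Θ).toReal, hv, fun k0 hk0 C hC => ?_⟩
  obtain ⟨k, hk⟩ := redc_pig volume (A := Θ)
    (fun k => {θ | θ ∈ Θ ∧ k0 ≤ k ∧ ∃ T : Finset ℕ, T.card = ⌈(2 : ℝ) ^ k / (k + 1) ^ 2⌉₊ ∧
      ∀ τ ∈ T, τ < 2 ^ k ∧ ∃ t : ℝ, ⌊(2 : ℝ) ^ k * t⌋ = τ ∧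
        (⌊(2 : ℝ) ^ k * t⌋, qz k (a0 θ + t • θ)) ∈ C k})
    (fun θ hθ => Set.mem_iUnion.2 ((redc_time
      (fun k t => (⌊(2 : ℝ) ^ k * t⌋, qz k (a0 θ + t • θ)) ∈ C k) hk0
        fun t h0 h1 => hC _ (hK θ hθ t h0 h1)).imp fun k hk => ⟨hθ, hk⟩))
    (Set.eq_empty_of_forall_notMem fun θ hθ => by have := hθ.2.1; omega) hv
    (ENNReal.ofReal_toReal hfin).le
  obtain ⟨θ0, hθ0⟩ := nonempty_of_measure_ne_zero
    ((ENNReal.ofReal_pos.2 (by positivity)).trans_le hk).ne'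
  have hk1 := hθ0.2.1
  generalize hA : {θ | θ ∈ Θ ∧ k0 ≤ k ∧ ∃ T : Finset ℕ, T.card = ⌈(2 : ℝ) ^ k / (k + 1) ^ 2⌉₊ ∧
      ∀ τ ∈ T, τ < 2 ^ k ∧ ∃ t : ℝ, ⌊(2 : ℝ) ^ k * t⌋ = τ ∧
        (⌊(2 : ℝ) ^ k * t⌋, qz k (a0 θ + t • θ)) ∈ C k} = A at hk
  have hA1 : ∀ θ ∈ A, θ ∈ Θ := fun θ hθ => (hA ▸ hθ :).1
  have hA2 : ∀ θ, ∃ T : Finset ℕ, θ ∈ A → T.card = ⌈(2 : ℝ) ^ k / (k + 1) ^ 2⌉₊ ∧
      ∀ τ ∈ T, τ < 2 ^ k ∧ ∃ t : ℝ, ⌊(2 : ℝ) ^ k * t⌋ = τ ∧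
        ((τ : ℤ), qz k (a0 θ + t • θ)) ∈ C k := by
    intro θ
    by_cases hθ : θ ∈ A
    · rw [← hA] at hθ
      obtain ⟨T, h1, h2⟩ := hθ.2.2
      refine ⟨T, fun _ => ⟨h1, fun τ hτ => ⟨(h2 τ hτ).1, ?_⟩⟩⟩
      obtain ⟨t, h3, h4⟩ := (h2 τ hτ).2
      exact ⟨t, h3, h3 ▸ h4⟩
    · exact ⟨∅, fun h => absurd h hθ⟩
  choose T hT using hA2
  have hI := redc_fin k fun θ hθ => hb θ (hA1 θ hθ)
  have h1 := redc_cells volume (qz k) hI.toFinset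
    (fun θ hθ => hI.mem_toFinset.2 (Set.mem_image_of_mem _ hθ)) (by positivity)
    (fun z => (redc_three k z).le) hk
  obtain ⟨Λ, h2, h3, h4⟩ := Finset.exists_subset_injOn_image_eq_of_surjOn (f := qz k) A hI.toFinset
    (fun z hz => hI.mem_toFinset.1 hz)
  refine ⟨k, _, Λ, T, hk1, fun θ hθ => hA1 θ (h2 hθ), fun θ hθ θ' hθ' e => h3 hθ hθ' e, ?_,
    Nat.le_ceil _, fun θ hθ => hT θ (h2 hθ)⟩
  rw [← h4, card_image_of_injOn h3, mul_one_div, le_div_iff₀ (by positivity)] at h1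
  rwa [mul_div_right_comm]

end Vale.Agent.P127S
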