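import Vale.Agent.P127S.RedB
import Vale.Agent.P127S.RedC

/-! The reduction. -/

open Real Finset Vale.Agent.P118O MeasureTheory
open scoped ENNReal

noncomputable section

namespace Vale.Agent.P127S

theorem red_large {ε : ℝ} (hε : 0 < ε) (B : ℝ) :
    ∃ k0 : ℕ, ∀ k : ℕ, k0 ≤ k → B + 4 * Real.logb 2 ((k : ℝ) + 1) ≤ ε * k := by
  have hl : 0 < Real.log 2 := fin0_log
  set δ : ℝ := ε * Real.log 2 / 8 with hδ
  have hδ0 : 0 < δ := by positivity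
  obtain ⟨k0, hk0⟩ := exists_nat_ge (2 * (B + ε / 2 - 4 * Real.log δ / Real.log 2) / ε)
  refine ⟨k0, fun k hk => ?_⟩
  have hk' : (k0 : ℝ) ≤ k := Nat.cast_le.2 hk
  have h1 : 2 * (B + ε / 2 - 4 * Real.log δ / Real.log 2) ≤ ε * k := by
    have := (div_le_iff₀ hε).1 (hk0.trans hk')
    linarith
  have hk1 : (0 : ℝ) < (k : ℝ) + 1 := by positivity
  have h2 := Real.log_le_sub_one_of_pos (mul_pos hk1 hδ0)
  rw [Real.log_mul hk1.ne' hδ0.ne'] at h2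
  have h3 : 4 * Real.logb 2 ((k : ℝ) + 1) ≤ ε * (k + 1) / 2 - 4 * Real.log δ / Real.log 2 := by
    rw [Real.logb, ← mul_div_assoc, le_sub_iff_add_le, ← add_div, div_le_iff₀ hl]
    have h4 : ((k : ℝ) + 1) * δ * 4 = ε * (k + 1) / 2 * Real.log 2 := by rw [hδ]; ring
    linarith
  linarith

section unif

variable {Ω α β : Type} {s : Finset Ω}

/-- uniform weights -/
def redU (s : Finset Ω) : Ω → ℝ := fun _ => ((s.card : ℝ))⁻¹

theorem redU_isP (hs : s.Nonempty) : IsP s (redU s) := by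
  refine ⟨fun _ _ => inv_nonneg.2 (Nat.cast_nonneg _), ?_⟩
  have : (0 : ℝ) < s.card := Nat.cast_pos.2 hs.card_pos
  simp only [redU, Finset.sum_const, nsmul_eq_mul]
  exact mul_inv_cancel₀ this.ne'

theorem redU_ms (E : Ω → Prop) : ms s (redU s) E = (rs s E).card * ((s.card : ℝ))⁻¹ := by
  have : ms s (redU s) E = ∑ ω ∈ rs s E, redU s ω := rfl
  rw [this]
  simp only [redU, Finset.sum_const, nsmul_eq_mul]

theorem redU_ge (hs : s.Nonempty) (X : Ω → α) (Y : Ω → β) {m : ℝ} (hm : 0 < m)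
    (h1 : ∀ ω ∈ s, ∀ ω' ∈ s, X ω' = X ω → Y ω' = Y ω → ω' = ω)
    (h2 : ∀ ω ∈ s, m ≤ (rs s fun ω' => Y ω' = Y ω).card) :
    Real.logb 2 m ≤ ce s (redU s) X Y := by
  refine ce_ge_sup (redU_isP hs) X Y fun ω hω => ?_
  rw [redU_ms, redU_ms, Real.rpow_neg two_pos.le, Real.rpow_logb two_pos (by norm_num) hm,
    ← mul_assoc]
  refine mul_le_mul_of_nonneg_right ?_ (inv_nonneg.2 (Nat.cast_nonneg _))
  have h3 : (rs s fun ω' => X ω' = X ω ∧ Y ω' = Y ω).card ≤ 1 :=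
    Finset.card_le_one.2 fun a ha b hb => by
      obtain ⟨ha1, ha2, ha3⟩ := mem_rs.1 ha
      obtain ⟨hb1, hb2, hb3⟩ := mem_rs.1 hb
      rw [h1 ω hω a ha1 ha2 ha3, h1 ω hω b hb1 hb2 hb3]
  have h4 : ((rs s fun ω' => X ω' = X ω ∧ Y ω' = Y ω).card : ℝ) ≤ 1 := by exact_mod_cast h3
  refine h4.trans ?_
  rw [inv_mul_eq_div, le_div_iff₀ hm, one_mul]
  exact h2 ω hω

theorem red_ce_le {p : Ω → ℝ} (h : IsP s p) (X : Ω → α) (Y : Ω → β) (A : Finset α)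
    (hA : ∀ ω ∈ s, X ω ∈ A) {x : ℝ} (hx : (A.card : ℝ) ≤ (2 : ℝ) ^ x) : ce s p X Y ≤ x := by
  have h1 := ce_cnt h X Y (fun _ => x) fun ω _ => by
    refine le_trans (Nat.cast_le.2 (Finset.card_le_card ?_)) hx
    classical
    intro z hz
    simp only [Finset.mem_image, Finset.mem_filter] at hz
    obtain ⟨ω', hω', rfl⟩ := hz
    exact hA ω' hω'.1
  have h2 : ex s p (fun _ => x) = x := by
    rw [ex, ← Finset.sum_mul, h.2, one_mul]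
  linarith

theorem red_chain {p : Ω → ℝ} (h : IsP s p) (X : Ω → α) (t : Ω → β) :
    ce s p (pj t X) (nil Ω) = ce s p t (nil Ω) + ce s p X t := by
  rw [ce_chain]
  congr 1
  exact le_antisymm (ce_mono h (fun _ _ _ _ e => (Prod.mk.inj e).1) fun _ _ _ _ e =>
      (Prod.mk.inj e).1)
    (ce_mono h (fun _ _ _ _ e => (Prod.mk.inj e).1) fun _ _ _ _ e => Prod.ext e rfl)

end unif

theorem red_floor {k τ : ℕ} : ⌊(2 : ℝ) ^ k * ((τ : ℝ) / 2 ^ k)⌋ = τ := by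
  rw [mul_div_cancel₀ _ (by positivity), Int.floor_natCast]

theorem red_nbr {k τ : ℕ} {t : ℝ} (ht : ⌊(2 : ℝ) ^ k * t⌋ = τ) (a θ : Fin 3 → ℝ) (hθ : ‖θ‖ ≤ 1)
    (i : Fin 3) : qz k (a + ((τ : ℝ) / 2 ^ k) • θ) i - qz k (a + t • θ) i ∈ Finset.Icc (-1 : ℤ) 1 := by
  have h1 : |θ i| ≤ 1 := (norm_le_pi_norm θ i).trans hθ
  have h2 := Int.floor_le ((2 : ℝ) ^ k * t)
  have h3 := Int.lt_floor_add_one ((2 : ℝ) ^ k * t)
  rw [ht, Int.cast_natCast] at h2 h3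
  have h4 : (2 : ℝ) ^ k * (a i + (τ : ℝ) / 2 ^ k * θ i) =
      (2 : ℝ) ^ k * (a i + t * θ i) - ((2 : ℝ) ^ k * t - τ) * θ i := by
    field_simp
    ring
  have h5 : |((2 : ℝ) ^ k * t - τ) * θ i| ≤ 1 := by
    rw [abs_mul]
    exact mul_le_one₀ (abs_le.2 ⟨by linarith, by linarith⟩) (abs_nonneg _) h1
  obtain ⟨h6, h7⟩ := abs_le.1 h5
  simp only [qz, Pi.add_apply, Pi.smul_apply, smul_eq_mul, h4, Finset.mem_Icc]
  set u : ℝ := (2 : ℝ) ^ k * (a i + t * θ i)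
  set w : ℝ := ((2 : ℝ) ^ k * t - τ) * θ i
  have h8 : ⌊u - w⌋ ≤ ⌊u⌋ + 1 := by
    rw [← Int.floor_add_one]
    exact Int.floor_mono (by linarith)
  have h9 : ⌊u⌋ - 1 ≤ ⌊u - w⌋ := by
    rw [← Int.floor_sub_one]
    exact Int.floor_mono (by linarith)
  constructor <;> omega

/-- the finite model at level `k` -/
theorem red_model {κ η d C0 v : ℝ} {k M : ℕ} {Θ : Set (Fin 3 → ℝ)}
    {a0 : (Fin 3 → ℝ) → Fin 3 → ℝ} {Λ : Finset (Fin 3 → ℝ)} {T : (Fin 3 → ℝ) → Finset ℕ}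
    {C : Finset (ℤ × (Fin 3 → ℤ))} (hη : 0 < η) (hv : 0 < v)
    (H : ∀ {Ω : Type} (s : Finset Ω) (p : Ω → ℝ) (a θ : Ω → Fin 3 → ℝ) (t : Ω → ℝ), IsP s p →
      (∀ ω ∈ s, ‖a ω‖ ≤ 1 ∧ ‖θ ω‖ ≤ 1 ∧ 0 ≤ t ω ∧ t ω < 1) →
      Det s (pj a θ) (pj (qv k a) (qv k θ)) →
      (∀ i ≤ k, ce s p (pj (qv i a) (qv i θ)) (nil Ω) ≤ 3 * i + η * k) →
      3 * k - η * k ≤ ce s p (qv k θ) t →
      k - η * k ≤ ce s p (qs k t) (pj (qv k a) (qv k θ)) →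
      (3 - κ) * k ≤ ce s p (qv k fun ω => a ω + t ω • θ ω) t)
    (hb : ∀ θ ∈ Θ, ‖θ‖ ≤ 1 ∧ ‖a0 θ‖ ≤ 1)
    (hc : ∀ (i : ℕ) (T : Finset (Fin 3 → ℝ)), (T : Set (Fin 3 → ℝ)) ⊆ Θ →
      ((T.image fun θ => (qz i (a0 θ), qz i θ)).card : ℝ) ≤ C0 * (2 : ℝ) ^ ((3 + η / 2) * i))
    (hC : (C.card : ℝ) ≤ (2 : ℝ) ^ (d * k)) (hΛ : (Λ : Set (Fin 3 → ℝ)) ⊆ Θ)
    (hinj : ∀ θ ∈ Λ, ∀ θ' ∈ Λ, qz k θ = qz k θ' → θ = θ')
    (hcard : v * 8 ^ k / (k + 1) ^ 2 ≤ Λ.card) (hM : (2 : ℝ) ^ k / (k + 1) ^ 2 ≤ M)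
    (hT : ∀ θ ∈ Λ, (T θ).card = M ∧ ∀ τ ∈ T θ, τ < 2 ^ k ∧ ∃ t : ℝ, ⌊(2 : ℝ) ^ k * t⌋ = τ ∧
      ((τ : ℤ), qz k (a0 θ + t • θ)) ∈ C)
    (h1 : C0 ≤ (2 : ℝ) ^ (η / 2 * k))
    (h2 : |Real.logb 2 v| + 4 * Real.logb 2 ((k : ℝ) + 1) ≤ η * k) :
    (3 - κ) * k ≤ 5 + d * k - k + 2 * Real.logb 2 ((k : ℝ) + 1) := by
  classical
  have hk1 : (0 : ℝ) < (k : ℝ) + 1 := by positivity
  have hL : 0 ≤ Real.logb 2 ((k : ℝ) + 1) :=
    Real.logb_nonneg one_lt_two (by linarith [Nat.cast_nonneg (α := ℝ) k])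
  have hM0 : (0 : ℝ) < M := lt_of_lt_of_le (by positivity) hM
  have hΛ0 : (0 : ℝ) < Λ.card := lt_of_lt_of_le (by positivity) hcard
  have hlM : (k : ℝ) - 2 * Real.logb 2 ((k : ℝ) + 1) ≤ Real.logb 2 M := by
    have := Real.logb_le_logb_of_le one_lt_two (by positivity) hM
    rw [Real.logb_div (by positivity) (by positivity), Real.logb_pow, Real.logb_pow,
      Real.logb_self_eq_one one_lt_two] at this
    push_cast at this
    linarith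
  have hlΛ : Real.logb 2 v + 3 * k - 2 * Real.logb 2 ((k : ℝ) + 1) ≤ Real.logb 2 Λ.card := by
    have := Real.logb_le_logb_of_le one_lt_two (by positivity) hcard
    rw [Real.logb_div (by positivity) (by positivity), Real.logb_mul hv.ne' (by positivity),
      Real.logb_pow, Real.logb_pow, show (8 : ℝ) = 2 ^ 3 by norm_num, Real.logb_pow,
      Real.logb_self_eq_one one_lt_two] at this
    push_cast at this
    linarith
  set s : Finset ((_ : Fin 3 → ℝ) × ℕ) := Λ.sigma T with hs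
  have hmem : ∀ ω ∈ s, ω.1 ∈ Λ ∧ ω.2 ∈ T ω.1 := fun ω hω => Finset.mem_sigma.1 hω
  have hsc : (s.card : ℝ) = Λ.card * M := by
    rw [hs, Finset.card_sigma, Finset.sum_congr rfl fun θ hθ => (hT θ hθ).1, Finset.sum_const,
      smul_eq_mul, Nat.cast_mul]
  have hne : s.Nonempty := Finset.card_pos.1 (Nat.cast_pos.1 (hsc ▸ mul_pos hΛ0 hM0))
  have hP := redU_isP hne
  set θ : ((_ : Fin 3 → ℝ) × ℕ) → Fin 3 → ℝ := fun ω => ω.1 with hθ
  set a : ((_ : Fin 3 → ℝ) × ℕ) → Fin 3 → ℝ := fun ω => a0 ω.1 with ha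
  set t : ((_ : Fin 3 → ℝ) × ℕ) → ℝ := fun ω => (ω.2 : ℝ) / 2 ^ k with ht
  have hext : ∀ ω ∈ s, ∀ ω' ∈ s, qv k θ ω' = qv k θ ω → ω'.2 = ω.2 → ω' = ω := by
    rintro ⟨x, τ⟩ hω ⟨x', τ'⟩ hω' e1 e2
    have e3 : x' = x := hinj _ (hmem _ hω').1 _ (hmem _ hω).1 e1
    simp only at e2
    subst e3 e2
    rfl
  have htinj : ∀ ω ω', t ω' = t ω → ω'.2 = ω.2 := fun ω ω' e => by
    have e' : (ω'.2 : ℝ) / 2 ^ k = (ω.2 : ℝ) / 2 ^ k := e
    exact Nat.cast_injective (R := ℝ) ((div_left_inj' (by positivity)).1 e')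
  have hqs : ∀ ω, qs k t ω = (ω.2 : ℤ) := fun ω => red_floor
  have e1 : Real.logb 2 M ≤ ce s (redU s) (qs k t) (pj (qv k a) (qv k θ)) := by
    refine redU_ge hne _ _ hM0 (fun ω hω ω' hω' e e' => hext ω hω ω' hω' (Prod.mk.inj e').2 ?_)
      fun ω hω => ?_
    · rw [hqs, hqs] at e
      exact_mod_cast e
    · rw [← (hT _ (hmem ω hω).1).1, Nat.cast_le]
      refine Finset.card_le_card_of_injOn (fun τ => ⟨ω.1, τ⟩) (fun τ hτ => ?_) fun τ _ τ' _ e => ?_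
      · exact Finset.mem_coe.2 (mem_rs.2 ⟨Finset.mem_sigma.2 ⟨(hmem ω hω).1, hτ⟩, rfl⟩)
      · exact congrArg (fun z : ((_ : Fin 3 → ℝ) × ℕ) => z.2) e
  have e2 : Real.logb 2 M ≤ ce s (redU s) t (nil _) :=
    e1.trans (ce_mono hP (fun ω _ ω' _ e => by
      rw [hqs, hqs, htinj ω' ω (Prod.mk.inj e).1]) fun _ _ _ _ _ => rfl)
  have e3 : ce s (redU s) t (nil _) ≤ k := by
    refine red_ce_le hP _ _ ((range (2 ^ k)).image fun τ : ℕ => (τ : ℝ) / 2 ^ k)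
      (fun ω hω => Finset.mem_image.2 ⟨ω.2, Finset.mem_range.2
        ((hT _ (hmem ω hω).1).2 _ (hmem ω hω).2).1, rfl⟩) ?_
    refine (Nat.cast_le.2 Finset.card_image_le).trans ?_
    rw [Finset.card_range, Real.rpow_natCast, Nat.cast_pow, Nat.cast_ofNat]
  have e4 : Real.logb 2 (Λ.card * M) ≤ ce s (redU s) (pj t (qv k θ)) (nil _) := by
    refine redU_ge hne _ _ (mul_pos hΛ0 hM0) (fun ω hω ω' hω' e _ =>
      hext ω hω ω' hω' (Prod.mk.inj e).2 (htinj _ _ (Prod.mk.inj e).1)) fun ω _ => ?_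
    rw [← hsc, Nat.cast_le]
    exact Finset.card_le_card fun ω' hω' => mem_rs.2 ⟨hω', rfl⟩
  rw [red_chain hP, Real.logb_mul hΛ0.ne' hM0.ne'] at e4
  have e5 := H s (redU s) a θ t hP (fun ω hω => ⟨(hb _ (hΛ (hmem ω hω).1)).2,
      (hb _ (hΛ (hmem ω hω).1)).1, by positivity, (div_lt_one (by positivity)).2 (by
        exact_mod_cast ((hT _ (hmem ω hω).1).2 _ (hmem ω hω).2).1)⟩)
    (fun ω hω ω' hω' e => by
      have e3 : ω.1 = ω'.1 := hinj _ (hmem _ hω).1 _ (hmem _ hω').1 (Prod.mk.inj e).2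
      simp only [pj, ha, hθ, e3])
    (fun i hi => by
      refine red_ce_le hP _ _ (Λ.image fun x => (qz i (a0 x), qz i x))
        (fun ω hω => Finset.mem_image.2 ⟨ω.1, (hmem ω hω).1, rfl⟩) ((hc i Λ hΛ).trans ?_)
      have hi' : (i : ℝ) ≤ k := Nat.cast_le.2 hi
      calc C0 * (2 : ℝ) ^ ((3 + η / 2) * i) ≤ (2 : ℝ) ^ (η / 2 * k) * (2 : ℝ) ^ ((3 + η / 2) * i) :=
            mul_le_mul_of_nonneg_right h1 (by positivity)
        _ ≤ _ := by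
            rw [← Real.rpow_add two_pos]
            exact Real.rpow_le_rpow_of_exponent_le one_le_two (by nlinarith))
    (by linarith [neg_abs_le (Real.logb 2 v)]) (by linarith [abs_nonneg (Real.logb 2 v)])
  have e6 : ce s (redU s) (pj t (qv k fun ω => a ω + t ω • θ ω)) (nil _) ≤ 5 + d * k := by
    refine red_ce_le hP _ _ ((C ×ˢ Fintype.piFinset fun _ : Fin 3 => Finset.Icc (-1 : ℤ) 1).image
      fun z => ((z.1.1 : ℝ) / 2 ^ k, z.1.2 + z.2)) (fun ω hω => ?_) ?_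
    · obtain ⟨-, t', ht1, ht2⟩ := (hT _ (hmem ω hω).1).2 _ (hmem ω hω).2
      refine Finset.mem_image.2 ⟨(((ω.2 : ℤ), qz k (a0 ω.1 + t' • ω.1)),
        qz k (a0 ω.1 + ((ω.2 : ℝ) / 2 ^ k) • ω.1) - qz k (a0 ω.1 + t' • ω.1)),
        Finset.mem_product.2 ⟨ht2, Fintype.mem_piFinset.2 fun i =>
          red_nbr ht1 _ _ (hb _ (hΛ (hmem ω hω).1)).1 i⟩, ?_⟩
      simp only [pj, qv, ha, hθ, ht, Int.cast_natCast, add_sub_cancel]
    · refine (Nat.cast_le.2 Finset.card_image_le).trans ?_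
      rw [Finset.card_product, Fintype.card_piFinset, Nat.cast_mul, Real.rpow_add two_pos,
        mul_comm]
      refine mul_le_mul ?_ hC (Nat.cast_nonneg _) (by positivity)
      have h3 : (Finset.Icc (-1 : ℤ) 1).card = 3 := rfl
      simp only [h3]
      norm_num
  rw [red_chain hP] at e6
  linarith

/-- If `dimH K < 4` pick `3 < d < 4` above it, `κ = (4 - d) / 2`, `η` from `KLB`, `red_chart` with
`3 + η / 2`, `red_pig`, `red_cover` with `k0` large. Uniform weights on the pairs `(θ, τ)`,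
`t = τ / 2 ^ k`. `ce θ[k] t ≥ logb (card Λ * M) - k`, `ce t[k] (a[k], θ[k]) = logb M`,
`ce x[k] t ≤ logb (27 * card (C k)) - logb M` (`ce_chain`, `ce_ge_sup`, `ce_cnt`). The upper
bound is `Real.dimH_univ_eq_finrank`. -/
theorem red_main (h : KLB) (K : Set E4) (a : E4 → E4)
    (hK : ∀ e : E4, ‖e‖ = 1 → ∀ t ∈ Set.Icc (0 : ℝ) 1, a e + t • e ∈ K)
    (hs : dimP {z | ∃ e : E4, ‖e‖ = 1 ∧ z = lineCoord (a e) e} ≤ 3) : dimH K = 4 := by
  have hup : dimH K ≤ 4 := by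
    refine (dimH_mono (Set.subset_univ K)).trans (le_of_eq ?_)
    rw [Real.dimH_univ_eq_finrank]
    simp
  refine le_antisymm hup (not_lt.1 fun hlt => ?_)
  obtain ⟨d, hd1, hd2⟩ := ENNReal.lt_iff_exists_nnreal_btwn.1
    (max_lt hlt (by norm_num : (3 : ℝ≥0∞) < 4))
  have hd3 : (3 : ℝ) < d := by
    have := (le_max_right _ _).trans_lt hd1
    exact_mod_cast this
  have hd4 : (d : ℝ) < 4 := by exact_mod_cast hd2
  obtain ⟨η, hη, n0, H⟩ := h ((4 - d) / 2) (by linarith)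
  obtain ⟨K', Θ, a0, C0, hK', hΘ, hb, hKK, hc⟩ := red_chart K a hK hs
    (d := 3 + η / 2) (by linarith)
  have h0 : μH[(d : ℝ)] K' = 0 :=
    hausdorffMeasure_of_dimH_lt (hK'.trans_lt ((le_max_left _ _).trans_lt hd1))
  obtain ⟨v, hv, hpig⟩ := red_pig hΘ (fun θ hθ => (hb θ hθ).1) hKK
  obtain ⟨k1, hk1⟩ := red_large (half_pos hη) (Real.logb 2 (max C0 1))
  obtain ⟨k2, hk2⟩ := red_large hη |Real.logb 2 v|
  obtain ⟨k3, hk3⟩ := red_large (ε := (4 - d) / 2) (by linarith) 6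
  obtain ⟨C, hC1, hC2⟩ := red_cover (by linarith : (0 : ℝ) < d) h0 (1 + n0 + k1 + k2 + k3)
  obtain ⟨k, M, Λ, T, hk, hΛ, hinj, hcard, hM, hT⟩ := hpig _ (by omega) C hC2
  have hL : 0 ≤ Real.logb 2 ((k : ℝ) + 1) :=
    Real.logb_nonneg one_lt_two (by linarith [Nat.cast_nonneg (α := ℝ) k])
  have h1 : C0 ≤ (2 : ℝ) ^ (η / 2 * k) := by
    refine (le_max_left C0 1).trans ?_
    rw [← Real.logb_le_iff_le_rpow one_lt_two (lt_of_lt_of_le one_pos (le_max_right _ _))]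
    linarith [hk1 k (by omega)]
  have h2 := red_model hη hv (H k (by omega)) hb hc (hC1 k) hΛ hinj hcard hM hT h1
    (hk2 k (by omega))
  have h3 := hk3 k (by omega)
  nlinarith

end Vale.Agent.P127S
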