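import Vale.Agent.P127S.M0
import Vale.Agent.P127S.K1
import Vale.Agent.P127S.K2C
import Vale.Agent.P127S.Red

/-! Sticky Kakeya sets in dimension four. -/

namespace Vale.Agent.P127S

theorem klb : KLB := by
  by_contra h
  obtain ⟨σ, h0⟩ := m0 h
  exact step2 (step1 (step0 h0))

theorem sticky (K : Set E4) (a : E4 → E4)
    (hK : ∀ e : E4, ‖e‖ = 1 → ∀ t ∈ Set.Icc (0 : ℝ) 1, a e + t • e ∈ K)
    (hs : dimP {z | ∃ e : E4, ‖e‖ = 1 ∧ z = lineCoord (a e) e} ≤ 3) : dimH K = 4 :=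
  red_main klb K a hK hs

end Vale.Agent.P127S
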