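import Vale.Agent.P127S.RegC

/-! Pairs of times on the same line. -/

open Real Finset Filter Topology Vale.Agent.P118O

noncomputable section

namespace Vale.Agent.P127S

variable {N : ℕ → ℕ} {Ω Ω' α β γ δ : ℕ → Type} {S : Sp N Ω} {S' : Sp N Ω'} {m : RV Ω' Ω}
  {L : Ln Ω} {D D1 : RV Ω δ} {D2 : RV Ω γ} {P P1 P2 : VV Ω M3} {I : Finset (Fin 3)} {σ : ℝ}
  {b l : ℕ → ℕ} {A : VV Ω Prop} {t2 : VV Ω ℝ}

/-- the label over which the second time is glued -/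
def prK (L : Ln Ω) (N b : ℕ → ℕ) :
    RV Ω fun k => ((Fin 3 → ℤ) × (Fin 3 → ℤ)) × L.κ k × (Unit → ℤ) :=
  J (L.p N L.n) (J L.C (Q N b (sc L.t)))

theorem pair0_symm {X Y : RV Ω α} (h : EqS S X Y) : EqS S Y X := fun k ω hω => (h k ω hω).symm

theorem pair0_det {X Y : RV Ω α} (h : EqS S X Y) : DetS S X Y := fun k ω hω ω' hω' e => by
  rw [h k ω hω, h k ω' hω', e]

theorem pair0_fst {X : RV Ω α} {Y : RV Ω β} : DetS S X (J X Y) := (DetS.refl X).left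

theorem pair0_snd {X : RV Ω α} {Y : RV Ω β} : DetS S Y (J X Y) := (DetS.refl Y).right

theorem pair0_a (h : Cfg S L D) : DetS S L.a (L.p N L.n) := pair0_fst.trans h.lat

theorem pair0_θ (h : Cfg S L D) : DetS S L.θ (L.p N L.n) := pair0_snd.trans h.lat

theorem pair0_T (h : Cfg S L D) (j : ℕ → ℕ) : DetS S (Q N j (sc L.t)) D :=
  (det_Q_self j _).trans (h.dt.map fun _ x _ => x)

theorem pair0_F (h : Cfg S L D) (j : ℕ → ℕ) : DetS S (J L.C (Q N j (sc L.t))) D :=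
  h.dC.pair (pair0_T h j)

/-- the line is independent of `D` given anything between `C` and `D` -/
theorem pair0_ind (h : Cfg S L D) {F : RV Ω α} (h1 : DetS S L.C F) (h2 : DetS S F D) :
    Ind S (L.p N L.n) D F := by
  have e1 : Le N (H S (L.p N L.n) F) (H S (L.p N L.n) L.C) :=
    Le.of_le (H_mono pair0_fst h1)
  have e2 : Le N (H S (Q N L.n L.θ) D) (H S (L.p N L.n) (J F D)) :=
    Le.of_le (H_mono (pair0_snd.left) (h2.pair (DetS.refl D)))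
  exact e1.trans ((h.c1 L.n fun _ => le_rfl).trans (h.c2.trans e2))

theorem pair0_floor {x y : ℝ} (e : ⌊x⌋ = ⌊y⌋) : |x - y| ≤ 1 := by
  have h1 := Int.floor_le x
  have h2 := Int.lt_floor_add_one x
  have h3 := Int.floor_le y
  have h4 := Int.lt_floor_add_one y
  rw [e] at h1 h2
  rw [abs_le]
  constructor <;> linarith

theorem pair0_cl {M x : ℝ} (hM : 1 ≤ M) (h0 : 0 ≤ x) (h1 : x < 1) : cl M x = x := by
  unfold cl
  rw [min_eq_right (by linarith), max_eq_right (by linarith)]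

theorem pair_eq (h : Cfg S L D) (b : ℕ → ℕ) :
    EqS (S.glue (prK L N b)) (pl (p2 Ω) L.a) (pl (p1 Ω) L.a) ∧
      EqS (S.glue (prK L N b)) (pl (p2 Ω) L.θ) (pl (p1 Ω) L.θ) ∧
      EqS (S.glue (prK L N b)) (pl (p2 Ω) L.x) ((L.pull (p1 Ω)).wt (pl (p2 Ω) L.t)).x := by
  have ha : EqS (S.glue (prK L N b)) (pl (p2 Ω) L.a) (pl (p1 Ω) L.a) :=
    pair0_symm (glue_eq (pair0_a h).left)
  have hθ : EqS (S.glue (prK L N b)) (pl (p2 Ω) L.θ) (pl (p1 Ω) L.θ) :=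
    pair0_symm (glue_eq (pair0_θ h).left)
  refine ⟨ha, hθ, fun k ω hω => ?_⟩
  show pl (p2 Ω) L.a k ω + pl (p2 Ω) L.t k ω • pl (p2 Ω) L.θ k ω =
    pl (p1 Ω) L.a k ω + pl (p2 Ω) L.t k ω • pl (p1 Ω) L.θ k ω
  rw [ha k ω hω, hθ k ω hω]

theorem pair0_joint (h : Cfg S L D) (b : ℕ → ℕ) : Le N (fun k => 3 * L.n k)
    (H (S.glue (prK L N b)) (pl (p1 Ω) (Q N L.n L.θ)) (J (pl (p1 Ω) D) (pl (p2 Ω) D))) := by
  obtain ⟨F, hF⟩ : ∃ F, F = J L.C (Q N b (sc L.t)) := ⟨_, rfl⟩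
  have hFD : DetS S F D := hF ▸ pair0_F h b
  have hCF : DetS S L.C F := hF ▸ pair0_fst
  have hK : prK L N b = J (L.p N L.n) F := by rw [hF]; rfl
  rw [hK]
  obtain ⟨p, hp⟩ : ∃ p, p = L.p N L.n := ⟨_, rfl⟩
  have i0 : Ind S p D F := hp ▸ pair0_ind h hCF hFD
  have hθ : DetS S (Q N L.n L.θ) p := hp ▸ pair0_snd
  rw [← hp]
  have i1 : Ind (S.glue (J p F)) (pl (p1 Ω) p) (pl (p1 Ω) D) (pl (p1 Ω) F) :=
    i0.pull (ext1 _)
  have eF : EqS (S.glue (J p F)) (pl (p1 Ω) F) (pl (p2 Ω) F) := glue_eq pair0_snd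
  have g1 : H (S.glue (J p F)) (pl (p2 Ω) D) (pl (p1 Ω) (J (J F D) p)) = H S D (J p F) :=
    glue_H2 (pair0_snd.pair pair0_fst.left) D
  have g2 : H (S.glue (J p F)) (pl (p2 Ω) D) (pl (p2 Ω) F) = H S D F := (ext2 _).ent D F
  have i2 : Ind (S.glue (J p F)) (pl (p2 Ω) D) (pl (p1 Ω) p)
      (J (pl (p1 Ω) F) (pl (p1 Ω) D)) := by
    have a1 : Le N (H (S.glue (J p F)) (pl (p2 Ω) D) (J (pl (p1 Ω) F) (pl (p1 Ω) D)))
        (H (S.glue (J p F)) (pl (p2 Ω) D) (pl (p2 Ω) F)) :=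
      Le.of_le (H_mono pair0_fst (pair0_det (pair0_symm eF)).left)
    have a2 : Le N (H S D (J F p)) (H S D (J p F)) :=
      Le.of_le (H_mono pair0_fst (pair0_snd.pair pair0_fst))
    rw [g2] at a1
    rw [← g1] at a2
    exact a1.trans (Le.trans i0.symm a2)
  have i3 := (i1.chain i2.symm).mono (W := pl (p1 Ω) (Q N L.n L.θ))
    ((hθ.pull (ext1 _)).right.kw)
  have b1 : Le N (H S (Q N L.n L.θ) D) (H S (Q N L.n L.θ) F) :=
    Le.of_le (H_mono pair0_fst hFD)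
  rw [← (ext1 (S := S) (J p F)).ent (Q N L.n L.θ) F] at b1
  have b2 : Le N (H (S.glue (J p F)) (pl (p1 Ω) (Q N L.n L.θ))
        (J (pl (p1 Ω) F) (J (pl (p1 Ω) D) (pl (p2 Ω) D))))
      (H (S.glue (J p F)) (pl (p1 Ω) (Q N L.n L.θ)) (J (pl (p1 Ω) D) (pl (p2 Ω) D))) :=
    Le.of_le (H_mono pair0_fst pair0_snd)
  exact h.c2.trans (b1.trans (Le.trans i3 b2))

theorem pair0_unif (h : Cfg S L D) (b : ℕ → ℕ) : Le N (fun k => (L.n k : ℝ) - b k)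
    (H S (Q N L.n (sc L.t)) (prK L N b)) := by
  have hb : Bdd S (sc L.t) := small_sc.2 h.bdd.2.2.1
  have h1 := (Kn.zero hb (J (L.p N L.n) L.C)).H_le (j := b) fun _ => Nat.zero_le _
  have h2 : ∀ k, H S (Q N L.n (sc L.t)) (J (J (L.p N L.n) L.C) (Q N b (sc L.t))) k ≤
      H S (Q N L.n (sc L.t)) (prK L N b) k :=
    H_mono pair0_fst (pair0_fst.left.pair (pair0_snd.left.pair pair0_snd))
  refine (h.c3.add h1).lin fun k => ?_
  have := H_le_add (S := S) (Q N L.n (sc L.t)) (Q N b (sc L.t)) (J (L.p N L.n) L.C) k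
  have := h2 k
  simp only [Fintype.card_unit, Nat.cast_one, Nat.cast_zero]
  linarith

/-- `st2` by `St.pull` along `p2` and `St.eqs`. `joint`: with `F = (C, t[b])`,
`I (p; D1, D2 | F) ≤ I (p; D1 | F) + H (D2 | F) - H (D2 | p, D1, F)` and the last term equals
`H (D | p, F)` by `glue_H2`; `I (p; D | F) ≲ 0` because `H (p | C) ≲ 3 n ≲ H (θ[n] | D)`.
`unif`: `glue_H2` and `c3`. -/
theorem pair_ex (h : St S L D P I σ) (hb : ∀ k, b k ≤ L.n k) :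
    PairSt (S.glue (prK L N b)) (L.pull (p1 Ω)) (pl (p2 Ω) L.t) (pl (p1 Ω) D) (pl (p2 Ω) D)
      (pl (p1 Ω) P) (pl (p2 Ω) P) I σ b := by
  have hc := h.cfg
  obtain ⟨ha, hθ, -⟩ := pair_eq hc b
  refine ⟨h.pull (ext1 _), ?_, pair0_joint hc b, hb, fun k ω hω => ?_, ?_⟩
  · have hC : EqS (S.glue (prK L N b)) (pl (p2 Ω) L.C) (pl (p1 Ω) L.C) :=
      pair0_symm (glue_eq pair0_fst.right)
    exact (h.pull (ext2 (prK L N b))).eqs hC ha hθ fun _ _ _ => rfl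
  · have hT : EqS (S.glue (prK L N b)) (pl (p1 Ω) (Q N b (sc L.t))) (pl (p2 Ω) (Q N b (sc L.t))) :=
      glue_eq pair0_snd.right
    have e := congrFun (hT k ω hω) ()
    have m1 := hc.bd k _ ((ext1 (S := S) (prK L N b)).1 k ω hω)
    have m2 := hc.bd k _ ((ext2 (S := S) (prK L N b)).1 k ω hω)
    have hM : (1 : ℝ) ≤ 2 ^ N k := one_le_pow₀ one_le_two
    change ⌊(2 : ℝ) ^ b k * cl (2 ^ N k) (L.t k (p1 Ω k ω))⌋ =
      ⌊(2 : ℝ) ^ b k * cl (2 ^ N k) (L.t k (p2 Ω k ω))⌋ at e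
    rw [pair0_cl hM m1.2.2.1 m1.2.2.2, pair0_cl hM m2.2.2.1 m2.2.2.2] at e
    have e2 := pair0_floor e.symm
    have hp : (0 : ℝ) < 2 ^ b k := by positivity
    rw [← mul_sub, abs_mul, abs_of_pos hp] at e2
    show |L.t k (p2 Ω k ω) - L.t k (p1 Ω k ω)| ≤ 1 / 2 ^ b k
    rw [le_div_iff₀ hp]
    linarith
  · have g : H (S.glue (prK L N b)) (pl (p2 Ω) (Q N L.n (sc L.t))) (pl (p1 Ω) (J (L.p N L.n) D)) =
        H S (Q N L.n (sc L.t)) (prK L N b) :=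
      glue_H2 (pair0_fst.pair (pair0_F hc b).right) _
    have := pair0_unif hc b
    rw [← g] at this
    exact this

end Vale.Agent.P127S
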