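import Vale.Agent.P127S.PrepC
import Vale.Agent.P127S.Greedy

/-! Preparation of the engines. -/

open Real Finset Vale.Agent.P118O

noncomputable section

namespace Vale.Agent.P127S

/-- the selection of an atom -/
theorem prep_right {Ω α β γ τ ι : Type} [Fintype ι] (hι : Fintype.card ι ≤ 2) {s : Finset Ω}
    {p : Ω → ℝ} {n L2 : ℕ} {e0 e1 ε ϱ τ1 : ℝ} {F : Ω → β} {T : Ω → τ} {A : Ω → α}
    {Y : Ω → ι → ℝ} {G : Ω → γ} {l0 l1 : γ → ι → ℝ} {sv fv : Ω → ℝ}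
    (h : Eng s p n e0 F T A Y G l0 l1 sv fv) (he : 0 ≤ e0) (hε : 0 < ε) {H : Ω → List Nrm}
    {W : Ω → Nrm} (hHT : Det s H (pj F T)) (hW : Det s W (pj F H)) (hHF : ce s p H F ≤ e1)
    (hτ : 0 ≤ τ1) (P : Nrm → Prop)
    (hm : ε / 2 ≤ ms s p fun ω => P (W ω) ∧ Stop s p (pj F H) W sv fv (pj Y G) ϱ τ1 L2 ω)
    (φ : Fin 3 → Ω × Ω → ℝ) (e : Fin 3 → ℝ)
    (hφ : ∀ i, ∀ x ∈ glueS s (ctK F H Y G) s (ctK F H Y G), 0 < glueP p s p (ctK F H Y G) x →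
      0 ≤ φ i x)
    (hex : ∀ i, ex (glueS s (ctK F H Y G) s (ctK F H Y G)) (glueP p s p (ctK F H Y G)) (φ i) ≤
      e i) :
    ∃ x0 ∈ glueS s (ctK F H Y G) s (ctK F H Y G), 0 < glueP p s p (ctK F H Y G) x0 ∧
      (P (W x0.1) ∧ Stop s p (pj F H) W sv fv (pj Y G) ϱ τ1 L2 x0.1) ∧
      (∀ i, φ i x0 ≤ 40 * e i / ε) ∧
      dfc (atS (glueS s (ctK F H Y G) s (ctK F H Y G)) (ctW F H T) x0)
        (atP (glueS s (ctK F H Y G) s (ctK F H Y G)) (glueP p s p (ctK F H Y G)) (ctW F H T) x0)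
        (ctY n Y G l0 l1 sv fv) (fun x => A x.1) (fun x => T x.1) (fun x => G x.1) ≤
        14 * (10 * e0 + 30) / ε ∧
      n + e0 + 2 - ce (atS (glueS s (ctK F H Y G) s (ctK F H Y G)) (ctW F H T) x0)
        (atP (glueS s (ctK F H Y G) s (ctK F H Y G)) (glueP p s p (ctK F H Y G)) (ctW F H T) x0)
        (qs n fun x => sv x.1) (nil (Ω × Ω)) ≤ 14 * (e0 + (3 * e0 + e1) + 2) / ε ∧
      ex (atS (glueS s (ctK F H Y G) s (ctK F H Y G)) (ctW F H T) x0)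
        (atP (glueS s (ctK F H Y G) s (ctK F H Y G)) (glueP p s p (ctK F H Y G)) (ctW F H T) x0)
        (fun x => prepQ s p (pj (pj F H) W) (qv L2 (nv W sv fv)) x.1) -
      ce (atS (glueS s (ctK F H Y G) s (ctK F H Y G)) (ctW F H T) x0)
        (atP (glueS s (ctK F H Y G) s (ctK F H Y G)) (glueP p s p (ctK F H Y G)) (ctW F H T) x0)
        (fun x => qv L2 (nv W sv fv) x.1)
        (pj (ctY n Y G l0 l1 sv fv) (fun x => G x.1)) ≤ 14 * τ1 / ε := by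
  classical
  obtain ⟨E, hE⟩ : ∃ E : Ω → Prop, E = fun ω => P (W ω) ∧
      Stop s p (pj F H) W sv fv (pj Y G) ϱ τ1 L2 ω := ⟨_, rfl⟩
  rw [← hE] at hm
  obtain ⟨c1, -, -, c4, -, c6, -⟩ := ctr hι h he H hHT _ _ rfl rfl
  have h2 := glue_prob h.isP (ctK F H Y G)
  have hp2 := prep_glue_pos h.isP h.pos (ctK F H Y G)
  have hEK : ∀ ω ω', pj (pj F H) W ω = pj (pj F H) W ω' → (E ω ↔ E ω') := fun ω ω' k => by
    have k2 : W ω = W ω' := (Prod.ext_iff.1 k).2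
    rw [hE]
    simp only [Stop, k2, prep_atS_congr k, prep_atP_congr k]
  have hKT : ∀ ω ∈ s, ∀ ω' ∈ s, pj F T ω = pj F T ω' → pj (pj F H) W ω = pj (pj F H) W ω' :=
    fun ω hω ω' hω' k => by
      have k1 : pj F H ω = pj F H ω' := Prod.ext (Prod.ext_iff.1 k).1 (hHT ω hω ω' hω' k)
      exact Prod.ext k1 (hW ω hω ω' hω' k1)
  have hV : Det s (fun ω => if E ω then qv L2 (nv W sv fv) ω else 0) (pj F T) :=
    fun ω hω ω' hω' k => by
      have k1 := hKT ω hω ω' hω' k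
      have k2 : W ω = W ω' := (Prod.ext_iff.1 k1).2
      simp only [hEK ω ω' k1, qv, nv, k2, h.ds ω hω ω' hω' k, h.df ω hω ω' hω' k]
  have hV2 : ce s p (fun ω => if E ω then qv L2 (nv W sv fv) ω else 0)
      (pj (pj Y G) (pj (pj F H) W)) ≤ ce s p (fun ω => if E ω then qv L2 (nv W sv fv) ω else 0)
      (pj (pj Y G) (pj F H)) :=
    ce_mono h.isP (fun _ _ _ _ k => (Prod.ext_iff.1 k).1) fun _ _ _ _ k =>
      Prod.ext (Prod.ext_iff.1 k).1 (Prod.ext_iff.1 (Prod.ext_iff.1 k).2).1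
  have hES : ∀ ω, E ω → Stop s p (pj F H) W sv fv (pj Y G) ϱ τ1 L2 ω := fun ω g => by
    rw [hE] at g
    exact g.2
  obtain ⟨ψ, hψ0, hψ1, hψ2⟩ := prep_kl h.isP h.pos (pj (pj F H) W) (qv L2 (nv W sv fv)) 0
    (pj Y G) E hEK hτ (fun ω _ g => (hES ω g).2) h2 hp2 (prep_ex_fst h.isP _)
    (fun x hx => (glue_mem.1 hx).1) (ctW F H T)
    (fun x hx x' hx' k => by
      have k1 : pj F H x.1 = pj F H x'.1 := (Prod.ext_iff.1 k).1
      exact Prod.ext k1 (hW _ (glue_mem.1 hx).1 _ (glue_mem.1 hx').1 k1))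
    (pj (ctY n Y G l0 l1 sv fv) (fun x => G x.1)) (hV2.trans (c6 _ hV))
  have d1 := c4 (qs n sv) fun ω hω ω' hω' k => by simp only [qs, h.ds ω hω ω' hω' k]
  have d2 := ce_le_add h.isP (qs n sv) H F
  have d3 : ce s p (qs n sv) (pj H F) ≤ ce s p (qs n sv) (pj F H) :=
    ce_mono h.isP (fun _ _ _ _ k => (Prod.ext_iff.1 k).1) fun _ _ _ _ k =>
      Prod.ext (Prod.ext_iff.1 k).2 (Prod.ext_iff.1 k).1
  have h4 := h.h4
  obtain ⟨f0, f1⟩ := prep_pf h2 n (fun x => sv x.1) (ctW F H T) he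
    (D := 3 * e0 + e1) (fun x hx => (h.bd _ (glue_mem.1 hx).1).1)
    (le_trans (by linarith) (sub_le_iff_le_add.2 d1))
  obtain ⟨x0, h0, hp0, hE0, b1, b2⟩ := prep_sel h2 (E := fun x => E x.1) hε
    (by rw [prep_ms_fst h.isP]; exact hm) φ ![_, _, ψ] e ![_, _, _] hφ hex
    (fun i => by
      fin_cases i
      · exact fun x hx k => dfc_nonneg (at_isP h2 (ctW F H T) hx k) (ctY n Y G l0 l1 sv fv)
          (fun x => A x.1) (fun x => T x.1) (fun x => G x.1)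
      · exact f0
      · exact fun x hx _ => hψ0 x hx)
    (fun i => by
      fin_cases i
      · exact c1
      · exact f1
      · exact hψ1)
  refine ⟨x0, h0, hp0, ?_, b1, b2 0, b2 1, (hψ2 x0 h0 hE0).trans (b2 2)⟩
  rw [hE] at hE0
  exact hE0

/-- Either the linear relation holds, or an atom of the recentred system with spread coefficients
can be selected together with three further functionals. Use `greedy` with a constant `ε'` much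
smaller than `ε`, `c / 2` in place of `c`, and `Z = pj Y G`. If `Stop` has mass at most `ε / 2`
take `b = (W ω).b`, `c0 = fc - b * sc` on the good event and `0` elsewhere. Otherwise `select` in
the event `good ∧ Stop` (pulled back by `x.1`). On the atom through `x0`: `u = qv L2 (nv W sv fv)`
at `x.1`, `Au` the values that occur and `Q` the law of `u` on the atom of `pj F H` in the
first space, `y z = (1 / 2) • (cor L2 z - nv W sv fv x0.2)` (so the spread is `ϱ / 2`). The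
functional for the relative entropy is `ex (atom) (-logb Q u) - ce (atom) u (ctY, G)` multiplied
by the indicator of the event; its mean is at most `τ0'` by the sixth part of `ctr` for
`V = if event then u else 0` (`ce_at`, `ex_at`; the event is read off from `pj F H`). The proxy is `(sv x.1 - sv x0.2) / 2`. -/
theorem prep {c ε θ : ℝ} (hc : 0 < c) (hε : 0 < ε) (hθ : 0 < θ) : ∃ ϱ : ℝ, 0 < ϱ ∧ ∃ L0 : ℕ,
    ∀ L2 ≥ L0, ∀ τ0 η' : ℝ, 0 < τ0 → 0 < η' → ∃ η : ℝ, 0 < η ∧ ∃ n0 : ℕ, ∀ n ≥ n0,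
    ∀ {Ω α β γ τ ι : Type} [Fintype ι] (s : Finset Ω) (p : Ω → ℝ) (F : Ω → β) (T : Ω → τ)
      (A : Ω → α) (Y : Ω → ι → ℝ) (G : Ω → γ) (l0 l1 : γ → ι → ℝ) (sv fv : Ω → ℝ),
      Fintype.card ι ≤ 2 → Eng s p n (η * n) F T A Y G l0 l1 sv fv →
      (∃ b c0 : Ω → ℝ, ce s p (pj b c0) F ≤ ε * n ∧
        (∀ ω ∈ s, |b ω| ≤ (2 : ℝ) ^ (ε * n) ∧ |c0 ω| ≤ (2 : ℝ) ^ (ε * n)) ∧
        1 - ε ≤ ms s p (fun ω => |fv ω - sv ω * b ω - c0 ω| ≤ (2 : ℝ) ^ (-(c / 2 * n)))) ∨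
      ∃ (H : Ω → List Nrm) (W : Ω → Nrm) (s2 : Finset (Ω × Ω)) (p2 : Ω × Ω → ℝ),
        Det s H (pj F T) ∧ Det s W (pj F H) ∧ s2 = glueS s (ctK F H Y G) s (ctK F H Y G) ∧
        p2 = glueP p s p (ctK F H Y G) ∧ (∀ ω ∈ s, ‖nv W sv fv ω‖ ≤ 1) ∧
        ∀ (φ : Fin 3 → Ω × Ω → ℝ) (e : Fin 3 → ℝ), (∀ i, ∀ x ∈ s2, 0 < p2 x → 0 ≤ φ i x) →
          (∀ i, ex s2 p2 (φ i) ≤ e i) →
          ∃ x0 ∈ s2, 0 < p2 x0 ∧ (∀ i, φ i x0 ≤ 40 * e i / ε) ∧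
            ((W x0.1).l : ℝ) ≤ θ * n ∧ |(W x0.1).b| ≤ (2 : ℝ) ^ (θ * n) ∧
            ((W x0.1).y : ℝ) ≤ c * n ∧
            dfc (atS s2 (ctW F H T) x0) (atP s2 p2 (ctW F H T) x0)
              (ctY n Y G l0 l1 sv fv) (fun x => A x.1) (fun x => T x.1) (fun x => G x.1) ≤ η' * n ∧
            Prx (atS s2 (ctW F H T) x0) (atP s2 p2 (ctW F H T) x0) n (θ * n) (ctA W sv fv)
              (fun x => (sv x.1 - sv x0.2) / 2) ∧
            ∃ (u : Ω × Ω → Fin 2 → ℤ) (y : (Fin 2 → ℤ) → Fin 2 → ℝ) (Au : Finset (Fin 2 → ℤ))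
              (Q : (Fin 2 → ℤ) → ℝ),
              Top (atS s2 (ctW F H T) x0) (atP s2 p2 (ctW F H T) x0) ϱ τ0 L2
                (pj (ctY n Y G l0 l1 sv fv) (fun x => G x.1)) (fun x => T x.1) (ctA W sv fv)
                u y Au Q := by
  classical
  obtain ⟨ε1, hε1, q1, q2, q3⟩ : ∃ ε1 : ℝ, 0 < ε1 ∧ ε1 ≤ ε / 2 ∧ ε1 ≤ θ ∧ ε1 ≤ θ * ε / 56 :=
    ⟨min (ε / 2) (min θ (θ * ε / 56)), by positivity, min_le_left _ _,
      (min_le_right _ _).trans (min_le_left _ _), (min_le_right _ _).trans (min_le_right _ _)⟩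
  obtain ⟨ϱ, hϱ, L0, hg⟩ := greedy (half_pos hc) hε1
  refine ⟨ϱ / 2, half_pos hϱ, L0, fun L2 hL τ0 η' hτ hη' => ?_⟩
  obtain ⟨ηg, hηg, n0, hg⟩ := hg L2 hL (τ0 * ε / 14) (by positivity)
  obtain ⟨η, hη, r1, r2, r3, r4, r5⟩ : ∃ η : ℝ, 0 < η ∧ η ≤ ηg / 2 ∧ η ≤ ε / 4 ∧
      η ≤ η' * ε / 280 ∧ η ≤ θ ∧ η ≤ θ * ε / 224 :=
    ⟨min (ηg / 2) (min (ε / 4) (min (η' * ε / 280) (min θ (θ * ε / 224)))), by positivity,
      min_le_left _ _, (min_le_right _ _).trans (min_le_left _ _),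
      (min_le_right _ _).trans ((min_le_right _ _).trans (min_le_left _ _)),
      (min_le_right _ _).trans ((min_le_right _ _).trans
        ((min_le_right _ _).trans (min_le_left _ _))),
      (min_le_right _ _).trans ((min_le_right _ _).trans
        ((min_le_right _ _).trans (min_le_right _ _)))⟩
  obtain ⟨n1, hn1⟩ := exists_nat_ge
    (8 / ε + 840 / (ε * η') + 2 * L2 / c + 2 * (28 / ε + 1) / θ)
  refine ⟨η, hη, max n0 n1, fun n hn => ?_⟩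
  intro Ω α β γ τ ι _ s p F T A Y G l0 l1 sv fv hι h
  have hn0 : (0 : ℝ) ≤ n := Nat.cast_nonneg n
  have hn2 : (n1 : ℝ) ≤ n := Nat.cast_le.2 (le_of_max_le_right hn)
  have t1 : (0 : ℝ) ≤ 8 / ε := by positivity
  have t2 : (0 : ℝ) ≤ 840 / (ε * η') := by positivity
  have t3 : (0 : ℝ) ≤ 2 * L2 / c := by positivity
  have t4 : (0 : ℝ) ≤ 2 * (28 / ε + 1) / θ := by positivity
  have u1 : 8 ≤ n * ε := (div_le_iff₀ hε).1 (by linarith)
  have u2 : 840 ≤ n * (ε * η') := (div_le_iff₀ (by positivity)).1 (by linarith)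
  have u3 : 2 * L2 ≤ n * c := (div_le_iff₀ hc).1 (by linarith)
  have u4 : 2 * (28 / ε + 1) ≤ n * θ := (div_le_iff₀ hθ).1 (by linarith)
  have he : 0 ≤ η * n := by positivity
  have v1 : η * n ≤ ηg / 2 * n := mul_le_mul_of_nonneg_right r1 hn0
  have v2 : η * n ≤ ε / 4 * n := mul_le_mul_of_nonneg_right r2 hn0
  have v3 : η * n ≤ η' * ε / 280 * n := mul_le_mul_of_nonneg_right r3 hn0
  have v4 : η * n ≤ θ * n := mul_le_mul_of_nonneg_right r4 hn0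
  have v5 : η * n ≤ θ * ε / 224 * n := mul_le_mul_of_nonneg_right r5 hn0
  have w1 : ε1 * n ≤ ε / 2 * n := mul_le_mul_of_nonneg_right q1 hn0
  have w2 : ε1 * n ≤ θ * n := mul_le_mul_of_nonneg_right q2 hn0
  have w3 : ε1 * n ≤ θ * ε / 56 * n := mul_le_mul_of_nonneg_right q3 hn0
  have hi := prep_info h
  have h4 := h.h4
  have m1 : (2 : ℝ) ^ (η * n) ≤ 2 ^ (ηg * n) :=
    Real.rpow_le_rpow_of_exponent_le (by norm_num) (by linarith)
  obtain ⟨H, W, hH, hW, hHF, hnv, hm⟩ := hg n (le_of_max_le_left hn) s p F sv fv (pj Y G) h.isP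
    (fun ω hω => ⟨(h.bd ω hω).1.trans m1, (h.bd ω hω).2.trans m1⟩) (by linarith) (by linarith)
  have hHT : Det s H (pj F T) := fun ω hω ω' hω' e => hH ω hω ω' hω'
    (Prod.ext (Prod.ext_iff.1 e).1 (Prod.ext (h.ds ω hω ω' hω' e) (h.df ω hω ω' hω' e)))
  obtain ⟨E, hE⟩ : ∃ E : Ω → Prop, E = fun ω => (((W ω).l : ℝ) ≤ ε1 * n ∧
      |(W ω).b| ≤ (2 : ℝ) ^ (ε1 * n) ∧ ((W ω).y : ℝ) ≤ c / 2 * n + L2) ∧
      Stop s p (pj F H) W sv fv (pj Y G) ϱ (τ0 * ε / 14) L2 ω := ⟨_, rfl⟩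
  by_cases hmE : ms s p E ≤ ε / 2
  · left
    refine prep_lin h.isP h.bd hW hHF hnv he (by positivity) (by linarith) ?_
    have a1 := ms_or h.isP E
      (fun ω => |(W ω).b| ≤ (2 : ℝ) ^ (ε1 * n) ∧ c / 2 * n ≤ (W ω).y)
    have a2 := hm.trans (ms_imp h.isP (E' := fun ω => E ω ∨
        (|(W ω).b| ≤ (2 : ℝ) ^ (ε1 * n) ∧ c / 2 * n ≤ (W ω).y)) fun ω _ g => by
      rcases g.2.2.2 with k | k
      · exact Or.inr ⟨g.2.1, k⟩
      · exact Or.inl (hE ▸ ⟨⟨g.1, g.2.1, g.2.2.1⟩, k⟩))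
    linarith
  right
  refine ⟨H, W, _, _, hHT, hW, rfl, rfl, hnv, fun φ e hφ hex => ?_⟩
  have g4 : 14 * (η * n + (3 * (η * n) + ε1 * n) + 2) / ε ≤ θ * n / 2 + 28 / ε := by
    rw [div_le_iff₀ hε, add_mul, div_mul_cancel₀ _ hε.ne']
    linarith
  have g5 : 14 * (10 * (η * n) + 30) / ε ≤ η' * n := by
    rw [div_le_iff₀ hε]
    linarith
  have g3 : 14 * (τ0 * ε / 14) / ε = τ0 := by field_simp
  obtain ⟨x0, h0, hp0, hE0, b1, b2, b3, b4⟩ := prep_right hι h he hε hHT hW hHF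
    (τ1 := τ0 * ε / 14) (by positivity) (ϱ := ϱ) (L2 := L2)
    (fun z => (z.l : ℝ) ≤ ε1 * n ∧ |z.b| ≤ (2 : ℝ) ^ (ε1 * n) ∧ (z.y : ℝ) ≤ c / 2 * n + L2)
    (hE ▸ (not_le.1 hmE).le) φ e hφ hex
  exact ⟨x0, h0, hp0, b1, hE0.1.1.trans w2,
    hE0.1.2.1.trans (Real.rpow_le_rpow_of_exponent_le (by norm_num) w2),
    hE0.1.2.2.trans (by linarith), b2.trans g5, prep_prx h hW rfl rfl h0 hp0 v4 (by linarith),
    prep_top h hW hnv rfl h0 _ hE0.2 (g3 ▸ b4)⟩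

end Vale.Agent.P127S
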