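import Vale.Agent.P127S.Ctr

/-! Auxiliary facts for the preparation of the engines. -/

open Real Finset Vale.Agent.P118O

noncomputable section

namespace Vale.Agent.P127S

variable {Ω α β γ τ ι : Type} {s : Finset Ω} {p : Ω → ℝ}

open Classical in
/-- the values of `U` on `s` -/
def prepIm (s : Finset Ω) (U : Ω → α) : Finset α := s.image U

theorem prep_mem_im {U : Ω → α} {a : α} : a ∈ prepIm s U ↔ ∃ ω ∈ s, U ω = a := by
  classical
  unfold prepIm
  simp only [Finset.mem_image]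

theorem prep_ex_push (U : Ω → α) (f : α → ℝ) :
    ex (prepIm s U) (pr s p U) f = ex s p (fun ω => f (U ω)) := by
  unfold ex prepIm
  exact (ent_sum_val U f).symm

theorem prep_vr_push (U : Ω → α) (f : α → ℝ) :
    vr (prepIm s U) (pr s p U) f = vr s p (fun ω => f (U ω)) := by
  unfold vr
  rw [prep_ex_push, prep_ex_push]

theorem prep_ex_congr {f g : Ω → ℝ} (h : ∀ ω ∈ s, f ω = g ω) : ex s p f = ex s p g :=
  Finset.sum_congr rfl fun ω hω => by rw [h ω hω]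

theorem prep_ex_mono (h : IsP s p) {f g : Ω → ℝ} (hfg : ∀ ω ∈ s, f ω ≤ g ω) :
    ex s p f ≤ ex s p g :=
  Finset.sum_le_sum fun ω hω => mul_le_mul_of_nonneg_left (hfg ω hω) (h.1 ω hω)

theorem prep_ex_const (h : IsP s p) (c : ℝ) : ex s p (fun _ => c) = c := by
  unfold ex
  rw [← Finset.sum_mul, h.2, one_mul]

theorem prep_ex_sub (f g : Ω → ℝ) : ex s p (fun ω => f ω - g ω) = ex s p f - ex s p g := by
  unfold ex
  rw [← Finset.sum_sub_distrib]
  exact Finset.sum_congr rfl fun ω _ => by ring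

theorem prep_ex_mul (c : ℝ) (f : Ω → ℝ) : ex s p (fun ω => c * f ω) = c * ex s p f := by
  unfold ex
  rw [Finset.mul_sum]
  exact Finset.sum_congr rfl fun ω _ => by ring

theorem prep_ex_nonneg {f : Ω → ℝ} (h : IsP s p) (hf : ∀ ω ∈ s, 0 < p ω → 0 ≤ f ω) :
    0 ≤ ex s p f := by
  refine Finset.sum_nonneg fun ω hω => ?_
  rcases (h.1 ω hω).eq_or_lt with e | e
  · rw [← e, zero_mul]
  · exact mul_nonneg e.le (hf ω hω e)

theorem prep_vr_aff (h : IsP s p) (a b : ℝ) (f : Ω → ℝ) :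
    vr s p (fun ω => a * f ω - b) = a ^ 2 * vr s p f := by
  have e : ex s p (fun ω => a * f ω - b) = a * ex s p f - b := by
    rw [prep_ex_sub, prep_ex_mul, prep_ex_const h]
  unfold vr
  rw [e, ← prep_ex_mul (a ^ 2)]
  exact prep_ex_congr fun ω _ => by ring

theorem prep_sum_pr (h : IsP s p) (U : Ω → α) : ∑ z ∈ prepIm s U, pr s p U z = 1 := by
  have := prep_ex_push (s := s) (p := p) U fun _ => 1
  rw [prep_ex_const h] at this
  simpa [ex] using this

theorem prep_ce_nil (h : IsP s p) (U : Ω → α) :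
    ce s p U (nil Ω) = ex s p (fun ω => -Real.logb 2 (pr s p U (U ω))) := by
  have h1 : ent s p (fun ω => (U ω, nil Ω ω)) = ent s p U :=
    ent_congr (fun ω _ ω' _ e => by rw [e]) (fun ω _ ω' _ e => (Prod.ext_iff.1 e).1)
  have h2 : ent s p (nil Ω) = 0 := by
    unfold ent
    refine Finset.sum_eq_zero fun ω _ => ?_
    have : pr s p (nil Ω) (nil Ω ω) = 1 := by
      have e := h.2
      simpa [pr, nil] using e
    rw [this, Real.log_one, neg_zero, mul_zero]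
  unfold ce cent
  rw [h1, h2, sub_zero]
  unfold ent ex
  rw [Finset.sum_div]
  exact Finset.sum_congr rfl fun ω _ => by simp only [Real.logb]; ring

theorem prep_atS_congr {W : Ω → β} {ω ω' : Ω} (e : W ω = W ω') : atS s W ω = atS s W ω' := by
  unfold atS
  rw [e]

theorem prep_atP_congr {W : Ω → β} {ω ω' : Ω} (e : W ω = W ω') :
    atP s p W ω = atP s p W ω' := by
  unfold atP
  rw [e]

theorem prep_atP_pos (h : IsP s p) (hp : ∀ ω ∈ s, 0 < p ω) (W : Ω → β) {ω ω' : Ω} (hω : ω ∈ s)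
    (hω' : ω' ∈ s) : 0 < atP s p W ω ω' := by
  classical
  unfold atP rp
  refine div_pos (hp ω' hω') ?_
  unfold ms
  exact Finset.sum_pos' (fun x hx => h.1 x (Finset.mem_filter.1 hx).1)
    ⟨ω, Finset.mem_filter.2 ⟨hω, rfl⟩, hp ω hω⟩

theorem prep_ex_fst (h : IsP s p) (K : Ω → β) (f : Ω → ℝ) :
    ex (glueS s K s K) (glueP p s p K) (fun x => f x.1) = ex s p f :=
  glue_law1 h K f

theorem prep_ms_ex (E : Ω → Prop) [DecidablePred E] :
    ms s p E = ex s p (fun ω => if E ω then 1 else 0) := by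
  unfold ms ex
  rw [Finset.sum_filter]
  refine Finset.sum_congr rfl fun ω _ => ?_
  by_cases e : E ω <;> simp [e]

theorem prep_ms_fst (h : IsP s p) (K : Ω → β) (E : Ω → Prop) :
    ms (glueS s K s K) (glueP p s p K) (fun x => E x.1) = ms s p E := by
  classical
  rw [prep_ms_ex, prep_ms_ex, ← prep_ex_fst h K]

/-- the information of `(Y, G)` about the coefficients -/
theorem prep_info [Fintype ι] {n : ℕ} {e : ℝ} {F : Ω → β} {T : Ω → τ} {A : Ω → α}
    {Y : Ω → ι → ℝ} {G : Ω → γ} {l0 l1 : γ → ι → ℝ} {sv fv : Ω → ℝ}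
    (h : Eng s p n e F T A Y G l0 l1 sv fv) :
    ce s p (pj Y G) F - ce s p (pj Y G) (pj F (pj sv fv)) ≤ 2 * e := by
  have a1 : ce s p (pj Y G) (pj F T) ≤ ce s p (pj Y G) (pj F (pj sv fv)) :=
    ce_mono h.isP (fun ω _ ω' _ e => (Prod.ext_iff.1 e).1) fun ω hω ω' hω' e => by
      have e1 : F ω = F ω' := (Prod.ext_iff.1 e).1
      unfold pj
      rw [e1, h.ds ω hω ω' hω' e, h.df ω hω ω' hω' e]
  have a2 : ce s p (pj Y G) F ≤ ce s p (pj G Y) F :=
    ce_mono h.isP (fun ω _ ω' _ e => by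
      have e1 := Prod.ext_iff.1 (Prod.ext_iff.1 e).1
      exact Prod.ext e1.2 e1.1) fun ω _ ω' _ e => e
  have a3 : ce s p (pj G Y) (pj F T) ≤ ce s p (pj Y G) (pj F T) :=
    ce_mono h.isP (fun ω _ ω' _ e => by
      have e1 := Prod.ext_iff.1 (Prod.ext_iff.1 e).1
      exact Prod.ext e1.2 e1.1) fun ω _ ω' _ e => e
  have a4 := ce_chain (s := s) (p := p) G Y F
  have a5 := ce_chain (s := s) (p := p) G Y (pj F T)
  have a6 : ce s p Y (pj G F) ≤ ce s p Y F :=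
    ce_mono h.isP (fun ω _ ω' _ e => (Prod.ext_iff.1 e).1) fun ω _ ω' _ e => (Prod.ext_iff.1 e).2
  have a7 : ce s p Y (pj F (pj T G)) ≤ ce s p Y (pj G (pj F T)) :=
    ce_mono h.isP (fun ω _ ω' _ e => (Prod.ext_iff.1 e).1) fun ω _ ω' _ e => by
      have e1 := Prod.ext_iff.1 e
      have e2 := Prod.ext_iff.1 e1.2
      exact Prod.ext e2.2 (Prod.ext e1.1 e2.1)
  have a8 := h.h2
  have a9 := h.h3
  linarith

open Classical in
/-- the first alternative -/
theorem prep_lin (h : IsP s p) {n : ℕ} {e e1 ε c κ : ℝ} {F : Ω → β} {H : Ω → List Nrm}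
    {W : Ω → Nrm} {sv fv : Ω → ℝ} (hb : ∀ ω ∈ s, |sv ω| ≤ (2 : ℝ) ^ e ∧ |fv ω| ≤ (2 : ℝ) ^ e)
    (hW : Det s W (pj F H)) (hH : ce s p H F ≤ e1) (hn : ∀ ω ∈ s, ‖nv W sv fv ω‖ ≤ 1)
    (he : 0 ≤ e) (he1 : 0 ≤ e1) (hle : e + e1 + 2 ≤ ε * n)
    (hm : κ ≤ ms s p (fun ω => |(W ω).b| ≤ (2 : ℝ) ^ e1 ∧ c * n ≤ (W ω).y)) :
    ∃ b c0 : Ω → ℝ, ce s p (pj b c0) F ≤ ε * n ∧
      (∀ ω ∈ s, |b ω| ≤ (2 : ℝ) ^ (ε * n) ∧ |c0 ω| ≤ (2 : ℝ) ^ (ε * n)) ∧
      κ ≤ ms s p (fun ω => |fv ω - sv ω * b ω - c0 ω| ≤ (2 : ℝ) ^ (-(c * n))) := by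
  have key : ∀ ω ∈ s, |fv ω - sv ω * (W ω).b - ((W ω).fc - (W ω).b * (W ω).sc)| ≤
      1 / (2 : ℝ) ^ (W ω).y := fun ω hω => by
    have h1 := (norm_le_pi_norm (nv W sv fv ω) 1).trans (hn ω hω)
    have h2 : nv W sv fv ω 1 = 2 ^ (W ω).y *
        (fv ω - sv ω * (W ω).b - ((W ω).fc - (W ω).b * (W ω).sc)) := by
      simp only [nv, Nrm.ap, Matrix.cons_val_one, Matrix.cons_val_zero]
      ring
    rw [h2, Real.norm_eq_abs, abs_mul, abs_of_pos (by positivity : (0 : ℝ) < 2 ^ (W ω).y)] at h1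
    rw [le_div_iff₀ (by positivity)]
    linarith
  refine ⟨fun ω => if |(W ω).b| ≤ (2 : ℝ) ^ e1 then (W ω).b else 0,
    fun ω => if |(W ω).b| ≤ (2 : ℝ) ^ e1 then (W ω).fc - (W ω).b * (W ω).sc else 0, ?_, ?_, ?_⟩
  · refine le_trans (ce_mono h (X' := H) (Y := F) ?_ fun ω _ ω' _ e => e) (by linarith)
    intro ω hω ω' hω' e
    have e1 := Prod.ext_iff.1 e
    have e2 : W ω = W ω' := hW ω hω ω' hω' (Prod.ext e1.2 e1.1)
    simp only [pj, e2]
  · intro ω hω
    have p0 : (0 : ℝ) < 2 ^ (ε * n) := by positivity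
    by_cases g : |(W ω).b| ≤ (2 : ℝ) ^ e1
    · simp only [if_pos g]
      have m1 : (2 : ℝ) ^ e1 ≤ 2 ^ (ε * n) :=
        Real.rpow_le_rpow_of_exponent_le (by norm_num) (by linarith)
      refine ⟨g.trans m1, ?_⟩
      have k1 := key ω hω
      have k2 : 1 / (2 : ℝ) ^ (W ω).y ≤ 1 := by
        rw [div_le_one (by positivity)]
        exact one_le_pow₀ (by norm_num)
      have k3 : |sv ω * (W ω).b| ≤ (2 : ℝ) ^ (e + e1) := by
        rw [abs_mul, Real.rpow_add (by norm_num)]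
        exact mul_le_mul (hb ω hω).1 g (abs_nonneg _) (by positivity)
      have k4 : (2 : ℝ) ^ e ≤ 2 ^ (e + e1) :=
        Real.rpow_le_rpow_of_exponent_le (by norm_num) (by linarith)
      have k5 : (1 : ℝ) ≤ 2 ^ (e + e1) := Real.one_le_rpow (by norm_num) (by linarith)
      have k6 : (2 : ℝ) ^ (e + e1 + 2) ≤ 2 ^ (ε * n) :=
        Real.rpow_le_rpow_of_exponent_le (by norm_num) hle
      have k7 : (2 : ℝ) ^ (e + e1 + 2) = 2 ^ (e + e1) * 4 := by
        rw [Real.rpow_add (by norm_num) (e + e1) 2]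
        norm_num
      have k8 := (hb ω hω).2
      have k9 := abs_le.1 (k1.trans k2)
      have k10 := abs_le.1 k3
      have k11 := abs_le.1 k8
      rw [abs_le]
      constructor <;> linarith [k9.1, k9.2, k10.1, k10.2, k11.1, k11.2]
    · simp only [if_neg g, abs_zero]
      exact ⟨p0.le, p0.le⟩
  · refine hm.trans (ms_imp h fun ω hω g => ?_)
    simp only [if_pos g.1]
    refine (key ω hω).trans ?_
    rw [Real.rpow_neg (by norm_num), one_div, ← Real.rpow_natCast]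
    exact inv_anti₀ (by positivity) (Real.rpow_le_rpow_of_exponent_le (by norm_num) g.2)

end Vale.Agent.P127S
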