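import Vale.Agent.P127S.PrepA

/-! The proxy and the reference law on an atom of the recentred system. -/

open Real Finset Vale.Agent.P118O

noncomputable section

namespace Vale.Agent.P127S

variable {Ω α β γ τ ι : Type} {s : Finset Ω} {p : Ω → ℝ}

theorem prep_atom {F : Ω → β} {T : Ω → τ} {Y : Ω → ι → ℝ} {G : Ω → γ} {sv fv : Ω → ℝ}
    {H : Ω → List Nrm} {W : Ω → Nrm} (ds : Det s sv (pj F T)) (df : Det s fv (pj F T))
    (hW : Det s W (pj F H)) {x x0 : Ω × Ω}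
    (h0 : x0 ∈ glueS s (ctK F H Y G) s (ctK F H Y G))
    (hx : x ∈ atS (glueS s (ctK F H Y G) s (ctK F H Y G)) (ctW F H T) x0) :
    x.1 ∈ s ∧ x.2 ∈ s ∧ F x.1 = F x0.1 ∧ H x.1 = H x0.1 ∧ W x.1 = W x0.1 ∧ W x.2 = W x0.1 ∧
      W x0.2 = W x0.1 ∧ sv x.2 = sv x0.2 ∧ fv x.2 = fv x0.2 := by
  obtain ⟨hx2, e⟩ := mem_atS.1 hx
  obtain ⟨a1, a2, a3⟩ := glue_mem.1 hx2
  obtain ⟨b1, b2, b3⟩ := glue_mem.1 h0
  have e1 : (F x.1, H x.1) = (F x0.1, H x0.1) := (Prod.ext_iff.1 e).1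
  have e2 : T x.2 = T x0.2 := (Prod.ext_iff.1 e).2
  have a4 : (F x.1, H x.1) = (F x.2, H x.2) := (Prod.ext_iff.1 a3).1
  have b4 : (F x0.1, H x0.1) = (F x0.2, H x0.2) := (Prod.ext_iff.1 b3).1
  have f2 : F x.2 = F x0.2 := (Prod.ext_iff.1 (a4.symm.trans (e1.trans b4))).1
  have e3 : pj F T x.2 = pj F T x0.2 := Prod.ext f2 e2
  exact ⟨a1, a2, (Prod.ext_iff.1 e1).1, (Prod.ext_iff.1 e1).2, hW _ a1 _ b1 e1,
    hW _ a2 _ b1 (a4.symm.trans e1), hW _ b2 _ b1 b4.symm, ds _ a2 _ b2 e3, df _ a2 _ b2 e3⟩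

/-- passing to the half difference costs at most three bits -/
theorem prep_half (h : IsP s p) (n : ℕ) (X : Ω → ℝ) (c : ℝ) :
    ce s p (qs n X) (nil Ω) ≤ ce s p (qs n fun ω => (X ω - c) / 2) (nil Ω) + 3 := by
  have a1 := ce_le_add h (qs n X) (qs n fun ω => (X ω - c) / 2) (nil Ω)
  have a2 := ce_near1 h n X (fun ω => c + 2 * ((qs n (fun ω => (X ω - c) / 2) ω : ℝ) / 2 ^ n))
    (pj (qs n fun ω => (X ω - c) / 2) (nil Ω))
    (fun ω _ ω' _ e => by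
      have e1 : qs n (fun ω => (X ω - c) / 2) ω = qs n (fun ω => (X ω - c) / 2) ω' :=
        (Prod.ext_iff.1 e).1
      simp only [e1]) (x := 1) zero_le_one fun ω _ => by
      have p0 : (0 : ℝ) < 2 ^ n := by positivity
      have b1 := Int.floor_le ((2 : ℝ) ^ n * ((X ω - c) / 2))
      have b2 := Int.lt_floor_add_one ((2 : ℝ) ^ n * ((X ω - c) / 2))
      have b3 : X ω - (c + 2 * ((qs n (fun ω => (X ω - c) / 2) ω : ℝ) / 2 ^ n)) =
          2 * ((2 : ℝ) ^ n * ((X ω - c) / 2) - (⌊(2 : ℝ) ^ n * ((X ω - c) / 2)⌋ : ℝ)) / 2 ^ n := by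
        simp only [qs]
        field_simp
        ring
      rw [b3, Real.rpow_one, abs_div, abs_of_pos p0]
      refine div_le_div_of_nonneg_right ?_ p0.le
      rw [abs_le]
      constructor <;> linarith
  linarith

theorem prep_prx [Fintype ι] {n : ℕ} {e c : ℝ} {F : Ω → β} {T : Ω → τ} {A : Ω → α}
    {Y : Ω → ι → ℝ} {G : Ω → γ} {l0 l1 : γ → ι → ℝ} {sv fv : Ω → ℝ}
    (h : Eng s p n e F T A Y G l0 l1 sv fv) {H : Ω → List Nrm} {W : Ω → Nrm}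
    (hW : Det s W (pj F H)) {s2 : Finset (Ω × Ω)} {p2 : Ω × Ω → ℝ}
    (hs : s2 = glueS s (ctK F H Y G) s (ctK F H Y G)) (hp : p2 = glueP p s p (ctK F H Y G))
    {x0 : Ω × Ω} (h0 : x0 ∈ s2) (hp0 : 0 < p2 x0) (hec : e ≤ c)
    (hce : (n : ℝ) - c + 3 ≤ ce (atS s2 (ctW F H T) x0) (atP s2 p2 (ctW F H T) x0)
      (qs n fun x => sv x.1) (nil (Ω × Ω))) :
    Prx (atS s2 (ctW F H T) x0) (atP s2 p2 (ctW F H T) x0) n c (ctA W sv fv)
      (fun x => (sv x.1 - sv x0.2) / 2) := by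
  have hP2 : IsP s2 p2 := by rw [hs, hp]; exact glue_prob h.isP _
  have hA := at_isP hP2 (ctW F H T) h0 hp0
  subst hs
  have k0 : ∀ x ∈ atS (glueS s (ctK F H Y G) s (ctK F H Y G)) (ctW F H T) x0,
      ctA W sv fv x 0 = 2 ^ (W x0.1).l * ((sv x.1 - sv x0.2) / 2) := fun x hx => by
    obtain ⟨-, -, -, -, c1, c2, -, c3, -⟩ := prep_atom h.ds h.df hW h0 hx
    simp only [ctA, nv, Nrm.ap, c1, c2, c3, Pi.smul_apply, Pi.sub_apply, Matrix.cons_val_zero,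
      smul_eq_mul]
    ring
  refine ⟨fun i x hx x' hx' e => ?_, fun x hx => ?_, ?_⟩
  · refine det_qs (Nat.le_add_right i (W x0.1).l) _ x hx x' hx' ?_
    have e0 := congrFun e 0
    simp only [qv, qz, k0 x hx, k0 x' hx'] at e0
    simp only [qs, pow_add, mul_assoc]
    exact e0
  · obtain ⟨c1, -⟩ := prep_atom h.ds h.df hW h0 hx
    have c2 := (glue_mem.1 h0).2.1
    have b1 := abs_le.1 (h.bd _ c1).1
    have b2 := abs_le.1 (h.bd _ c2).1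
    have b3 : (2 : ℝ) ^ e ≤ 2 ^ c := Real.rpow_le_rpow_of_exponent_le (by norm_num) hec
    rw [abs_le]
    constructor <;> linarith [b1.1, b1.2, b2.1, b2.2]
  · have := prep_half hA n (fun x => sv x.1) (sv x0.2)
    linarith

/-- the information of the top digits relative to their law on the atom of `K` -/
def prepQ (s : Finset Ω) (p : Ω → ℝ) (K : Ω → β) (U : Ω → α) (ω : Ω) : ℝ :=
  -Real.logb 2 (pr (atS s K ω) (atP s p K ω) U (U ω))

theorem prep_Q_at {K : Ω → β} {U : Ω → α} {ω ω' : Ω} (e : K ω' = K ω) :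
    prepQ s p K U ω' = -Real.logb 2 (pr (atS s K ω) (atP s p K ω) U (U ω')) := by
  unfold prepQ
  rw [prep_atS_congr e, prep_atP_congr e]

theorem prep_pr_pos (h : IsP s p) (hp : ∀ ω ∈ s, 0 < p ω) (K : Ω → β) (U : Ω → α) {ω : Ω}
    (hω : ω ∈ s) : ∀ z ∈ prepIm (atS s K ω) U, 0 < pr (atS s K ω) (atP s p K ω) U z := by
  intro z hz
  obtain ⟨ω', h1, rfl⟩ := prep_mem_im.1 hz
  exact (prep_atP_pos h hp K hω (mem_atS.1 h1).1).trans_le
    (le_pr (at_isP h K hω (hp ω hω)) U h1)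

theorem prep_top [Fintype ι] {n L2 : ℕ} {e ϱ τ0 τ1 : ℝ} {F : Ω → β} {T : Ω → τ} {A : Ω → α}
    {Y : Ω → ι → ℝ} {G : Ω → γ} {l0 l1 : γ → ι → ℝ} {sv fv : Ω → ℝ}
    (h : Eng s p n e F T A Y G l0 l1 sv fv) {H : Ω → List Nrm} {W : Ω → Nrm}
    (hW : Det s W (pj F H)) (hn : ∀ ω ∈ s, ‖nv W sv fv ω‖ ≤ 1) {s2 : Finset (Ω × Ω)}
    {p2 : Ω × Ω → ℝ} (hs : s2 = glueS s (ctK F H Y G) s (ctK F H Y G))
    {x0 : Ω × Ω} (h0 : x0 ∈ s2) {δ : Type} (Z : Ω × Ω → δ)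
    (hS : Stop s p (pj F H) W sv fv (pj Y G) ϱ τ1 L2 x0.1)
    (hk : ex (atS s2 (ctW F H T) x0) (atP s2 p2 (ctW F H T) x0)
        (fun x => prepQ s p (pj (pj F H) W) (qv L2 (nv W sv fv)) x.1) -
      ce (atS s2 (ctW F H T) x0) (atP s2 p2 (ctW F H T) x0)
        (fun x => qv L2 (nv W sv fv) x.1) Z ≤ τ0) :
    ∃ (u : Ω × Ω → Fin 2 → ℤ) (y : (Fin 2 → ℤ) → Fin 2 → ℝ) (Au : Finset (Fin 2 → ℤ))
      (Q : (Fin 2 → ℤ) → ℝ),
      Top (atS s2 (ctW F H T) x0) (atP s2 p2 (ctW F H T) x0) (ϱ / 2) τ0 L2 Z (fun x => T x.1)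
        (ctA W sv fv) u y Au Q := by
  subst hs
  obtain ⟨b1, b2, -⟩ := glue_mem.1 h0
  have hA := at_isP h.isP (pj (pj F H) W) b1 (h.pos _ b1)
  have hK : ∀ x ∈ atS (glueS s (ctK F H Y G) s (ctK F H Y G)) (ctW F H T) x0,
      pj (pj F H) W x.1 = pj (pj F H) W x0.1 := fun x hx => by
    obtain ⟨-, -, c1, c2, c3, -⟩ := prep_atom h.ds h.df hW h0 hx
    simp only [pj, c1, c2, c3]
  have p0 : (0 : ℝ) < 1 / 2 ^ L2 := by positivity
  have p1 : (1 : ℝ) / 2 ^ L2 ≤ 1 := by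
    rw [div_le_one (by positivity)]
    exact one_le_pow₀ (by norm_num)
  refine ⟨fun x => qv L2 (nv W sv fv) x.1, fun z => (1 / 2 : ℝ) • (cor L2 z - nv W sv fv x0.2),
    prepIm (atS s (pj (pj F H) W) x0.1) (qv L2 (nv W sv fv)),
    pr (atS s (pj (pj F H) W) x0.1) (atP s p (pj (pj F H) W) x0.1) (qv L2 (nv W sv fv)),
    ⟨fun x hx x' hx' e => ?_, fun x hx => ?_, prep_pr_pos h.isP h.pos _ _ b1, prep_sum_pr hA _,
      fun z hz => ?_, fun x hx => ?_, fun η => ?_, ?_⟩⟩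
  · obtain ⟨a1, -, c1, -, c3, -⟩ := prep_atom h.ds h.df hW h0 hx
    obtain ⟨a1', -, c1', -, c3', -⟩ := prep_atom h.ds h.df hW h0 hx'
    have e3 : pj F T x.1 = pj F T x'.1 := Prod.ext (c1.trans c1'.symm) e
    simp only [qv, nv, c3, c3', h.ds _ a1 _ a1' e3, h.df _ a1 _ a1' e3]
  · exact prep_mem_im.2 ⟨x.1, mem_atS.2 ⟨(prep_atom h.ds h.df hW h0 hx).1, hK x hx⟩, rfl⟩
  · obtain ⟨ω, h1, rfl⟩ := prep_mem_im.1 hz
    have a1 := hn ω (mem_atS.1 h1).1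
    have a2 := dz_close L2 (nv W sv fv ω)
    have a3 := hn _ b2
    have a4 : cor L2 (qv L2 (nv W sv fv) ω) - nv W sv fv x0.2 =
        nv W sv fv ω - (nv W sv fv ω - dz L2 (nv W sv fv ω)) - nv W sv fv x0.2 := by
      rw [sub_sub_cancel]
      rfl
    have a5 := norm_sub_le (nv W sv fv ω - (nv W sv fv ω - dz L2 (nv W sv fv ω)))
      (nv W sv fv x0.2)
    have a6 := norm_sub_le (nv W sv fv ω) (nv W sv fv ω - dz L2 (nv W sv fv ω))
    rw [norm_smul, a4, Real.norm_eq_abs, abs_of_pos (by norm_num : (0 : ℝ) < 1 / 2)]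
    linarith
  · obtain ⟨-, -, -, -, -, c2, c3, c4, c5⟩ := prep_atom h.ds h.df hW h0 hx
    have a1 : nv W sv fv x.2 = nv W sv fv x0.2 := by simp only [nv, c2, c3, c4, c5]
    have a2 : ctA W sv fv x - (1 / 2 : ℝ) • (cor L2 (qv L2 (nv W sv fv) x.1) - nv W sv fv x0.2) =
        (1 / 2 : ℝ) • (nv W sv fv x.1 - dz L2 (nv W sv fv x.1)) := by
      unfold ctA
      rw [a1, ← smul_sub, sub_sub_sub_cancel_right]
      rfl
    have a3 := dz_close L2 (nv W sv fv x.1)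
    rw [a2, norm_smul, Real.norm_eq_abs, abs_of_pos (by norm_num : (0 : ℝ) < 1 / 2)]
    linarith
  · rw [prep_vr_push]
    have a1 := hS.1 η
    have a2 := prep_vr_aff hA (1 / 2) ((1 / 2) * ∑ i, η i * nv W sv fv x0.2 i)
      (fun ω' => ∑ i, η i * dz L2 (nv W sv fv ω') i)
    have a3 : (fun ω => ∑ i, η i *
        ((1 / 2 : ℝ) • (cor L2 (qv L2 (nv W sv fv) ω) - nv W sv fv x0.2)) i) =
        fun ω => 1 / 2 * ∑ i, η i * dz L2 (nv W sv fv ω) i -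
          1 / 2 * ∑ i, η i * nv W sv fv x0.2 i := by
      funext ω
      simp only [Fin.sum_univ_two, Pi.smul_apply, Pi.sub_apply, smul_eq_mul, dz, qv]
      ring
    rw [a3, a2]
    nlinarith
  · refine le_trans (le_of_eq ?_) hk
    congr 1
    exact prep_ex_congr fun x hx => (prep_Q_at (hK x hx)).symm

end Vale.Agent.P127S
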