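import Vale.Agent.P127S.PrepB

/-! The functionals used in the selection of an atom. -/

open Real Finset Vale.Agent.P118O

noncomputable section

namespace Vale.Agent.P127S

variable {Ω α β γ δ τ ι : Type} {s : Finset Ω} {p : Ω → ℝ}

open Classical in
/-- cutting a variable by an event that is constant on the atom -/
theorem prep_cut {Ω' : Type} {s' : Finset Ω'} {p' : Ω' → ℝ} (h : IsP s' p') (E : Ω' → Prop)
    (U : Ω' → α) (a : α) (Z : Ω' → δ) (P : Prop) (hE : ∀ x ∈ s', E x ↔ P) :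
    ce s' p' (fun x => if E x then U x else a) Z = if P then ce s' p' U Z else 0 := by
  by_cases g : P
  · rw [if_pos g]
    exact ce_congr (fun x hx => if_pos ((hE x hx).2 g)) fun _ _ => rfl
  · rw [if_neg g]
    refine ce_det h fun x hx x' hx' _ => ?_
    rw [if_neg fun k => g ((hE x hx).1 k), if_neg fun k => g ((hE x' hx').1 k)]

open Classical in
/-- The relative entropy functional. `K` is the label in the first space, `W2` the label in the
glued space. -/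
theorem prep_kl (h : IsP s p) (hp : ∀ ω ∈ s, 0 < p ω) (K : Ω → β) (U : Ω → α) (a : α)
    (Z : Ω → γ) (E : Ω → Prop) (hE : ∀ ω ω', K ω = K ω' → (E ω ↔ E ω')) {τ1 : ℝ} (hτ : 0 ≤ τ1)
    (hS : ∀ ω ∈ s, E ω → ce (atS s K ω) (atP s p K ω) U (nil Ω) -
      ce (atS s K ω) (atP s p K ω) U Z ≤ τ1)
    {s2 : Finset (Ω × Ω)} {p2 : Ω × Ω → ℝ} (h2 : IsP s2 p2) (hp2 : ∀ x ∈ s2, 0 < p2 x)
    (hl : ∀ f : Ω → ℝ, ex s2 p2 (fun x => f x.1) = ex s p f) (hm : ∀ x ∈ s2, x.1 ∈ s)
    {κ : Type} (W2 : Ω × Ω → κ) (hK : ∀ x ∈ s2, ∀ x' ∈ s2, W2 x = W2 x' → K x.1 = K x'.1)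
    (Z2 : Ω × Ω → δ)
    (hc : ce s p (fun ω => if E ω then U ω else a) (pj Z K) ≤
      ce s2 p2 (fun x => if E x.1 then U x.1 else a) (pj Z2 W2)) :
    ∃ φ : Ω × Ω → ℝ, (∀ x ∈ s2, 0 ≤ φ x) ∧ ex s2 p2 φ ≤ τ1 ∧ ∀ x ∈ s2, E x.1 →
      ex (atS s2 W2 x) (atP s2 p2 W2 x) (fun x' => prepQ s p K U x'.1) -
        ce (atS s2 W2 x) (atP s2 p2 W2 x) (fun x' => U x'.1) Z2 ≤ φ x := by
  refine ⟨fun x => if E x.1 then ex (atS s2 W2 x) (atP s2 p2 W2 x) (fun x' => prepQ s p K U x'.1) -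
    ce (atS s2 W2 x) (atP s2 p2 W2 x) (fun x' => U x'.1) Z2 else 0, fun x hx => ?_, ?_,
    fun x _ g => le_of_eq (if_pos g).symm⟩
  · by_cases g : E x.1
    · simp only [if_pos g]
      have hA := at_isP h2 W2 hx (hp2 x hx)
      have hA1 := at_isP h K (hm x hx) (hp _ (hm x hx))
      have a1 := ce_le_ref hA (fun x' => U x'.1) Z2 (prepIm (atS s K x.1) U)
        (pr (atS s K x.1) (atP s p K x.1) U)
        (fun x' hx' => prep_mem_im.2 ⟨x'.1, mem_atS.2 ⟨hm _ (mem_atS.1 hx').1,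
          hK _ (mem_atS.1 hx').1 _ hx (mem_atS.1 hx').2⟩, rfl⟩)
        (prep_pr_pos h hp K U (hm x hx)) (prep_sum_pr hA1 U).le
      have a2 : ex (atS s2 W2 x) (atP s2 p2 W2 x) (fun x' => prepQ s p K U x'.1) =
          ex (atS s2 W2 x) (atP s2 p2 W2 x)
            (fun x' => -Real.logb 2 (pr (atS s K x.1) (atP s p K x.1) U (U x'.1))) :=
        prep_ex_congr fun x' hx' => prep_Q_at (hK _ (mem_atS.1 hx').1 _ hx (mem_atS.1 hx').2)
      linarith
    · simp only [if_neg g, le_refl]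
  · have e1 : ex s2 p2 (fun x => if E x.1 then
        ex (atS s2 W2 x) (atP s2 p2 W2 x) (fun x' => prepQ s p K U x'.1) -
          ce (atS s2 W2 x) (atP s2 p2 W2 x) (fun x' => U x'.1) Z2 else 0) =
        ex s2 p2 (fun x => ex (atS s2 W2 x) (atP s2 p2 W2 x)
            (fun x' => if E x'.1 then prepQ s p K U x'.1 else 0) -
          ce (atS s2 W2 x) (atP s2 p2 W2 x) (fun x' => if E x'.1 then U x'.1 else a) Z2) := by
      refine prep_ex_congr fun x hx => ?_
      have hA := at_isP h2 W2 hx (hp2 x hx)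
      have k : ∀ x' ∈ atS s2 W2 x, E x'.1 ↔ E x.1 := fun x' hx' =>
        hE _ _ (hK _ (mem_atS.1 hx').1 _ hx (mem_atS.1 hx').2)
      rw [prep_cut hA (fun x' => E x'.1) (fun x' => U x'.1) a Z2 (E x.1) k]
      by_cases g : E x.1
      · simp only [if_pos g]
        congr 1
        exact prep_ex_congr fun x' hx' => (if_pos ((k x' hx').2 g)).symm
      · simp only [if_neg g]
        rw [prep_ex_congr (g := fun _ => 0) fun x' hx' => if_neg fun j => g ((k x' hx').1 j),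
          prep_ex_const hA, sub_zero]
    have e2 : ex s p (fun ω => ex (atS s K ω) (atP s p K ω)
          (fun ω' => if E ω' then prepQ s p K U ω' else 0) -
        ce (atS s K ω) (atP s p K ω) (fun ω' => if E ω' then U ω' else a) Z) ≤
        ex s p (fun _ => τ1) := by
      refine prep_ex_mono h fun ω hω => ?_
      have hA := at_isP h K hω (hp ω hω)
      have k : ∀ ω' ∈ atS s K ω, E ω' ↔ E ω := fun ω' hω' => hE _ _ (mem_atS.1 hω').2
      rw [prep_cut hA E U a Z (E ω) k]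
      by_cases g : E ω
      · have a1 := hS ω hω g
        rw [prep_ce_nil hA] at a1
        have a2 : ex (atS s K ω) (atP s p K ω) (fun ω' => if E ω' then prepQ s p K U ω' else 0) =
            ex (atS s K ω) (atP s p K ω)
              (fun ω' => -Real.logb 2 (pr (atS s K ω) (atP s p K ω) U (U ω'))) :=
          prep_ex_congr fun ω' hω' => by
            rw [if_pos ((k ω' hω').2 g)]
            exact prep_Q_at (mem_atS.1 hω').2
        rw [if_pos g, a2]
        exact a1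
      · rw [if_neg g, prep_ex_congr (g := fun _ => 0) fun ω' hω' =>
          if_neg fun j => g ((k ω' hω').1 j), prep_ex_const hA, sub_zero]
        exact hτ
    rw [prep_ex_sub, ex_at h, ce_at h, prep_ex_const h] at e2
    rw [e1, prep_ex_sub, ex_at h2, ce_at h2, hl fun ω => if E ω then prepQ s p K U ω else 0]
    linarith

/-- the entropy functional of the proxy -/
theorem prep_pf {Ω' κ : Type} {s2 : Finset Ω'} {p2 : Ω' → ℝ} (h2 : IsP s2 p2) (n : ℕ)
    (X : Ω' → ℝ) (W2 : Ω' → κ) {e D : ℝ} (he : 0 ≤ e) (hX : ∀ x ∈ s2, |X x| ≤ (2 : ℝ) ^ e)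
    (hD : n - D ≤ ce s2 p2 (qs n X) W2) :
    (∀ x ∈ s2, 0 < p2 x →
      0 ≤ n + e + 2 - ce (atS s2 W2 x) (atP s2 p2 W2 x) (qs n X) (nil Ω')) ∧
    ex s2 p2 (fun x => n + e + 2 - ce (atS s2 W2 x) (atP s2 p2 W2 x) (qs n X) (nil Ω')) ≤
      e + D + 2 := by
  refine ⟨fun x hx hp => ?_, ?_⟩
  · have := ce_qs_bd (at_isP h2 W2 hx hp) n X (nil Ω') he fun x' hx' => hX x' (mem_atS.1 hx').1
    linarith
  · have a1 : ce s2 p2 (qs n X) W2 ≤ ce s2 p2 (qs n X) (pj (nil Ω') W2) :=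
      ce_mono h2 (fun _ _ _ _ e => (Prod.ext_iff.1 e).1) fun _ _ _ _ e => Prod.ext rfl e
    rw [prep_ex_sub, prep_ex_const h2, ce_at h2]
    linarith

theorem prep_glue_pos (h : IsP s p) (hp : ∀ ω ∈ s, 0 < p ω) (K : Ω → β) :
    ∀ x ∈ glueS s K s K, 0 < glueP p s p K x := fun x hx => by
  obtain ⟨a1, a2, -⟩ := glue_mem.1 hx
  exact div_pos (mul_pos (hp _ a1) (hp _ a2)) ((hp _ a2).trans_le (le_pr h K a2))

/-- selection with six functionals -/
theorem prep_sel {Ω' : Type} {s2 : Finset Ω'} {p2 : Ω' → ℝ} (h2 : IsP s2 p2) {E : Ω' → Prop}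
    {ε : ℝ} (hε : 0 < ε) (hE : ε / 2 ≤ ms s2 p2 E) (φ ψ : Fin 3 → Ω' → ℝ) (e d : Fin 3 → ℝ)
    (hφ : ∀ i, ∀ x ∈ s2, 0 < p2 x → 0 ≤ φ i x) (he : ∀ i, ex s2 p2 (φ i) ≤ e i)
    (hψ : ∀ i, ∀ x ∈ s2, 0 < p2 x → 0 ≤ ψ i x) (hd : ∀ i, ex s2 p2 (ψ i) ≤ d i) :
    ∃ x ∈ s2, 0 < p2 x ∧ E x ∧ (∀ i, φ i x ≤ 40 * e i / ε) ∧ ∀ i, ψ i x ≤ 14 * d i / ε := by
  obtain ⟨x, hx, hp, hEx, hb⟩ := select h2 (half_pos hε) hE (J := 3 + 3) (Fin.append φ ψ)
    (Fin.append e d)
    (fun i => Fin.addCases (fun j => by simpa only [Fin.append_left] using hφ j)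
      (fun j => by simpa only [Fin.append_right] using hψ j) i)
    (fun i => Fin.addCases (fun j => by simpa only [Fin.append_left] using he j)
      (fun j => by simpa only [Fin.append_right] using hd j) i)
  refine ⟨x, hx, hp, hEx, fun i => ?_, fun i => ?_⟩
  · have a1 := hb (Fin.castAdd 3 i)
    simp only [Fin.append_left] at a1
    have a2 : 0 ≤ e i := (prep_ex_nonneg h2 (hφ i)).trans (he i)
    have a3 : (((3 + 3 : ℕ) : ℝ) + 1) * e i / (ε / 2) = 14 * e i / ε := by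
      push_cast
      field_simp
      ring
    rw [a3] at a1
    exact a1.trans (div_le_div_of_nonneg_right (by linarith) hε.le)
  · have a1 := hb (Fin.natAdd 3 i)
    simp only [Fin.append_right] at a1
    have a3 : (((3 + 3 : ℕ) : ℝ) + 1) * d i / (ε / 2) = 14 * d i / ε := by
      push_cast
      field_simp
      ring
    rwa [a3] at a1

end Vale.Agent.P127S
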