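import Vale.Agent.P127S.FinB

/-! Counting the directions in which a planar law is not spread, and the shift lemma. -/

open Real Finset Vale.Agent.P118O

noncomputable section

namespace Vale.Agent.P127S

theorem Rank_int (T : Finset ℤ) {L : ℝ} (hL : 0 ≤ L) (h : ∀ a ∈ T, ∀ b ∈ T, (a : ℝ) - b ≤ L) :
    (T.card : ℝ) ≤ L + 1 := by
  rcases T.eq_empty_or_nonempty with rfl | hT
  · rw [card_empty, Nat.cast_zero]
    linarith
  have h1 : T ⊆ Icc (T.min' hT) (T.min' hT + ⌊L⌋₊) := by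
    intro a ha
    refine mem_Icc.2 ⟨T.min'_le a ha, ?_⟩
    have h2 := h a ha _ (T.min'_mem hT)
    have h3 : a - T.min' hT ≤ ⌊L⌋ := Int.le_floor.2 (by push_cast; exact h2)
    rw [← Int.natCast_floor_eq_floor hL] at h3
    omega
  have h2 := card_le_card h1
  rw [Int.card_Icc] at h2
  have h3 : T.card ≤ ⌊L⌋₊ + 1 := by omega
  have h4 : (T.card : ℝ) ≤ ⌊L⌋₊ + 1 := by exact_mod_cast h3
  linarith [Nat.floor_le hL]

theorem Rank_pair (T : Finset (ℤ × ℤ)) {a b : ℝ} (ha : 0 ≤ a) (hb : 0 ≤ b)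
    (h1 : ∀ z ∈ T, ∀ w ∈ T, (z.1 : ℝ) - w.1 ≤ a)
    (h2 : ∀ z ∈ T, ∀ w ∈ T, z.1 = w.1 → (z.2 : ℝ) - w.2 ≤ b) :
    (T.card : ℝ) ≤ (a + 1) * (b + 1) := by
  rw [card_eq_sum_card_image Prod.fst T]
  push_cast
  refine (sum_le_card_nsmul _ _ (b + 1) fun k _ => ?_).trans ?_
  · rw [← card_image_of_injOn (f := Prod.snd) fun z hz w hw e =>
      Prod.ext ((mem_filter.1 hz).2.trans (mem_filter.1 hw).2.symm) e]
    refine Rank_int _ hb fun u hu v hv => ?_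
    obtain ⟨z, hz, rfl⟩ := mem_image.1 hu
    obtain ⟨w, hw, rfl⟩ := mem_image.1 hv
    exact h2 z (mem_filter.1 hz).1 w (mem_filter.1 hw).1
      ((mem_filter.1 hz).2.trans (mem_filter.1 hw).2.symm)
  · rw [nsmul_eq_mul]
    refine mul_le_mul_of_nonneg_right (Rank_int _ ha fun u hu v hv => ?_) (by linarith)
    obtain ⟨z, hz, rfl⟩ := mem_image.1 hu
    obtain ⟨w, hw, rfl⟩ := mem_image.1 hv
    exact h1 z hz w hw

theorem Rank_mass {υ γ : Type} [DecidableEq γ] {A : Finset υ} {Q : υ → ℝ} (c : υ → γ) (E : υ → Prop)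
    (hQ : IsP A Q) {δ : ℝ} (hD : ∀ a ∈ A, ms A Q (fun a' => c a' = c a) ≤ δ) :
    ms A Q E ≤ ((rs A E).image c).card * δ := by
  change ∑ a ∈ rs A E, Q a ≤ _
  rw [← sum_fiberwise_of_maps_to (t := (rs A E).image c) (g := c)
    fun a ha => mem_image_of_mem c ha]
  refine (sum_le_card_nsmul _ _ δ fun k hk => ?_).trans (by rw [nsmul_eq_mul])
  obtain ⟨a, ha, rfl⟩ := mem_image.1 hk
  refine le_trans (sum_le_sum_of_subset_of_nonneg (fun b hb => ?_) fun b hb _ => ?_)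
    (hD a (mem_rs.1 ha).1)
  · exact mem_rs.2 ⟨(mem_rs.1 (mem_filter.1 hb).1).1, (mem_filter.1 hb).2⟩
  · exact hQ.1 b (mem_rs.1 hb).1

theorem Rank_cheb {υ : Type} {A : Finset υ} {Q : υ → ℝ} (hQ : IsP A Q) {f : υ → ℝ}
    (hf : vr A Q f < 9) : ms A Q (fun a => ¬ |f a - ex A Q f| ≤ 6) ≤ 1 / 4 := by
  have h1 := markov hQ (f := fun a => (f a - ex A Q f) ^ 2) (fun _ _ _ => sq_nonneg _) (c := 36)
  have h2 : ms A Q (fun a => ¬ |f a - ex A Q f| ≤ 6) ≤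
      ms A Q (fun a => 36 ≤ (f a - ex A Q f) ^ 2) := ms_imp hQ fun a _ ha => by
    have h3 := not_le.1 ha
    rw [← sq_abs]
    nlinarith
  unfold vr at hf
  linarith

theorem Rank_floor {x y c : ℝ} (h : x - y ≤ c) : (⌊x⌋ : ℝ) - ⌊y⌋ ≤ c + 1 := by
  linarith [Int.floor_le x, Int.lt_floor_add_one y]

theorem Rank_core {υ : Type} (A : Finset υ) (Q : υ → ℝ) (hQ : IsP A Q) (y w : υ → ℝ)
    (hw : ∀ a ∈ A, 0 ≤ w a ∧ w a ≤ 1) {N δ : ℝ} (hN : 1 ≤ N)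
    (hD : ∀ a ∈ A, ms A Q (fun a' => (⌊N * w a'⌋, ⌊N * y a'⌋) = (⌊N * w a⌋, ⌊N * y a⌋)) ≤ δ)
    (Z : Finset (ℤ × ℤ)) (z1 : ℤ × ℤ) (hz1 : z1 ∈ Z) {r : ℝ} (hr : |(z1.1 : ℝ)| = r)
    (hr1 : 1 ≤ r) (hrN : r ≤ N) (hZ : ∀ z ∈ Z, |(z.1 : ℝ)| ≤ r ∧ |(z.2 : ℝ)| ≤ r ∧
      vr A Q (fun a => y a * z.1 + w a * z.2) < 9) :
    (Z.card : ℝ) ≤ 8000 * N ^ 2 * δ := by
  classical
  obtain ⟨z2, hz2, hmax⟩ := exists_max_image Z
    (fun z => |(z1.1 : ℝ) * z.2 - z1.2 * z.1|) ⟨z1, hz1⟩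
  obtain ⟨h, hh⟩ : ∃ h : ℝ, |(z1.1 : ℝ) * z2.2 - z1.2 * z2.1| = h * r :=
    ⟨_, (div_mul_cancel₀ _ (by linarith)).symm⟩
  have hr0 : 0 < r := by linarith
  have hN0 : 0 < N := by linarith
  have hh0 : 0 ≤ h := by
    have := abs_nonneg ((z1.1 : ℝ) * z2.2 - z1.2 * z2.1)
    rw [hh] at this
    exact nonneg_of_mul_nonneg_left this hr0
  have hh2 : h ≤ 2 * r := by
    have a1 := abs_sub ((z1.1 : ℝ) * z2.2) (z1.2 * z2.1)
    rw [hh, abs_mul, abs_mul, hr] at a1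
    have a2 := mul_le_mul (hZ z1 hz1).2.1 (hZ z2 hz2).1 (abs_nonneg _) hr0.le
    have a3 := mul_le_mul_of_nonneg_left (hZ z2 hz2).2.1 hr0.le
    refine le_of_mul_le_mul_right ?_ hr0
    nlinarith
  have c1 : (Z.card : ℝ) ≤ (2 * r + 1) * (2 * h + 1) := by
    refine Rank_pair Z (by linarith) (by linarith) (fun z hz v hv => ?_) fun z hz v hv e => ?_
    · linarith [(abs_le.1 (hZ z hz).1).2, (abs_le.1 (hZ v hv).1).1]
    · have a1 := hmax z hz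
      have a2 := hmax v hv
      simp only [hh] at a1 a2
      have a3 := abs_sub ((z1.1 : ℝ) * z.2 - z1.2 * z.1) ((z1.1 : ℝ) * v.2 - z1.2 * v.1)
      have a4 : (z1.1 : ℝ) * z.2 - z1.2 * z.1 - ((z1.1 : ℝ) * v.2 - z1.2 * v.1) =
          z1.1 * ((z.2 : ℝ) - v.2) := by rw [e]; ring
      rw [a4, abs_mul, hr] at a3
      have a5 := le_abs_self ((z.2 : ℝ) - v.2)
      refine a5.trans (le_of_mul_le_mul_left ?_ hr0)
      linarith
  obtain ⟨E, hE⟩ : ∃ E : υ → Prop, ∀ a, E a ↔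
      |y a * z1.1 + w a * z1.2 - ex A Q (fun a => y a * z1.1 + w a * z1.2)| ≤ 6 ∧
      |y a * z2.1 + w a * z2.2 - ex A Q (fun a => y a * z2.1 + w a * z2.2)| ≤ 6 :=
    ⟨_, fun _ => Iff.rfl⟩
  have c2 : 1 / 2 ≤ ms A Q E := by
    have a1 := Rank_cheb hQ (hZ z1 hz1).2.2
    have a2 := Rank_cheb hQ (hZ z2 hz2).2.2
    have a3 := (ms_imp hQ (E := fun a => ¬ E a) fun a _ ha =>
      not_and_or.1 fun hb => ha ((hE a).2 hb)).trans (ms_or hQ _ _)
    rw [ms_not hQ] at a3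
    linarith
  have c3 := Rank_mass (fun a => (⌊N * w a⌋, ⌊N * y a⌋)) E hQ hD
  have d1 : ∀ a ∈ rs A E, ∀ b ∈ rs A E, |(y a - y b) * z1.1 + (w a - w b) * z1.2| ≤ 12 ∧
      |(y a - y b) * z2.1 + (w a - w b) * z2.2| ≤ 12 := by
    intro a ha b hb
    obtain ⟨a1, a2⟩ := (hE a).1 (mem_rs.1 ha).2
    obtain ⟨b1, b2⟩ := (hE b).1 (mem_rs.1 hb).2
    rw [abs_le] at a1 a2 b1 b2
    rw [abs_le, abs_le]
    refine ⟨⟨?_, ?_⟩, ?_, ?_⟩ <;> linarith [a1.1, a1.2, a2.1, a2.2, b1.1, b1.2, b2.1, b2.2]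
  have d2 : ∀ a ∈ rs A E, ∀ b ∈ rs A E, |w a - w b| * h ≤ 24 := by
    intro a ha b hb
    obtain ⟨a1, a2⟩ := d1 a ha b hb
    have e : (w a - w b) * ((z1.1 : ℝ) * z2.2 - z1.2 * z2.1) =
        z1.1 * ((y a - y b) * z2.1 + (w a - w b) * z2.2) -
          z2.1 * ((y a - y b) * z1.1 + (w a - w b) * z1.2) := by ring
    have a3 := congrArg abs e
    rw [abs_mul, hh] at a3
    have a4 := abs_sub (z1.1 * ((y a - y b) * z2.1 + (w a - w b) * z2.2))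
      (z2.1 * ((y a - y b) * z1.1 + (w a - w b) * z1.2))
    rw [← a3, abs_mul, abs_mul, hr] at a4
    have a5 := mul_le_mul_of_nonneg_left a2 hr0.le
    have a6 := mul_le_mul (hZ z2 hz2).1 a1 (abs_nonneg _) hr0.le
    refine le_of_mul_le_mul_right ?_ hr0
    linarith
  have d3 : ∀ a ∈ rs A E, ∀ b ∈ rs A E, ⌊N * w a⌋ = ⌊N * w b⌋ →
      N * y a - N * y b ≤ 12 * N / r + 1 := by
    intro a ha b hb e
    have a1 := (d1 a ha b hb).1
    have a2 : |N * w a - N * w b| ≤ 1 := (Int.abs_sub_lt_one_of_floor_eq_floor e).le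
    rw [← mul_sub, abs_mul, abs_of_pos hN0] at a2
    have a3 := abs_sub ((y a - y b) * z1.1 + (w a - w b) * z1.2) ((w a - w b) * z1.2)
    rw [add_sub_cancel_right, abs_mul, abs_mul, hr] at a3
    have a4 := mul_le_mul_of_nonneg_left (hZ z1 hz1).2.1 (abs_nonneg (w a - w b))
    have a5 : |y a - y b| * r ≤ 12 + |w a - w b| * r := by linarith
    have a6 := mul_le_mul_of_nonneg_left a5 hN0.le
    have a7 := mul_le_mul_of_nonneg_right a2 hr0.le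
    have a8 := mul_le_mul_of_nonneg_left (le_abs_self (y a - y b)) hN0.le
    have a9 : N * |y a - y b| ≤ 12 * N / r + 1 := by
      rw [div_add_one hr0.ne', le_div_iff₀ hr0]
      nlinarith
    linarith
  have d4 : ∀ u : ℝ, 0 ≤ u → (∀ a ∈ rs A E, ∀ b ∈ rs A E, w a - w b ≤ u) →
      (((rs A E).image fun a => (⌊N * w a⌋, ⌊N * y a⌋)).card : ℝ) ≤
        (N * u + 1 + 1) * (12 * N / r + 1 + 1 + 1) := by
    intro u hu hb
    refine Rank_pair _ (by positivity) (by positivity) (fun z hz v hv => ?_) fun z hz v hv e => ?_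
    · obtain ⟨a, ha, rfl⟩ := mem_image.1 hz
      obtain ⟨b, hb', rfl⟩ := mem_image.1 hv
      refine Rank_floor ?_
      rw [← mul_sub]
      exact mul_le_mul_of_nonneg_left (hb a ha b hb') hN0.le
    · obtain ⟨a, ha, rfl⟩ := mem_image.1 hz
      obtain ⟨b, hb', rfl⟩ := mem_image.1 hv
      exact Rank_floor (d3 a ha b hb' e)
  have d5 : (12 * N / r + 1 + 1 + 1) * (2 * r + 1) ≤ 45 * N := by
    have a1 : (12 * N / r + 1 + 1 + 1) * r = 12 * N + 3 * r := by field_simp; ring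
    have a2 : (12 * N / r + 1 + 1 + 1) * 1 ≤ (12 * N / r + 1 + 1 + 1) * r := by gcongr
    linarith
  obtain ⟨u, hu0, hu1, hu2⟩ : ∃ u : ℝ, 0 ≤ u ∧ (∀ a ∈ rs A E, ∀ b ∈ rs A E, w a - w b ≤ u) ∧
      (N * u + 1 + 1) * (2 * h + 1) ≤ 84 * N := by
    rcases le_total h 1 with h1 | h1
    · refine ⟨1, zero_le_one, fun a ha b hb => ?_, by nlinarith⟩
      linarith [(hw a (mem_rs.1 ha).1).2, (hw b (mem_rs.1 hb).1).1]
    · have hp : 0 < h := by linarith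
      refine ⟨24 / h, by positivity, fun a ha b hb => (le_abs_self _).trans ?_, ?_⟩
      · rw [le_div_iff₀ hp]
        exact d2 a ha b hb
      · have a1 : (N * (24 / h) + 1 + 1) * h = 24 * N + 2 * h := by field_simp; ring
        have a2 : (N * (24 / h) + 1 + 1) * 1 ≤ (N * (24 / h) + 1 + 1) * h := by gcongr
        linarith
  have d6 := d4 u hu0 hu1
  have hδ : 0 ≤ δ := by
    obtain ⟨a, ha⟩ := ent_nonempty hQ
    exact (ms_ge_zero hQ _).trans (hD a ha)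
  have d7 : 1 / 2 ≤ (N * u + 1 + 1) * (12 * N / r + 1 + 1 + 1) * δ :=
    c2.trans (c3.trans (mul_le_mul_of_nonneg_right d6 hδ))
  have d8 := mul_le_mul hu2 d5 (by positivity) (by positivity)
  have d9 := mul_le_mul_of_nonneg_right d8 hδ
  have d10 := mul_le_mul_of_nonneg_left d7
    (show 0 ≤ (2 * r + 1) * (2 * h + 1) by positivity)
  have d11 : 0 ≤ N ^ 2 * δ := by positivity
  nlinarith

/-- Let `z1` be an element of `Z` of largest sup norm `r` (if `r = 0` use that there are at most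
`(2 ^ L + 1) ^ 2` cells) and `z2 ∈ Z` with the largest `|det (z1, z2)| = h r`. Then
`card Z ≤ (2 r + 1) (2 h + 1)`. By Chebyshev the set `|(y - mean) · z1| ≤ 6`,
`|(y - mean) · z2| ≤ 6` has mass at least `1 / 2`, and it meets at most
`(12 * 2 ^ L / r + 3) * min (2 ^ L + 1) (24 * 2 ^ L / h + 2)` cells of level `L`. -/
theorem rank {υ : Type} (A : Finset υ) (Q : υ → ℝ) (hQ : IsP A Q) (y : υ → Fin 2 → ℝ)
    (hy : ∀ a ∈ A, ∀ i, 0 ≤ y a i ∧ y a i ≤ 1) (L : ℕ) {D : ℝ}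
    (hD : ∀ a ∈ A, ms A Q (fun a' => qz L (y a') = qz L (y a)) ≤ (2 : ℝ) ^ (-D))
    (Z : Finset (Fin 2 → ℤ)) (hZ : ∀ z ∈ Z, (∀ i, |z i| ≤ 2 ^ L) ∧
      vr A Q (fun a => dot2 (y a) (fun i => z i)) < 9) :
    (Z.card : ℝ) ≤ (2 : ℝ) ^ (2 * L - D + 14) := by
  classical
  have hN : (1 : ℝ) ≤ 2 ^ L := one_le_pow₀ one_le_two
  have e0 : (2 : ℝ) ^ (2 * (L : ℝ) - D + 14) = 16384 * ((2 : ℝ) ^ L) ^ 2 * (2 : ℝ) ^ (-D) := by
    rw [show 2 * (L : ℝ) - D + 14 = ((14 + L * 2 : ℕ) : ℝ) + -D by push_cast; ring,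
      Real.rpow_add two_pos, Real.rpow_natCast, pow_add, pow_mul]
    norm_num
  have hδ : (0 : ℝ) < (2 : ℝ) ^ (-D) := Real.rpow_pos_of_pos two_pos _
  have key : ∀ Z' : Finset (Fin 2 → ℤ), (∀ z ∈ Z', (∀ i, |z i| ≤ 2 ^ L) ∧
      vr A Q (fun a => dot2 (y a) (fun i => z i)) < 9) → ∀ z1 ∈ Z', ∀ i, z1 i ≠ 0 →
      (∀ z ∈ Z', ∀ k, |z k| ≤ |z1 i|) →
      (Z'.card : ℝ) ≤ 8000 * ((2 : ℝ) ^ L) ^ 2 * (2 : ℝ) ^ (-D) := by
    intro Z' hZ' z1 hz1 i hi hmax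
    obtain ⟨j, hj1, hj2⟩ : ∃ j : Fin 2, (∀ u v : Fin 2 → ℤ, (u i, u j) = (v i, v j) → u = v) ∧
        ∀ u v : Fin 2 → ℝ, dot2 u v = u i * v i + u j * v j := by
      fin_cases i
      · refine ⟨1, fun u v e => funext fun k => ?_, fun u v => rfl⟩
        fin_cases k
        · exact (Prod.mk.inj e).1
        · exact (Prod.mk.inj e).2
      · refine ⟨0, fun u v e => funext fun k => ?_, fun u v => add_comm _ _⟩
        fin_cases k
        · exact (Prod.mk.inj e).2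
        · exact (Prod.mk.inj e).1
    rw [← card_image_of_injective Z' (f := fun u : Fin 2 → ℤ => (u i, u j)) fun u v e => hj1 u v e]
    refine Rank_core A Q hQ (fun a => y a i) (fun a => y a j) (fun a ha => hy a ha j) hN
      (fun a ha => le_trans (ms_imp hQ fun a' _ e => hj1 _ _ ?_) (hD a ha)) _ (z1 i, z1 j)
      (mem_image_of_mem _ hz1) rfl ?_ ?_ fun z hz => ?_
    · exact Prod.ext (Prod.mk.inj e).2 (Prod.mk.inj e).1
    · exact_mod_cast Int.one_le_abs hi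
    · exact_mod_cast (hZ' z1 hz1).1 i
    · obtain ⟨v, hv, rfl⟩ := mem_image.1 hz
      refine ⟨by exact_mod_cast hmax v hv i, by exact_mod_cast hmax v hv j, ?_⟩
      simpa only [hj2] using (hZ' v hv).2
  have hv : vr A Q (fun a => dot2 (y a) (fun i => ((fun k => if k = 0 then 1 else 0 :
      Fin 2 → ℤ) i : ℝ))) < 9 := by
    have e1 : ∀ a, dot2 (y a) (fun i => ((fun k => if k = 0 then 1 else 0 :
      Fin 2 → ℤ) i : ℝ)) = y a 0 := fun a => by simp [dot2]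
    simp only [e1]
    have h1 : ∀ f : υ → ℝ, ∀ c : ℝ, (∀ a ∈ A, f a ≤ c) → ex A Q f ≤ c := fun f c hf =>
      calc ex A Q f ≤ ∑ a ∈ A, Q a * c :=
            sum_le_sum fun a ha => mul_le_mul_of_nonneg_left (hf a ha) (hQ.1 a ha)
        _ = c := by rw [← sum_mul, hQ.2, one_mul]
    have h2 := h1 (fun a => y a 0) 1 fun a ha => (hy a ha 0).2
    have h3 : 0 ≤ ex A Q fun a => y a 0 :=
      sum_nonneg fun a ha => mul_nonneg (hQ.1 a ha) (hy a ha 0).1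
    refine lt_of_le_of_lt (h1 _ 1 fun a ha => ?_) (by norm_num)
    nlinarith [(hy a ha 0).1, (hy a ha 0).2]
  rw [e0]
  have hpos : 0 ≤ ((2 : ℝ) ^ L) ^ 2 * (2 : ℝ) ^ (-D) := by positivity
  by_cases h0 : ∀ z ∈ Z, z = 0
  · have h1 : Z.card ≤ 1 := card_le_one.2 fun a ha b hb => (h0 a ha).trans (h0 b hb).symm
    have h2 := key {fun k => if k = 0 then 1 else 0} (fun z hz => by
      rw [mem_singleton.1 hz]
      refine ⟨fun i => ?_, hv⟩
      have : (1 : ℤ) ≤ 2 ^ L := one_le_pow₀ one_le_two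
      fin_cases i <;> simp [this]) _ (mem_singleton_self _) 0 (by simp) (fun z hz k => by
      rw [mem_singleton.1 hz]
      fin_cases k <;> simp)
    have h3 : (Z.card : ℝ) ≤ 1 := by exact_mod_cast h1
    rw [card_singleton, Nat.cast_one] at h2
    linarith
  · push Not at h0
    obtain ⟨z0, hz0, hne⟩ := h0
    obtain ⟨t, ht, hmax⟩ := exists_max_image (Z ×ˢ (univ : Finset (Fin 2)))
      (fun t => |t.1 t.2|) ⟨(z0, 0), mem_product.2 ⟨hz0, mem_univ _⟩⟩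
    have h1 : ∀ z ∈ Z, ∀ k, |z k| ≤ |t.1 t.2| := fun z hz k =>
      hmax (z, k) (mem_product.2 ⟨hz, mem_univ _⟩)
    have h2 := key Z hZ t.1 (mem_product.1 ht).1 t.2 (fun e => hne (funext fun k => by
      have := h1 z0 hz0 k
      rw [e, abs_zero] at this
      exact abs_nonpos_iff.1 this)) h1
    linarith

end Vale.Agent.P127S
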