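import Vale.Agent.P127S.RedA

/-! The chart. -/

open Real Finset Vale.Agent.P118O MeasureTheory
open scoped ENNReal

noncomputable section

namespace Vale.Agent.P127S

theorem redb_floor {x y : ℝ} (h1 : ⌊x⌋ ≠ ⌊y⌋) (h2 : ((⌊x⌋ : ℤ) : ZMod 2) = ((⌊y⌋ : ℤ) : ZMod 2)) :
    1 ≤ |x - y| := by
  rw [ZMod.intCast_eq_intCast_iff'] at h2
  have h3 : ⌊x⌋ + 2 ≤ ⌊y⌋ ∨ ⌊y⌋ + 2 ≤ ⌊x⌋ := by
    push_cast at h2
    omega
  rw [le_abs]
  rcases h3 with h3 | h3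
  · have h4 : ((⌊x⌋ : ℤ) : ℝ) + 2 ≤ ⌊y⌋ := by exact_mod_cast h3
    right
    linarith [Int.lt_floor_add_one x, Int.floor_le y]
  · have h4 : ((⌊y⌋ : ℤ) : ℝ) + 2 ≤ ⌊x⌋ := by exact_mod_cast h3
    left
    linarith [Int.lt_floor_add_one y, Int.floor_le x]

theorem redb_sep {i : ℕ} {x y : Fin 3 → ℝ} {L D : ℝ} (hL : 0 < L) (h1 : qz i x ≠ qz i y)
    (h2 : (fun j => ((qz i x j : ℤ) : ZMod 2)) = fun j => ((qz i y j : ℤ) : ZMod 2))
    (h3 : ∀ j, |x j - y j| ≤ L * D) : 1 / (L * 2 ^ i) ≤ D := by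
  obtain ⟨j, hj⟩ := Function.ne_iff.1 h1
  have h4 := redb_floor hj (congrFun h2 j)
  rw [← mul_sub, abs_mul, abs_of_pos (by positivity)] at h4
  rw [div_le_iff₀ (by positivity)]
  have h5 := mul_le_mul_of_nonneg_left (h3 j) (by positivity : (0 : ℝ) ≤ 2 ^ i)
  linarith

theorem redb_count {X : Type} [PseudoMetricSpace X] {S : Set X} {C d L : ℝ} (hS : FewSep S C d)
    (hL : 1 ≤ L) {Θ : Set (Fin 3 → ℝ)} {a0 : (Fin 3 → ℝ) → Fin 3 → ℝ} (G : (Fin 3 → ℝ) → X)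
    (hG : ∀ θ ∈ Θ, G θ ∈ S)
    (hl : ∀ θ ∈ Θ, ∀ θ' ∈ Θ, ∀ j, |a0 θ j - a0 θ' j| ≤ L * dist (G θ) (G θ') ∧
      |θ j - θ' j| ≤ L * dist (G θ) (G θ'))
    (i : ℕ) (T : Finset (Fin 3 → ℝ)) (hT : (T : Set (Fin 3 → ℝ)) ⊆ Θ) :
    ((T.image fun θ => (qz i (a0 θ), qz i θ)).card : ℝ) ≤
      64 * (C * L ^ d) * (2 : ℝ) ^ (d * i) := by
  classical
  have hL0 : 0 < L := by linarith
  set F : (Fin 3 → ℝ) → (Fin 3 → ℤ) × (Fin 3 → ℤ) := fun θ => (qz i (a0 θ), qz i θ) with hF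
  set ρ : (Fin 3 → ℤ) × (Fin 3 → ℤ) → (Fin 3 → ZMod 2) × (Fin 3 → ZMod 2) :=
    fun z => (fun j => (z.1 j : ZMod 2), fun j => (z.2 j : ZMod 2)) with hρ
  have hδ : 0 < 1 / (L * 2 ^ i) := by positivity
  have hδ1 : 1 / (L * 2 ^ i) ≤ 1 := by
    rw [div_le_one (by positivity)]
    exact one_le_mul_of_one_le_of_one_le hL (one_le_pow₀ one_le_two)
  have he : C / (1 / (L * 2 ^ i)) ^ d = C * L ^ d * (2 : ℝ) ^ (d * i) := by
    rw [Real.div_rpow zero_le_one (by positivity), Real.one_rpow,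
      Real.mul_rpow hL0.le (by positivity), mul_comm d, Real.rpow_natCast_mul two_pos.le,
      div_div_eq_mul_div, div_one, mul_assoc]
  have key : ∀ b, (((T.image F).filter fun z => ρ z = b).card : ℝ) ≤
      C * L ^ d * (2 : ℝ) ^ (d * i) := by
    intro b
    obtain ⟨Λ, h2, h3, h4⟩ := Finset.exists_subset_injOn_image_eq_of_surjOn (f := F)
      (T : Set (Fin 3 → ℝ)) ((T.image F).filter fun z => ρ z = b) (fun z hz => by
        obtain ⟨θ, hθ, rfl⟩ := mem_image.1 (mem_filter.1 hz).1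
        exact Set.mem_image_of_mem _ hθ)
    have h5 : ∀ θ ∈ Λ, ρ (F θ) = b := fun θ hθ =>
      (mem_filter.1 (h4 ▸ mem_image_of_mem F hθ :)).2
    have h6 : ∀ θ ∈ Λ, ∀ θ' ∈ Λ, θ ≠ θ' → 1 / (L * 2 ^ i) ≤ dist (G θ) (G θ') := by
      intro θ hθ θ' hθ' hne
      have h7 : F θ ≠ F θ' := fun e => hne (h3 hθ hθ' e)
      have h8 := Prod.mk.inj ((h5 θ hθ).trans (h5 θ' hθ').symm)
      have h9 := hl θ (hT (h2 hθ)) θ' (hT (h2 hθ'))
      by_cases h10 : qz i θ = qz i θ'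
      · exact redb_sep hL0 (fun e => h7 (Prod.ext e h10)) h8.1 fun j => (h9 j).1
      · exact redb_sep hL0 h10 h8.2 fun j => (h9 j).2
    have h7 : Set.InjOn G Λ := fun θ hθ θ' hθ' e => by
      by_contra hne
      have := h6 θ hθ θ' hθ' hne
      rw [e, dist_self] at this
      linarith
    have h8 := hS _ hδ hδ1 (Λ.image G) (fun x hx => by
      obtain ⟨θ, hθ, rfl⟩ := mem_image.1 hx
      exact hG θ (hT (h2 hθ))) (fun x hx y hy hne => by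
      obtain ⟨θ, hθ, rfl⟩ := mem_image.1 hx
      obtain ⟨θ', hθ', rfl⟩ := mem_image.1 hy
      exact h6 θ hθ θ' hθ' fun e => hne (by rw [e]))
    rwa [card_image_of_injOn h7, he, ← card_image_of_injOn h3, h4] at h8
  rw [card_eq_sum_card_fiberwise (f := ρ) (t := univ) fun _ _ => mem_univ _, Nat.cast_sum]
  refine (sum_le_sum fun b _ => key b).trans (le_of_eq ?_)
  rw [sum_const, nsmul_eq_mul, card_univ, Fintype.card_prod, Fintype.card_fun, ZMod.card,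
    Fintype.card_fin]
  push_cast
  ring

/-- the direction vector with last coordinate one -/
def redbU (θ : Fin 3 → ℝ) : E4 := WithLp.toLp 2 (Fin.snoc (α := fun _ => ℝ) θ 1)

/-- the unit direction -/
def redbE (θ : Fin 3 → ℝ) : E4 := ‖redbU θ‖⁻¹ • redbU θ

theorem redb_U3 (θ : Fin 3 → ℝ) : redbU θ (Fin.last 3) = 1 := rfl

theorem redb_Uj (θ : Fin 3 → ℝ) (j : Fin 3) : redbU θ j.castSucc = θ j := by simp [redbU]

theorem redb_N1 (θ : Fin 3 → ℝ) : 1 ≤ ‖redbU θ‖ := by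
  have h := PiLp.norm_apply_le (redbU θ) (Fin.last 3)
  rwa [redb_U3, norm_one] at h

theorem redb_N2 {θ : Fin 3 → ℝ} (h : ∀ j, |θ j| ≤ 1) : ‖redbU θ‖ ≤ 2 := by
  have h1 := EuclideanSpace.real_norm_sq_eq (redbU θ)
  rw [Fin.sum_univ_castSucc, redb_U3] at h1
  simp only [redb_Uj, Fin.sum_univ_three] at h1
  have h2 : ∀ j, θ j ^ 2 ≤ 1 := fun j => (sq_le_one_iff_abs_le_one _).2 (h j)
  nlinarith [h2 0, h2 1, h2 2, norm_nonneg (redbU θ)]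

theorem redb_E1 (θ : Fin 3 → ℝ) : ‖redbE θ‖ = 1 := by
  rw [redbE, norm_smul, norm_inv, norm_norm, inv_mul_cancel₀ (by linarith [redb_N1 θ])]

theorem redb_E3 (θ : Fin 3 → ℝ) : redbE θ (Fin.last 3) = ‖redbU θ‖⁻¹ := by
  rw [redbE, PiLp.smul_apply, redb_U3, smul_eq_mul, mul_one]

theorem redb_Ej (θ : Fin 3 → ℝ) (j : Fin 3) : redbE θ j.castSucc = ‖redbU θ‖⁻¹ * θ j := by
  rw [redbE, PiLp.smul_apply, redb_Uj, smul_eq_mul]

theorem redb_pi (b b' e e' : E4) (k : Fin 4) :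
    |e (Fin.last 3) * e k - e' (Fin.last 3) * e' k| ≤ dist (lineCoord b e) (lineCoord b' e') := by
  have h1 : dist (lineCoord b e).1 (lineCoord b' e').1 ≤ dist (lineCoord b e) (lineCoord b' e') :=
    le_max_left _ _
  rw [dist_eq_norm] at h1
  have h2 := ((lineCoord b e).1 - (lineCoord b' e').1).le_opNorm
    (EuclideanSpace.single (Fin.last 3) (1 : ℝ))
  have h3 := PiLp.norm_apply_le (((lineCoord b e).1 - (lineCoord b' e').1)
    (EuclideanSpace.single (Fin.last 3) (1 : ℝ))) k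
  rw [PiLp.norm_single, norm_one, mul_one] at h2
  refine le_trans (le_of_eq ?_) (h3.trans (h2.trans h1))
  simp [lineCoord, EuclideanSpace.inner_single_right]

theorem redb_c (z z' : (E4 →L[ℝ] E4) × E4) (k : Fin 4) : |z.2 k - z'.2 k| ≤ dist z z' := by
  have h1 : dist z.2 z'.2 ≤ dist z z' := le_max_right _ _
  rw [dist_eq_norm] at h1
  exact (PiLp.norm_apply_le (z.2 - z'.2) k).trans h1

theorem redb_th (b b' : E4) {θ θ' : Fin 3 → ℝ} (h : ∀ j, |θ j| ≤ 1) (h' : ∀ j, |θ' j| ≤ 1)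
    (j : Fin 3) : |θ j - θ' j| ≤ 8 * dist (lineCoord b (redbE θ)) (lineCoord b' (redbE θ')) := by
  have h1 := redb_pi b b' (redbE θ) (redbE θ') (Fin.last 3)
  have h2 := redb_pi b b' (redbE θ) (redbE θ') j.castSucc
  simp only [redb_E3, redb_Ej, ← mul_assoc] at h1 h2
  have h3 : 1 / 2 ≤ ‖redbU θ‖⁻¹ := by
    rw [one_div]
    exact inv_anti₀ (by linarith [redb_N1 θ]) (redb_N2 h)
  have h4 : 1 / 4 ≤ ‖redbU θ‖⁻¹ * ‖redbU θ‖⁻¹ := by nlinarith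
  generalize ‖redbU θ‖⁻¹ * ‖redbU θ‖⁻¹ = w at h1 h2 h4
  generalize ‖redbU θ'‖⁻¹ * ‖redbU θ'‖⁻¹ = w' at h1 h2
  generalize dist (lineCoord b (redbE θ)) (lineCoord b' (redbE θ')) = D at h1 h2 ⊢
  have h5 : w * (θ j - θ' j) = (w * θ j - w' * θ' j) - (w - w') * θ' j := by ring
  have h6 : |w * (θ j - θ' j)| ≤ D + D := by
    rw [h5]
    refine (abs_sub _ _).trans (add_le_add h2 ?_)
    rw [abs_mul]
    exact (mul_le_of_le_one_right (abs_nonneg _) (h' j)).trans h1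
  rw [abs_mul, abs_of_pos (by linarith)] at h6
  nlinarith [abs_nonneg (θ j - θ' j)]

theorem redb_al (b : E4) (θ : Fin 3 → ℝ) (j : Fin 3) :
    b j.castSucc - b (Fin.last 3) * θ j = (lineCoord b (redbE θ)).2 j.castSucc -
      (lineCoord b (redbE θ)).2 (Fin.last 3) * θ j := by
  simp only [lineCoord, PiLp.sub_apply, PiLp.smul_apply, redb_E3, redb_Ej, smul_eq_mul]
  ring

theorem redb_a0 (b b' : E4) {θ θ' : Fin 3 → ℝ} (h : ∀ j, |θ j| ≤ 1) (h' : ∀ j, |θ' j| ≤ 1)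
    {m : ℝ} (hm : |(lineCoord b (redbE θ)).2 (Fin.last 3)| ≤ m) (z : ℝ) (j : Fin 3) :
    |4 * (b j.castSucc - b (Fin.last 3) * θ j) + z * θ j -
      (4 * (b' j.castSucc - b' (Fin.last 3) * θ' j) + z * θ' j)| ≤
      (8 + 32 * m + 8 * |z|) * dist (lineCoord b (redbE θ)) (lineCoord b' (redbE θ')) := by
  rw [redb_al b, redb_al b']
  have h1 := redb_th b b' h h' j
  have h2 := redb_c (lineCoord b (redbE θ)) (lineCoord b' (redbE θ')) j.castSucc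
  have h3 := redb_c (lineCoord b (redbE θ)) (lineCoord b' (redbE θ')) (Fin.last 3)
  generalize dist (lineCoord b (redbE θ)) (lineCoord b' (redbE θ')) = D at h1 h2 h3 ⊢
  generalize (lineCoord b (redbE θ)).2 j.castSucc = c at h2 ⊢
  generalize (lineCoord b' (redbE θ')).2 j.castSucc = c' at h2 ⊢
  generalize (lineCoord b (redbE θ)).2 (Fin.last 3) = g at hm h3 ⊢
  generalize (lineCoord b' (redbE θ')).2 (Fin.last 3) = g' at h3 ⊢
  have h4 : |g * (θ j - θ' j)| ≤ m * (8 * D) := by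
    rw [abs_mul]
    exact mul_le_mul hm h1 (abs_nonneg _) ((abs_nonneg _).trans hm)
  have h5 : |(g - g') * θ' j| ≤ D := by
    rw [abs_mul]
    exact (mul_le_of_le_one_right (abs_nonneg _) (h' j)).trans h3
  have h6 : |z * (θ j - θ' j)| ≤ |z| * (8 * D) := by
    rw [abs_mul]
    exact mul_le_mul_of_nonneg_left h1 (abs_nonneg _)
  rw [abs_le] at h2 h4 h5 h6 ⊢
  constructor <;> linarith [h2.1, h2.2, h4.1, h4.2, h5.1, h5.2, h6.1, h6.2]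

/-- the affine change of coordinates -/
def redbF (z : ℤ) (v : Fin 3 → ℤ) (x : E4) : ℝ × (Fin 3 → ℝ) :=
  (4 * x (Fin.last 3) - z, fun j => 4 * x j.castSucc - v j)

theorem redb_lip (z : ℤ) (v : Fin 3 → ℤ) : LipschitzWith 4 (redbF z v) := by
  refine LipschitzWith.of_dist_le_mul fun x y => ?_
  have h1 : ∀ (k : Fin 4) (c : ℝ), dist (4 * x k - c) (4 * y k - c) ≤ 4 * dist x y := by
    intro k c
    rw [Real.dist_eq, sub_sub_sub_cancel_right, ← mul_sub, abs_mul, abs_of_pos four_pos,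
      dist_eq_norm]
    exact mul_le_mul_of_nonneg_left (PiLp.norm_apply_le (x - y) k) four_pos.le
  exact max_le (h1 _ _) ((dist_pi_le_iff (by positivity)).2 fun j => h1 _ _)

theorem redb_seg {K : Set E4} {b : E4} {θ : Fin 3 → ℝ} (h : ∀ j, |θ j| ≤ 1)
    (hK : ∀ t ∈ Set.Icc (0 : ℝ) 1, b + t • redbE θ ∈ K) {z : ℤ} (hz : ⌈4 * b (Fin.last 3)⌉ = z)
    (v : Fin 3 → ℤ) {t : ℝ} (h0 : 0 ≤ t) (h1 : t < 1) :
    (t, (fun j => 4 * (b j.castSucc - b (Fin.last 3) * θ j) + z * θ j - v j) + t • θ) ∈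
      redbF z v '' K := by
  have h2 := redb_N1 θ
  have h3 := redb_N2 h
  have h4 : 4 * b (Fin.last 3) ≤ z := hz ▸ Int.le_ceil _
  have h5 : (z : ℝ) < 4 * b (Fin.last 3) + 1 := hz ▸ Int.ceil_lt_add_one _
  have h6 : ‖redbU θ‖ ≠ 0 := by linarith
  refine ⟨_, hK (((z + t) / 4 - b (Fin.last 3)) * ‖redbU θ‖) ⟨by nlinarith, by nlinarith⟩, ?_⟩
  refine Prod.ext ?_ (funext fun j => ?_)
  · simp only [redbF, PiLp.add_apply, PiLp.smul_apply, redb_E3, smul_eq_mul]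
    field_simp
    ring
  · simp only [redbF, PiLp.add_apply, PiLp.smul_apply, redb_Ej, smul_eq_mul, Pi.add_apply,
      Pi.smul_apply]
    field_simp
    ring

/-- Chart. For `θ ∈ [0,1)^3` let `e = (θ, 1) / |(θ, 1)|`; the segment covers heights in an interval
of length at least `1 / 2`, hence `[z / 4, (z + 1) / 4]` with `z = ⌈4 (a e) 3⌉`. The line is
`h ↦ (α + h θ, h)`, and `4 (α + (z + t) / 4 • θ) = v + a0 θ + t θ` with `v` an integer vector and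
`a0 θ ∈ [0,1)^3`. Split `[0,1)^3` into countably many pieces by `z`, `v` and the index of `B i`
(`red_pack`); one piece has positive outer measure (`measure_iUnion_null`). On a piece
`(a0 θ, θ)` is a Lipschitz function of `lineCoord` (`θ i = Π i 3 / Π 3 3`, `Π 3 3 ≥ 1 / 4`,
`α = c - (c 3) • (θ, 1)`, `c` bounded), and points in cells of level `i` with the same residues
mod `2` of all indices are `1 / 2 ^ i` separated. `K'` is the image of `K` under the Lipschitz map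
`x ↦ (4 x 3 - z, 4 (x 0, x 1, x 2) - v)` (`LipschitzWith.dimH_image_le`). -/
theorem red_chart (K : Set E4) (a : E4 → E4)
    (hK : ∀ e : E4, ‖e‖ = 1 → ∀ t ∈ Set.Icc (0 : ℝ) 1, a e + t • e ∈ K)
    (hs : dimP {z | ∃ e : E4, ‖e‖ = 1 ∧ z = lineCoord (a e) e} ≤ 3) {d : ℝ} (hd : 3 < d) :
    ∃ (K' : Set (ℝ × (Fin 3 → ℝ))) (Θ : Set (Fin 3 → ℝ)) (a0 : (Fin 3 → ℝ) → Fin 3 → ℝ) (C : ℝ),
      dimH K' ≤ dimH K ∧ volume Θ ≠ 0 ∧ (∀ θ ∈ Θ, ‖θ‖ ≤ 1 ∧ ‖a0 θ‖ ≤ 1) ∧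
      (∀ θ ∈ Θ, ∀ t : ℝ, 0 ≤ t → t < 1 → (t, a0 θ + t • θ) ∈ K') ∧
      ∀ (i : ℕ) (T : Finset (Fin 3 → ℝ)), (T : Set (Fin 3 → ℝ)) ⊆ Θ →
        ((T.image fun θ => (qz i (a0 θ), qz i θ)).card : ℝ) ≤ C * (2 : ℝ) ^ (d * i) := by
  obtain ⟨B, hB, hB'⟩ := red_pack hs hd
  let G : (Fin 3 → ℝ) → (E4 →L[ℝ] E4) × E4 := fun θ => lineCoord (a (redbE θ)) (redbE θ)
  let y : ℤ → (Fin 3 → ℝ) → Fin 3 → ℝ := fun z θ j =>
    4 * (a (redbE θ) j.castSucc - a (redbE θ) (Fin.last 3) * θ j) + z * θ j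
  let P : ℕ × ℕ × ℤ × (Fin 3 → ℤ) → Set (Fin 3 → ℝ) := fun q =>
    {θ | (∀ j, |θ j| ≤ 1) ∧ G θ ∈ B q.1 ∧ |(G θ).2 (Fin.last 3)| ≤ q.2.1 ∧
      ⌈4 * a (redbE θ) (Fin.last 3)⌉ = q.2.2.1 ∧ ∀ j, ⌊y q.2.2.1 θ j⌋ = q.2.2.2 j}
  have hP : Metric.closedBall (0 : Fin 3 → ℝ) 1 ⊆ ⋃ q, P q := by
    intro θ hθ
    obtain ⟨n, hn⟩ := Set.mem_iUnion.1 (hB (a := G θ) ⟨redbE θ, redb_E1 θ, rfl⟩)
    exact Set.mem_iUnion.2 ⟨(n, ⌈|(G θ).2 (Fin.last 3)|⌉₊, ⌈4 * a (redbE θ) (Fin.last 3)⌉,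
      fun j => ⌊y ⌈4 * a (redbE θ) (Fin.last 3)⌉ θ j⌋),
      fun j => (norm_le_pi_norm θ j).trans (mem_closedBall_zero_iff.1 hθ), hn, Nat.le_ceil _, rfl,
      fun _ => rfl⟩
  obtain ⟨⟨n, m, z, v⟩, hq⟩ : ∃ q, volume (P q) ≠ 0 := by
    by_contra hc
    push Not at hc
    exact (Metric.measure_closedBall_pos volume (0 : Fin 3 → ℝ) one_pos).ne'
      (measure_mono_null hP (measure_iUnion_null hc))
  obtain ⟨C, hC⟩ := hB' n
  have hz := abs_nonneg (z : ℝ)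
  have hm := Nat.cast_nonneg (α := ℝ) m
  refine ⟨redbF z v '' K, P (n, m, z, v), fun θ j => y z θ j - v j,
    64 * (C * (8 + 32 * m + 8 * |(z : ℝ)|) ^ d), (redb_lip z v).dimH_image_le K, hq,
    fun θ hθ => ⟨(pi_norm_le_iff_of_nonneg zero_le_one).2 hθ.1,
      (pi_norm_le_iff_of_nonneg zero_le_one).2 fun j => ?_⟩,
    fun θ hθ t h0 h1 => redb_seg hθ.1 (hK _ (redb_E1 θ)) hθ.2.2.2.1 v h0 h1,
    redb_count hC (by linarith) G (fun θ hθ => hθ.2.1) fun θ hθ θ' hθ' j => ⟨?_, ?_⟩⟩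
  · have h1 : ⌊y z θ j⌋ = v j := hθ.2.2.2.2 j
    change |y z θ j - v j| ≤ 1
    rw [← h1, Int.self_sub_floor, abs_of_nonneg (Int.fract_nonneg _)]
    exact (Int.fract_lt_one _).le
  · rw [sub_sub_sub_cancel_right]
    exact redb_a0 _ _ hθ.1 hθ'.1 hθ.2.2.1 z j
  · exact (redb_th _ _ hθ.1 hθ'.1 j).trans (mul_le_mul_of_nonneg_right (by linarith) dist_nonneg)

end Vale.Agent.P127S
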