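import Vale.Agent.P127S.RegA0

/-! Basic properties of configurations. -/

open Real Finset Filter Topology Vale.Agent.P118O

noncomputable section

namespace Vale.Agent.P127S

variable {N : ℕ → ℕ} {Ω α β γ δ : ℕ → Type} {S : Sp N Ω} {L : Ln Ω} {D : RV Ω δ} {D' : RV Ω γ}
  {Z : RV Ω α} {P R : VV Ω M3} {I : Finset (Fin 3)} {σ : ℝ} {j j' j1 j2 j3 e : ℕ → ℕ}
  {X Y : VV Ω V3}

theorem Cfg.lev (h : Cfg S L D) (hj : ∀ k, j k ≤ L.n k) : Lv N j := by
  exact fun k => (hj k).trans (h.lv k)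

theorem Cfg.bdd (h : Cfg S L D) : Bdd S L.a ∧ Bdd S L.θ ∧ Bdd S L.t ∧ Bdd S L.x := by
  have h1 : Bdd S L.a := Small.of_le (Eventually.of_forall fun k ω hω => by
    linarith [(h.bd k ω hω).1])
  have h2 : Bdd S L.θ := Small.of_le (Eventually.of_forall fun k ω hω => by
    linarith [(h.bd k ω hω).2.1])
  have h3 : Bdd S L.t := Small.of_le (Eventually.of_forall fun k ω hω => by
    rw [Real.norm_of_nonneg (h.bd k ω hω).2.2.1]
    linarith [(h.bd k ω hω).2.2.2])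
  have h4 := Small.smul (b := fun _ => 0) (b' := fun _ => 0) h3 h2
  have h5 : Bdd S (sm L.t L.θ) := h4
  exact ⟨h1, h2, h3, Small.add h1 h5⟩

theorem det_p (hl : ∀ k, j1 k ≤ j2 k) : DetS S (L.p N j1) (L.p N j2) := by
  exact (det_Q hl L.a).left.pair (det_Q hl L.θ).right

theorem Cfg.kn_θ (h : Cfg S L D) (hp : Kw S (L.p N j) Z) : Kn S Z L.θ j := by
  exact ⟨h.bdd.2.1, Kw.trans (DetS.refl _).right.kw hp⟩

theorem Cfg.kn_x (h : Cfg S L D) (hj : ∀ k, j k ≤ L.n k) (hD : DetS S D Z)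
    (hp : Kw S (L.p N j) Z) : Kn S Z L.x j := by
  exact Kn.add (h.lev hj) ⟨h.bdd.1, Kw.trans (DetS.refl _).left.kw hp⟩
    (Kn.smul (h.lev hj) (h.dt.trans hD) h.bdd.2.2.1 (h.kn_θ hp) fun k => Nat.le_add_right _ _)

/-- the tube is known from the point and the direction -/
theorem Cfg.kw_p (h : Cfg S L D) (hj : ∀ k, j k ≤ L.n k) (hD : DetS S D Z)
    (hx : Kn S Z L.x j) (hθ : Kn S Z L.θ j) : Kw S (L.p N j) Z := by
  have h1 := hx.sub (h.lev hj)
    (Kn.smul (h.lev hj) (h.dt.trans hD) h.bdd.2.2.1 hθ fun k => Nat.le_add_right _ _)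
  rw [Ln.x, add_sub_cancel_right] at h1
  exact h1.kw.pair hθ.kw

theorem Cfg.kw_p0 (h : Cfg S L D) (Z : RV Ω α) : Kw S (L.p N fun _ => 0) Z := by
  exact (Kn.zero h.bdd.1 Z).kw.pair (Kn.zero h.bdd.2.1 Z).kw

/-- `H (p j2 | C) ≲ 3 j2` and `H (p j1 | C) ≥ H (θ[j1] | D) ≳ 3 j1` (`full_lev`) -/
theorem Cfg.c1w (h : Cfg S L D) (h12 : ∀ k, j1 k ≤ j2 k) (h2 : ∀ k, j2 k ≤ L.n k) :
    Le N (H S (L.p N j2) (J L.C (L.p N j1))) fun k => 3 * ((j2 k : ℝ) - j1 k) := by
  refine ((h.c1 j2 h2).add (full_lev (fun k => (h12 k).trans (h2 k)) h.c2)).lin fun k => ?_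
  have h3 := H_chain (S := S) (L.p N j1) (L.p N j2) L.C k
  have h4 := H_mono (S := S) (X := J (L.p N j1) (L.p N j2)) (Z := L.p N j2) (W := L.C)
    ((det_p h12).left.pair (DetS.refl _).left) (DetS.refl _) k
  have h5 := H_mono (S := S) (X := Q N j1 L.θ) (Z := L.p N j1) (W := D)
    (DetS.refl _).right.left h.dC k
  simp only [Fintype.card_fin]
  push_cast
  linarith

theorem Cfg.cw (h : Cfg S L D) (hD : DetS S D D')
    (h2 : Le N (fun k => 3 * L.n k) (H S (Q N L.n L.θ) D')) (hj : ∀ k, j k ≤ L.n k) :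
    Cw S L D D' j := by
  refine ⟨hD, hj, (h2.add (h.c1 j hj)).lin fun k => ?_⟩
  have h3 := H_le_add (S := S) (Q N L.n L.θ) (L.p N j) D' k
  have h4 := H_mono (S := S) (X := L.p N j) (Z := L.p N j) (W := D')
    (DetS.refl _).left (h.dC.trans hD) k
  linarith

theorem Cfg.cw_self (h : Cfg S L D) (hj : ∀ k, j k ≤ L.n k) : Cw S L D D j := by
  exact h.cw (DetS.refl _) h.c2 hj

theorem Cw.mono (h : Cfg S L D) (hw : Cw S L D D' j1) (h12 : ∀ k, j1 k ≤ j2 k)
    (h2 : ∀ k, j2 k ≤ L.n k) : Cw S L D D' j2 := by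
  refine ⟨hw.det, h2, (hw.c2.add (h.c1w h12 h2)).lin fun k => ?_⟩
  have h3 := H_le_add (S := S) (Q N L.n L.θ) (L.p N j2) (J D' (L.p N j1)) k
  have h4 := H_mono (S := S) (X := L.p N j2) (Z := L.p N j2) (W := J D' (L.p N j1))
    (DetS.refl _).left ((h.dC.trans hw.det).left.pair (DetS.refl _).right) k
  have h5 := H_mono (S := S) (X := Q N L.n L.θ) (Z := Q N L.n L.θ)
    (W := J (J D' (L.p N j1)) (L.p N j2))
    (DetS.refl _).left ((DetS.refl D').left.left.pair (DetS.refl _).right) k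
  linarith

theorem Cw.lo (h : Cfg S L D) (hw : Cw S L D D' j1) (h12 : ∀ k, j1 k ≤ j2 k)
    (h2 : ∀ k, j2 k ≤ L.n k) :
    Le N (fun k => 3 * ((j2 k : ℝ) - j1 k)) (H S (Q N j2 L.θ) (J D' (L.p N j1))) := by
  refine (full_lev h2 hw.c2).lin fun k => ?_
  simp only [Fintype.card_fin]
  push_cast
  linarith

/-- more side information that is known from the old one and the tube of level `j` -/
theorem Cw.add (hw : Cw S L D D' j) (hZ : Kw S Z (J D' (L.p N j))) : Cw S L D (J D' Z) j := by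
  exact ⟨hw.det.left, hw.le, hw.c2.trans (H_kw (Kw.refl _).left
    (((Kw.refl _).left.pair hZ).pair (Kw.refl _).right))⟩

/-- the line is independent of any side information that leaves the direction free -/
theorem Cfg.ind_p (h : Cfg S L D)
    (h2 : Le N (fun k => 3 * L.n k) (H S (Q N L.n L.θ) (J D D'))) :
    Ind S (L.p N L.n) D' D := by
  refine ((h.c1 L.n fun _ => le_rfl).trans h2).lin fun k => ?_
  have h3 := H_mono (S := S) (X := L.p N L.n) (Z := L.p N L.n) (W := D)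
    (DetS.refl _).left h.dC k
  have h4 := H_mono (S := S) (X := Q N L.n L.θ) (Z := L.p N L.n) (W := J D D')
    (DetS.refl _).right.left (DetS.refl _) k
  linarith

end Vale.Agent.P127S
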