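import Vale.Agent.P127S.Cfg

/-! Linear algebra, windows and the lower bounds. -/

open Real Finset Filter Topology Vale.Agent.P118O

noncomputable section

namespace Vale.Agent.P127S

variable {N : ℕ → ℕ} {Ω α β γ δ : ℕ → Type} {S : Sp N Ω} {L : Ln Ω} {D : RV Ω δ} {D' : RV Ω γ}
  {Z : RV Ω α} {P R : VV Ω M3} {I : Finset (Fin 3)} {σ : ℝ} {j j' j1 j2 j3 e : ℕ → ℕ}
  {X Y : VV Ω V3}

theorem Small.mv (h1 : Small S R e) (h2 : Small S X j) : Small S (MV R X) fun k => e k + j k := by
  refine h1.dom2 h2 3 fun k ω _ => (pi_norm_le_iff_of_nonneg (by positivity)).2 fun i => ?_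
  have h : ∀ j, ‖R k ω i j * X k ω j‖ ≤ ‖R k ω‖ * ‖X k ω‖ := fun j => by
    rw [norm_mul]
    exact mul_le_mul ((norm_le_pi_norm _ j).trans (norm_le_pi_norm _ i)) (norm_le_pi_norm _ j)
      (norm_nonneg _) (norm_nonneg _)
  refine (norm_sum_le _ _).trans ?_
  rw [Fin.sum_univ_three]
  linarith [h 0, h 1, h 2]

theorem Bdd.mv (h1 : Bdd S R) (h2 : Small S X j) : Small S (MV R X) j := by
  simpa only [zero_add] using Small.mv h1 h2

theorem Bdd.tr (h1 : Bdd S R) (h2 : Small S X j) : Small S (ph R X) j := by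
  exact h2.sub (h1.mv h2)

theorem Kn.mv (hj : Lv N j) (hM : DetS S R Z) (hs : Small S R e) (h1 : Kn S Z X j')
    (hl : ∀ k, j k ≤ j' k + e k) : Kn S Z (MV R X) j := by
  exact Kn.lin hj hM hs h1 hl

theorem Kn.tr (hj : Lv N j) (hM : DetS S R Z) (hs : Bdd S R) (h1 : Kn S Z X j) :
    Kn S Z (ph R X) j := by
  exact h1.sub hj (h1.mv hj hM hs fun k => Nat.le_add_right _ _)

theorem Kn.mask (h1 : Kn S Z X j) (I : Finset (Fin 3)) : Kn S Z (msk I X) j := by
  refine ⟨Small.dom h1.bdd 1 fun k ω _ => ?_, Kw.trans (DetS.kw ?_) h1.kw⟩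
  · rw [one_mul]
    refine (pi_norm_le_iff_of_nonneg (norm_nonneg _)).2 fun i => ?_
    simp only [msk]
    split_ifs
    · exact norm_le_pi_norm _ i
    · simp
  · have e : Q N j (msk I X) = fun k ω => (fun (k : ℕ) (v : Fin 3 → ℤ) (i : Fin 3) =>
        if i ∈ I then v i else ⌊(2 : ℝ) ^ j k * cl (2 ^ N k) 0⌋) k (Q N j X k ω) := by
      funext k ω i
      simp only [Q, msk]
      split_ifs <;> rfl
    rw [e]
    exact (DetS.refl (Q N j X)).map fun (k : ℕ) (v : Fin 3 → ℤ) (i : Fin 3) =>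
      if i ∈ I then v i else ⌊(2 : ℝ) ^ j k * cl (2 ^ N k) 0⌋

theorem mv_msk (h : ∀ k ω i, ∀ j ∉ I, R k ω i j = 0) (X : VV Ω V3) :
    MV R (msk I X) = MV R X := by
  funext k ω i
  refine Finset.sum_congr rfl fun j _ => ?_
  by_cases hj : j ∈ I
  · simp [msk, hj]
  · simp [h k ω i j hj]

theorem ph_zero (X : VV Ω V3) : ph (0 : VV Ω M3) X = X := by
  funext k ω i
  simp [ph, MV]

theorem Pj.ph_supp (h : Pj S D P I) (X : VV Ω V3) (k : ℕ) (ω : Ω k) {i : Fin 3} (hi : i ∈ I) :
    ph P X k ω i = 0 := by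
  have e : ∀ j, P k ω i j = if i = j then 1 else 0 := fun j => by
    by_cases hj : j ∈ I
    · exact h.one k ω i hi j hj
    · rw [h.col k ω i j hj, if_neg fun e : i = j => hj (e ▸ hi)]
  simp [ph, MV, e]

/-- a vector is known from its two components -/
theorem Pj.kn (h : Pj S D P I) (hD : DetS S D Z) (hj : Lv N j) (h1 : Kn S Z (ph P X) j)
    (h2 : Kn S Z (msk I X) j) : Kn S Z X j := by
  have h3 := h1.add hj (h2.mv hj (h.det.trans hD) h.bdd fun k => Nat.le_add_right _ _)
  rwa [mv_msk h.col, ph, sub_add_cancel] at h3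

theorem Pj.mono (h : Pj S D P I) (hD : DetS S D D') : Pj S D' P I := by
  exact ⟨h.det.trans hD, h.bdd, h.col, h.one⟩

theorem Mat.mono (h : Mat S D R I) (hD : DetS S D D') : Mat S D' R I := by
  exact ⟨h.det.trans hD, h.bdd, h.col, h.row⟩

theorem Pj.add (h : Pj S D P I) (h' : Mat S D R I) : Pj S D (P + R) I := by
  refine ⟨h.det.map2 h'.det fun _ a b => a + b, Small.add h.bdd h'.bdd, fun k ω i j hj => ?_,
    fun k ω i hi j hj => ?_⟩
  · simp [h.col k ω i j hj, h'.col k ω i j hj]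
  · simp [h.one k ω i hi j hj, h'.row k ω i hi j]

theorem Pj.sub (h : Pj S D P I) (h' : Pj S D R I) : Mat S D (P - R) I := by
  refine ⟨h.det.map2 h'.det fun _ a b => a - b, Small.sub h.bdd h'.bdd, fun k ω i j hj => ?_,
    fun k ω i hi j => ?_⟩
  · simp [h.col k ω i j hj, h'.col k ω i j hj]
  · by_cases hj : j ∈ I
    · simp [h.one k ω i hi j hj, h'.one k ω i hi j hj]
    · simp [h.col k ω i j hj, h'.col k ω i j hj]

theorem Mat.sub (h : Mat S D P I) (h' : Mat S D R I) : Mat S D (P - R) I := by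
  refine ⟨h.det.map2 h'.det fun _ a b => a - b, Small.sub h.bdd h'.bdd, fun k ω i j hj => ?_,
    fun k ω i hi j => ?_⟩
  · simp [h.col k ω i j hj, h'.col k ω i j hj]
  · simp [h.row k ω i hi j, h'.row k ω i hi j]

theorem Mat.smul (h : Mat S D R I) {c : VV Ω ℝ} (hc : DetS S c D) (hb : Bdd S c) :
    Mat S D (sm c R) I := by
  have h0 := Small.smul (b := fun _ => 0) (b' := fun _ => 0) hb h.bdd
  have h1 : Bdd S (sm c R) := h0
  refine ⟨hc.map2 h.det fun _ (a : ℝ) (b : M3) => a • b, h1, fun k ω i j hj => ?_,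
    fun k ω i hi j => ?_⟩
  · simp [sm, h.col k ω i j hj]
  · simp [sm, h.row k ω i hi j]

theorem amax_spec (v : V3) : |v (amax v)| = ‖v‖ := by
  exact le_antisymm (norm_le_pi_norm v _) ((pi_norm_le_iff_of_nonneg (abs_nonneg _)).2
    (Classical.choose_spec (Finite.exists_max fun i => |v i|)))

theorem rega0_div (v : V3) (i : Fin 3) : |v i| / |v (amax v)| ≤ 1 := by
  rw [amax_spec]
  exact div_le_one_of_le₀ (norm_le_pi_norm v i) (norm_nonneg _)

theorem Kn.pv (hj : Lv N j) {v : VV Ω V3} (hv : DetS S v Z) (h1 : Kn S Z X j) :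
    Kn S Z (PV v X) j := by
  have e : PV v X = ph (fun k ω => (fun (_ : ℕ) (w : V3) (i j : Fin 3) =>
      if j = amax w then w i / w (amax w) else 0) k (v k ω)) X := by
    funext k ω i
    simp [PV, ph, MV]
    ring
  rw [e]
  refine h1.tr hj (hv.map fun (_ : ℕ) (w : V3) (i j : Fin 3) =>
    if j = amax w then w i / w (amax w) else 0) (Small.of_le (Eventually.of_forall fun k ω _ => ?_))
  refine (pi_norm_le_iff_of_nonneg (by positivity)).2 fun i =>
    (pi_norm_le_iff_of_nonneg (by positivity)).2 fun j => ?_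
  have := rega0_div (v k ω) i
  simp only
  split_ifs
  · norm_num
    linarith
  · norm_num

/-- a vector is known from its projection along `v` and one more real number -/
theorem H_pv (hj : Lv N j2) (hl : ∀ k, j1 k ≤ j2 k) {v : VV Ω V3} (hv : DetS S v Z)
    (h1 : Kn S Z X j1) :
    Le N (H S (Q N j2 X) Z) fun k => H S (Q N j2 (PV v X)) Z k + ((j2 k : ℝ) - j1 k) := by
  have hj1 : Lv N j1 := fun k => (hl k).trans (hj k)
  have h2 : Kn S Z (sc fun k ω => X k ω (amax (v k ω))) j1 := by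
    have h3 := Kn.lin (κ := Unit) (e := fun _ => 0) hj1
      (hv.map fun (_ : ℕ) (w : V3) (_ : Unit) (j : Fin 3) => if j = amax w then (1 : ℝ) else 0)
      (Small.of_le (Eventually.of_forall fun k ω _ => by
        refine (pi_norm_le_iff_of_nonneg (by positivity)).2 fun i =>
          (pi_norm_le_iff_of_nonneg (by positivity)).2 fun j => ?_
        split_ifs <;> norm_num)) h1 fun k => Nat.le_add_right _ _
    refine h3.eqs fun k ω _ => ?_
    funext i
    simp [sc]
  have h3 := (h1.pv hj1 hv).bdd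
  have h4 : Kn S (J (J (Q N j2 (PV v X)) (Q N j2 (sc fun k ω => X k ω (amax (v k ω))))) Z)
      X j2 := by
    have h5 := ((Kn.self h3 j2).mono (DetS.refl _).left.left.kw).add hj (Kn.smul' (e := fun _ => 0)
      hj (hv.map fun (_ : ℕ) (w : V3) (i : Fin 3) => w i / w (amax w)).right
      (Small.of_le (Eventually.of_forall fun k ω _ => by
        refine (pi_norm_le_iff_of_nonneg (by positivity)).2 fun i => ?_
        have := rega0_div (v k ω) i
        norm_num
        linarith)) ((Kn.self h2.bdd j2).mono (DetS.refl _).right.left.kw)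
      fun k => Nat.le_add_right _ _)
    refine h5.eqs fun k ω _ => ?_
    funext i
    simp [PV, sm]
    ring
  have h5 := (h2.mono (Z' := J Z (Q N j2 (PV v X))) (DetS.refl _).left.kw).H_le hl
  refine ((H_kw h4.kw (Kw.refl Z)).add h5).lin fun k => ?_
  simp only [Fintype.card_unit, Nat.cast_one, one_mul, H_chain]
  linarith

end Vale.Agent.P127S
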