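import Vale.Agent.P127S.RegB1

/-! Leaves, independence, flatness. -/

open Real Finset Filter Topology Vale.Agent.P118O

noncomputable section

namespace Vale.Agent.P127S

variable {N : ℕ → ℕ} {Ω α β γ δ : ℕ → Type} {S : Sp N Ω} {L : Ln Ω} {D : RV Ω δ} {D' : RV Ω γ}
  {Z : RV Ω α} {P R : VV Ω M3} {I : Finset (Fin 3)} {σ : ℝ} {j j' j1 j2 j3 e : ℕ → ℕ}
  {X Y : VV Ω V3}

/-- `3 (j3 - j1) ≲ H (θ[j3] | D', p j1) ≤ H (x[j3] | ..) + H (θ[j2] | .., x[j3]) +
H (p j3 | D', p j2, x[j3])`, and the last term is `H (p j3 | D', p j2) - H (x[j3] | D', p j2)`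
up to `o (N)`. -/
theorem St.r6 (h : St S L D P I σ) (hw : Cw S L D D' j1) (h12 : ∀ k, j1 k ≤ j2 k)
    (h23 : ∀ k, j2 k ≤ j3 k) (h3 : ∀ k, j3 k ≤ L.n k) :
    Le N (fun k => σ * ((j2 k : ℝ) - j1 k))
      (H S (Q N j2 L.θ) (J (J D' (L.p N j1)) (Q N j3 L.x))) := by
  have c := h.cfg
  have h13 : ∀ k, j1 k ≤ j3 k := fun k => (h12 k).trans (h23 k)
  have h2 : ∀ k, j2 k ≤ L.n k := fun k => (h23 k).trans (h3 k)
  have h1 : ∀ k, j1 k ≤ L.n k := fun k => (h12 k).trans (h2 k)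
  have a := hw.lo c h13 h3
  have b : Le N (H S (Q N j3 L.θ) (J (J (J D' (L.p N j1)) (Q N j3 L.x)) (Q N j2 L.θ)))
      (H S (L.p N j3) (J (J D' (L.p N j2)) (Q N j3 L.x))) := by
    refine H_kw (DetS.refl _).right.left.kw (Kw.pair (Kw.pair (Kw.refl _).left.left.left ?_)
      (Kw.refl _).right.left)
    exact c.kw_p h2 hw.det.left.left.left
      (((Kn.self c.bdd.2.2.2 j3).lev h23).mono (Kw.refl _).right.left)
      ((Kn.self c.bdd.2.1 j2).mono (Kw.refl _).right)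
  have d : Le N (H S (J (Q N j3 L.x) (L.p N j3)) (J D' (L.p N j2)))
      (H S (L.p N j3) (J L.C (L.p N j2))) :=
    H_kw (Kw.pair (c.kn_x h3 hw.det.left.right (Kw.refl _).left).kw (Kw.refl _).left)
      (Kw.pair (c.dC.trans hw.det).left.kw (Kw.refl _).right)
  have e := c.c1w h23 h3
  have f := r1w c h.lb (hw.mono c h12 h2) h23 h3
  have g := h.zero.r3' (Z := J D' (L.p N j1)) h13 h3 hw.det.left.kw (by
    rw [ph_zero]
    exact c.kn_x h1 hw.det.left (Kw.refl _).right)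
  rw [ph_zero] at g
  refine (((((a.add b).add d).add e).add f).add g).lin fun k => ?_
  have q1 := H_le_add (S := S) (Q N j3 L.θ) (Q N j3 L.x) (J D' (L.p N j1)) k
  have q2 := H_le_add (S := S) (Q N j3 L.θ) (Q N j2 L.θ) (J (J D' (L.p N j1)) (Q N j3 L.x)) k
  have q3 := H_chain (S := S) (Q N j3 L.x) (L.p N j3) (J D' (L.p N j2)) k
  simp only [qd, card_empty, Nat.cast_zero, sub_zero]
  linarith

/-- the finer digits of the point carry no information on the coarse tube -/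
theorem St.drop (h : St S L D P I σ) (hw : Cw S L D D' j) (h3 : ∀ k, j k ≤ j3 k)
    (hn : ∀ k, j3 k ≤ L.n k) (hD : Kw S D Z) (hZ : Kw S Z (J D' (L.p N j)))
    (hy : Kn S Z (ph P L.x) j) : Ind S (J D' (L.p N j)) (Q N j3 (ph P L.x)) Z := by
  have a := h.r3' h3 hn hD hy
  have b := r2w h.cfg h.lb hw (h.pj.mono hw.det) h3 hn
  have d : Le N (H S (Q N j3 (ph P L.x)) (J D' (L.p N j)))
      (H S (Q N j3 (ph P L.x)) (J Z (J D' (L.p N j)))) :=
    H_kw (Kw.refl _).left (Kw.pair hZ (Kw.refl _))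
  exact Ind.symm ((a.trans b).trans d)

/-- from one pair of levels to all lower levels (`St.drop`, `Ind.mono`, `Ind.kw`) -/
theorem St.knall (h : St S L D P I σ) (h3 : ∀ k, j k ≤ j3 k) (hn : ∀ k, j3 k ≤ L.n k)
    (hX : ∀ i : ℕ → ℕ, (∀ k, i k ≤ j k) → Kn S (J D (L.p N i)) X i)
    (hk : Kn S (J D (Q N j3 (ph P L.x))) X j) : KnAll S j D (ph P L.x) X := by
  intro i hi
  have c := h.cfg
  have hi3 : ∀ k, i k ≤ j3 k := fun k => (hi k).trans (h3 k)
  have hin : ∀ k, i k ≤ L.n k := fun k => (hi3 k).trans (hn k)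
  have y1 : Kn S (J D (L.p N i)) (ph P L.x) i :=
    Kn.tr (c.lev hin) h.pj.det.left h.pj.bdd (c.kn_x hin (DetS.refl _).left (Kw.refl _).right)
  have a := h.drop (Z := J D (Q N i (ph P L.x))) (c.cw_self hin) hi3 hn (Kw.refl _).left
    (Kw.pair (Kw.refl _).left y1.kw) ((Kn.self y1.bdd i).mono (Kw.refl _).right)
  exact ⟨hk.bdd, (a.mono (hX i hi).kw.right).kw
    ((hk.lev hi).mono (Kw.pair (Kw.refl _).left.left (Kw.refl _).right)).kw⟩

/-- the transverse direction cannot be known from the transverse position -/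
theorem St.flat (h : St S L D P I σ) (hw : Cw S L D D' j1) (h12 : ∀ k, j1 k ≤ j2 k)
    (h23 : ∀ k, j2 k ≤ j3 k) (h3 : ∀ k, j3 k ≤ L.n k) (hb : Big N fun k => (j2 k : ℝ) - j1 k)
    (hk : Kn S (J (J D' (L.p N j1)) (Q N j3 (ph P L.x))) (ph P L.θ) j2) : False := by
  have c := h.cfg
  have h2 : ∀ k, j2 k ≤ L.n k := fun k => (h23 k).trans (h3 k)
  have pj := h.pj.mono hw.det
  have s1 : Le N (H S (J (Q N j2 L.θ) (L.p N j2)) (J D' (L.p N j1)))
      (H S (L.p N j2) (J L.C (L.p N j1))) :=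
    H_kw (Kw.pair (DetS.refl _).right.left.kw (Kw.refl _).left)
      (Kw.pair (c.dC.trans hw.det).left.kw (Kw.refl _).right)
  have s2 : Kw S (L.p N j2) (J (J D' (L.p N j1)) (Q N j2 L.θ)) := by
    refine ((s1.trans (c.c1w h12 h2)).trans (hw.lo c h12 h2)).lin fun k => ?_
    have q := H_chain (S := S) (Q N j2 L.θ) (L.p N j2) (J D' (L.p N j1)) k
    linarith
  have bm : Bdd S (msk I L.θ) := ((Kn.self c.bdd.2.1 j2).mask I).bdd
  have a : Le N (H S (L.p N j2) (J (J D' (L.p N j1)) (Q N j3 (ph P L.x))))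
      (H S (Q N j2 (msk I L.θ)) (J (J D' (L.p N j1)) (Q N j3 (ph P L.x)))) :=
    H_kw (s2.trans (Kw.pair (Kw.refl _).left.right
      (pj.kn (DetS.refl _).left.left.right (c.lev h2) (hk.mono (Kw.refl _).right)
        ((Kn.self bm j2).mono (Kw.refl _).left)).kw)) (Kw.refl _)
  have b := Kn.H_le_supp (Z := J (J D' (L.p N j1)) (Q N j3 (ph P L.x)))
    ((c.kn_θ (Kw.refl _).right.left).mask I) h12 I (fun k ω i hi => if_neg hi)
  have d := h.r5 hw h12 h23 h3
  have e : Le N (H S (J (Q N j2 (msk I L.x)) (L.p N j2)) (J (J D' (L.p N j1)) (Q N j3 (ph P L.x))))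
      (H S (L.p N j2) (J (J D' (L.p N j1)) (Q N j3 (ph P L.x)))) :=
    H_kw (Kw.pair ((c.kn_x h2 hw.det.left.left.right (Kw.refl _).left).mask I).kw
      (Kw.refl _).left) (Kw.refl _)
  have x3 : Kn S (J (J D' (L.p N j1)) (Q N j3 L.x)) L.x j3 :=
    (Kn.self c.bdd.2.2.2 j3).mono (Kw.refl _).right
  have f : Le N (H S (Q N j2 L.θ) (J (J D' (L.p N j1)) (Q N j3 L.x)))
      (H S (L.p N j2) (J (J (J D' (L.p N j1)) (Q N j3 (ph P L.x))) (Q N j2 (msk I L.x)))) :=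
    H_kw (DetS.refl _).right.left.kw (Kw.pair (Kw.pair (Kw.refl _).left
      (Kn.tr (c.lev h3) pj.det.left.left pj.bdd x3).kw) ((x3.lev h23).mask I).kw)
  have g := h.r6 hw h12 h23 h3
  refine hb.not_le S.big h.hσ ((((((a.add b).add d).add e).add f).add g).lin fun k => ?_)
  have q := H_chain (S := S) (Q N j2 (msk I L.x)) (L.p N j2)
    (J (J D' (L.p N j1)) (Q N j3 (ph P L.x))) k
  linarith

theorem not_has3 (σ : ℝ) : ¬ Has σ 3 := by
  rintro ⟨N, Ω, δ, S, L, D, P, I, h, hI⟩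
  have c := h.cfg
  have hu : I = univ := eq_univ_of_card I (by rw [hI, Fintype.card_fin])
  have e : ph P L.θ = fun _ _ => 0 := by
    funext k ω i
    exact h.pj.ph_supp L.θ k ω (hu ▸ mem_univ i)
  refine h.flat (j1 := fun _ => 0) (j2 := L.n) (j3 := L.n) (c.cw_self fun k => Nat.zero_le _)
    (fun k => Nat.zero_le _) (fun k => le_rfl) (fun k => le_rfl) ?_
    (Kn.of_det (Bdd.tr h.pj.bdd c.bdd.2.1) ?_ _)
  · simpa only [Nat.cast_zero, sub_zero] using c.big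
  · rw [e]
    exact DetS.const _

end Vale.Agent.P127S
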