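import Vale.Agent.P127S.RegA

/-! Windows and regularity of extremal states. -/

open Real Finset Filter Topology Vale.Agent.P118O

noncomputable section

namespace Vale.Agent.P127S

variable {N : ℕ → ℕ} {Ω α β γ δ : ℕ → Type} {S : Sp N Ω} {L : Ln Ω} {D : RV Ω δ} {D' : RV Ω γ}
  {Z : RV Ω α} {P R : VV Ω M3} {I : Finset (Fin 3)} {σ : ℝ} {j j' j1 j2 j3 e : ℕ → ℕ}
  {X Y : VV Ω V3}

theorem regB0_pt {v : V3} {a b : ℕ} (i : ℕ) (hi : a + i ≤ b) :
    qz i (((2 : ℝ) ^ a) • (dz b v - dz a v)) = fun c => qz (a + i) v c - 2 ^ i * qz a v c := by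
  funext c
  rw [← qz_dz hi v]
  have e : (2 : ℝ) ^ i * (((2 : ℝ) ^ a) • (dz b v - dz a v)) c =
      2 ^ (a + i) * dz b v c - ((2 ^ i * qz a v c : ℤ) : ℝ) := by
    simp only [Pi.smul_apply, Pi.sub_apply, smul_eq_mul, dz, cor]
    push_cast
    field_simp
    ring
  simp only [qz] at e ⊢
  rw [e, Int.floor_sub_intCast]

theorem regB0_le {v : V3} {a b : ℕ} (h : a ≤ b) : ‖((2 : ℝ) ^ a) • (dz b v - dz a v)‖ ≤ 1 := by
  refine (pi_norm_le_iff_of_nonneg zero_le_one).2 fun c => ?_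
  have h1 := congrFun (regB0_pt (v := v) (a := a) (b := b) 0 h) c
  simp only [qz, pow_zero, one_mul, add_zero, sub_self] at h1
  rw [Int.floor_eq_zero_iff] at h1
  rw [Real.norm_eq_abs, abs_le]
  exact ⟨by linarith [h1.1], h1.2.le⟩

theorem regB0_lat {v : V3} {a b : ℕ} (h : a ≤ b) :
    ((2 : ℝ) ^ a) • (dz b v - dz a v) =
      cor (b - a) (qz (b - a) (((2 : ℝ) ^ a) • (dz b v - dz a v))) := by
  obtain ⟨i, rfl⟩ := Nat.exists_eq_add_of_le h
  rw [Nat.add_sub_cancel_left, regB0_pt i le_rfl]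
  funext c
  simp only [Pi.smul_apply, Pi.sub_apply, smul_eq_mul, dz, cor]
  push_cast
  field_simp
  ring

theorem regB0_Q {k : ℕ} {ω : Ω k} (hX : ‖X k ω‖ ≤ 1) (j : ℕ → ℕ) :
    Q N j X k ω = qz (j k) (X k ω) :=
  Q_of_le (hX.trans (one_le_pow₀ one_le_two))

theorem regB0_eq {k : ℕ} {ω : Ω k} (hX : ‖X k ω‖ ≤ 1) :
    sm (up Ω j1) (dq N j2 X - dq N j1 X) k ω =
      ((2 : ℝ) ^ j1 k) • (dz (j2 k) (X k ω) - dz (j1 k) (X k ω)) := by
  change ((2 : ℝ) ^ j1 k) • (cor (j2 k) (Q N j2 X k ω) - cor (j1 k) (Q N j1 X k ω)) = _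
  rw [regB0_Q hX, regB0_Q hX]
  rfl

theorem regB0_bd (h12 : ∀ k, j1 k ≤ j2 k) {k : ℕ} {ω : Ω k} (hX : ‖X k ω‖ ≤ 1) :
    ‖sm (up Ω j1) (dq N j2 X - dq N j1 X) k ω‖ ≤ 1 := by
  rw [regB0_eq hX]; exact regB0_le (h12 k)

theorem regB0_W (h12 : ∀ k, j1 k ≤ j2 k) {i : ℕ → ℕ} (hi : ∀ k, j1 k + i k ≤ j2 k) {k : ℕ}
    {ω : Ω k} (hX : ‖X k ω‖ ≤ 1) :
    Q N i (sm (up Ω j1) (dq N j2 X - dq N j1 X)) k ω =
      fun c => Q N (fun k => j1 k + i k) X k ω c - 2 ^ i k * Q N j1 X k ω c := by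
  rw [regB0_Q (regB0_bd h12 hX), regB0_eq hX, regB0_pt _ (hi k), regB0_Q hX, regB0_Q hX]

theorem regB0_d1 (h12 : ∀ k, j1 k ≤ j2 k) {i : ℕ → ℕ} (hi : ∀ k, j1 k + i k ≤ j2 k)
    (hX : ∀ k, ∀ ω ∈ S.s k, ‖X k ω‖ ≤ 1) :
    DetS S (Q N i (sm (up Ω j1) (dq N j2 X - dq N j1 X))) (Q N (fun k => j1 k + i k) X) := by
  intro k ω hω ω' hω' e
  rw [regB0_W h12 hi (hX k ω hω), regB0_W h12 hi (hX k ω' hω'), e,
    det_Q (S := S) (fun k => Nat.le_add_right (j1 k) (i k)) X k ω hω ω' hω' e]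

theorem regB0_d2 (h12 : ∀ k, j1 k ≤ j2 k) {i : ℕ → ℕ} (hi : ∀ k, j1 k + i k ≤ j2 k)
    (hX : ∀ k, ∀ ω ∈ S.s k, ‖X k ω‖ ≤ 1) :
    DetS S (Q N (fun k => j1 k + i k) X)
      (J (Q N j1 X) (Q N i (sm (up Ω j1) (dq N j2 X - dq N j1 X)))) := by
  intro k ω hω ω' hω' e
  have e1 : Q N j1 X k ω = Q N j1 X k ω' := congrArg Prod.fst e
  have e2 : Q N i (sm (up Ω j1) (dq N j2 X - dq N j1 X)) k ω =
      Q N i (sm (up Ω j1) (dq N j2 X - dq N j1 X)) k ω' := congrArg Prod.snd e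
  rw [regB0_W h12 hi (hX k ω hω), regB0_W h12 hi (hX k ω' hω'), e1] at e2
  funext c
  exact sub_left_injective (congrFun e2 c)

theorem regB0_d3 (h12 : ∀ k, j1 k ≤ j2 k) (hX : ∀ k, ∀ ω ∈ S.s k, ‖X k ω‖ ≤ 1) :
    DetS S (sm (up Ω j1) (dq N j2 X - dq N j1 X))
      (Q N (fun k => j2 k - j1 k) (sm (up Ω j1) (dq N j2 X - dq N j1 X))) := by
  intro k ω hω ω' hω' e
  rw [regB0_Q (regB0_bd h12 (hX k ω hω)), regB0_Q (regB0_bd h12 (hX k ω' hω')),
    regB0_eq (hX k ω hω), regB0_eq (hX k ω' hω')] at e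
  rw [regB0_eq (hX k ω hω), regB0_eq (hX k ω' hω'), regB0_lat (h12 k), e, ← regB0_lat (h12 k)]

/-- Exactly: given `p j1`, the cells `(win).p i` and `p (j1 + i)` determine each other for
`j1 + i ≤ j2` (no truncation occurs as all entries lie in `[-1, 1]`; `qz_dz`). -/
theorem win_det (h : Cfg S L D) (h12 : ∀ k, j1 k ≤ j2 k) {i : ℕ → ℕ}
    (hi : ∀ k, j1 k + i k ≤ j2 k) :
    DetS S ((L.win N j1 j2).p N i) (L.p N fun k => j1 k + i k) ∧
      DetS S (L.p N fun k => j1 k + i k) (J (L.p N j1) ((L.win N j1 j2).p N i)) ∧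
      DetS S (Q N (fun k => j1 k + i k) L.θ) (J (L.p N j1) (Q N i (L.win N j1 j2).θ)) := by
  have ha := fun k ω hω => (h.bd k ω hω).1
  have hθ := fun k ω hω => (h.bd k ω hω).2.1
  refine ⟨(regB0_d1 h12 hi ha).left.pair (regB0_d1 h12 hi hθ).right, DetS.pair ?_ ?_, ?_⟩
  · exact (regB0_d2 h12 hi ha).trans ((DetS.refl _).left.left.pair (DetS.refl _).left.right)
  · exact (regB0_d2 h12 hi hθ).trans ((DetS.refl _).right.left.pair (DetS.refl _).right.right)
  · exact (regB0_d2 h12 hi hθ).trans ((DetS.refl _).right.left.pair (DetS.refl _).right)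

theorem win_cfg (h : Cfg S L D) (hw : Cw S L D D' j1) (h12 : ∀ k, j1 k ≤ j2 k)
    (h2 : ∀ k, j2 k ≤ L.n k) (hb : Big N fun k => (j2 k : ℝ) - j1 k) :
    Cfg S (L.win N j1 j2) (J D' (L.p N j1)) := by
  have ha := fun k ω hω => (h.bd k ω hω).1
  have hθ := fun k ω hω => (h.bd k ω hω).2.1
  have hc : ∀ k, ((j2 k - j1 k : ℕ) : ℝ) = (j2 k : ℝ) - j1 k := fun k => Nat.cast_sub (h12 k)
  have hi : ∀ k, j1 k + (j2 k - j1 k) ≤ j2 k := fun k => by have := h12 k; omega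
  have he : (fun k => j1 k + (j2 k - j1 k)) = j2 := funext fun k => by have := h12 k; omega
  have hd := win_det h h12 hi
  rw [he] at hd
  refine ⟨fun k => (Nat.sub_le _ _).trans ((h2 k).trans (h.lv k)), ?_, fun k ω hω =>
    ⟨regB0_bd h12 (ha k ω hω), regB0_bd h12 (hθ k ω hω), (h.bd k ω hω).2.2⟩,
    (regB0_d3 h12 ha).left.pair (regB0_d3 h12 hθ).right,
    (h.dC.trans hw.det).left.pair (DetS.refl _).right, (h.dt.trans hw.det).left,
    fun i hi' => ?_, ?_, ?_⟩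
  · change Big N fun k => ((j2 k - j1 k : ℕ) : ℝ)
    simpa only [hc] using hb
  · have hi2 : ∀ k, j1 k + i k ≤ j2 k := fun k => by
      have h3 : i k ≤ j2 k - j1 k := hi' k
      have := h12 k; omega
    have h3 := h.c1w (j1 := j1) (j2 := fun k => j1 k + i k) (fun k => Nat.le_add_right _ _)
      fun k => (hi2 k).trans (h2 k)
    refine h3.lin fun k => ?_
    have h4 := H_mono (win_det h h12 hi2).1.left (DetS.refl (J L.C (L.p N j1))) k
    have e : H S ((L.win N j1 j2).p N i) (L.win N j1 j2).C k =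
        H S ((L.win N j1 j2).p N i) (J L.C (L.p N j1)) k := rfl
    push_cast
    linarith
  · refine (hw.lo h h12 h2).lin fun k => ?_
    have h4 := H_mono (hd.2.2.trans ((DetS.refl _).right.right.pair (DetS.refl _).left))
      (DetS.refl (J D' (L.p N j1))) k
    have e : (((L.win N j1 j2).n k : ℕ) : ℝ) = (j2 k : ℝ) - j1 k := hc k
    have e2 : H S (Q N (L.win N j1 j2).n (L.win N j1 j2).θ) (J D' (L.p N j1)) k =
        H S (Q N (fun k => j2 k - j1 k) (L.win N j1 j2).θ) (J D' (L.p N j1)) k := rfl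
    linarith
  · have h3 := full_lev (j' := fun k => j2 k - j1 k)
      (fun k => (Nat.sub_le _ _).trans (h2 k)) h.c3
    refine h3.lin fun k => ?_
    have h5 : DetS S (J ((L.win N j1 j2).p N fun k => j2 k - j1 k) (J L.C (L.p N j1)))
        (J (L.p N L.n) L.C) :=
      (hd.1.trans (det_p h2)).left.pair
        ((DetS.refl _).right.pair (det_p fun k => (h12 k).trans (h2 k)).left)
    have h4 := H_mono (DetS.refl (Q N (fun k => j2 k - j1 k) (sc L.t))).left h5 k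
    have e : (((L.win N j1 j2).n k : ℕ) : ℝ) = ((j2 k - j1 k : ℕ) : ℝ) := rfl
    have e2 : H S (Q N (L.win N j1 j2).n (sc (L.win N j1 j2).t))
        (J ((L.win N j1 j2).p N (L.win N j1 j2).n) (L.win N j1 j2).C) k =
        H S (Q N (fun k => j2 k - j1 k) (sc L.t))
          (J ((L.win N j1 j2).p N fun k => j2 k - j1 k) (J L.C (L.p N j1))) k := rfl
    simp only [Fintype.card_unit, Nat.cast_one, one_mul]
    linarith

/-- The point of the window is `2 ^ j1 • (x - x0)` up to `2 / 2 ^ (j2 - j1)`, where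
`x0 = dq j1 a + t • dq j1 θ` is read off from `(D', p j1)`. So linear images of the two points
are known from each other. -/
theorem win_kn (h : Cfg S L D) (hD : DetS S D D') (h12 : ∀ k, j1 k ≤ j2 k)
    (h2 : ∀ k, j2 k ≤ L.n k) (hP : DetS S P D') (hb : Bdd S P) :
    Kw S (Q N (fun k => j2 k - j1 k) (ph P (L.win N j1 j2).x))
        (J (J D' (L.p N j1)) (Q N j2 (ph P L.x))) ∧
      Kw S (Q N j2 (ph P L.x))
        (J (J D' (L.p N j1)) (Q N (fun k => j2 k - j1 k) (ph P (L.win N j1 j2).x))) := by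
  obtain ⟨ba, bθ, bt, bx⟩ := h.bdd
  have l2 : Lv N j2 := h.lev h2
  have l0 : Lv N fun k => j2 k - j1 k := fun k => (Nat.sub_le _ _).trans (l2 k)
  have hsm : ∀ {V : VV Ω V3} {b : ℕ → ℕ}, Small S V b → Small S (sm L.t V) b := fun hV => by
    simpa only [zero_add] using Small.smul bt hV
  have hs : Small S (ph P ((L.a - dq N j2 L.a) + sm L.t (L.θ - dq N j2 L.θ))) j2 :=
    hb.tr ((small_dq ba j2).add (hsm (small_dq bθ j2)))
  have b0 : Bdd S (ph P (dq N j1 L.a + sm L.t (dq N j1 L.θ))) :=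
    hb.tr (Small.add (bdd_dq ba j1) (hsm (bdd_dq bθ j1)))
  have d1 : DetS S (dq N j1 L.a + sm L.t (dq N j1 L.θ)) (J D' (L.p N j1)) :=
    DetS.map2 (det_dq j1 L.a).left.right
      (DetS.map2 (h.dt.trans hD).left (det_dq j1 L.θ).right.right fun _ c v => c • v)
      fun _ u v => u + v
  have d0 : DetS S (ph P (dq N j1 L.a + sm L.t (dq N j1 L.θ))) (J D' (L.p N j1)) :=
    DetS.map2 hP.left d1 fun _ M v => v - fun i => ∑ j, M i j * v j
  have bw : Bdd S (ph P (L.win N j1 j2).x) := by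
    refine hb.tr (Small.add ?_ (hsm ?_))
    · exact Small.of_le (Eventually.of_forall fun k ω hω =>
        (regB0_bd h12 (h.bd k ω hω).1).trans (by norm_num))
    · exact Small.of_le (Eventually.of_forall fun k ω hω =>
        (regB0_bd h12 (h.bd k ω hω).2.1).trans (by norm_num))
  have e1 : sm (up Ω j1) (ph P L.x - ph P (dq N j1 L.a + sm L.t (dq N j1 L.θ)) -
      ph P ((L.a - dq N j2 L.a) + sm L.t (L.θ - dq N j2 L.θ))) = ph P (L.win N j1 j2).x := by
    funext k w i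
    simp [MV, ph, sm, up, Ln.x, Ln.win, Fin.sum_univ_three]
    ring
  have e2 : sm (tw Ω j1) (ph P (L.win N j1 j2).x) + ph P (dq N j1 L.a + sm L.t (dq N j1 L.θ)) +
      ph P ((L.a - dq N j2 L.a) + sm L.t (L.θ - dq N j2 L.θ)) = ph P L.x := by
    rw [← e1]
    funext k w i
    simp only [sm, up, tw, Pi.add_apply, Pi.sub_apply, Pi.smul_apply, smul_eq_mul]
    field_simp
    ring
  constructor
  · have k1 := (((Kn.self (hb.tr bx) j2).mono (DetS.refl _).right.kw).sub l2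
      (Kn.of_det b0 d0.left j2)).sub l2 (Kn.of_small l2 hs _)
    have k2 := Kn.zoom (e := j1) l0 (by rw [e1]; exact bw) k1
      (fun k => by have := h12 k; omega) l2
    rw [e1] at k2
    exact k2.kw
  · have k1 := Kn.smul (e := j1) l2 (c := tw Ω j1) (DetS.const _) (small_tw S j1)
      ((Kn.self bw fun k => j2 k - j1 k).mono (Z' := J (J D' (L.p N j1)) _) (DetS.refl _).right.kw)
      fun k => by have := h12 k; omega
    have k2 := (k1.add l2 (Kn.of_det b0 d0.left j2)).add l2 (Kn.of_small l2 hs _)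
    rw [e2] at k2
    exact k2.kw

/-- `big_or_le`; `LB` for the window (if `3 - σ < 0` there is nothing to prove) -/
theorem r1w (h : Cfg S L D) (lb : LB σ) (hw : Cw S L D D' j1) (h12 : ∀ k, j1 k ≤ j2 k)
    (h2 : ∀ k, j2 k ≤ L.n k) :
    Le N (fun k => (3 - σ) * ((j2 k : ℝ) - j1 k)) (H S (Q N j2 L.x) (J D' (L.p N j1))) := by
  have hc : ∀ k, ((j2 k - j1 k : ℕ) : ℝ) = (j2 k : ℝ) - j1 k := fun k => Nat.cast_sub (h12 k)
  rcases big_or_le (N := N) fun k => (j2 k : ℝ) - j1 k with hb | hb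
  · have h1 := lb _ _ _ S _ _ (win_cfg h hw h12 h2 hb)
    have h3 := (win_kn (P := 0) h hw.det h12 h2 (DetS.const _)
      (Small.of_le (Eventually.of_forall fun k ω _ => by simp))).1
    rw [ph_zero, ph_zero] at h3
    have h4 := H_kw (h3.trans ((DetS.refl _).right.pair (DetS.refl _).left).kw)
      (Kw.refl (J D' (L.p N j1)))
    refine (h1.add h4).lin fun k => ?_
    have e : (((L.win N j1 j2).n k : ℕ) : ℝ) = (j2 k : ℝ) - j1 k := hc k
    have e2 : H S (Q N (L.win N j1 j2).n (L.win N j1 j2).x) (J D' (L.p N j1)) k =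
        H S (Q N (fun k => j2 k - j1 k) (L.win N j1 j2).x) (J D' (L.p N j1)) k := rfl
    rw [e, e2]
    linarith
  · rcases le_total 0 (3 - σ) with h0 | h0
    · refine (hb.mul h0).lin fun k => ?_
      linarith [H_nonneg (S := S) (Q N j2 L.x) (J D' (L.p N j1)) k]
    · refine Le.of_le fun k => le_trans ?_ (H_nonneg _ _ k)
      exact mul_nonpos_of_nonpos_of_nonneg h0 (by rw [← hc]; positivity)

theorem r2w (h : Cfg S L D) (lb : LB σ) (hw : Cw S L D D' j1) (hP : Pj S D' P I)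
    (h12 : ∀ k, j1 k ≤ j2 k) (h2 : ∀ k, j2 k ≤ L.n k) :
    Le N (fun k => qd σ I * ((j2 k : ℝ) - j1 k))
      (H S (Q N j2 (ph P L.x)) (J D' (L.p N j1))) := by
  obtain ⟨-, -, -, bx⟩ := h.bdd
  have l2 : Lv N j2 := h.lev h2
  have h1 := r1w h lb hw h12 h2
  have k0 : Kn S (J (J D' (L.p N j1)) (Q N j2 (ph P L.x))) (msk I L.x) j1 :=
    (h.kn_x (fun k => (h12 k).trans (h2 k)) hw.det.left.left (DetS.refl _).right.left.kw).mask I
  have h3 := k0.H_le_supp h12 I fun k ω i hi => if_neg hi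
  have k1 : Kn S (J (Q N j2 (msk I L.x)) (J (J D' (L.p N j1)) (Q N j2 (ph P L.x)))) L.x j2 :=
    hP.kn (DetS.refl _).left.left.right l2
      ((Kn.self (hP.bdd.tr bx) j2).mono (DetS.refl _).right.right.kw)
      ((Kn.self k0.bdd j2).mono (DetS.refl _).left.kw)
  have h4 := H_kw k1.kw (Kw.refl _)
  refine ((h1.add h3).add h4).lin fun k => ?_
  have h5 := H_le_add (S := S) (Q N j2 L.x) (Q N j2 (ph P L.x)) (J D' (L.p N j1)) k
  simp only [qd]
  linarith

end Vale.Agent.P127S
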