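import Vale.Agent.P127S.RegB0

/-! Regularity of extremal states. -/

open Real Finset Filter Topology Vale.Agent.P118O

noncomputable section

namespace Vale.Agent.P127S

variable {N : ℕ → ℕ} {Ω α β γ δ : ℕ → Type} {S : Sp N Ω} {L : Ln Ω} {D : RV Ω δ} {D' : RV Ω γ}
  {Z : RV Ω α} {P R : VV Ω M3} {I : Finset (Fin 3)} {σ : ℝ} {j j' j1 j2 j3 e : ℕ → ℕ}
  {X Y : VV Ω V3}

theorem regb1_y (h : St S L D P I σ) (hj : ∀ k, j k ≤ L.n k) (hD : DetS S D Z)
    (hp : Kw S (L.p N j) Z) : Kn S Z (ph P L.x) j :=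
  (h.cfg.kn_x hj hD hp).tr (h.cfg.lev hj) (h.pj.det.trans hD) h.pj.bdd

theorem regb1_by (h : St S L D P I σ) : Bdd S (ph P L.x) := h.pj.bdd.tr h.cfg.bdd.2.2.2

theorem regb1_bm (h : St S L D P I σ) (I' : Finset (Fin 3)) : Bdd S (msk I' L.x) :=
  ((Kn.zero h.cfg.bdd.2.2.2 D).mask I').bdd

theorem regb1_m (hl : ∀ k, j1 k ≤ j2 k) (h1 : Kn S Z (msk I X) j1) :
    Le N (H S (Q N j2 (msk I X)) Z) fun k => I.card * ((j2 k : ℝ) - j1 k) :=
  h1.H_le_supp hl I fun _ _ _ hi => if_neg hi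

/-- the point is known from its two components -/
theorem regb1_x {W : RV Ω β} (h : St S L D P I σ) (hj : ∀ k, j k ≤ L.n k) (hD : DetS S D W)
    (h1 : DetS S (Q N j (ph P L.x)) Z) (h2 : DetS S (Q N j (msk I L.x)) Z) :
    Le N (H S (Q N j L.x) W) (H S Z W) :=
  H_kw (h.pj.kn hD.right (h.cfg.lev hj) ((Kn.self (regb1_by h) j).mono h1.left.kw)
    ((Kn.self (regb1_bm h I) j).mono h2.left.kw)).kw (Kw.refl W)

/-- chain rule for the levels `j1 ≤ j2 ≤ n`, `sat`, and `r2w` below `j1` and above `j2` -/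
theorem St.r3 (h : St S L D P I σ) (h12 : ∀ k, j1 k ≤ j2 k) (h2 : ∀ k, j2 k ≤ L.n k) :
    Le N (H S (Q N j2 (ph P L.x)) (J D (Q N j1 (ph P L.x))))
      fun k => qd σ I * ((j2 k : ℝ) - j1 k) := by
  have h1 : ∀ k, j1 k ≤ L.n k := fun k => (h12 k).trans (h2 k)
  have a1 := r2w h.cfg h.lb (h.cfg.cw_self (j := fun _ => 0) fun k => Nat.zero_le _) h.pj
    (fun k => Nat.zero_le _) h1
  have a2 := r2w h.cfg h.lb (h.cfg.cw_self h2) h.pj h2 fun k => le_rfl
  have k2 : Kn S (J D (L.p N j2)) (ph P L.x) j2 :=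
    regb1_y h h2 (DetS.refl D).left (Kw.refl _).right
  have a3 : Le N (H S (Q N L.n (ph P L.x)) (J D (L.p N j2))) (H S (Q N L.n (ph P L.x))
      (J D (J (Q N j1 (ph P L.x)) (Q N j2 (ph P L.x))))) :=
    H_kw (Kw.refl _).left ((Kw.refl D).left.pair ((k2.lev h12).kw.pair k2.kw))
  refine (((a1.add a2).add a3).add h.sat).lin fun k => ?_
  have b1 : H S (Q N j1 (ph P L.x)) (J D (L.p N fun _ => 0)) k ≤ H S (Q N j1 (ph P L.x)) D k :=
    H_mono (DetS.refl _).left (DetS.refl D).left k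
  have b2 : H S (J (J (Q N j1 (ph P L.x)) (Q N j2 (ph P L.x))) (Q N L.n (ph P L.x))) D k ≤
      H S (Q N L.n (ph P L.x)) D k :=
    H_mono (((det_Q h1 _).pair (det_Q h2 _)).pair (DetS.refl _)).left (DetS.refl D) k
  rw [H_chain, H_chain] at b2
  push_cast
  linarith

/-- the same given any `Z` that knows `D` and the point at level `j1` -/
theorem St.r3' (h : St S L D P I σ) (h12 : ∀ k, j1 k ≤ j2 k) (h2 : ∀ k, j2 k ≤ L.n k)
    (hD : Kw S D Z) (hZ : Kn S Z (ph P L.x) j1) :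
    Le N (H S (Q N j2 (ph P L.x)) Z) fun k => qd σ I * ((j2 k : ℝ) - j1 k) := by
  exact (H_kw (Kw.refl _).left (hD.pair hZ.kw)).trans (h.r3 h12 h2)

theorem St.zero (h : St S L D P I σ) : St S L D 0 ∅ σ := by
  refine ⟨h.cfg, ⟨DetS.const fun _ => 0, Small.of_le (Eventually.of_forall fun k ω _ => ?_),
    fun _ _ _ _ _ => rfl, fun _ _ i hi => absurd hi (Finset.notMem_empty i)⟩, h.lb, h.hσ, ?_⟩
  · simp
  · rw [ph_zero]
    have a1 := regb1_x (Z := J (Q N L.n (ph P L.x)) (Q N L.n (msk I L.x))) h (fun k => le_rfl)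
      (DetS.refl D) (DetS.refl _).left (DetS.refl _).right
    have a2 := regb1_m (j2 := L.n) (fun k => Nat.zero_le _)
      (Kn.zero (regb1_bm h I) (J D (Q N L.n (ph P L.x))))
    refine ((a1.add a2).add h.sat).lin fun k => ?_
    rw [H_chain]
    simp only [qd, Finset.card_empty]
    push_cast
    linarith

theorem St.r2x (h : St S L D P I σ) (hw : Cw S L D D' j1) (h12 : ∀ k, j1 k ≤ j2 k)
    (h23 : ∀ k, j2 k ≤ j3 k) (h3 : ∀ k, j3 k ≤ L.n k) :
    Le N (fun k => qd σ I * ((j2 k : ℝ) - j1 k))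
      (H S (Q N j2 (ph P L.x)) (J (J D' (L.p N j1)) (Q N j3 (msk I L.x)))) := by
  have h13 : ∀ k, j1 k ≤ j3 k := fun k => (h12 k).trans (h23 k)
  have hD : DetS S D (J D' (L.p N j1)) := hw.det.left
  have a1 := r1w h.cfg h.lb hw h13 h3
  have a2 := regb1_x (Z := J (J (Q N j3 (msk I L.x)) (Q N j2 (ph P L.x))) (Q N j3 (ph P L.x))) h h3
    hD (DetS.refl _).right (DetS.refl _).left.left
  have a3 := regb1_m h13 ((h.cfg.kn_x hw.le hD (Kw.refl _).right).mask I)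
  have a4 := h.r3' (Z := J (J D' (L.p N j1)) (J (Q N j3 (msk I L.x)) (Q N j2 (ph P L.x)))) h23 h3
    hD.left.kw ((Kn.self (regb1_by h) j2).mono (Kw.refl _).right.right)
  refine (((a1.add a2).add a3).add a4).lin fun k => ?_
  rw [H_chain, H_chain]
  simp only [qd]
  linarith

theorem St.r5 (h : St S L D P I σ) (hw : Cw S L D D' j1) (h12 : ∀ k, j1 k ≤ j2 k)
    (h23 : ∀ k, j2 k ≤ j3 k) (h3 : ∀ k, j3 k ≤ L.n k) :
    Le N (fun k => I.card * ((j2 k : ℝ) - j1 k))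
      (H S (Q N j2 (msk I L.x)) (J (J D' (L.p N j1)) (Q N j3 (ph P L.x)))) := by
  have h13 : ∀ k, j1 k ≤ j3 k := fun k => (h12 k).trans (h23 k)
  have hD : DetS S D (J D' (L.p N j1)) := hw.det.left
  have a1 := r1w h.cfg h.lb hw h13 h3
  have a2 := regb1_x (Z := J (J (Q N j3 (ph P L.x)) (Q N j2 (msk I L.x))) (Q N j3 (msk I L.x))) h h3
    hD (DetS.refl _).left.left (DetS.refl _).right
  have a3 := h.r3' h13 h3 hD.kw (regb1_y h hw.le hD (Kw.refl _).right)
  have a4 := regb1_m (Z := J (J D' (L.p N j1)) (J (Q N j3 (ph P L.x)) (Q N j2 (msk I L.x)))) h23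
    ((Kn.self (regb1_bm h I) j2).mono (Kw.refl _).right.right)
  refine (((a1.add a2).add a3).add a4).lin fun k => ?_
  rw [H_chain, H_chain]
  simp only [qd]
  linarith

/-- one coordinate in `I` is free given the other ones -/
theorem St.r5' (h : St S L D P I σ) (hw : Cw S L D D' j1) (h12 : ∀ k, j1 k ≤ j2 k)
    (h23 : ∀ k, j2 k ≤ j3 k) (h3 : ∀ k, j3 k ≤ L.n k) {i : Fin 3} (hi : i ∈ I) :
    Le N (fun k => (j2 k : ℝ) - j1 k) (H S (Q N j2 (sc (co L.x i)))
      (J (J (J D' (L.p N j1)) (Q N j3 (ph P L.x))) (Q N j2 (msk (I.erase i) L.x)))) := by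
  have a1 := h.r5 hw h12 h23 h3
  have a2 := regb1_m (Z := J (J D' (L.p N j1)) (Q N j3 (ph P L.x))) h12
    ((h.cfg.kn_x hw.le hw.det.left.left (Kw.refl _).right.left).mask (I.erase i))
  have k1 : Kn S (J (Q N j2 (msk (I.erase i) L.x)) (Q N j2 (sc (co L.x i)))) (msk I L.x) j2 := by
    refine Kn.pi fun l => ?_
    by_cases hl : l = i
    · have e : sc (co (msk I L.x) l) = sc (co L.x i) := by
        funext k ω u
        simp [sc, co, msk, hl, hi]
      rw [e]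
      exact (Kn.self ((Kn.zero h.cfg.bdd.2.2.2 D).coord i).bdd j2).mono (Kw.refl _).right
    · have e : sc (co (msk I L.x) l) = sc (co (msk (I.erase i) L.x) l) := by
        funext k ω u
        simp [sc, co, msk, hl]
      rw [e]
      exact ((Kn.self (regb1_bm h _) j2).coord l).mono (Kw.refl _).left
  have a3 := H_kw (W := J (J D' (L.p N j1)) (Q N j3 (ph P L.x))) k1.kw.left (Kw.refl _)
  refine ((a1.add a2).add a3).lin fun k => ?_
  have hc : ((I.erase i).card : ℝ) + 1 = I.card := by exact_mod_cast Finset.card_erase_add_one hi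
  rw [H_chain, ← hc]
  linarith

end Vale.Agent.P127S
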