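import Vale.Agent.P127S.RegC0

/-! Congruence, more side information, coarsening. -/

open Real Finset Filter Topology Vale.Agent.P118O

noncomputable section

namespace Vale.Agent.P127S

variable {N : ℕ → ℕ} {Ω Ω' α β γ δ : ℕ → Type} {S : Sp N Ω} {S' : Sp N Ω'} {m : RV Ω' Ω}
  {L : Ln Ω} {D : RV Ω δ} {D' : RV Ω γ} {P R B B2 : VV Ω M3} {I : Finset (Fin 3)} {σ : ℝ}
  {j n : ℕ → ℕ} {A : VV Ω Prop} {U W U' W' : VV Ω V3}

theorem RegC_det {X X' : RV Ω α} {Y Y' : RV Ω β} (h : DetS S X Y) (h1 : EqS S X X')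
    (h2 : EqS S Y Y') : DetS S X' Y' := fun k ω hω ω' hω' e => by
  rw [← h1 k ω hω, ← h1 k ω' hω']
  exact h k ω hω ω' hω' (by rw [h2 k ω hω, h2 k ω' hω', e])

theorem RegC_refl (X : RV Ω α) : EqS S X X := fun _ _ _ => rfl

theorem RegC_symm {X X' : RV Ω α} (h : EqS S X X') : EqS S X' X := fun k ω hω => (h k ω hω).symm

theorem RegC_J {X X' : RV Ω α} {Y Y' : RV Ω β} (h1 : EqS S X X') (h2 : EqS S Y Y') :
    EqS S (J X Y) (J X' Y') := fun k ω hω => Prod.ext (h1 k ω hω) (h2 k ω hω)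

theorem RegC_ph (P : VV Ω M3) (h : EqS S U U') : EqS S (ph P U) (ph P U') := fun k ω hω => by
  funext i
  simp only [ph, MV, Pi.sub_apply, h k ω hω]

theorem RegC_ph_sub (P : VV Ω M3) (U U' : VV Ω V3) : ph P U' - ph P U = ph P (U' - U) := by
  funext k w i
  simp [MV, ph, Fin.sum_univ_three]
  ring

theorem RegC_dq {k : ℕ} {ω : Ω k} (h : ‖U k ω‖ ≤ 1) : dq N j U k ω = dz (j k) (U k ω) := by
  rw [dq, Q_of_le (h.trans (one_le_pow₀ one_le_two))]
  rfl

theorem RegC_norm {v : V3} (h : ‖v‖ ≤ 1) (l : ℕ) : ‖dz l v‖ ≤ 1 := by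
  refine (pi_norm_le_iff_of_nonneg zero_le_one).2 fun i => ?_
  have h1 := abs_le.1 ((norm_le_pi_norm v i).trans h)
  have hp : (0 : ℝ) < 2 ^ l := by positivity
  have h2 : (⌊(2 : ℝ) ^ l * v i⌋ : ℝ) ≤ 2 ^ l := (Int.floor_le _).trans (by nlinarith [h1.2])
  have h3 : (-2 ^ l : ℤ) ≤ ⌊(2 : ℝ) ^ l * v i⌋ := Int.le_floor.2 (by push_cast; nlinarith [h1.1])
  have h4 : (-2 ^ l : ℝ) ≤ ⌊(2 : ℝ) ^ l * v i⌋ := by exact_mod_cast h3
  simp only [dz, cor, qz, Real.norm_eq_abs]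
  rw [abs_div, abs_of_pos hp, div_le_one hp, abs_le]
  exact ⟨h4, h2⟩

theorem RegC_Q {i : ℕ → ℕ} (h : ∀ k, ∀ ω ∈ S.s k, ‖U k ω‖ ≤ 1) (hi : ∀ k, i k ≤ j k) :
    EqS S (Q N i U) (Q N i (dq N j U)) := fun k ω hω => by
  have h1 := RegC_dq (N := N) (j := j) (h k ω hω)
  rw [Q_of_le ((h k ω hω).trans (one_le_pow₀ one_le_two)), Q_of_le (X := dq N j U)
    (by rw [h1]; exact (RegC_norm (h k ω hω) _).trans (one_le_pow₀ one_le_two)), h1,
    qz_dz (hi k)]

/-- only the values on the support matter -/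
theorem St.eqs (h : St S L D P I σ) {C : RV Ω L.κ} {a θ : VV Ω V3} {t : VV Ω ℝ}
    (h1 : EqS S L.C C) (h2 : EqS S L.a a) (h3 : EqS S L.θ θ) (h4 : EqS S L.t t) :
    St S ⟨L.n, L.κ, C, a, θ, t⟩ D P I σ := by
  have hp : ∀ i, EqS S (L.p N i) ((⟨L.n, L.κ, C, a, θ, t⟩ : Ln Ω).p N i) := fun i =>
    RegC_J (Q_congr h2 i) (Q_congr h3 i)
  have hx : EqS S L.x (⟨L.n, L.κ, C, a, θ, t⟩ : Ln Ω).x := fun k ω hω => by
    simp only [Ln.x, sm, Pi.add_apply, h2 k ω hω, h3 k ω hω, h4 k ω hω]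
  have ht : EqS S (sc L.t) (sc t) := fun k ω hω => funext fun _ => h4 k ω hω
  refine ⟨⟨h.cfg.lv, h.cfg.big, fun k ω hω => ?_, RegC_det h.cfg.lat (RegC_J h2 h3) (hp _),
    RegC_det h.cfg.dC h1 (RegC_refl _), RegC_det h.cfg.dt h4 (RegC_refl _), fun i hi => ?_,
    ?_, ?_⟩, h.pj, h.lb, h.hσ, ?_⟩
  · have := h.cfg.bd k ω hω
    rwa [h2 k ω hω, h3 k ω hω, h4 k ω hω] at this
  · have := h.cfg.c1 i hi
    rwa [H_congr (hp i) h1] at this
  · have := h.cfg.c2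
    rwa [H_congr (Q_congr h3 _) (RegC_refl D)] at this
  · have := h.cfg.c3
    rwa [H_congr (Q_congr ht _) (RegC_J (hp _) h1)] at this
  · have := h.sat
    rwa [H_congr (Q_congr (RegC_ph P hx) _) (RegC_refl D)] at this

theorem KnAll.eqs (h : KnAll S n D U W) (h1 : EqS S U U') (h2 : EqS S W W') :
    KnAll S n D U' W' := fun i hi =>
  ((h i hi).eqs h2).mono (RegC_det (DetS.refl _) (RegC_refl _)
    (RegC_J (RegC_refl D) (Q_congr h1 i))).kw

theorem St.ext (h : St S L D P I σ) (hD : DetS S D D')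
    (h2 : Le N (fun k => 3 * L.n k) (H S (Q N L.n L.θ) D')) : St S L D' P I σ :=
  ⟨⟨h.cfg.lv, h.cfg.big, h.cfg.bd, h.cfg.lat, h.cfg.dC.trans hD, h.cfg.dt.trans hD, h.cfg.c1, h2,
    h.cfg.c3⟩, h.pj.mono hD, h.lb, h.hσ,
    (Le.of_le (H_mono (DetS.refl _).left hD)).trans h.sat⟩

theorem KnAll.ext (h : KnAll S n D U W) (hD : DetS S D D') : KnAll S n D' U W := fun i hi =>
  (h i hi).mono (hD.left.pair (DetS.refl _).right).kw

theorem KnAll.lev (h : KnAll S n D U W) (hj : ∀ k, j k ≤ n k) : KnAll S j D U W :=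
  fun i hi => h i fun k => (hi k).trans (hj k)

theorem KnAll.near (h : KnAll S n D U W) (hn : Lv N n) (hU : Bdd S U) (h1 : Small S (U' - U) n)
    (h2 : Small S (W' - W) n) : KnAll S n D U' W' := by
  intro i hi
  have hl : Lv N i := fun k => (hi k).trans (hn k)
  have hm : Le N (fun k => i k) fun k => n k := Le.of_le fun k => by exact_mod_cast hi k
  have hU' : Bdd S U' := by
    have := Small.add hU h1.bdd
    rwa [add_sub_cancel] at this
  have h3 : Small S (U - U') i := by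
    have := (h1.mono hm).neg
    rwa [neg_sub] at this
  exact ((h i hi).near hl (h2.mono hm)).mono
    ((Kw.refl _).left.pair ((Kn.self hU' i).near hl h3).kw.right)

theorem cut_small (h : Cfg S L D) (j : ℕ → ℕ) :
    Small S ((L.cut N j).θ - L.θ) j ∧ Small S ((L.cut N j).x - L.x) j := by
  obtain ⟨ha, hθ, ht, -⟩ := h.bdd
  have h1 : Small S (dq N j L.θ - L.θ) j := by
    have := (small_dq hθ j).neg
    rwa [neg_sub] at this
  have h2 : Small S (dq N j L.a - L.a) j := by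
    have := (small_dq ha j).neg
    rwa [neg_sub] at this
  refine ⟨h1, ?_⟩
  have h3 : Small S (sm L.t (dq N j L.θ - L.θ)) j :=
    (Small.smul ht h1).mono (Le.of_le fun k => by simp)
  have e : (L.cut N j).x - L.x = (dq N j L.a - L.a) + sm L.t (dq N j L.θ - L.θ) := by
    funext k w i
    simp [sm, Ln.x, Ln.cut]
    ring
  rw [e]
  exact h2.add h3

/-- `(L.cut N j).p N i = L.p N i` on the support for `i ≤ j` (`qz_dz`); `sat` from `St.r3'` -/
theorem St.cut (h : St S L D P I σ) (hj : ∀ k, j k ≤ L.n k) (hb : Big N fun k => j k) :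
    St S (L.cut N j) D P I σ := by
  have hc := h.cfg
  have hl : Lv N j := hc.lev hj
  have hθ : ∀ i : ℕ → ℕ, (∀ k, i k ≤ j k) → EqS S (Q N i L.θ) (Q N i (dq N j L.θ)) :=
    fun i hi => RegC_Q (fun k ω hω => (hc.bd k ω hω).2.1) hi
  have hp : ∀ i : ℕ → ℕ, (∀ k, i k ≤ j k) → EqS S (L.p N i) ((L.cut N j).p N i) :=
    fun i hi => RegC_J (RegC_Q (fun k ω hω => (hc.bd k ω hω).1) hi) (hθ i hi)
  refine ⟨⟨hl, hb, fun k ω hω => ?_, ?_, hc.dC, hc.dt, fun i hi => ?_, ?_, ?_⟩, h.pj, h.lb,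
    h.hσ, ?_⟩
  · obtain ⟨b1, b2, b3⟩ := hc.bd k ω hω
    refine ⟨?_, ?_, b3⟩
    · change ‖dq N j L.a k ω‖ ≤ 1
      rw [RegC_dq b1]
      exact RegC_norm b1 _
    · change ‖dq N j L.θ k ω‖ ≤ 1
      rw [RegC_dq b2]
      exact RegC_norm b2 _
  · exact RegC_det ((det_dq j L.a).left.pair (det_dq j L.θ).right) (RegC_refl _)
      (hp j fun _ => le_rfl)
  · have := hc.c1 i fun k => (hi k).trans (hj k)
    rwa [H_congr (hp i hi) (RegC_refl L.C)] at this
  · have := full_lev hj hc.c2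
    rw [H_congr (hθ j fun _ => le_rfl) (RegC_refl D)] at this
    refine this.lin fun k => le_of_eq ?_
    simp only [Ln.cut, Fintype.card_fin]
    push_cast
    ring
  · have h1 := full_lev hj hc.c3
    have h2 : ∀ k, H S (Q N j (sc L.t)) (J (L.p N L.n) L.C) k ≤
        H S (Q N j (sc L.t)) (J (L.p N j) L.C) k :=
      H_mono (DetS.refl _).left ((det_p hj).left.pair (DetS.refl _).right)
    have h3 := h1.trans (Le.of_le h2)
    rw [H_congr (RegC_refl _) (RegC_J (hp j fun _ => le_rfl) (RegC_refl L.C))] at h3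
    refine h3.lin fun k => le_of_eq ?_
    simp only [Ln.cut, Fintype.card_unit]
    push_cast
    ring
  · have hy : Bdd S (ph P L.x) := Bdd.tr h.pj.bdd hc.bdd.2.2.2
    have h1 := h.r3' (j1 := fun _ => 0) (j2 := j) (fun _ => Nat.zero_le _) hj (Kw.refl D)
      (Kn.zero hy D)
    have h2 : Small S (ph P (L.cut N j).x - ph P L.x) j := by
      rw [RegC_ph_sub]
      exact Bdd.tr h.pj.bdd (cut_small hc j).2
    have h3 := H_kw (((Kn.self hy j).near hl h2).kw.left (Z := D)) (Kw.refl D)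
    refine (h3.trans h1).lin fun k => le_of_eq ?_
    simp only [Ln.cut]
    push_cast
    ring

/-- a linear relation passes to the coarse configuration -/
theorem KnAll.cut (h : Cfg S L D) (hj : ∀ k, j k ≤ L.n k) {M1 M2 : VV Ω M3} (hP : Bdd S P)
    (h1 : Bdd S M1) (h2 : Bdd S M2) (hk : KnAll S j D' (ph P L.x) (MV M1 L.θ + MV M2 L.x)) :
    KnAll S j D' (ph P (L.cut N j).x) (MV M1 (L.cut N j).θ + MV M2 (L.cut N j).x) := by
  obtain ⟨s1, s2⟩ := cut_small h j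
  refine hk.near (h.lev hj) (Bdd.tr hP h.bdd.2.2.2) ?_ ?_
  · rw [RegC_ph_sub]
    exact Bdd.tr hP s2
  · have e : MV M1 (L.cut N j).θ + MV M2 (L.cut N j).x - (MV M1 L.θ + MV M2 L.x) =
        MV M1 ((L.cut N j).θ - L.θ) + MV M2 ((L.cut N j).x - L.x) := by
      funext k w i
      simp [MV, Fin.sum_univ_three]
      ring
    rw [e]
    exact (Bdd.mv h1 s1).add (Bdd.mv h2 s2)

theorem St2.cut (h : St S L D P I σ) (hj : ∀ k, j k ≤ L.n k) (hb : Big N fun k => j k)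
    (hB : Mat S D B I) (hk : KnAll S j D (ph P L.x) (ph P L.θ - MV B L.x)) :
    St2 S (L.cut N j) D P I σ B := by
  obtain ⟨s1, s2⟩ := cut_small h.cfg j
  refine ⟨h.cut hj hb, hB, hk.near (h.cfg.lev hj) (Bdd.tr h.pj.bdd h.cfg.bdd.2.2.2) ?_ ?_⟩
  · rw [RegC_ph_sub]
    exact Bdd.tr h.pj.bdd s2
  · have e : ph P (L.cut N j).θ - MV B (L.cut N j).x - (ph P L.θ - MV B L.x) =
        ph P ((L.cut N j).θ - L.θ) - MV B ((L.cut N j).x - L.x) := by
      funext k w i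
      simp [MV, ph, Fin.sum_univ_three]
      ring
    rw [e]
    exact (Bdd.tr h.pj.bdd s1).sub (Bdd.mv hB.bdd s2)

theorem St3.cut (h : St2 S L D P I σ B) (hj : ∀ k, j k ≤ L.n k) (hb : Big N fun k => j k)
    (hB : Mat S D B2 I) (hk : KnAll S j D (ph P L.x) (MV B L.θ + MV B2 L.x)) :
    St3 S (L.cut N j) D P I σ B B2 :=
  ⟨St2.cut h.st hj hb h.mat (h.rel.lev hj), hB,
    KnAll.cut h.st.cfg hj h.st.pj.bdd h.mat.bdd hB.bdd hk⟩

end Vale.Agent.P127S
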