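import Vale.Agent.P127S.RegB

/-! Transport of states: events, extensions, more side information, coarsening. -/

open Real Finset Filter Topology Vale.Agent.P118O

noncomputable section

namespace Vale.Agent.P127S

variable {N : ℕ → ℕ} {Ω Ω' α β γ δ : ℕ → Type} {S : Sp N Ω} {S' : Sp N Ω'} {m : RV Ω' Ω}
  {L : Ln Ω} {D : RV Ω δ} {D' : RV Ω γ} {P R B B2 : VV Ω M3} {I : Finset (Fin 3)} {σ : ℝ}
  {j n : ℕ → ℕ} {A : VV Ω Prop} {U W U' W' : VV Ω V3}

theorem regC0_c2 (h : Cfg S L D) (hA : pos S A) :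
    Le N (fun k => 3 * L.n k) (H (S.res A) (Q N L.n L.θ) D) :=
  (res_full hA h.lv (Kn.zero h.bdd.2.1 D) (fun _ => Nat.zero_le _)
    (h.c2.lin fun k => by simp)).lin fun k => by simp

/-- `c2`, `c3` by `res_full`; then `c1` by `res_le`, since `H (p i | C) ≥ H (θ[i] | D) ≳ 3 i` on
every event -/
theorem Cfg.res (h : Cfg S L D) (hA : pos S A) : Cfg (S.res A) L D := by
  refine ⟨h.lv, h.big, fun k ω hω => h.bd k ω (res_mem hω), h.lat.res A, h.dC.res A, h.dt.res A,
    fun i hi => ?_, regC0_c2 h hA, ?_⟩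
  · refine res_le hA ⟨3, fun k => ?_⟩ (h.c1 i hi) fun B hB => ?_
    · have h1 : (i k : ℝ) ≤ N k := Nat.cast_le.2 ((hi k).trans (h.lv k))
      rw [abs_of_nonneg (by positivity)]
      linarith
    · refine (full_lev hi (regC0_c2 h hB)).lin fun k => ?_
      have h1 := H_mono (S := S.res B) (X := Q N i L.θ) (Z := L.p N i)
        (DetS.refl _).right.left (h.dC.res B) k
      simp only [Fintype.card_fin, Nat.cast_ofNat]
      linarith
  · exact (res_full hA h.lv (Kn.zero (small_sc.2 h.bdd.2.2.1) (J (L.p N L.n) L.C))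
      (fun _ => Nat.zero_le _)
      (h.c3.lin fun k => by simp)).lin fun k => by simp

theorem Pj.res (h : Pj S D P I) (hA : pos S A) : Pj (S.res A) D P I :=
  ⟨h.det.res A, Small.res hA h.bdd, h.col, h.one⟩

theorem Mat.res (h : Mat S D R I) (hA : pos S A) : Mat (S.res A) D R I :=
  ⟨h.det.res A, Small.res hA h.bdd, h.col, h.row⟩

theorem Cw.res (h : Cfg S L D) (hw : Cw S L D D' j) (hA : pos S A) : Cw (S.res A) L D D' j :=
  ⟨hw.det.res A, hw.le, (res_full hA h.lv (h.kn_θ (Z := J D' (L.p N j)) (Kw.refl _).right) hw.le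
    (hw.c2.lin fun k => by simp)).lin fun k => by simp⟩

/-- `sat` by `res_le` and `r2w` (with `j1 = 0`) on every event -/
theorem St.res (h : St S L D P I σ) (hA : pos S A) : St (S.res A) L D P I σ := by
  refine ⟨h.cfg.res hA, h.pj.res hA, h.lb, h.hσ, ?_⟩
  refine res_le hA ⟨|qd σ I|, fun k => ?_⟩ h.sat fun B hB => ?_
  · rw [abs_mul, Nat.abs_cast]
    exact mul_le_mul_of_nonneg_left (Nat.cast_le.2 (h.cfg.lv k)) (abs_nonneg _)
  · have h0 : ∀ k, (fun _ => 0 : ℕ → ℕ) k ≤ L.n k := fun _ => Nat.zero_le _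
    refine (r2w (h.cfg.res hB) h.lb ((h.cfg.res hB).cw_self h0) (h.pj.res hB) h0
      fun _ => le_rfl).lin fun k => ?_
    have h1 := H_mono (S := S.res B) (X := Q N L.n (ph P L.x)) (Z := Q N L.n (ph P L.x))
      (W := J D (L.p N fun _ => 0)) (DetS.refl _).left (DetS.refl D).left k
    simp only [Nat.cast_zero, sub_zero]
    linarith

theorem KnAll.res (h : KnAll S n D U W) (hA : pos S A) : KnAll (S.res A) n D U W :=
  fun i hi => (h i hi).res hA

theorem St2.res (h : St2 S L D P I σ B) (hA : pos S A) : St2 (S.res A) L D P I σ B :=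
  ⟨h.st.res hA, h.mat.res hA, h.rel.res hA⟩

theorem St3.res (h : St3 S L D P I σ B B2) (hA : pos S A) : St3 (S.res A) L D P I σ B B2 :=
  ⟨h.st2.res hA, h.mat.res hA, h.rel.res hA⟩

theorem Cfg.pull (h : Cfg S L D) (e : Ext S S' m) : Cfg S' (L.pull m) (pl m D) := by
  have h0 := h.lat.pull e
  refine ⟨h.lv, h.big, fun k ω hω => h.bd k _ (e.1 k ω hω), h0, h.dC.pull e,
    h.dt.pull e, fun i hi => ?_, ?_, ?_⟩
  · have h1 := h.c1 i hi
    rw [← e.ent] at h1
    exact h1
  · have h1 := h.c2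
    rw [← e.ent] at h1
    exact h1
  · have h1 := h.c3
    rw [← e.ent] at h1
    exact h1

theorem Pj.pull (h : Pj S D P I) (e : Ext S S' m) : Pj S' (pl m D) (pl m P) I :=
  ⟨h.det.pull e, Small.pull e h.bdd, fun k _ => h.col k _, fun k _ => h.one k _⟩

theorem Mat.pull (h : Mat S D R I) (e : Ext S S' m) : Mat S' (pl m D) (pl m R) I :=
  ⟨h.det.pull e, Small.pull e h.bdd, fun k _ => h.col k _, fun k _ => h.row k _⟩

theorem St.pull (h : St S L D P I σ) (e : Ext S S' m) :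
    St S' (L.pull m) (pl m D) (pl m P) I σ := by
  refine ⟨h.cfg.pull e, h.pj.pull e, h.lb, h.hσ, ?_⟩
  have h1 := h.sat
  rw [← e.ent] at h1
  exact h1

theorem KnAll.pull (h : KnAll S n D U W) (e : Ext S S' m) :
    KnAll S' n (pl m D) (pl m U) (pl m W) :=
  fun i hi => (h i hi).pull e

theorem St2.pull (h : St2 S L D P I σ B) (e : Ext S S' m) :
    St2 S' (L.pull m) (pl m D) (pl m P) I σ (pl m B) :=
  ⟨h.st.pull e, h.mat.pull e, h.rel.pull e⟩

theorem St3.pull (h : St3 S L D P I σ B B2) (e : Ext S S' m) :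
    St3 S' (L.pull m) (pl m D) (pl m P) I σ (pl m B) (pl m B2) :=
  ⟨h.st2.pull e, h.mat.pull e, h.rel.pull e⟩

end Vale.Agent.P127S
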