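import Vale.Agent.P127S.Sys

/-! The two local estimates for systems of the first kind. -/

open Real Finset Vale.Agent.P118O

noncomputable section

namespace Vale.Agent.P127S

variable {Ω α τ υ : Type} {s : Finset Ω} {p : Ω → ℝ} {n : ℕ} {Y : Ω → Fin 2 → ℝ} {A : Ω → α}
  {T : Ω → τ} {g : Ω → ℝ} {a : Ω → Fin 2 → ℝ}

/-- the mass of the glued pairs whose digits of `g` at level `k + m` are neighbours -/
def inaP (s : Finset Ω) (p : Ω → ℝ) (A : Ω → α) (T : Ω → τ) (g : Ω → ℝ) (k m : ℕ) : ℝ :=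
  ms (glueS s (stK A T (qs k g)) s (stK A T (qs k g))) (glueP p s p (stK A T (qs k g)))
    (fun x => |qs (k + m) g x.2 - qs (k + m) g x.1| ≤ 1)

theorem StepP_cell {k : ℕ} {u v : ℝ} (e : ⌊(2 : ℝ) ^ k * u⌋ = ⌊(2 : ℝ) ^ k * v⌋) :
    |u - v| ≤ 1 / 2 ^ k := by
  have h := Int.abs_sub_lt_one_of_floor_eq_floor e
  have h2 : (0 : ℝ) < 2 ^ k := by positivity
  rw [← mul_sub, abs_mul, abs_of_pos h2] at h
  rw [le_div_iff₀ h2]
  linarith

theorem StepP_far {k : ℕ} {u v : ℝ} (e : ¬ |⌊(2 : ℝ) ^ k * v⌋ - ⌊(2 : ℝ) ^ k * u⌋| ≤ 1) :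
    1 / 2 ^ k ≤ |u - v| := by
  have h2 : (0 : ℝ) < 2 ^ k := by positivity
  rw [div_le_iff₀ h2]
  have e1 : |u - v| * 2 ^ k = |2 ^ k * u - 2 ^ k * v| := by
    rw [← mul_sub, abs_mul, abs_of_pos h2, mul_comm]
  rw [e1]
  have a1 := Int.floor_le ((2 : ℝ) ^ k * u)
  have a2 := Int.lt_floor_add_one ((2 : ℝ) ^ k * u)
  have a3 := Int.floor_le ((2 : ℝ) ^ k * v)
  have a4 := Int.lt_floor_add_one ((2 : ℝ) ^ k * v)
  rw [abs_le, not_and_or] at e
  rcases e with e | e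
  · have : ⌊(2 : ℝ) ^ k * v⌋ + 2 ≤ ⌊(2 : ℝ) ^ k * u⌋ := by omega
    have h3 : ((⌊(2 : ℝ) ^ k * v⌋ : ℤ) : ℝ) + 2 ≤ ⌊(2 : ℝ) ^ k * u⌋ := by exact_mod_cast this
    exact le_trans (by linarith) (le_abs_self _)
  · have : ⌊(2 : ℝ) ^ k * u⌋ + 2 ≤ ⌊(2 : ℝ) ^ k * v⌋ := by omega
    have h3 : ((⌊(2 : ℝ) ^ k * u⌋ : ℤ) : ℝ) + 2 ≤ ⌊(2 : ℝ) ^ k * v⌋ := by exact_mod_cast this
    exact le_trans (by linarith) (neg_le_abs _)

/-- the data known after one glued step -/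
def StepPZ (Y : Ω → Fin 2 → ℝ) (g : Ω → ℝ) : Ω × Ω → ℝ × (Fin 2 → ℝ) × ℝ :=
  pj (fun x => g x.2) (pj (fun x => Y x.1) (fun x => g x.1))

theorem StepP_info (h : IsP s p) (k : ℕ) :
    ce (glueS s (stK A T (qs k g)) s (stK A T (qs k g))) (glueP p s p (stK A T (qs k g)))
        (fun x => T x.1) (nil (Ω × Ω)) -
      ce (glueS s (stK A T (qs k g)) s (stK A T (qs k g))) (glueP p s p (stK A T (qs k g)))
        (fun x => T x.1) (StepPZ Y g) ≤ 2 * dfc s p Y A T g := by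
  set K := stK A T (qs k g) with hK
  have hS := glue_prob h K
  have e1 : ce (glueS s K s K) (glueP p s p K) (fun x => T x.1) (nil (Ω × Ω)) =
      ce s p T (nil Ω) := ce_law (glue_law1 h K) T (nil Ω)
  have e2 : ce (glueS s K s K) (glueP p s p K) (fun x => T x.1)
      (pj (fun x => Y x.1) (fun x => g x.1)) = ce s p T (pj Y g) :=
    ce_law (glue_law1 h K) T (pj Y g)
  have e3 := ce_cond hS (fun x => T x.1) (fun x => g x.2) (pj (fun x => Y x.1) (fun x => g x.1))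
  have e4 : ce (glueS s K s K) (glueP p s p K) (fun x => g x.2)
      (pj (fun x => Y x.1) (fun x => g x.1)) ≤
      ce (glueS s K s K) (glueP p s p K) (fun x => g x.2) (fun x => pj (qs k g) (nil Ω) x.2) := by
    refine ce_mono hS (fun _ _ _ _ e => (Prod.mk.inj e).1) fun x hx x' hx' e => ?_
    have b1 : qs k g x.1 = qs k g x.2 := (Prod.mk.inj (Prod.mk.inj (glue_mem.1 hx).2.2).2).2
    have b2 : qs k g x'.1 = qs k g x'.2 := (Prod.mk.inj (Prod.mk.inj (glue_mem.1 hx').2.2).2).2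
    have b3 : g x.1 = g x'.1 := (Prod.mk.inj e).2
    refine Prod.ext ?_ rfl
    change qs k g x.2 = qs k g x'.2
    rw [← b1, ← b2, qs, qs, b3]
  have e5 : ce (glueS s K s K) (glueP p s p K) (fun x => g x.2)
      (fun x => pj (qs k g) (nil Ω) x.2) = ce s p g (pj (qs k g) (nil Ω)) :=
    ce_law (glue_law2 h K) g (pj (qs k g) (nil Ω))
  have e6 : ce (glueS s K s K) (glueP p s p K) (fun x => g x.2)
      (fun x => pj K (pj Y g) x.1) ≤ ce (glueS s K s K) (glueP p s p K) (fun x => g x.2)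
      (pj (fun x => T x.1) (pj (fun x => Y x.1) (fun x => g x.1))) := by
    refine ce_mono hS (fun _ _ _ _ e => (Prod.mk.inj e).1) fun x _ x' _ e => ?_
    exact Prod.ext (Prod.mk.inj (Prod.mk.inj (Prod.mk.inj e).1).2).1 (Prod.mk.inj e).2
  have e7 := glue_ce h K (pj K (pj Y g)) g (fun _ _ _ _ e => (Prod.mk.inj e).1)
  have e8 : ce s p g (pj (qs k g) (pj A T)) ≤ ce s p g K := by
    refine ce_mono h (fun _ _ _ _ e => (Prod.mk.inj e).1) fun x _ x' _ e => ?_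
    exact Prod.ext (Prod.mk.inj (Prod.mk.inj e).2).1
      (Prod.ext (Prod.mk.inj (Prod.mk.inj e).2).2 (Prod.mk.inj e).1)
  have hz : Det s (qs k g) g := fun x _ x' _ e => by rw [qs, qs, e]
  have e9 := Fin_chain h hz (nil Ω)
  have e10 := Fin_chain h hz (pj A T)
  have e11 : ce s p (qs k g) (pj A T) ≤ ce s p (qs k g) (nil Ω) :=
    ce_mono h (fun _ _ _ _ e => (Prod.mk.inj e).1) fun _ _ _ _ _ => rfl
  have e12 := dfc_TYG h Y A T g
  have e13 := dfc_GAT h Y A T g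
  unfold StepPZ
  linarith

theorem StepP_glue {k : ℕ} {x : Ω × Ω} (h : SysP s p n Y A T g a)
    (hx : x ∈ glueS s (stK A T (qs k g)) s (stK A T (qs k g))) :
    ‖Y x.2 - Y x.1 - (g x.1 - g x.2) • a x.1‖ ≤ 1 / 2 ^ n ∧ |g x.1 - g x.2| ≤ 1 / 2 ^ k := by
  obtain ⟨h1, h2, h3⟩ := glue_mem.1 hx
  exact ⟨h.rel _ h1 _ h2 (Prod.mk.inj h3).1 (Prod.mk.inj (Prod.mk.inj h3).2).1,
    StepP_cell (Prod.mk.inj (Prod.mk.inj h3).2).2⟩

theorem StepP_six (h : SysP s p n Y A T g a) {k k' : ℕ} (hn : k + k' ≤ n) :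
    ce (glueS s (stK A T (qs k g)) s (stK A T (qs k g))) (glueP p s p (stK A T (qs k g)))
      (qv (k + k') fun x => Y x.2) (pj (qv k' fun x => a x.1) (StepPZ Y g)) ≤ 6 := by
  have hS := glue_prob h.isP (stK A T (qs k g))
  have := ce_near hS (k + k') (fun x => Y x.2)
    (fun x => Y x.1 + (g x.1 - g x.2) • dz k' (a x.1)) (pj (qv k' fun x => a x.1) (StepPZ Y g))
    (x := 1) ?_ zero_le_one ?_
  · norm_num at this
    linarith
  · intro x _ x' _ e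
    have b1 : qz k' (a x.1) = qz k' (a x'.1) := (Prod.mk.inj e).1
    have b2 : g x.2 = g x'.2 := (Prod.mk.inj (Prod.mk.inj e).2).1
    have b3 : Y x.1 = Y x'.1 := (Prod.mk.inj (Prod.mk.inj (Prod.mk.inj e).2).2).1
    have b4 : g x.1 = g x'.1 := (Prod.mk.inj (Prod.mk.inj (Prod.mk.inj e).2).2).2
    simp only [dz, b1, b2, b3, b4]
  · intro x hx
    obtain ⟨c1, c2⟩ := StepP_glue h hx
    have e : Y x.2 - (Y x.1 + (g x.1 - g x.2) • dz k' (a x.1)) =
        (Y x.2 - Y x.1 - (g x.1 - g x.2) • a x.1) + (g x.1 - g x.2) • (a x.1 - dz k' (a x.1)) := by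
      rw [smul_sub]; abel
    rw [e]
    refine (norm_add_le _ _).trans ?_
    rw [norm_smul, norm_eq_abs]
    have c3 := mul_le_mul c2 (dz_close k' (a x.1)) (norm_nonneg _) (by positivity)
    have c4 : (1 : ℝ) / 2 ^ n ≤ 1 / 2 ^ (k + k') :=
      one_div_le_one_div_of_le (by positivity) (pow_le_pow_right₀ one_le_two hn)
    have c5 : (1 : ℝ) / 2 ^ k * (1 / 2 ^ k') = 1 / 2 ^ (k + k') := by
      rw [pow_add]; field_simp
    have c6 : (2 : ℝ) ^ (1 : ℝ) / 2 ^ (k + k') = 1 / 2 ^ (k + k') + 1 / 2 ^ (k + k') := by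
      rw [rpow_one]; ring
    linarith

theorem StepP_near (h : SysP s p n Y A T g a) {k k' R : ℕ} (m : ℕ) (hn : k + k' + R ≤ n)
    {x : Ω × Ω} (hx : x ∈ glueS s (stK A T (qs k g)) s (stK A T (qs k g)))
    (hE : ¬ |qs (k + m) g x.2 - qs (k + m) g x.1| ≤ 1) :
    ‖a x.1 - (g x.1 - g x.2)⁻¹ • (dz (k + k' + R) (Y x.2) - Y x.1)‖ ≤
      (2 : ℝ) ^ ((m : ℝ) + 1) / 2 ^ (k' + R) := by
  obtain ⟨c1, -⟩ := StepP_glue h hx
  have c2 : 1 / 2 ^ (k + m) ≤ |g x.1 - g x.2| := StepP_far hE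
  have c0 : (0 : ℝ) < 1 / 2 ^ (k + m) := by positivity
  have c3 : g x.1 - g x.2 ≠ 0 := abs_pos.1 (c0.trans_le c2)
  have e : a x.1 - (g x.1 - g x.2)⁻¹ • (dz (k + k' + R) (Y x.2) - Y x.1) =
      (g x.1 - g x.2)⁻¹ • ((Y x.2 - dz (k + k' + R) (Y x.2)) -
        (Y x.2 - Y x.1 - (g x.1 - g x.2) • a x.1)) := by
    have : a x.1 = (g x.1 - g x.2)⁻¹ • ((g x.1 - g x.2) • a x.1) := by
      rw [smul_smul, inv_mul_cancel₀ c3, one_smul]
    conv_lhs => rw [this, ← smul_sub]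
    congr 1
    abel
  rw [e, norm_smul, norm_inv, norm_eq_abs]
  have c4 : (1 : ℝ) / 2 ^ n ≤ 1 / 2 ^ (k + k' + R) :=
    one_div_le_one_div_of_le (by positivity) (pow_le_pow_right₀ one_le_two hn)
  have c5 : ‖(Y x.2 - dz (k + k' + R) (Y x.2)) - (Y x.2 - Y x.1 - (g x.1 - g x.2) • a x.1)‖ ≤
      2 * (1 / 2 ^ (k + k' + R)) := by
    refine (norm_sub_le _ _).trans ?_
    linarith [dz_close (k + k' + R) (Y x.2)]
  have c6 : |g x.1 - g x.2|⁻¹ ≤ 2 ^ (k + m) := by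
    have := inv_anti₀ c0 c2
    rwa [one_div, inv_inv] at this
  refine (mul_le_mul c6 c5 (norm_nonneg _) (by positivity)).trans (le_of_eq ?_)
  rw [rpow_add two_pos, rpow_natCast, rpow_one]
  field_simp
  ring

theorem StepP_ev {Θ β : Type} {S : Finset Θ} {P : Θ → ℝ} (hS : IsP S P) (j : ℕ)
    (X f f' : Θ → Fin 2 → ℝ) (C : Θ → β) (B : Θ → Prop) (hf : Det S f C) (hf' : Det S f' C)
    (m R : ℕ) (h1 : ∀ x ∈ S, ¬ B x → ‖X x - f x‖ ≤ (2 : ℝ) ^ ((m : ℝ) + 1) / 2 ^ j)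
    (h2 : ∀ x ∈ S, ‖X x - f' x‖ ≤ (2 : ℝ) ^ (R : ℝ) / 2 ^ j) {ε : ℝ} (hε : ms S P B ≤ ε) :
    ce S P (qv j X) C ≤ 2 * m + 11 + 2 * R * ε := by
  have key := ce_event hS (qv j X) C (fun x => ¬ B x)
    (fun ω hω => cnt_near j X f C (fun x => ¬ B x) hf (by positivity) h1 hω)
    (fun ω hω => cnt_near j X f' C (fun _ => True) hf' (by positivity) (fun x hx _ => h2 x hx) hω)
  have b1 := ms_not hS B
  have b2 := ms_not hS (fun x => ¬ B x)
  have b3 := ms_ge_zero hS B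
  have b4 := ms_ge_zero hS (fun x => ¬ B x)
  rw [b2, b1] at key
  rw [b1] at b4
  simp only [Fintype.card_fin, Nat.cast_ofNat] at key
  have hm : (0 : ℝ) ≤ m := Nat.cast_nonneg m
  have hR : (0 : ℝ) ≤ R := Nat.cast_nonneg R
  have b5 := mul_le_mul_of_nonneg_left hε hR
  have b6 := mul_nonneg b3 hm
  nlinarith

theorem StepP_back (h : SysP s p n Y A T g a) {k k' R : ℕ} (m : ℕ) (hn : k + k' + R ≤ n) {ε : ℝ}
    (hε : inaP s p A T g k m ≤ ε) :
    ce (glueS s (stK A T (qs k g)) s (stK A T (qs k g))) (glueP p s p (stK A T (qs k g)))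
      (qv (k' + R) fun x => a x.1)
      (pj (qv (k + k' + R) fun x => Y x.2) (pj (qv k' fun x => a x.1) (StepPZ Y g))) ≤
      2 * m + 11 + 2 * R * ε := by
  refine StepP_ev (glue_prob h.isP (stK A T (qs k g))) (k' + R) _
    (fun x => (g x.1 - g x.2)⁻¹ • (dz (k + k' + R) (Y x.2) - Y x.1)) (fun x => dz k' (a x.1)) _ _
    ?_ ?_ m R (fun x hx hE => StepP_near h m hn hx hE) ?_ hε
  · intro x _ x' _ e
    have b0 : qz (k + k' + R) (Y x.2) = qz (k + k' + R) (Y x'.2) := (Prod.mk.inj e).1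
    have e' := (Prod.mk.inj (Prod.mk.inj e).2).2
    have b2 : g x.2 = g x'.2 := (Prod.mk.inj e').1
    have b3 : Y x.1 = Y x'.1 := (Prod.mk.inj (Prod.mk.inj e').2).1
    have b4 : g x.1 = g x'.1 := (Prod.mk.inj (Prod.mk.inj e').2).2
    simp only [dz, b0, b2, b3, b4]
  · intro x _ x' _ e
    have b1 : qz k' (a x.1) = qz k' (a x'.1) := (Prod.mk.inj (Prod.mk.inj e).2).1
    simp only [dz, b1]
  · intro x _
    refine (dz_close k' (a x.1)).trans (le_of_eq ?_)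
    rw [rpow_natCast, pow_add]
    field_simp

theorem StepP_one (h : SysP s p n Y A T g a) {k k' R : ℕ} (m : ℕ) (hn : k + k' + R ≤ n) {ε : ℝ}
    (hε : inaP s p A T g k m ≤ ε) :
    max 0 (ce s p (qv (k' + R) a) (qv k' a) - ce s p (qv (k + k' + R) Y) (qv (k + k') Y)) ≤
      2 * m + 20 + 2 * R * ε +
      (ce (glueS s (stK A T (qs k g)) s (stK A T (qs k g))) (glueP p s p (stK A T (qs k g)))
        (qv (k' + R) fun x => a x.1) (pj (qv k' fun x => a x.1) (nil (Ω × Ω))) -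
      ce (glueS s (stK A T (qs k g)) s (stK A T (qs k g))) (glueP p s p (stK A T (qs k g)))
        (qv (k' + R) fun x => a x.1) (pj (qv k' fun x => a x.1) (StepPZ Y g))) := by
  have e6 := StepP_six h (k := k) (k' := k') (by omega)
  have e7 := StepP_back h m hn hε
  have hε0 : 0 ≤ ε := (ms_ge_zero (glue_prob h.isP (stK A T (qs k g))) _).trans hε
  set K := stK A T (qs k g) with hK
  have hS := glue_prob h.isP K
  have e1 : ce (glueS s K s K) (glueP p s p K) (qv (k' + R) fun x => a x.1)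
      (pj (qv k' fun x => a x.1) (nil (Ω × Ω))) = ce s p (qv (k' + R) a) (pj (qv k' a) (nil Ω)) :=
    ce_law (glue_law1 h.isP K) (qv (k' + R) a) (pj (qv k' a) (nil Ω))
  have e1' : ce s p (qv (k' + R) a) (qv k' a) ≤ ce s p (qv (k' + R) a) (pj (qv k' a) (nil Ω)) :=
    ce_mono h.isP (fun _ _ _ _ e => (Prod.mk.inj e).1) fun _ _ _ _ e => Prod.ext e rfl
  have e2 : ce (glueS s K s K) (glueP p s p K) (qv (k + k' + R) fun x => Y x.2)
      (qv (k + k') fun x => Y x.2) = ce s p (qv (k + k' + R) Y) (qv (k + k') Y) :=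
    ce_law (glue_law2 h.isP K) (qv (k + k' + R) Y) (qv (k + k') Y)
  have e3 := ce_le_add hS (qv (k + k' + R) fun x => Y x.2) (qv (k + k') fun x => Y x.2)
    (pj (qv k' fun x => a x.1) (StepPZ Y g))
  have e4 : ce (glueS s K s K) (glueP p s p K) (qv (k + k' + R) fun x => Y x.2)
      (pj (qv (k + k') fun x => Y x.2) (pj (qv k' fun x => a x.1) (StepPZ Y g))) ≤
      ce (glueS s K s K) (glueP p s p K) (qv (k + k' + R) fun x => Y x.2)
      (qv (k + k') fun x => Y x.2) :=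
    ce_mono hS (fun _ _ _ _ e => (Prod.mk.inj e).1) fun _ _ _ _ e => (Prod.mk.inj e).1
  have e5 := ce_le_add hS (qv (k' + R) fun x => a x.1) (qv (k + k' + R) fun x => Y x.2)
    (pj (qv k' fun x => a x.1) (StepPZ Y g))
  have e8 : ce (glueS s K s K) (glueP p s p K) (qv (k' + R) fun x => a x.1)
      (pj (qv k' fun x => a x.1) (StepPZ Y g)) ≤ ce (glueS s K s K) (glueP p s p K)
      (qv (k' + R) fun x => a x.1) (pj (qv k' fun x => a x.1) (nil (Ω × Ω))) :=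
    ce_mono hS (fun _ _ _ _ e => (Prod.mk.inj e).1) fun _ _ _ _ e => Prod.ext (Prod.mk.inj e).1 rfl
  have hm : (0 : ℝ) ≤ m := Nat.cast_nonneg m
  have hR : (0 : ℝ) ≤ R * ε := mul_nonneg (Nat.cast_nonneg R) hε0
  refine max_le ?_ ?_ <;> linarith

/-- One glued step. With `Cn = (Y, g, g', a[k'])` and `j = k + k'`:
`ce Y'[j+R] Y'[j] ≥ ce Y'[j+R] Cn - ce Y'[j] Cn`, `ce Y'[j] Cn ≤ 6` (`ce_near`),
`ce Y'[j+R] Cn ≥ ce a[k'+R] Cn - ce a[k'+R] (Cn, Y'[j+R])`, the last term is at most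
`1 + 2 (m + 3) + 2 (R + 2) ε'`, `ε' ≤ min ε 1` (`ce_event`, `cnt_near`: `|g - g'| ≥ 1 / 2 ^ (k + m)` off the bad event),
and `tele_info` bounds the total loss by `R I (T; Y, g, g') ≤ 2 R dfc`. -/
theorem stepP (h : SysP s p n Y A T g a) (k m R N : ℕ) (hN : k + N + R ≤ n) {ε : ℝ}
    (hε : inaP s p A T g k m ≤ ε) :
    ∑ k' ∈ range N, max 0 (ce s p (qv (k' + R) a) (qv k' a) -
        ce s p (qv (k + k' + R) Y) (qv (k + k') Y)) ≤
      N * (2 * m + 20 + 2 * R * ε) + 2 * R * dfc s p Y A T g := by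
  have hS := glue_prob h.isP (stK A T (qs k g))
  refine (sum_le_sum fun k' hk' =>
    StepP_one h (k := k) (k' := k') (R := R) m (by have := mem_range.1 hk'; omega) hε).trans ?_
  rw [sum_add_distrib, sum_const, card_range, nsmul_eq_mul]
  refine add_le_add le_rfl ?_
  refine (tele_info hS (fun k' => qv k' fun x => a x.1)
    (fun k' => det_qv (Nat.le_succ k') _) (nil (Ω × Ω)) (StepPZ Y g) (fun _ _ _ _ _ => rfl) R N).trans ?_
  have e1 := info_mono hS (X := fun x => T x.1) (V := qv (N + R) fun x => a x.1) (nil (Ω × Ω))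
    (StepPZ Y g) (fun x hx x' hx' e => by
      have := h.det _ (glue_mem.1 hx).1 _ (glue_mem.1 hx').1 (Prod.mk.inj e).1
      simp only [qv, this]) (fun _ _ _ _ _ => rfl)
  have e2 := StepP_info (Y := Y) (A := A) (T := T) (g := g) h.isP k
  have e3 := mul_le_mul_of_nonneg_left (e1.trans e2) (Nat.cast_nonneg (α := ℝ) R)
  linarith

end Vale.Agent.P127S
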