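import Vale.Agent.P127S.StepQA

/-! Local estimate, second kind. -/

open Real Finset Vale.Agent.P118O

noncomputable section

namespace Vale.Agent.P127S

variable {Ω α τ υ : Type} {s : Finset Ω} {p : Ω → ℝ} {n : ℕ} {Y : Ω → Unit → ℝ} {A : Ω → α}
  {T : Ω → τ} {G : Ω → Fin 2 → ℝ} {a : Ω → Fin 2 → ℝ}

theorem stepQ_act {ε ν x D d : ℝ} {L L1 k k' : ℕ} (h : SysQ s p n Y A T G a)
    (hν0 : 0 ≤ ν) (hν : ν ≤ 1 / 2 ^ L1) (hm : L1 ≤ 2 * L)
    (hc : ∀ ω ∈ s, (cnt s (qv (k + L1) G) (qv k G) (fun _ => True) ω : ℝ) ≤ (2 : ℝ) ^ x)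
    (he : x - D ≤ ce s p (qv (k + L1) G) (pj (qv k G) (pj A T))) (hD : 0 ≤ D) (hε : 0 < ε)
    (h1 : D + 1 ≤ ε * (x + d - 2 * L1 - 14))
    (h2 : ∀ ω ∈ s, ms s p (fun ω' => qv (k' + L1) a ω' = qv (k' + L1) a ω) ≤
        (2 : ℝ) ^ (-d) * ms s p (fun ω' => qv k' a ω' = qv k' a ω)) :
    ms (glueS s (stK A T (qv k G)) s (stK A T (qv k G))) (glueP p s p (stK A T (qv k G)))
      (fun z => ¬ Spr (sqA s (qv (k' + 2 * L) a) (qv k' a) (qv k' a z.1))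
        (sqQ s p (qv (k' + 2 * L) a) (qv k' a) (qv k' a z.1))
        (fun b (_ : Unit) => dot2 (cor (k' + 2 * L) b - cor k' (qv k' a z.1)) (G z.1 - G z.2))
        (ν / 2 ^ (k + k'))) ≤ ε := by
  classical
  have hP := h.isP
  have hy : ∀ ω ∈ s, ∀ b ∈ sqA s (qv (k' + 2 * L) a) (qv k' a) (qv k' a ω), ∀ i,
      0 ≤ sqY k' (2 * L) (qv k' a ω) b i ∧ sqY k' (2 * L) (qv k' a ω) b i ≤ 1 := by
    intro ω _ b hb i
    obtain ⟨ω', _, e1, e2⟩ := sqA_mem.1 hb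
    rw [← e1, ← e2]
    exact sqY_mem k' (2 * L) (a ω') i
  set Bd : Ω → (Fin 2 → ℤ) → Prop := fun ω v =>
    vr (sqA s (qv (k' + 2 * L) a) (qv k' a) (qv k' a ω))
      (sqQ s p (qv (k' + 2 * L) a) (qv k' a) (qv k' a ω))
      (fun b => dot2 (sqY k' (2 * L) (qv k' a ω) b)
        (fun i => ((qv (k + L1) G ω i - v i : ℤ) : ℝ))) < 9 with hBd
  have hcnt : ∀ ω ∈ s, (cnt s (qv (k + L1) G) (qv k G) (fun ω' => Bd ω (qv (k + L1) G ω')) ω : ℝ) ≤
      (2 : ℝ) ^ (2 * (L1 : ℝ) - d + 14) := by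
    intro ω hω
    have hr := rank _ _ (sq_isP hP h.pos (qv (k' + 2 * L) a) (qv k' a) hω)
      (sqY k' (2 * L) (qv k' a ω)) (hy ω hω) L1 (D := d) ?_
      (((s.filter (fun ω' => qv k G ω' = qv k G ω ∧ Bd ω (qv (k + L1) G ω'))).image
        (qv (k + L1) G)).image (fun v => qv (k + L1) G ω - v)) ?_
    · rw [Finset.card_image_of_injective _ (fun v v' e => sub_right_injective e)] at hr
      refine le_trans (le_of_eq ?_) hr
      unfold cnt
      congr 2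
      ext v
      simp only [Finset.mem_image, Finset.mem_filter]
    · intro b hb
      obtain ⟨ω', hω', e1, e2⟩ := sqA_mem.1 hb
      rw [sq_ms]
      have h0 : 0 < ms s p (fun ω'' => qv k' a ω'' = qv k' a ω) := stepQ_ms_pos hP h.pos hω rfl
      rw [div_le_iff₀ h0]
      have h3 := h2 ω' hω'
      rw [e1] at h3
      refine le_trans (ms_imp hP fun ω'' _ hh => ?_) h3
      have h4 := hh.1
      rw [← e2] at h4
      unfold qv at h4
      rw [sqY_qz _ _ _ hm, sqY_qz _ _ _ hm] at h4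
      funext i
      have := congrFun h4 i
      unfold qv
      linarith
    · intro z hz
      obtain ⟨v, hv, rfl⟩ := Finset.mem_image.1 hz
      obtain ⟨ω', hω', rfl⟩ := Finset.mem_image.1 hv
      obtain ⟨_, e1, e2⟩ := Finset.mem_filter.1 hω'
      exact ⟨fun i => stepQ_cell e1.symm i, e2⟩
  have hK : x - D ≤ ce s p (qv (k + L1) G) (stK A T (qv k G)) := by
    refine he.trans (ce_mono hP (fun ω _ ω' _ e => (Prod.ext_iff.1 e).1) fun ω _ ω' _ e => ?_)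
    have e1 := (Prod.ext_iff.1 e).1
    have e2 := Prod.ext_iff.1 (Prod.ext_iff.1 e).2
    exact Prod.ext e2.1 (Prod.ext e2.2 e1)
  have hf := glue_fano hP (stK A T (qv k G)) (qv (k + L1) G) (qv k G)
    (fun ω _ ω' _ e => (Prod.ext_iff.1 (Prod.ext_iff.1 e).2).2) Bd hc hcnt hK
  have ht : 0 < x + d - 2 * L1 - 14 := by
    by_contra hn
    have : ε * (x + d - 2 * L1 - 14) ≤ 0 := mul_nonpos_of_nonneg_of_nonpos hε.le (not_lt.1 hn)
    linarith
  have hle : ms (glueS s (stK A T (qv k G)) s (stK A T (qv k G))) (glueP p s p (stK A T (qv k G)))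
      (fun z => Bd z.1 (qv (k + L1) G z.2)) ≤ ε := by
    have e : x - (2 * (L1 : ℝ) - d + 14) = x + d - 2 * L1 - 14 := by ring
    rw [e] at hf
    exact le_of_mul_le_mul_right (hf.trans h1) ht
  refine le_trans (ms_imp (glue_prob hP _) fun z hz hn => ?_) hle
  obtain ⟨hz1, _, _⟩ := glue_mem.1 hz
  by_contra hb
  refine hn (stepQ_spr (sq_isP hP h.pos (qv (k' + 2 * L) a) (qv k' a) hz1)
    (sqY k' (2 * L) (qv k' a z.1)) (hy z.1 hz1) (G z.1) (G z.2) k k' L1 hν0 hν _ ?_ (not_lt.1 hb))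
  intro b _
  simp only [dot2, sqY, Pi.sub_apply]
  field_simp

theorem stepQ_one {ε ν x D d : ℝ} {M L L1 k k' j : ℕ} (hs : SatP ε ν M L)
    (h : SysQ s p n Y A T G a) (hν0 : 0 ≤ ν) (hν : ν ≤ 1 / 2 ^ L1) (hm : L1 ≤ 2 * L)
    (hc : ∀ ω ∈ s, (cnt s (qv (k + L1) G) (qv k G) (fun _ => True) ω : ℝ) ≤ (2 : ℝ) ^ x)
    (he : x - D ≤ ce s p (qv (k + L1) G) (pj (qv k G) (pj A T))) (hD : 0 ≤ D) (hε : 0 < ε)
    (h1 : D + 1 ≤ ε * (x + d - 2 * L1 - 14))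
    (h2 : ∀ ω ∈ s, ms s p (fun ω' => qv (k' + L1) a ω' = qv (k' + L1) a ω) ≤
        (2 : ℝ) ^ (-d) * ms s p (fun ω' => qv k' a ω' = qv k' a ω))
    (hj : j + L + M = k + k') (hn : k + k' + 2 * L ≤ n)
    {sK : Finset (Fin (4 ^ L) → Ω × Ω)} {pK : (Fin (4 ^ L) → Ω × Ω) → ℝ}
    (hch : StCh s p Y A T (qv k G) (4 ^ L) sK pK) (r0 : Fin (4 ^ L)) (h0 : r0.val = 0)
    (hkl : (4 : ℝ) ^ L * ce s p (qv (k' + 2 * L) a) (qv k' a) -
      ce sK pK (fun x r => qv (k' + 2 * L) a (x r).1) (chC r0 Y (qv k' a) G) ≤ 1) :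
    (1 - 4 * ε) * L ≤ ce s p (qv (j + L) Y) (qv j Y) := by
  have hP := h.isP
  have hG : ∀ ω ω', stK A T (qv k G) ω = stK A T (qv k G) ω' → ∀ i,
      |(G ω - G ω') i| ≤ 1 / 2 ^ k := by
    intro ω ω' e i
    have e1 : qz k (G ω) = qz k (G ω') := (Prod.ext_iff.1 (Prod.ext_iff.1 e).2).2
    exact (norm_le_pi_norm (G ω - G ω') i).trans (qz_close e1)
  have key := stch_sat hs (ι := Unit) (by simp) hP hch r0 h0 (qv (k' + 2 * L) a) (qv k' a) G
    (sqA s (qv (k' + 2 * L) a) (qv k' a)) (sqQ s p (qv (k' + 2 * L) a) (qv k' a))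
    (fun v c c' _ => dot2 (cor k' v) (c - c'))
    (fun v c c' b _ => dot2 (cor (k' + 2 * L) b - cor k' v) (c - c')) j
    (fun ω hω => sqA_mem.2 ⟨ω, hω, rfl, rfl⟩)
    (fun ω hω => ⟨sq_pos hP h.pos _ _ _, sq_sum hP h.pos _ _ hω⟩) ?_ ?_ ?_ ?_
  · simpa using key
  · intro ω _ ω' _ e b hb
    obtain ⟨ω'', _, e1, e2⟩ := sqA_mem.1 hb
    rw [pi_norm_le_iff_of_nonneg (by positivity)]
    intro _
    have h3 : ∀ i, |(cor (k' + 2 * L) b - cor k' (qv k' a ω)) i| ≤ 1 / 2 ^ k' := by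
      intro i
      have h4 := sqY_mem k' (2 * L) (a ω'') i
      rw [← e1, ← e2]
      have h5 : (0 : ℝ) < 2 ^ k' := by positivity
      have e3 : (cor (k' + 2 * L) (qv (k' + 2 * L) a ω'') - cor k' (qv k' a ω'')) i =
          sqY k' (2 * L) (qz k' (a ω'')) (qz (k' + 2 * L) (a ω'')) i / 2 ^ k' := by
        simp only [sqY, qv, Pi.sub_apply]
        field_simp
      rw [e3, abs_of_nonneg (div_nonneg h4.1 h5.le)]
      exact div_le_div_of_nonneg_right h4.2 h5.le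
    refine (stepQ_dot_le h3 (hG ω ω' e)).trans ?_
    rw [hj, pow_add]
    have : (0 : ℝ) < 2 ^ k * 2 ^ k' := by positivity
    rw [le_div_iff₀ this]
    field_simp
    norm_num
  · intro ω hω ω' hω' e
    rw [pi_norm_le_iff_of_nonneg (by positivity)]
    intro _
    have h3 := h.rel ω hω ω' hω' (Prod.ext_iff.1 e).1 (Prod.ext_iff.1 (Prod.ext_iff.1 e).2).1
    have h4 : ∀ i, |(a ω - dz (k' + 2 * L) (a ω)) i| ≤ 1 / 2 ^ (k' + 2 * L) := fun i =>
      (norm_le_pi_norm (a ω - dz (k' + 2 * L) (a ω)) i).trans (dz_close _ _)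
    have h5 := stepQ_dot_le h4 (hG ω ω' e)
    have e1 : (Y ω' - Y ω - (fun _ => dot2 (cor k' (qv k' a ω)) (G ω - G ω')) -
        (fun _ => dot2 (cor (k' + 2 * L) (qv (k' + 2 * L) a ω) - cor k' (qv k' a ω))
          (G ω - G ω')) : Unit → ℝ) () =
        (Y ω' () - Y ω () - dot2 (a ω) (G ω - G ω')) +
          dot2 (a ω - dz (k' + 2 * L) (a ω)) (G ω - G ω') := by
      simp only [dot2, dz, qv, Pi.sub_apply]
      ring
    change |(Y ω' - Y ω - (fun _ => dot2 (cor k' (qv k' a ω)) (G ω - G ω')) -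
        (fun _ => dot2 (cor (k' + 2 * L) (qv (k' + 2 * L) a ω) - cor k' (qv k' a ω))
          (G ω - G ω')) : Unit → ℝ) ()| ≤ _
    rw [e1]
    refine (abs_add_le _ _).trans ?_
    have h6 : (1 : ℝ) / 2 ^ n ≤ 1 / 2 ^ (k + k' + 2 * L) :=
      one_div_le_one_div_of_le (by positivity) (pow_le_pow_right₀ (by norm_num) hn)
    have e2 : (8 : ℝ) / 2 ^ (j + L + M) / 4 ^ L = 8 * (1 / 2 ^ (k + k' + 2 * L)) := by
      rw [hj, pow_add 2 (k + k') (2 * L), pow_mul]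
      field_simp
      norm_num
    have e3 : (2 : ℝ) * (1 / 2 ^ (k' + 2 * L) * (1 / 2 ^ k)) = 2 * (1 / 2 ^ (k + k' + 2 * L)) := by
      rw [add_assoc k, pow_add 2 k]
      field_simp
    have h7 : (0 : ℝ) < 1 / 2 ^ (k + k' + 2 * L) := by positivity
    rw [e2]
    rw [e3] at h5
    linarith
  · rw [hj]
    exact stepQ_act h hν0 hν hm hc he hD hε h1 h2
  · rw [ce_eq_ex hP] at hkl
    exact hkl

open Classical in
/-- One chain for `ζ = qv k G` (`stch_ex`), `c = G`. For each `k'` use `stch_sat` with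
`w = qv k' a`, `u = qv (k' + 2 L) a`, `Q w` the conditional law of `u` given `w` on the values that
occur,
`m w c c' = dot2 (cor k' w) (c - c')`, `ξ w c c' z = dot2 (cor (k' + 2 L) z - cor k' w) (c - c')`.
A step is spread if the integer vector `z = G[k+L1] - G'[k+L1]` has variance at least `9` for
`y = 2 ^ k' • (cor (k' + 2 L) u - cor k' w)`; `rank` and `glue_fano` bound the other pairs;
`ce_eq_ex` and `stch_tele` (window `2 L`, error at most `3 dfc`) bound the number of `k'` where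
the relative entropy exceeds `1`. -/
theorem stepQ {ε ν x D : ℝ} {M L L1 k : ℕ} (hs : SatP ε ν M L) (h : SysQ s p n Y A T G a)
    (hν0 : 0 ≤ ν) (hν : ν ≤ 1 / 2 ^ L1) (hm : L1 ≤ 2 * L)
    (hc : ∀ ω ∈ s, (cnt s (qv (k + L1) G) (qv k G) (fun _ => True) ω : ℝ) ≤ (2 : ℝ) ^ x)
    (he : x - D ≤ ce s p (qv (k + L1) G) (pj (qv k G) (pj A T))) (hD : 0 ≤ D) (hε : 0 < ε)
    (d : ℕ → ℝ) (B : Finset ℕ)
    (hB : ∀ k' ∈ B, k' < n ∧ D + 1 ≤ ε * (x + d k' - 2 * L1 - 14) ∧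
      (∀ ω ∈ s, ms s p (fun ω' => qv (k' + L1) a ω' = qv (k' + L1) a ω) ≤
        (2 : ℝ) ^ (-d k') * ms s p (fun ω' => qv k' a ω' = qv k' a ω)) ∧
      ∃ j, j + L + M = k + k' ∧ k + k' + 2 * L ≤ n ∧
        ce s p (qv (j + L) Y) (qv j Y) < (1 - 4 * ε) * L) :
    (B.card : ℝ) ≤ 2 * L * 4 ^ L * (3 * dfc s p Y A T G) := by
  have hP := h.isP
  obtain ⟨sK, pK, hch⟩ := stch_ex hP Y A T (qv k G) (4 ^ L)
  have hζ : Det s (qv k G) G := fun ω _ ω' _ e => by unfold qv; rw [e]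
  set r0 : Fin (4 ^ L) := ⟨0, by positivity⟩ with hr0
  obtain ⟨t1, t2⟩ := stch_tele hP hch r0 rfl (fun i => qv i a) G
    (fun i => det_qv (Nat.le_succ i) a)
    (fun i ω hω ω' hω' e => by unfold qv; rw [h.det ω hω ω' hω' e]) hζ (2 * L) n
  have b1 : ce s p T (pj Y G) ≤ ce s p T (pj Y (qv k G)) :=
    ce_mono hP (fun ω _ ω' _ e => (Prod.ext_iff.1 e).1) fun ω hω ω' hω' e =>
      Prod.ext (Prod.ext_iff.1 e).1 (hζ ω hω ω' hω' (Prod.ext_iff.1 e).2)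
  have b2 := stepQ_info hP hζ (pj T Y) (pj T (pj Y (qv k G))) fun ω _ ω' _ e =>
    Prod.ext (Prod.ext_iff.1 (Prod.ext_iff.1 e).2).1
      (Prod.ext (Prod.ext_iff.1 (Prod.ext_iff.1 e).2).2 (Prod.ext_iff.1 e).1)
  have b3 := stepQ_info hP hζ (pj A T) (stK A T (qv k G)) fun ω _ ω' _ e =>
    Prod.ext (Prod.ext_iff.1 (Prod.ext_iff.1 e).2).1
      (Prod.ext (Prod.ext_iff.1 (Prod.ext_iff.1 e).2).2 (Prod.ext_iff.1 e).1)
  have c1 := dfc_TYG hP Y A T G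
  have c2 := dfc_GTY hP Y A T G
  have c3 := dfc_GAT hP Y A T G
  have hsub : B ⊆ range n := fun i hi => Finset.mem_range.2 (hB i hi).1
  have hlow : ∀ i ∈ B, (1 : ℝ) ≤ ((4 ^ L : ℕ) : ℝ) * ce s p (qv (i + 2 * L) a) (qv i a) -
      ce sK pK (fun x r => qv (i + 2 * L) a (x r).1) (chC r0 Y (qv i a) G) := by
    intro i hi
    obtain ⟨_, h1, h2, j, hj, hn, hlt⟩ := hB i hi
    by_contra hn1
    have := stepQ_one hs h hν0 hν hm hc he hD hε h1 h2 hj hn hch r0 rfl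
      (by push_cast at hn1; linarith)
    linarith
  have s1 : (B.card : ℝ) ≤ ∑ i ∈ B, (((4 ^ L : ℕ) : ℝ) * ce s p (qv (i + 2 * L) a) (qv i a) -
      ce sK pK (fun x r => qv (i + 2 * L) a (x r).1) (chC r0 Y (qv i a) G)) := by
    have := Finset.card_nsmul_le_sum B _ _ hlow
    simpa using this
  have s2 := Finset.sum_le_sum_of_subset_of_nonneg hsub (f := fun i =>
    ((4 ^ L : ℕ) : ℝ) * ce s p (qv (i + 2 * L) a) (qv i a) -
      ce sK pK (fun x r => qv (i + 2 * L) a (x r).1) (chC r0 Y (qv i a) G))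
    fun i _ _ => sub_nonneg.2 (t1 i)
  refine (s1.trans (s2.trans t2)).trans ?_
  push_cast
  rw [mul_assoc (2 * (L : ℝ))]
  gcongr
  linarith

end Vale.Agent.P127S
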