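import Vale.Agent.P127S.Sys

/-! Auxiliary facts for the local estimate of the second kind. -/

open Real Finset Vale.Agent.P118O

noncomputable section

namespace Vale.Agent.P127S

variable {Ω α β γ δ : Type} {s : Finset Ω} {p : Ω → ℝ}

theorem stepQ_ex_le (h : IsP s p) {f g : Ω → ℝ} (hfg : ∀ ω ∈ s, f ω ≤ g ω) :
    ex s p f ≤ ex s p g :=
  Finset.sum_le_sum fun ω hω => mul_le_mul_of_nonneg_left (hfg ω hω) (h.1 ω hω)

theorem stepQ_ex_lin (f g : Ω → ℝ) (a b : ℝ) :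
    ex s p (fun ω => a * f ω + b * g ω) = a * ex s p f + b * ex s p g := by
  unfold ex
  rw [Finset.mul_sum, Finset.mul_sum, ← Finset.sum_add_distrib]
  exact Finset.sum_congr rfl fun ω _ => by ring

theorem stepQ_ex_const (h : IsP s p) (c : ℝ) : ex s p (fun _ => c) = c := by
  unfold ex
  rw [← Finset.sum_mul, h.2, one_mul]

theorem stepQ_ex_congr {f g : Ω → ℝ} (hfg : ∀ ω ∈ s, f ω = g ω) : ex s p f = ex s p g :=
  Finset.sum_congr rfl fun ω hω => by rw [hfg ω hω]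

theorem stepQ_vr_congr {f g : Ω → ℝ} (hfg : ∀ ω ∈ s, f ω = g ω) : vr s p f = vr s p g := by
  unfold vr
  rw [stepQ_ex_congr hfg]
  exact stepQ_ex_congr fun ω hω => by rw [hfg ω hω]

theorem stepQ_vr_mul (f : Ω → ℝ) (c : ℝ) :
    vr s p (fun ω => c * f ω) = c ^ 2 * vr s p f := by
  unfold vr
  have e : ex s p (fun ω => c * f ω) = c * ex s p f := by
    have := stepQ_ex_lin (s := s) (p := p) f f c 0
    simpa using this
  rw [e]
  have := stepQ_ex_lin (s := s) (p := p) (fun ω => (f ω - ex s p f) ^ 2) f (c ^ 2) 0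
  simp only [zero_mul, add_zero] at this
  rw [← this]
  exact stepQ_ex_congr fun ω _ => by ring

theorem stepQ_vr_le (h : IsP s p) {g : Ω → ℝ} {c : ℝ} (hg : ∀ ω ∈ s, |g ω| ≤ c) :
    vr s p g ≤ c ^ 2 := by
  unfold vr
  have e : ex s p (fun ω => (g ω - ex s p g) ^ 2) =
      ex s p (fun ω => 1 * (g ω) ^ 2 + 1 * ((-2 * ex s p g) * g ω + (ex s p g) ^ 2 * 1)) :=
    stepQ_ex_congr fun ω _ => by ring
  rw [e, stepQ_ex_lin, stepQ_ex_lin g (fun _ => (1 : ℝ)), stepQ_ex_const h]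
  have : ex s p (fun ω => (g ω) ^ 2) ≤ c ^ 2 := by
    rw [← stepQ_ex_const h (c ^ 2)]
    refine stepQ_ex_le h fun ω hω => ?_
    have := hg ω hω
    rw [← sq_abs]
    exact pow_le_pow_left₀ (abs_nonneg _) this 2
  nlinarith [sq_nonneg (ex s p g)]

theorem stepQ_vr_add (h : IsP s p) {f g : Ω → ℝ} (hf : 9 ≤ vr s p f)
    (hg : ∀ ω ∈ s, |g ω| ≤ 2) : 1 ≤ vr s p (fun ω => f ω + g ω) := by
  have h1 := stepQ_vr_le h hg
  have e : ex s p (fun ω => f ω + g ω) = ex s p f + ex s p g := by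
    have := stepQ_ex_lin (s := s) (p := p) f g 1 1
    simpa using this
  have h2 : vr s p f ≤ 3 * vr s p (fun ω => f ω + g ω) + 3 / 2 * vr s p g := by
    unfold vr
    rw [← stepQ_ex_lin, e]
    refine stepQ_ex_le h fun ω _ => ?_
    nlinarith [sq_nonneg (f ω + g ω - (ex s p f + ex s p g) + (g ω - ex s p g) / 2)]
  linarith

/-- conditioning on a function of `G` does not increase the information about `G` -/
theorem stepQ_info (h : IsP s p) {G : Ω → α} {ζ : Ω → β} (hζ : Det s ζ G) (W : Ω → γ)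
    (Z : Ω → δ) (hZ : Det s Z (pj ζ W)) :
    ce s p G ζ - ce s p G Z ≤ ce s p G (nil Ω) - ce s p G W := by
  have a1 : ce s p G (pj ζ W) ≤ ce s p G Z :=
    ce_mono h (fun ω _ ω' _ e => (Prod.ext_iff.1 e).1) hZ
  have a2 := ce_chain (s := s) (p := p) ζ G (nil Ω)
  have a3 : ce s p (pj ζ G) (nil Ω) ≤ ce s p G (nil Ω) :=
    ce_mono h (fun ω hω ω' hω' e => Prod.ext (hζ ω hω ω' hω' (Prod.ext_iff.1 e).1)
      (Prod.ext_iff.1 e).1) (fun _ _ _ _ e => e)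
  have a4 : ce s p G ζ ≤ ce s p G (pj ζ (nil Ω)) :=
    ce_mono h (fun ω _ ω' _ e => (Prod.ext_iff.1 e).1) (fun _ _ _ _ e => Prod.ext e rfl)
  have a5 := ce_le_add h G ζ W
  have a6 : ce s p ζ W ≤ ce s p ζ (nil Ω) :=
    ce_mono h (fun ω _ ω' _ e => (Prod.ext_iff.1 e).1) (fun _ _ _ _ _ => rfl)
  linarith

open Classical in
/-- the values of `u` on an atom of `w` -/
def sqA (s : Finset Ω) (u : Ω → α) (w : Ω → β) (v : β) : Finset α :=
  (s.filter (fun ω => w ω = v)).image u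

/-- the conditional law of `u` given `w` -/
def sqQ (s : Finset Ω) (p : Ω → ℝ) (u : Ω → α) (w : Ω → β) (v : β) (z : α) : ℝ :=
  ms s p (fun ω => u ω = z ∧ w ω = v) / ms s p (fun ω => w ω = v)

theorem sqA_mem {u : Ω → α} {w : Ω → β} {v : β} {z : α} :
    z ∈ sqA s u w v ↔ ∃ ω ∈ s, w ω = v ∧ u ω = z := by
  classical
  unfold sqA
  simp only [Finset.mem_image, Finset.mem_filter]
  constructor
  · rintro ⟨ω, ⟨h1, h2⟩, h3⟩
    exact ⟨ω, h1, h2, h3⟩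
  · rintro ⟨ω, h1, h2, h3⟩
    exact ⟨ω, ⟨h1, h2⟩, h3⟩

theorem stepQ_ms_pos (h : IsP s p) (hp : ∀ ω ∈ s, 0 < p ω) {E : Ω → Prop} {ω : Ω} (hω : ω ∈ s)
    (hE : E ω) : 0 < ms s p E := by
  classical
  unfold ms
  exact Finset.sum_pos' (fun x hx => h.1 x (Finset.mem_filter.1 hx).1)
    ⟨ω, Finset.mem_filter.2 ⟨hω, hE⟩, hp ω hω⟩

theorem stepQ_ms (E : Ω → Prop) [DecidablePred E] :
    ms s p E = ∑ x ∈ s, if E x then p x else 0 := by
  unfold ms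
  rw [Finset.sum_filter]
  exact Finset.sum_congr rfl fun x _ => by by_cases hx : E x <;> simp [hx]

theorem sq_ms (u : Ω → α) (w : Ω → β) (v : β) (P : α → Prop) :
    ms (sqA s u w v) (sqQ s p u w v) P =
      ms s p (fun ω => P (u ω) ∧ w ω = v) / ms s p (fun ω => w ω = v) := by
  classical
  rw [stepQ_ms P, stepQ_ms (fun ω => P (u ω) ∧ w ω = v)]
  have e : ∀ z ∈ sqA s u w v, (if P z then sqQ s p u w v z else 0) =
      (∑ x ∈ s, if P z ∧ u x = z ∧ w x = v then p x else 0) / ms s p (fun ω => w ω = v) := by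
    intro z _
    unfold sqQ
    by_cases hz : P z
    · simp only [hz, if_true, true_and]
      rw [stepQ_ms (fun ω => u ω = z ∧ w ω = v)]
    · simp [hz]
  rw [Finset.sum_congr rfl e, ← Finset.sum_div, Finset.sum_comm]
  congr 1
  refine Finset.sum_congr rfl fun x hx => ?_
  by_cases hw : w x = v
  · rw [Finset.sum_eq_single_of_mem (u x) (sqA_mem.2 ⟨x, hx, hw, rfl⟩)]
    · simp
    · intro z _ hz
      rw [if_neg]
      rintro ⟨_, h2, _⟩
      exact hz h2.symm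
  · simp [hw]

theorem sq_pos (h : IsP s p) (hp : ∀ ω ∈ s, 0 < p ω) (u : Ω → α) (w : Ω → β) (v : β) :
    ∀ z ∈ sqA s u w v, 0 < sqQ s p u w v z := by
  intro z hz
  obtain ⟨ω, h1, h2, h3⟩ := sqA_mem.1 hz
  exact div_pos (stepQ_ms_pos h hp h1 ⟨h3, h2⟩) (stepQ_ms_pos h hp h1 h2)

theorem sq_sum (h : IsP s p) (hp : ∀ ω ∈ s, 0 < p ω) (u : Ω → α) (w : Ω → β) {ω : Ω}
    (hω : ω ∈ s) : ∑ z ∈ sqA s u w (w ω), sqQ s p u w (w ω) z = 1 := by
  classical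
  have e := sq_ms (s := s) (p := p) u w (w ω) (fun _ => True)
  have h0 : 0 < ms s p (fun ω' => w ω' = w ω) := stepQ_ms_pos h hp hω rfl
  have e2 : ms s p (fun ω' => True ∧ w ω' = w ω) = ms s p (fun ω' => w ω' = w ω) := by
    congr 1
    funext ω'
    simp
  rw [e2, div_self h0.ne'] at e
  rw [← e, stepQ_ms]
  simp

theorem sq_isP (h : IsP s p) (hp : ∀ ω ∈ s, 0 < p ω) (u : Ω → α) (w : Ω → β) {ω : Ω}
    (hω : ω ∈ s) : IsP (sqA s u w (w ω)) (sqQ s p u w (w ω)) :=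
  ⟨fun z hz => (sq_pos h hp u w _ z hz).le, sq_sum h hp u w hω⟩

/-- position of a finer corner inside a coarser cell -/
def sqY (k' R : ℕ) (v z : Fin 2 → ℤ) : Fin 2 → ℝ :=
  fun i => 2 ^ k' * (cor (k' + R) z i - cor k' v i)

theorem sqY_mem (k' R : ℕ) (t : Fin 2 → ℝ) (i : Fin 2) :
    0 ≤ sqY k' R (qz k' t) (qz (k' + R) t) i ∧ sqY k' R (qz k' t) (qz (k' + R) t) i ≤ 1 := by
  have e := congrFun (qz_dz (Nat.le_add_right k' R) t) i
  have h2 : (0 : ℝ) < 2 ^ k' := by positivity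
  have e1 : sqY k' R (qz k' t) (qz (k' + R) t) i =
      2 ^ k' * dz (k' + R) t i - (⌊(2 : ℝ) ^ k' * dz (k' + R) t i⌋ : ℤ) := by
    have : (⌊(2 : ℝ) ^ k' * dz (k' + R) t i⌋ : ℤ) = qz k' t i := e
    rw [this]
    unfold sqY dz cor
    field_simp
  rw [e1]
  constructor
  · linarith [Int.floor_le ((2 : ℝ) ^ k' * dz (k' + R) t i)]
  · linarith [Int.lt_floor_add_one ((2 : ℝ) ^ k' * dz (k' + R) t i)]

theorem sqY_qz (k' R L1 : ℕ) (hL : L1 ≤ R) (v : Fin 2 → ℤ) (t : Fin 2 → ℝ) :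
    qz L1 (sqY k' R v (qz (k' + R) t)) = fun i => qz (k' + L1) t i - 2 ^ L1 * v i := by
  funext i
  have e := congrFun (qz_dz (Nat.add_le_add_left hL k') t) i
  rw [← e]
  have e1 : (2 : ℝ) ^ L1 * sqY k' R v (qz (k' + R) t) i =
      2 ^ (k' + L1) * dz (k' + R) t i - ((2 ^ L1 * v i : ℤ) : ℝ) := by
    unfold sqY dz cor
    push_cast
    rw [pow_add 2 k' L1]
    field_simp
  unfold qz
  change ⌊(2 : ℝ) ^ L1 * sqY k' R v (qz (k' + R) t) i⌋ = _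
  rw [e1, Int.floor_sub_intCast]

theorem stepQ_dot_le {u v : Fin 2 → ℝ} {a b : ℝ} (hu : ∀ i, |u i| ≤ a) (hv : ∀ i, |v i| ≤ b) :
    |dot2 u v| ≤ 2 * (a * b) := by
  unfold dot2
  have h0 : |u 0 * v 0| ≤ a * b := by
    rw [abs_mul]
    exact mul_le_mul (hu 0) (hv 0) (abs_nonneg _) ((abs_nonneg _).trans (hu 0))
  have h1 : |u 1 * v 1| ≤ a * b := by
    rw [abs_mul]
    exact mul_le_mul (hu 1) (hv 1) (abs_nonneg _) ((abs_nonneg _).trans (hu 1))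
  linarith [abs_add_le (u 0 * v 0) (u 1 * v 1)]

theorem stepQ_cell {k L1 : ℕ} {g g' : Fin 2 → ℝ} (e : qz k g = qz k g') (i : Fin 2) :
    |qz (k + L1) g i - qz (k + L1) g' i| ≤ 2 ^ L1 := by
  have h1 : |g i - g' i| ≤ 1 / 2 ^ k := by
    have := (norm_le_pi_norm (g - g') i).trans (qz_close e)
    simpa using this
  have h2 : (0 : ℝ) < 2 ^ k := by positivity
  have h3 : |(2 : ℝ) ^ (k + L1) * g i - 2 ^ (k + L1) * g' i| ≤ ((2 ^ L1 : ℤ) : ℝ) := by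
    rw [← mul_sub, abs_mul, abs_of_pos (by positivity : (0 : ℝ) < 2 ^ (k + L1))]
    push_cast
    calc (2 : ℝ) ^ (k + L1) * |g i - g' i| ≤ 2 ^ (k + L1) * (1 / 2 ^ k) := by gcongr
      _ = 2 ^ L1 := by rw [pow_add]; field_simp
  rw [abs_le] at h3 ⊢
  unfold qz
  have a1 : ⌊(2 : ℝ) ^ (k + L1) * g i⌋ ≤ ⌊(2 : ℝ) ^ (k + L1) * g' i + ((2 ^ L1 : ℤ) : ℝ)⌋ :=
    Int.floor_mono (by linarith [h3.2])
  have a2 : ⌊(2 : ℝ) ^ (k + L1) * g' i⌋ ≤ ⌊(2 : ℝ) ^ (k + L1) * g i + ((2 ^ L1 : ℤ) : ℝ)⌋ :=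
    Int.floor_mono (by linarith [h3.1])
  rw [Int.floor_add_intCast] at a1 a2
  constructor <;> linarith

/-- a step is spread when the integer difference vector has large variance -/
theorem stepQ_spr {υ : Type} {A : Finset υ} {Q : υ → ℝ} (hQ : IsP A Q) (y : υ → Fin 2 → ℝ)
    (hy : ∀ a ∈ A, ∀ i, 0 ≤ y a i ∧ y a i ≤ 1) (g g' : Fin 2 → ℝ) (k k' L1 : ℕ) {ν : ℝ}
    (hν0 : 0 ≤ ν) (hν : ν ≤ 1 / 2 ^ L1) (ξ : υ → Unit → ℝ)
    (hξ : ∀ a ∈ A, ξ a () = 1 / 2 ^ k' * dot2 (y a) (g - g'))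
    (hv : 9 ≤ vr A Q (fun a => dot2 (y a)
      (fun i => ((qz (k + L1) g i - qz (k + L1) g' i : ℤ) : ℝ)))) :
    Spr A Q ξ (ν / 2 ^ (k + k')) := by
  intro η
  set z : Fin 2 → ℝ := fun i => ((qz (k + L1) g i - qz (k + L1) g' i : ℤ) : ℝ) with hz
  set e : Fin 2 → ℝ := fun i => 2 ^ (k + L1) * (g i - g' i) - z i with he
  have he1 : ∀ i, |e i| ≤ 1 := by
    intro i
    have a1 := Int.floor_le ((2 : ℝ) ^ (k + L1) * g i)
    have a2 := Int.lt_floor_add_one ((2 : ℝ) ^ (k + L1) * g i)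
    have a3 := Int.floor_le ((2 : ℝ) ^ (k + L1) * g' i)
    have a4 := Int.lt_floor_add_one ((2 : ℝ) ^ (k + L1) * g' i)
    simp only [he, hz, qz]
    push_cast
    rw [abs_le]
    constructor <;> linarith
  have h1 : 1 ≤ vr A Q (fun a => dot2 (y a) z + dot2 (y a) e) := by
    refine stepQ_vr_add hQ hv fun a ha => ?_
    have := stepQ_dot_le (u := y a) (v := e) (a := 1) (b := 1)
      (fun i => by rw [abs_le]; constructor <;> linarith [(hy a ha i).1, (hy a ha i).2]) he1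
    linarith
  have h2 : vr A Q (fun a => ∑ i, η i * ξ a i) =
      (η () / 2 ^ (k + k') / 2 ^ L1) ^ 2 * vr A Q (fun a => dot2 (y a) z + dot2 (y a) e) := by
    rw [← stepQ_vr_mul]
    refine stepQ_vr_congr fun a ha => ?_
    rw [Fintype.sum_unique]
    change η () * ξ a () = _
    rw [hξ a ha]
    simp only [dot2, he, Pi.sub_apply, pow_add]
    field_simp
    ring
  rw [h2, Fintype.sum_unique]
  change (ν / 2 ^ (k + k')) ^ 2 * η () ^ 2 ≤ _
  have h3 : (ν / 2 ^ (k + k')) ^ 2 * η () ^ 2 ≤ (η () / 2 ^ (k + k') / 2 ^ L1) ^ 2 := by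
    have : (η () / 2 ^ (k + k') / 2 ^ L1) ^ 2 = (1 / 2 ^ L1 / 2 ^ (k + k')) ^ 2 * η () ^ 2 := by
      field_simp
    rw [this]
    gcongr
  nlinarith [sq_nonneg (η () / 2 ^ (k + k') / 2 ^ L1)]

end Vale.Agent.P127S
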