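import Vale.Agent.P127S.Chain
import Vale.Agent.P127S.Rank

/-! Bilinear systems `A ≈ Y + Λ (T, G)` with nearly independent parts. -/

open Real Finset Vale.Agent.P118O

noncomputable section

namespace Vale.Agent.P127S

variable {Ω α β γ τ ι υ : Type}

/-- the defect of independence `I (G; A, T) + I (Y; T, G)` -/
def dfc (s : Finset Ω) (p : Ω → ℝ) (Y : Ω → β) (A : Ω → α) (T : Ω → τ) (G : Ω → γ) : ℝ :=
  (ce s p G (nil Ω) - ce s p G (pj A T)) + (ce s p Y (nil Ω) - ce s p Y (pj T G))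

/-- the reference law of the top digits `u` of the coefficient vector `a` -/
structure Top (s : Finset Ω) (p : Ω → ℝ) (ϱ τ0 : ℝ) (L2 : ℕ) (Z : Ω → β) (T : Ω → τ)
    (a : Ω → Fin 2 → ℝ) (u : Ω → υ) (y : υ → Fin 2 → ℝ) (Au : Finset υ) (Q : υ → ℝ) : Prop where
  det : Det s u T
  mem : ∀ ω ∈ s, u ω ∈ Au
  pos : ∀ z ∈ Au, 0 < Q z
  one : ∑ z ∈ Au, Q z = 1
  bd : ∀ z ∈ Au, ‖y z‖ ≤ 2
  near : ∀ ω ∈ s, ‖a ω - y (u ω)‖ ≤ 1 / 2 ^ L2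
  spr : Spr Au Q y ϱ
  kl : ex s p (fun ω => -Real.logb 2 (Q (u ω))) - ce s p u Z ≤ τ0

/-- system of the first kind: `Y` planar, `g` scalar -/
structure SysP (s : Finset Ω) (p : Ω → ℝ) (n : ℕ) (Y : Ω → Fin 2 → ℝ) (A : Ω → α) (T : Ω → τ)
    (g : Ω → ℝ) (a : Ω → Fin 2 → ℝ) : Prop where
  isP : IsP s p
  pos : ∀ ω ∈ s, 0 < p ω
  det : Det s a T
  ha : ∀ ω ∈ s, ‖a ω‖ ≤ 1
  hg : ∀ ω ∈ s, |g ω| ≤ 1
  rel : ∀ ω ∈ s, ∀ ω' ∈ s, A ω = A ω' → T ω = T ω' →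
    ‖Y ω' - Y ω - (g ω - g ω') • a ω‖ ≤ 1 / 2 ^ n

/-- system of the second kind: `Y` scalar, `G` planar -/
structure SysQ (s : Finset Ω) (p : Ω → ℝ) (n : ℕ) (Y : Ω → Unit → ℝ) (A : Ω → α) (T : Ω → τ)
    (G : Ω → Fin 2 → ℝ) (a : Ω → Fin 2 → ℝ) : Prop where
  isP : IsP s p
  pos : ∀ ω ∈ s, 0 < p ω
  det : Det s a T
  ha : ∀ ω ∈ s, ‖a ω‖ ≤ 1
  hg : ∀ ω ∈ s, ‖G ω‖ ≤ 1
  rel : ∀ ω ∈ s, ∀ ω' ∈ s, A ω = A ω' → T ω = T ω' →
    |Y ω' () - Y ω () - dot2 (a ω) (G ω - G ω')| ≤ 1 / 2 ^ n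

/-- a real variable as a vector variable -/
def sv1 (g : Ω → ℝ) : Ω → Unit → ℝ := fun ω _ => g ω

variable {s : Finset Ω} {p : Ω → ℝ}

theorem Sys_anti (h : IsP s p) (X : Ω → α) {Y : Ω → β} {Y' : Ω → γ} (h2 : Det s Y Y') :
    ce s p X Y' ≤ ce s p X Y :=
  ce_mono h (fun _ _ _ _ e => (Prod.mk.inj e).1) h2

theorem Sys_eq (h : IsP s p) (X : Ω → α) {Y : Ω → β} {Y' : Ω → γ} (h1 : Det s Y Y')
    (h2 : Det s Y' Y) : ce s p X Y = ce s p X Y' :=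
  le_antisymm (Sys_anti h X h2) (Sys_anti h X h1)

theorem Sys_nil (h : IsP s p) (X : Ω → α) (Y : Ω → β) : ce s p X Y ≤ ce s p X (nil Ω) :=
  Sys_anti h X fun _ _ _ _ _ => rfl

theorem Sys_fst {X : Ω → α} {Y : Ω → β} : Det s X (pj X Y) := fun _ _ _ _ e => (Prod.mk.inj e).1

theorem Sys_snd {X : Ω → α} {Y : Ω → β} : Det s Y (pj X Y) := fun _ _ _ _ e => (Prod.mk.inj e).2

theorem Sys_pj {X : Ω → α} {Y : Ω → β} {Z : Ω → γ} (h1 : Det s X Z) (h2 : Det s Y Z) :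
    Det s (pj X Y) Z := fun a ha b hb e => Prod.ext (h1 a ha b hb e) (h2 a ha b hb e)

theorem Sys_tr {X : Ω → α} {Y : Ω → β} {Z : Ω → γ} (h1 : Det s X Y) (h2 : Det s Y Z) :
    Det s X Z := fun a ha b hb e => h1 a ha b hb (h2 a ha b hb e)

theorem Sys_rfl {X : Ω → α} : Det s X X := fun _ _ _ _ e => e

theorem Sys_triv {X : Ω → α} : Det s (nil Ω) X := fun _ _ _ _ _ => rfl

theorem Sys_swap (h : IsP s p) (X : Ω → α) (Y : Ω → β) (Z : Ω → γ) :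
    ce s p X (pj Y Z) = ce s p X (pj Z Y) :=
  Sys_eq h X (Sys_pj Sys_snd Sys_fst) (Sys_pj Sys_snd Sys_fst)

theorem Sys_ex_add (f g : Ω → ℝ) : ex s p (fun ω => f ω + g ω) = ex s p f + ex s p g := by
  simp only [ex, mul_add, sum_add_distrib]

theorem Sys_ex_sub (f g : Ω → ℝ) : ex s p (fun ω => f ω - g ω) = ex s p f - ex s p g := by
  simp only [ex, mul_sub, sum_sub_distrib]

theorem Sys_ex_const (h : IsP s p) (k : ℝ) : ex s p (fun _ => k) = k := by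
  rw [ex, ← sum_mul, h.2, one_mul]

theorem Sys_det_at {δ : Type} {X : Ω → α} {Y : Ω → β} (h : Det s X Y) (W : Ω → δ) (ω : Ω) :
    Det (atS s W ω) X Y := fun a ha b hb => h a (mem_atS.1 ha).1 b (mem_atS.1 hb).1

theorem Sys_pos_at {δ : Type} (h : IsP s p) (h0 : ∀ ω ∈ s, 0 < p ω) (W : Ω → δ) {ω : Ω}
    (hω : ω ∈ s) : ∀ ω' ∈ atS s W ω, 0 < atP s p W ω ω' := fun ω' hω' => by
  classical
  refine div_pos (h0 ω' (mem_atS.1 hω').1) ((h0 ω hω).trans_le ?_)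
  exact single_le_sum (f := p) (fun x hx => h.1 x (mem_filter.1 hx).1) (mem_filter.2 ⟨hω, rfl⟩)

theorem dfc_nonneg (h : IsP s p) (Y : Ω → β) (A : Ω → α) (T : Ω → τ) (G : Ω → γ) :
    0 ≤ dfc s p Y A T G := by
  exact add_nonneg (sub_nonneg.2 (Sys_nil h _ _)) (sub_nonneg.2 (Sys_nil h _ _))

/-- labels read off from `G` or from `T` do not increase the defect in the mean -/
theorem dfc_at {δ : Type} (h : IsP s p) (Y : Ω → β) (A : Ω → α) (T : Ω → τ) (G : Ω → γ)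
    (W : Ω → δ) (hW : Det s W G ∨ Det s W T) :
    ex s p (fun ω => dfc (atS s W ω) (atP s p W ω) Y A T G) ≤ dfc s p Y A T G := by
  unfold dfc
  rw [Sys_ex_add, Sys_ex_sub, Sys_ex_sub, ce_at h, ce_at h, ce_at h, ce_at h]
  have h1 : ce s p Y (pj (pj T G) W) = ce s p Y (pj T G) :=
    Sys_eq h Y (Sys_pj Sys_rfl (hW.elim (Sys_tr · Sys_snd) (Sys_tr · Sys_fst))) Sys_fst
  have h2 := Sys_nil h Y (pj (nil Ω) W)
  rcases hW with hW | hW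
  · have h3 := ce_cond h G W (nil Ω)
    have h4 := ce_cond h G W (pj A T)
    have h5 : ce s p W (pj G (nil Ω)) = 0 := ce_det h (Sys_tr hW Sys_fst)
    have h6 : ce s p W (pj G (pj A T)) = 0 := ce_det h (Sys_tr hW Sys_fst)
    have h7 := Sys_nil h W (pj A T)
    rw [Sys_swap h G W] at h3 h4
    linarith
  · have h3 : ce s p G (pj (pj A T) W) = ce s p G (pj A T) :=
      Sys_eq h G (Sys_pj Sys_rfl (Sys_tr hW Sys_snd)) Sys_fst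
    have h4 := Sys_nil h G (pj (nil Ω) W)
    linarith

theorem dfc_GAT (h : IsP s p) (Y : Ω → β) (A : Ω → α) (T : Ω → τ) (G : Ω → γ) :
    ce s p G (nil Ω) - ce s p G (pj A T) ≤ dfc s p Y A T G := by
  exact le_add_of_nonneg_right (sub_nonneg.2 (Sys_nil h _ _))

theorem dfc_GTY (h : IsP s p) (Y : Ω → β) (A : Ω → α) (T : Ω → τ) (G : Ω → γ) :
    ce s p G (nil Ω) - ce s p G (pj T Y) ≤ dfc s p Y A T G := by
  have h1 := ce_cond h G Y T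
  have h2 := Sys_nil h Y T
  have h3 : ce s p G (pj A T) ≤ ce s p G T := Sys_anti h G Sys_snd
  rw [Sys_swap h G Y, Sys_swap h Y G] at h1
  unfold dfc
  linarith

theorem dfc_TYG (h : IsP s p) (Y : Ω → β) (A : Ω → α) (T : Ω → τ) (G : Ω → γ) :
    ce s p T (nil Ω) - ce s p T (pj Y G) ≤ dfc s p Y A T G := by
  have h1 := ce_cond h T G (nil Ω)
  have h2 := ce_cond h T Y G
  have h3 := Sys_nil h Y G
  have h4 : ce s p G (pj A T) ≤ ce s p G (pj T (nil Ω)) := Sys_anti h G (Sys_pj Sys_snd Sys_triv)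
  have h5 : ce s p T (pj G (nil Ω)) = ce s p T G := Sys_eq h T (Sys_pj Sys_rfl Sys_triv) Sys_fst
  unfold dfc
  linarith

theorem dfc_YTG (h : IsP s p) (Y : Ω → β) (A : Ω → α) (T : Ω → τ) (G : Ω → γ) :
    ce s p Y (nil Ω) - ce s p Y (pj T G) ≤ dfc s p Y A T G := by
  exact le_add_of_nonneg_left (sub_nonneg.2 (Sys_nil h _ _))

/-- information about a function of `X` is at most the information about `X` -/
theorem info_mono {δ : Type} (h : IsP s p) {X : Ω → α} {V : Ω → β} (W : Ω → γ) (Z : Ω → δ)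
    (hV : Det s V (pj X W)) (hW : Det s W Z) :
    ce s p V W - ce s p V Z ≤ ce s p X W - ce s p X Z := by
  have h1 : ce s p (pj V X) W ≤ ce s p X W := ce_mono h (Sys_pj hV Sys_fst) Sys_rfl
  have h2 := ce_le_add h X V Z
  have h3 : ce s p X (pj V Z) ≤ ce s p X (pj V W) :=
    Sys_anti h X (Sys_pj Sys_fst (Sys_tr hW Sys_snd))
  rw [ce_chain] at h1
  linarith

/-- the relative entropy in `Top` on the atoms of a label read off from `Z` -/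
theorem Top.at {δ : Type} {ϱ τ0 : ℝ} {L2 : ℕ} {Z : Ω → β} {T : Ω → τ} {a : Ω → Fin 2 → ℝ}
    {u : Ω → υ} {y : υ → Fin 2 → ℝ} {Au : Finset υ} {Q : υ → ℝ} (h : IsP s p)
    (ht : Top s p ϱ τ0 L2 Z T a u y Au Q) (W : Ω → δ) (hW : Det s W Z) :
    ∃ φ : Ω → ℝ, (∀ ω ∈ s, 0 < p ω → 0 ≤ φ ω) ∧ ex s p φ ≤ τ0 ∧
      ∀ ω ∈ s, 0 < p ω → Top (atS s W ω) (atP s p W ω) ϱ (φ ω) L2 Z T a u y Au Q := by
  have hm : ∀ ω, ∀ ω' ∈ atS s W ω, u ω' ∈ Au := fun ω ω' hω' => ht.mem ω' (mem_atS.1 hω').1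
  refine ⟨fun ω => ex (atS s W ω) (atP s p W ω) (fun ω => -Real.logb 2 (Q (u ω))) -
    ce (atS s W ω) (atP s p W ω) u Z, fun ω hω hp => sub_nonneg.2
      (ce_le_ref (at_isP h W hω hp) u Z Au Q (hm ω) ht.pos ht.one.le), ?_, fun ω _ _ =>
    ⟨Sys_det_at ht.det W ω, hm ω, ht.pos, ht.one, ht.bd,
      fun ω' hω' => ht.near ω' (mem_atS.1 hω').1, ht.spr, le_rfl⟩⟩
  rw [Sys_ex_sub, ex_at h, ce_at h, Sys_eq h u (Sys_pj Sys_rfl hW) Sys_fst]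
  exact ht.kl

/-- A proxy on the atoms of a label `W`: take `φ ω = n + c + 2 - ce (atom) (qs n z) nil`. -/
theorem Prx.at {δ : Type} {n : ℕ} {c : ℝ} {X : Ω → ι → ℝ} {z : Ω → ℝ} (h : IsP s p) (hc : 0 ≤ c)
    (hz : Prx s p n c X z) (W : Ω → δ) :
    ∃ φ : Ω → ℝ, (∀ ω ∈ s, 0 < p ω → 0 ≤ φ ω) ∧
      ex s p φ ≤ 2 * c + 2 + (ce s p (qs n z) (nil Ω) - ce s p (qs n z) W) ∧
      ∀ ω ∈ s, 0 < p ω → Prx (atS s W ω) (atP s p W ω) n (c + φ ω) X z := by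
  have h0 : ∀ ω ∈ s, 0 < p ω →
      0 ≤ n + c + 2 - ce (atS s W ω) (atP s p W ω) (qs n z) (nil Ω) := fun ω hω hp =>
    sub_nonneg.2 (ce_qs_bd (at_isP h W hω hp) n z _ hc fun ω' hω' => hz.2.1 ω' (mem_atS.1 hω').1)
  refine ⟨fun ω => n + c + 2 - ce (atS s W ω) (atP s p W ω) (qs n z) (nil Ω), h0, ?_,
    fun ω hω hp => ⟨fun i => Sys_det_at (hz.1 i) W ω, fun ω' hω' => ?_, by linarith⟩⟩
  · rw [Sys_ex_sub, Sys_ex_const h, ce_at h, Sys_eq h _ (Sys_pj Sys_triv Sys_rfl) Sys_snd]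
    linarith [hz.2.2]
  · exact (hz.2.1 ω' (mem_atS.1 hω').1).trans
      (rpow_le_rpow_of_exponent_le one_le_two (le_add_of_nonneg_right (h0 ω hω hp)))

theorem Top.mono {ϱ τ0 τ1 : ℝ} {L2 : ℕ} {Z : Ω → β} {T : Ω → τ} {a : Ω → Fin 2 → ℝ}
    {u : Ω → υ} {y : υ → Fin 2 → ℝ} {Au : Finset υ} {Q : υ → ℝ}
    (ht : Top s p ϱ τ0 L2 Z T a u y Au Q) (h : τ0 ≤ τ1) : Top s p ϱ τ1 L2 Z T a u y Au Q := by
  exact { ht with kl := ht.kl.trans h }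

theorem Prx.mono {n : ℕ} {c c' : ℝ} {X : Ω → ι → ℝ} {z : Ω → ℝ}
    (hz : Prx s p n c X z) (h : c ≤ c') : Prx s p n c' X z := by
  exact ⟨hz.1, fun ω hω => (hz.2.1 ω hω).trans (rpow_le_rpow_of_exponent_le one_le_two h),
    by linarith [hz.2.2]⟩

theorem SysP.at {δ : Type} {n : ℕ} {Y : Ω → Fin 2 → ℝ} {A : Ω → α} {T : Ω → τ} {g : Ω → ℝ}
    {a : Ω → Fin 2 → ℝ} (h : SysP s p n Y A T g a) (W : Ω → δ) {ω : Ω} (hω : ω ∈ s)
    (hp : 0 < p ω) : SysP (atS s W ω) (atP s p W ω) n Y A T g a := by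
  exact ⟨at_isP h.isP W hω hp, Sys_pos_at h.isP h.pos W hω, Sys_det_at h.det W ω,
    fun x hx => h.ha x (mem_atS.1 hx).1, fun x hx => h.hg x (mem_atS.1 hx).1,
    fun x hx x' hx' => h.rel x (mem_atS.1 hx).1 x' (mem_atS.1 hx').1⟩

theorem SysQ.at {δ : Type} {n : ℕ} {Y : Ω → Unit → ℝ} {A : Ω → α} {T : Ω → τ}
    {G : Ω → Fin 2 → ℝ} {a : Ω → Fin 2 → ℝ} (h : SysQ s p n Y A T G a) (W : Ω → δ) {ω : Ω}
    (hω : ω ∈ s) (hp : 0 < p ω) : SysQ (atS s W ω) (atP s p W ω) n Y A T G a := by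
  exact ⟨at_isP h.isP W hω hp, Sys_pos_at h.isP h.pos W hω, Sys_det_at h.det W ω,
    fun x hx => h.ha x (mem_atS.1 hx).1, fun x hx => h.hg x (mem_atS.1 hx).1,
    fun x hx x' hx' => h.rel x (mem_atS.1 hx).1 x' (mem_atS.1 hx').1⟩

end Vale.Agent.P127S
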