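import Vale.Agent.P127S.StepP

/-! Top level estimate, first kind. -/

open Real Finset Vale.Agent.P118O

noncomputable section

namespace Vale.Agent.P127S

theorem topP_close {k : ℕ} {x y : ℝ} (e : ⌊(2 : ℝ) ^ k * x⌋ = ⌊(2 : ℝ) ^ k * y⌋) :
    |x - y| ≤ 1 / 2 ^ k := by
  have hp : (0 : ℝ) < 2 ^ k := by positivity
  have a1 := Int.floor_le ((2 : ℝ) ^ k * x)
  have a2 := Int.lt_floor_add_one ((2 : ℝ) ^ k * x)
  have b1 := Int.floor_le ((2 : ℝ) ^ k * y)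
  have b2 := Int.lt_floor_add_one ((2 : ℝ) ^ k * y)
  rw [e] at a1 a2
  rw [le_div_iff₀ hp, ← abs_of_pos hp, ← abs_mul, abs_le]
  constructor <;> nlinarith

theorem topP_round (k : ℕ) (x y : ℝ) :
    |(x - y) - ((⌊(2 : ℝ) ^ k * x⌋ : ℝ) - (⌊(2 : ℝ) ^ k * y⌋ : ℝ)) / 2 ^ k| ≤ 1 / 2 ^ k := by
  have hp : (0 : ℝ) < 2 ^ k := by positivity
  have a1 := Int.floor_le ((2 : ℝ) ^ k * x)
  have a2 := Int.lt_floor_add_one ((2 : ℝ) ^ k * x)
  have b1 := Int.floor_le ((2 : ℝ) ^ k * y)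
  have b2 := Int.lt_floor_add_one ((2 : ℝ) ^ k * y)
  have e : (x - y) - ((⌊(2 : ℝ) ^ k * x⌋ : ℝ) - (⌊(2 : ℝ) ^ k * y⌋ : ℝ)) / 2 ^ k =
      ((2 ^ k * x - ⌊(2 : ℝ) ^ k * x⌋) - (2 ^ k * y - ⌊(2 : ℝ) ^ k * y⌋)) / 2 ^ k := by
    field_simp
    ring
  rw [e, abs_div, abs_of_pos hp]
  refine div_le_div_of_nonneg_right ?_ hp.le
  rw [abs_le]
  constructor <;> linarith

theorem topP_far1 {i d : ℕ} {x y : ℝ} (e : ⌊(2 : ℝ) ^ i * y⌋ + 1 < ⌊(2 : ℝ) ^ i * x⌋) :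
    (2 : ℝ) ^ d ≤ (⌊(2 : ℝ) ^ (i + d) * x⌋ : ℝ) - (⌊(2 : ℝ) ^ (i + d) * y⌋ : ℝ) := by
  have hd : (0 : ℝ) < 2 ^ d := by positivity
  have a1 := Int.floor_le ((2 : ℝ) ^ i * x)
  have b2 := Int.lt_floor_add_one ((2 : ℝ) ^ i * y)
  have e' : ⌊(2 : ℝ) ^ i * y⌋ + 2 ≤ ⌊(2 : ℝ) ^ i * x⌋ := by omega
  have e2 : ((⌊(2 : ℝ) ^ i * y⌋ : ℤ) : ℝ) + 2 ≤ ((⌊(2 : ℝ) ^ i * x⌋ : ℤ) : ℝ) := by
    exact_mod_cast e'
  have h1 : 1 < 2 ^ i * x - 2 ^ i * y := by linarith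
  have h2 : (2 : ℝ) ^ d < 2 ^ (i + d) * x - 2 ^ (i + d) * y := by
    have : (2 : ℝ) ^ (i + d) * x - 2 ^ (i + d) * y = 2 ^ d * (2 ^ i * x - 2 ^ i * y) := by
      rw [pow_add]; ring
    rw [this]
    nlinarith
  have c2 := Int.lt_floor_add_one ((2 : ℝ) ^ (i + d) * x)
  have d1 := Int.floor_le ((2 : ℝ) ^ (i + d) * y)
  have h3 : (((2 : ℤ) ^ d - 1 : ℤ) : ℝ) <
      ((⌊(2 : ℝ) ^ (i + d) * x⌋ - ⌊(2 : ℝ) ^ (i + d) * y⌋ : ℤ) : ℝ) := by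
    push_cast
    linarith
  have h4 : (2 : ℤ) ^ d - 1 < ⌊(2 : ℝ) ^ (i + d) * x⌋ - ⌊(2 : ℝ) ^ (i + d) * y⌋ := by
    exact_mod_cast h3
  have h5 : (2 : ℤ) ^ d ≤ ⌊(2 : ℝ) ^ (i + d) * x⌋ - ⌊(2 : ℝ) ^ (i + d) * y⌋ := by omega
  exact_mod_cast h5

theorem topP_far {i d : ℕ} {x y : ℝ} (e : ¬ |⌊(2 : ℝ) ^ i * y⌋ - ⌊(2 : ℝ) ^ i * x⌋| ≤ 1) :
    1 / (2 : ℝ) ^ i ≤
      |((⌊(2 : ℝ) ^ (i + d) * x⌋ : ℝ) - (⌊(2 : ℝ) ^ (i + d) * y⌋ : ℝ)) / 2 ^ (i + d)| := by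
  have hp : (0 : ℝ) < 2 ^ (i + d) := by positivity
  have hi : (0 : ℝ) < 2 ^ i := by positivity
  have hd : (0 : ℝ) < 2 ^ d := by positivity
  have key : (2 : ℝ) ^ d ≤
      |((⌊(2 : ℝ) ^ (i + d) * x⌋ : ℝ) - (⌊(2 : ℝ) ^ (i + d) * y⌋ : ℝ))| := by
    rw [abs_le, not_and_or] at e
    rcases e with e | e
    · exact (topP_far1 (by omega)).trans (le_abs_self _)
    · rw [abs_sub_comm]
      exact (topP_far1 (by omega)).trans (le_abs_self _)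
  rw [abs_div, abs_of_pos hp, le_div_iff₀ hp]
  have : 1 / (2 : ℝ) ^ i * 2 ^ (i + d) = 2 ^ d := by
    rw [pow_add]; field_simp
  rw [this]
  exact key

theorem topP_vr {υ : Type} (A : Finset υ) (Q : υ → ℝ) (f : υ → ℝ) (d : ℝ) :
    vr A Q (fun a => d * f a) = d ^ 2 * vr A Q f := by
  have e : ex A Q (fun a => d * f a) = d * ex A Q f := by
    unfold ex
    rw [Finset.mul_sum]
    exact Finset.sum_congr rfl fun a _ => by ring
  unfold vr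
  rw [e]
  generalize ex A Q f = c
  unfold ex
  rw [Finset.mul_sum]
  exact Finset.sum_congr rfl fun a _ => by ring

theorem topP_spr {υ ι : Type} [Fintype ι] {A : Finset υ} {Q : υ → ℝ} {y : υ → ι → ℝ}
    {ϱ v d : ℝ} (h : Spr A Q y ϱ) (hv : v ^ 2 ≤ d ^ 2 * ϱ ^ 2) :
    Spr A Q (fun z => d • y z) v := by
  intro η
  have e : (fun a => ∑ i, η i * (d • y a) i) = fun a => d * ∑ i, η i * y a i := by
    funext a
    rw [Finset.mul_sum]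
    exact Finset.sum_congr rfl fun i _ => by
      rw [Pi.smul_apply, smul_eq_mul]; ring
  rw [e, topP_vr]
  have h1 := h η
  have h2 : 0 ≤ ∑ i, η i ^ 2 := Finset.sum_nonneg fun i _ => sq_nonneg _
  calc v ^ 2 * ∑ i, η i ^ 2 ≤ (d ^ 2 * ϱ ^ 2) * ∑ i, η i ^ 2 :=
        mul_le_mul_of_nonneg_right hv h2
    _ = d ^ 2 * (ϱ ^ 2 * ∑ i, η i ^ 2) := by ring
    _ ≤ _ := mul_le_mul_of_nonneg_left h1 (sq_nonneg _)

variable {Ω α τ υ : Type} {s : Finset Ω} {p : Ω → ℝ} {n : ℕ} {Y : Ω → Fin 2 → ℝ} {A : Ω → α}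
  {T : Ω → τ} {g : Ω → ℝ} {a : Ω → Fin 2 → ℝ}

/-- `stch_ex` with `ζ = qs k g`, `k = j + L + M`; `stch_sat` with `w = nil`, `c = qs (k + 2 L) g`,
`m = 0`, `ξ c c' z = ((c - c') / 2 ^ (k + 2 L)) • y z`; `stch_ent` gives the relative entropy. -/
theorem topP {ε ν ϱ τ0 : ℝ} {M L L2 m j : ℕ} (hs : SatP ε ν M L) (h : SysP s p n Y A T g a)
    {u : Ω → υ} {y : υ → Fin 2 → ℝ} {Au : Finset υ} {Q : υ → ℝ}
    (ht : Top s p ϱ τ0 L2 (pj Y g) T a u y Au Q) (hν0 : 0 ≤ ν) (hν : ν ≤ ϱ / 2 ^ m)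
    (hm : m ≤ 2 * L) (hL2 : 2 * L ≤ L2) (hn : j + L + M + 2 * L ≤ n)
    (hε : inaP s p A T g (j + L + M) m ≤ ε) (hτ : τ0 ≤ 1 / (3 * 4 ^ L))
    (h1 : ce s p (qs (j + L + M + 2 * L) g) (qs (j + L + M) g) -
      ce s p (qs (j + L + M + 2 * L) g) (pj (qs (j + L + M) g) (pj T Y)) ≤ 1 / (3 * 4 ^ L))
    (h2 : ce s p (qs (j + L + M + 2 * L) g) (qs (j + L + M) g) -
      ce s p (qs (j + L + M + 2 * L) g) (pj (qs (j + L + M) g) (pj A T)) ≤ 1 / (3 * 4 ^ L)) :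
    2 * (1 - 4 * ε) * L ≤ ce s p (qv (j + L) Y) (qv j Y) := by
  obtain ⟨k, hk⟩ : ∃ k, k = j + L + M := ⟨_, rfl⟩
  rw [← hk] at hn hε h1 h2
  obtain ⟨sK, pK, hc⟩ := stch_ex h.isP Y A T (qs k g) (4 ^ L)
  have hK : 0 < 4 ^ L := by positivity
  have h2k : (0 : ℝ) < 2 ^ k := by positivity
  have h4L : (0 : ℝ) < 4 ^ L := by positivity
  have e4 : (2 : ℝ) ^ (2 * L) = 4 ^ L := by rw [pow_mul]; norm_num
  have ek : (2 : ℝ) ^ (k + 2 * L) = 2 ^ k * 4 ^ L := by rw [pow_add, e4]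
  have hone : (1 : ℝ) ≤ 4 ^ L := one_le_pow₀ (by norm_num)
  have hsmall : 1 / (2 : ℝ) ^ (k + 2 * L) ≤ 1 / 2 ^ k := by
    rw [ek]
    refine one_div_le_one_div_of_le h2k ?_
    nlinarith
  have hcl : ∀ ω ω', stK A T (qs k g) ω = stK A T (qs k g) ω' →
      A ω = A ω' ∧ T ω = T ω' ∧ |g ω - g ω'| ≤ 1 / 2 ^ k := by
    intro ω ω' e
    unfold stK at e
    simp only [Prod.mk.injEq] at e
    exact ⟨e.1, e.2.1, topP_close e.2.2⟩
  have main := stch_sat (ι := Fin 2) hs (by simp) h.isP hc ⟨0, hK⟩ rfl u (nil Ω)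
    (qs (k + 2 * L) g) (fun _ => Au) (fun _ => Q) (fun _ _ _ => 0)
    (fun _ c c' z => (((c : ℝ) - (c' : ℝ)) / 2 ^ (k + 2 * L)) • y z) j ht.mem
    (fun _ _ => ⟨ht.pos, ht.one⟩) ?_ ?_ ?_ ?_
  · simpa using main
  · intro ω _ ω' _ e z hz
    rw [← hk, norm_smul, Real.norm_eq_abs]
    have b1 := (hcl ω ω' e).2.2
    have b2 := topP_round (k + 2 * L) (g ω) (g ω')
    have b3 := ht.bd z hz
    have b4 : |((qs (k + 2 * L) g ω : ℝ) - (qs (k + 2 * L) g ω' : ℝ)) / 2 ^ (k + 2 * L)| ≤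
        2 / 2 ^ k := by
      unfold qs
      have t2 : (2 : ℝ) / 2 ^ k = 1 / 2 ^ k + 1 / 2 ^ k := by ring
      rw [abs_le] at b1 b2 ⊢
      constructor <;> linarith [b1.1, b1.2, b2.1, b2.2]
    calc _ ≤ (2 / 2 ^ k) * 2 := mul_le_mul b4 b3 (norm_nonneg _) (by positivity)
      _ = 4 / 2 ^ k := by ring
  · intro ω hω ω' hω' e
    rw [← hk]
    obtain ⟨eA, eT, b1⟩ := hcl ω ω' e
    have b0 := h.rel ω hω ω' hω' eA eT
    have b2 := topP_round (k + 2 * L) (g ω) (g ω')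
    have b3 := ht.bd _ (ht.mem ω hω)
    have b4 := ht.near ω hω
    have b5 : 1 / (2 : ℝ) ^ n ≤ 1 / 2 ^ (k + 2 * L) :=
      one_div_le_one_div_of_le (by positivity) (pow_le_pow_right₀ (by norm_num) hn)
    have b6 : 1 / (2 : ℝ) ^ L2 ≤ 1 / 4 ^ L := by
      rw [← e4]
      exact one_div_le_one_div_of_le (by positivity) (pow_le_pow_right₀ (by norm_num) hL2)
    obtain ⟨d, hd⟩ : ∃ d : ℝ, d = ((qs (k + 2 * L) g ω : ℝ) - (qs (k + 2 * L) g ω' : ℝ)) /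
        2 ^ (k + 2 * L) := ⟨_, rfl⟩
    have b2' : |(g ω - g ω') - d| ≤ 1 / 2 ^ (k + 2 * L) := by
      rw [hd]; exact b2
    show ‖Y ω' - Y ω - 0 - (((qs (k + 2 * L) g ω : ℝ) - (qs (k + 2 * L) g ω' : ℝ)) /
        2 ^ (k + 2 * L)) • y (u ω)‖ ≤ _
    rw [← hd]
    have dec : Y ω' - Y ω - 0 - d • y (u ω) = (Y ω' - Y ω - (g ω - g ω') • a ω) +
        ((g ω - g ω') • (a ω - y (u ω)) + ((g ω - g ω') - d) • y (u ω)) := by
      rw [smul_sub, sub_smul (g ω - g ω') d]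
      abel
    rw [dec]
    have n1 : ‖(g ω - g ω') • (a ω - y (u ω))‖ ≤ (1 / 2 ^ k) * (1 / 4 ^ L) := by
      rw [norm_smul, Real.norm_eq_abs]
      exact mul_le_mul b1 (b4.trans b6) (norm_nonneg _) (by positivity)
    have n2 : ‖((g ω - g ω') - d) • y (u ω)‖ ≤ (1 / 2 ^ (k + 2 * L)) * 2 := by
      rw [norm_smul, Real.norm_eq_abs]
      exact mul_le_mul b2' b3 (norm_nonneg _) (by positivity)
    have n3 := norm_add_le ((g ω - g ω') • (a ω - y (u ω))) (((g ω - g ω') - d) • y (u ω))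
    have n4 := norm_add_le (Y ω' - Y ω - (g ω - g ω') • a ω)
      ((g ω - g ω') • (a ω - y (u ω)) + ((g ω - g ω') - d) • y (u ω))
    have t1 : (1 : ℝ) / 2 ^ k * (1 / 4 ^ L) = 1 / 2 ^ (k + 2 * L) := by
      rw [ek]; field_simp
    have t2 : (8 : ℝ) / 2 ^ k / 4 ^ L = 8 * (1 / 2 ^ (k + 2 * L)) := by
      rw [ek]; field_simp
    have t3 : (0 : ℝ) < 1 / 2 ^ (k + 2 * L) := by positivity
    rw [t2]
    rw [t1] at n1
    linarith
  · rw [← hk]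
    refine le_trans (ms_imp (glue_prob h.isP _) ?_) hε
    intro x _ hx
    by_contra hfar
    apply hx
    refine topP_spr ht.spr ?_
    obtain ⟨d, hd⟩ := Nat.exists_eq_add_of_le hm
    have f1 := topP_far (i := k + m) (d := d) (x := g x.1) (y := g x.2) hfar
    have ed : k + m + d = k + 2 * L := by omega
    rw [ed] at f1
    have h2m : (0 : ℝ) < 2 ^ m := by positivity
    have hϱ : 0 ≤ ϱ := by
      have := hν0.trans hν
      rcases (div_nonneg_iff.1 this) with h' | h'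
      · exact h'.1
      · linarith [h'.2]
    have f2 : ν / 2 ^ k ≤ (1 / 2 ^ (k + m)) * ϱ := by
      have : (1 / (2 : ℝ) ^ (k + m)) * ϱ = (ϱ / 2 ^ m) / 2 ^ k := by
        rw [pow_add]; field_simp
      rw [this]
      exact div_le_div_of_nonneg_right hν h2k.le
    have f3 := f2.trans (mul_le_mul_of_nonneg_right f1 hϱ)
    have f4 := pow_le_pow_left₀ (by positivity) f3 2
    rw [mul_pow, sq_abs] at f4
    exact f4
  · have s1 := stch_ent h.isP hc ⟨0, hK⟩ rfl u (qs (k + 2 * L) g) ht.det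
      (det_qs (by omega) g)
    have s2 := ht.kl
    have s3 : ce s p u (pj Y g) ≤ ce s p u (pj Y (qs k g)) := by
      refine ce_mono h.isP ?_ ?_
      · intro ω _ ω' _ e
        exact congrArg Prod.fst e
      · intro ω _ ω' _ e
        unfold pj at e ⊢
        simp only [Prod.mk.injEq] at e ⊢
        refine ⟨e.1, ?_⟩
        unfold qs
        rw [e.2]
    have s4 : ce s p (qs (k + 2 * L) g) (pj (qs k g) (pj T Y)) ≤
        ce s p (qs (k + 2 * L) g) (pj T (pj Y (qs k g))) := by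
      refine ce_mono h.isP ?_ ?_
      · intro ω _ ω' _ e
        exact congrArg Prod.fst e
      · intro ω _ ω' _ e
        unfold pj at e ⊢
        simp only [Prod.mk.injEq] at e ⊢
        exact ⟨e.2.1, e.2.2, e.1⟩
    have s5 : ce s p (qs (k + 2 * L) g) (pj (qs k g) (pj A T)) ≤
        ce s p (qs (k + 2 * L) g) (stK A T (qs k g)) := by
      refine ce_mono h.isP ?_ ?_
      · intro ω _ ω' _ e
        exact congrArg Prod.fst e
      · intro ω _ ω' _ e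
        unfold pj at e
        unfold stK
        simp only [Prod.mk.injEq] at e ⊢
        exact ⟨e.2.1, e.2.2, e.1⟩
    push_cast at s1
    have s6 : ex s p (fun ω => -Real.logb 2 (Q (u ω))) -
        (ce s p u (pj Y (qs k g)) + ce s p (qs (k + 2 * L) g) (pj T (pj Y (qs k g))) +
          ce s p (qs (k + 2 * L) g) (stK A T (qs k g)) -
          2 * ce s p (qs (k + 2 * L) g) (qs k g)) ≤ 3 * (1 / (3 * 4 ^ L)) := by
      linarith
    have s7 := mul_le_mul_of_nonneg_left s6 h4L.le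
    have s8 : (4 : ℝ) ^ L * (3 * (1 / (3 * 4 ^ L))) = 1 := by field_simp
    rw [s8, mul_sub] at s7
    show (4 : ℝ) ^ L * ex s p (fun ω => -Real.logb 2 (Q (u ω))) - _ ≤ 1
    linarith

end Vale.Agent.P127S
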